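/-
R288/Iface: the interface between the word-RAM layer and the algorithm.  Author: helper33.
-/
import Crest.Agent.R326.Lin
import Crest.Prelude.Def_WordRAMProb
import Crest.Prelude.Def_GraphRAM
import Crest.Prelude.Def_RatWords

set_option autoImplicit false

namespace Crest.Agent.R288

open Crest.Agent.Lib.PolyTime Crest.Agent.R326

/-- The slowly growing accuracy exponent `log log log log N`. -/
def gN (N : ℕ) : ℕ := Nat.log 2 (Nat.log 2 (Nat.log 2 (Nat.log 2 N)))

/-- The number of random bits handed to the fast algorithm: `2 ^ (L + 2 + L / g)`, `L = log₂ N`. -/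
def UN (N : ℕ) : ℕ := 2 ^ (Nat.log 2 N + 2 + Nat.log 2 N / gN N)

/-- Probability of an event over `U` independent fair bits. -/
noncomputable def prBits (U : ℕ) (E : List Bool → Prop) : ℝ :=
  Crest.FinProb.uniformProb {v : Fin U → Bool | E (List.ofFn v)}

/-- Inputs of the fast algorithm: two strings and a list of exactly `UN N` bits. -/
abbrev FIn : Type :=
  {p : List ℕ × List ℕ × List Bool // p.2.2.length = UN (p.1.length + p.2.1.length)}

/-- The largest binary length of a symbol of the two strings. -/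
def symBits (x y : List ℕ) : ℕ := ((x ++ y).map Nat.size).foldr max 0

/-- `Tm N ≤ N ^ (1 + δ)` for every `δ > 0` and all large `N`. -/
def AlmostLin (Tm : ℕ → ℝ) : Prop :=
  ∀ δ : ℝ, 0 < δ → ∃ N₀ : ℕ, ∀ N : ℕ, N₀ ≤ N → Tm N ≤ (N : ℝ) ^ (1 + δ)

/-- What the algorithmic layers deliver. -/
structure FastOK (F : List ℕ → List ℕ → List Bool → ℕ) : Prop where
  /-- almost linear time on the recursive stack machine -/
  time : ∃ (Tm : ℕ → ℝ) (c : ℕ), AlmostLin Tm ∧
    Alg (fun p : FIn => p.1) (fun p : FIn => F p.1.1 p.1.2.1 p.1.2.2)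
      (fun p : FIn => Tm (p.1.1.length + p.1.2.1.length) * ((symBits p.1.1 p.1.2.1 : ℝ) + 1) ^ c)
  /-- the answer fits in a word -/
  le : ∀ x y r, F x y r ≤ x.length + y.length
  /-- equal strings -/
  zero : ∀ x r, F x x r = 0
  /-- correctness for long inputs -/
  prob : ∃ N₀ : ℕ, ∀ x y : List ℕ, N₀ ≤ x.length + y.length →
    2 / 3 ≤ prBits (UN (x.length + y.length)) fun r =>
      Crest.GraphRAM.editDist x y ≤ F x y r ∧
        (F x y r : ℝ) ≤ (1 + (1 / 2 : ℝ) ^ gN (x.length + y.length)) * Crest.GraphRAM.editDist x y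

end Crest.Agent.R288
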