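/-
R288/Eng: the generic table engine of row 288 (semantics only).  Author: helper33.

A *descriptor* `D` names a family of tables, one for every node `j` of height `hgt D` of the binary
tree over the rows.  A table is a function on *states* `z = (entry column, exit column)`.  It is
computed by a local `rule` from the tables listed in the `plan` of `D`.
-/
import Crest.Agent.R288.Iface

set_option autoImplicit false

namespace Crest.Agent.R288

open Crest.Agent.Lib.PolyTime Crest.Agent.R326

/-- States: entry column and exit column. -/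
abbrev St : Type := ℕ × ℕ

/-- A request `(D', e, n, rnd, fresh)`: the table of descriptor `D'` at a descendant `e` levels
below; its index among the `2 ^ e` descendants is `n`, or random if `rnd` (then `n` only numbers
the copy); its random bits are fresh (a part of the bits of the caller) or the tape of `D'`. -/
abbrev Key (De : Type) : Type := De × ℕ × ℕ × Bool × Bool

/-- Shift of a bit stream. -/
def shift (o : ℕ) (ρ : ℕ → Bool) : ℕ → Bool := fun i => ρ (o + i)

/-- The number written by the first `e` bits of a stream. -/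
def bitsVal (e : ℕ) (ρ : ℕ → Bool) : ℕ := ofBits ((List.range e).map ρ)

/-- Round both columns down to multiples of `2 ^ γ`. -/
def rdn (γ : ℕ) (z : St) : St := (z.1 / 2 ^ γ * 2 ^ γ, z.2 / 2 ^ γ * 2 ^ γ)

/-- Mismatch bit of row `i` at column `a` (diagonal offset `a - X / 2`): padded rows never
mismatch, positions outside `y` always do. -/
def mis (x y : List ℕ) (X i a : ℕ) : Bool :=
  match x[i]? with
  | none => false
  | some s => if X / 2 ≤ i + a then y[i + a - X / 2]? != some s else true

/-- The data of an engine. -/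
structure Eng (Pa De : Type) where
  /-- the largest column; also the default value of all tables -/
  X : Pa → ℕ
  /-- height of the nodes -/
  hgt : De → ℕ
  /-- states lie on the grid `2 ^ gam` -/
  gam : Pa → De → ℕ
  /-- the rule sees the entry columns within distance `2 ^ om` -/
  om : Pa → De → ℕ
  /-- largest distance of the two columns of a state -/
  wid : Pa → De → ℕ
  /-- number of the tape -/
  tp : Pa → De → ℕ
  /-- potential: number of random bits, and time per column -/
  pot : Pa → De → ℕ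
  /-- the requests -/
  plan : Pa → De → List (Key De)
  /-- the local rule: gets the indices of the requested descendants, their tables, and the
  mismatch bits of the row (height `0` only) -/
  rule : Pa → De → (Key De → ℕ) → (Key De → St → ℚ) → (ℕ → Bool) → St → ℚ

namespace Eng

variable {Pa De : Type} [DecidableEq De] (E : Eng Pa De)

/-- The states of the tables of `D`. -/
def inW (P : Pa) (D : De) (z : St) : Prop :=
  z.1 ≤ E.X P ∧ z.2 ≤ E.X P ∧ 2 ^ E.gam P D ∣ z.1 ∧ 2 ^ E.gam P D ∣ z.2 ∧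
    Nat.dist z.1 z.2 ≤ E.wid P D

instance (P : Pa) (D : De) (z : St) : Decidable (E.inW P D z) := by
  unfold inW; infer_instance

/-- Number of bits reserved for a request. -/
def seg (P : Pa) (κ : Key De) : ℕ := κ.2.1 + E.pot P κ.1

/-- Position of the bits reserved for a request. -/
def off (P : Pa) (D : De) (κ : Key De) : ℕ :=
  (((E.plan P D).takeWhile (· ≠ κ)).map (E.seg P)).sum

/-- Index of the requested descendant (no random bits are read for keys outside the plan). -/
def idx (P : Pa) (D : De) (ρ : ℕ → Bool) (κ : Key De) : ℕ :=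
  if κ.2.2.2.1 = true ∧ κ ∈ E.plan P D then bitsVal κ.2.1 (shift (E.off P D κ) ρ) else κ.2.2.1

theorem idx_of_mem {P : Pa} {D : De} (ρ : ℕ → Bool) {κ : Key De} (h : κ ∈ E.plan P D) :
    E.idx P D ρ κ =
      if κ.2.2.2.1 then bitsVal κ.2.1 (shift (E.off P D κ) ρ) else κ.2.2.1 := by
  simp [idx, h]

theorem idx_of_not_mem {P : Pa} {D : De} (ρ : ℕ → Bool) {κ : Key De} (h : κ ∉ E.plan P D) :
    E.idx P D ρ κ = κ.2.2.1 := by
  simp [idx, h]

/-- The bits handed to a request. -/
def bits (P : Pa) (tapes : ℕ → ℕ → Bool) (D : De) (ρ : ℕ → Bool) (κ : Key De) : ℕ → Bool :=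
  if κ.2.2.2.2 then shift (E.off P D κ + κ.2.1) ρ else tapes (E.tp P κ.1)

/-- The table of descriptor `D` at node `j` with random bits `ρ`. -/
def ev (P : Pa) (ms : ℕ → ℕ → Bool) (tapes : ℕ → ℕ → Bool) (D : De) (j : ℕ) (ρ : ℕ → Bool)
    (z : St) : ℚ :=
  if E.inW P D z then
    E.rule P D (E.idx P D ρ)
      (fun κ z' =>
        if _h : E.pot P κ.1 < E.pot P D ∧ κ ∈ E.plan P D ∧ z'.1 ≤ E.X P ∧
            Nat.dist z'.1 z.1 ≤ 2 ^ E.om P D then
          ev P ms tapes κ.1 (j * 2 ^ κ.2.1 + E.idx P D ρ κ) (E.bits P tapes D ρ κ)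
            (rdn (E.gam P κ.1) z')
        else E.X P)
      (fun b => decide (E.hgt D = 0 ∧ b ≤ E.X P ∧ Nat.dist b z.1 ≤ 2 ^ E.om P D) && ms j b) z
  else E.X P
termination_by E.pot P D
decreasing_by exact _h.1

/-- The table of `D` at node `j` on its own tape. -/
def tab (P : Pa) (ms : ℕ → ℕ → Bool) (tapes : ℕ → ℕ → Bool) (D : De) (j : ℕ) (z : St) : ℚ :=
  E.ev P ms tapes D j (tapes (E.tp P D)) z

/-- The combinatorial side conditions on the good descriptors. -/
structure Wf (Good : Pa → De → Prop) : Prop where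
  sub : ∀ P D κ, Good P D → κ ∈ E.plan P D → Good P κ.1
  nodup : ∀ P D, Good P D → (E.plan P D).Nodup
  hgt_eq : ∀ P D κ, Good P D → κ ∈ E.plan P D → E.hgt κ.1 + κ.2.1 = E.hgt D
  idx_lt : ∀ P D κ, Good P D → κ ∈ E.plan P D → κ.2.2.2.1 = false → κ.2.2.1 < 2 ^ κ.2.1
  tp_fresh : ∀ P D κ, Good P D → κ ∈ E.plan P D → κ.2.2.2.2 = true → E.tp P κ.1 ≤ E.tp P D
  tp_tab : ∀ P D κ, Good P D → κ ∈ E.plan P D → κ.2.2.2.2 = false → E.tp P κ.1 < E.tp P D
  pot_pos : ∀ P D, Good P D → 1 ≤ E.pot P D
  e_le : ∀ P D κ, Good P D → κ ∈ E.plan P D → κ.2.1 ≤ E.pot P κ.1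
  pot_sum : ∀ P D, Good P D → 2 * ((E.plan P D).map fun κ => E.pot P κ.1).sum ≤ E.pot P D

/-- The size and polynomial-time side conditions; `Q P` bounds everything local. -/
structure Sm [Enc Pa] [Enc De] (Good : Pa → De → Prop) (Q : Pa → ℕ) : Prop where
  esP : ∀ P D, Good P D → esize P ≤ Q P
  esD : ∀ P D, Good P D → esize D ≤ Q P
  tp_le : ∀ P D, Good P D → E.tp P D ≤ Q P
  hgt_le : ∀ P D, Good P D → E.hgt D ≤ Q P
  om_le : ∀ P D, Good P D → E.om P D ≤ Q P
  len_le : ∀ P D, Good P D → 2 ^ E.hgt D ≤ (E.X P + 1) * E.pot P D * Q P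
  gam_le : ∀ P D, Good P D → E.gam P D ≤ E.om P D
  cols : ∀ P D, Good P D → 2 ^ (E.om P D - E.gam P D) ≤ Q P
  wids : ∀ P D, Good P D → E.wid P D / 2 ^ E.gam P D ≤ Q P
  leaf : ∀ P D, Good P D → E.hgt D = 0 → 2 ^ E.om P D ≤ Q P
  regrid : ∀ P D κ, Good P D → κ ∈ E.plan P D → 2 ^ (E.om P D - E.om P κ.1) ≤ Q P
  out : ∀ P D I G m z, Good P D → esize (E.rule P D I G m z) ≤ Q P
  ptX : PT fun a : {a : Pa × De // Good a.1 a.2} => E.X a.1.1
  ptHgt : PT fun a : {a : Pa × De // Good a.1 a.2} => E.hgt a.1.2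
  ptGam : PT fun a : {a : Pa × De // Good a.1 a.2} => E.gam a.1.1 a.1.2
  ptOm : PT fun a : {a : Pa × De // Good a.1 a.2} => E.om a.1.1 a.1.2
  ptWid : PT fun a : {a : Pa × De // Good a.1 a.2} => E.wid a.1.1 a.1.2
  ptTp : PT fun a : {a : Pa × De // Good a.1 a.2} => E.tp a.1.1 a.1.2
  ptPot : PT fun a : {a : Pa × De // Good a.1 a.2} => E.pot a.1.1 a.1.2
  ptPlan : PT fun a : {a : Pa × De // Good a.1 a.2} => E.plan a.1.1 a.1.2
  ptRule : ∀ (α : Type) [Enc α] (P : α → Pa) (D : α → De) (I : α → Key De → ℕ)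
    (G : α → Key De → St → ℚ) (m : α → ℕ → Bool) (z : α → St), (∀ a, Good (P a) (D a)) →
    PT P → PT D → PT (fun p : α × Key De => I p.1 p.2) →
    PT (fun p : α × Key De × St => G p.1 p.2.1 p.2.2) → PT (fun p : α × ℕ => m p.1 p.2) → PT z →
    PT fun a => E.rule (P a) (D a) (I a) (G a) (m a) (z a)

end Eng

/-- A quasi-polynomial: dominates every polynomial up to a constant factor. -/
def qp (Q : ℕ) : ℕ := 2 ^ (Q.size ^ 2)

/-- The tapes cut out of one stream. -/
def tapesOf (len : ℕ) (ρ : ℕ → Bool) : ℕ → ℕ → Bool := fun i => shift (i * len) ρ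

/-- A root call of an engine. -/
structure EIn {Pa De : Type} (E : Eng Pa De) (Good : Pa → De → Prop) where
  /-- parameters -/
  P : Pa
  /-- root descriptor -/
  D : De
  /-- it is good -/
  good : Good P D
  /-- first string -/
  x : List ℕ
  /-- second string -/
  y : List ℕ
  /-- all random bits -/
  ρ : ℕ → Bool
  /-- the state asked for -/
  z : St
  /-- it is a pair of columns -/
  hz : z.1 ≤ E.X P ∧ z.2 ≤ E.X P

end Crest.Agent.R288
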