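/-
R288/Prob: expectations over finitely many fair bits of a stream.
-/
import Crest.Agent.R288.Eng

set_option autoImplicit false

namespace Crest.Agent.R288

open Finset

/-- Extend finitely many bits by `false`. -/
def ext {n : ℕ} (v : Fin n → Bool) : ℕ → Bool := fun i => if h : i < n then v ⟨i, h⟩ else false

/-- Expectation over the first `n` bits. -/
noncomputable def Ex (n : ℕ) (f : (ℕ → Bool) → ℝ) : ℝ := (∑ v : Fin n → Bool, f (ext v)) / 2 ^ n

open Classical in
/-- Probability over the first `n` bits. -/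
noncomputable def Pr (n : ℕ) (E : (ℕ → Bool) → Prop) : ℝ := Ex n fun ρ => if E ρ then 1 else 0

/-- `f` only depends on the bits at the positions in `S`. -/
def Dep {α : Type} (f : (ℕ → Bool) → α) (S : Set ℕ) : Prop :=
  ∀ ρ ρ' : ℕ → Bool, (∀ i ∈ S, ρ i = ρ' i) → f ρ = f ρ'

section dep
variable {α β : Type} {f : (ℕ → Bool) → α} {g : (ℕ → Bool) → β} {S S' : Set ℕ}

theorem Dep.mono (h : Dep f S) (hS : S ⊆ S') : Dep f S' := fun ρ ρ' e => h ρ ρ' fun i hi => e i (hS hi)
theorem Dep.comp (h : Dep f S) (φ : α → β) : Dep (fun ρ => φ (f ρ)) S :=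
  fun ρ ρ' e => congrArg φ (h ρ ρ' e)
theorem Dep.pair (h : Dep f S) (h' : Dep g S) : Dep (fun ρ => (f ρ, g ρ)) S :=
  fun ρ ρ' e => Prod.ext (h ρ ρ' e) (h' ρ ρ' e)
theorem Dep.const (a : α) (S : Set ℕ) : Dep (fun _ => a) S := fun _ _ _ => rfl
theorem Dep.shift {l : ℕ} (h : Dep f (Set.Iio l)) (o : ℕ) :
    Dep (fun ρ => f (R288.shift o ρ)) (Set.Ico o (o + l)) := by
  intro ρ ρ' e
  refine h _ _ fun i hi => e (o + i) ⟨Nat.le_add_right _ _, ?_⟩
  have : i < l := hi
  omega
theorem dep_bitsVal (e : ℕ) : Dep (bitsVal e) (Set.Iio e) := by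
  intro ρ ρ' h
  unfold bitsVal
  congr 1
  exact List.map_congr_left fun i hi => h i (List.mem_range.1 hi)
end dep

/-- Put one bit in front of a stream. -/
def consB (b : Bool) (ρ : ℕ → Bool) : ℕ → Bool
  | 0 => b
  | i + 1 => ρ i

theorem bitsVal_succ (e : ℕ) (ρ : ℕ → Bool) :
    bitsVal (e + 1) ρ = Nat.bit (ρ 0) (bitsVal e fun i => ρ (i + 1)) := by
  unfold bitsVal
  rw [List.range_succ_eq_map, List.map_cons, List.map_map, Crest.Agent.Lib.PolyTime.ofBits_cons]
  rfl

theorem bitsVal_lt (e : ℕ) (ρ : ℕ → Bool) : bitsVal e ρ < 2 ^ e := by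
  induction e generalizing ρ with
  | zero => simp [bitsVal]
  | succ e ih =>
    rw [bitsVal_succ, Nat.bit_val, pow_succ]
    have h1 := ih fun i => ρ (i + 1)
    have h2 : (ρ 0).toNat ≤ 1 := Bool.toNat_le _
    omega

theorem ext_cons {n : ℕ} (b : Bool) (v : Fin n → Bool) :
    ext (Fin.cons b v : Fin (n + 1) → Bool) = consB b (ext v) := by
  funext i
  cases i with
  | zero => simp [ext, consB]
  | succ i =>
    by_cases h : i < n
    · have h' : i + 1 < n + 1 := by omega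
      simp only [ext, consB, dif_pos h, dif_pos h']
      exact Fin.cons_succ (α := fun _ => Bool) b v ⟨i, h⟩
    · have h' : ¬ i + 1 < n + 1 := by omega
      simp only [ext, consB, dif_neg h, dif_neg h']

theorem Ex_succ (n : ℕ) (f : (ℕ → Bool) → ℝ) :
    Ex (n + 1) f = (Ex n (fun ρ => f (consB false ρ)) + Ex n (fun ρ => f (consB true ρ))) / 2 := by
  unfold Ex
  rw [← (Fin.consEquiv fun _ : Fin (n + 1) => Bool).sum_comp, Fintype.sum_prod_type,
    Fintype.sum_bool]
  have h : ∀ (b : Bool) (v : Fin n → Bool),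
      ext ((Fin.consEquiv fun _ : Fin (n + 1) => Bool) (b, v)) = consB b (ext v) :=
    fun b v => ext_cons b v
  simp only [h]
  rw [pow_succ]
  field_simp
  ring

theorem Dep.consB {α : Type} {f : (ℕ → Bool) → α} {l : ℕ} (h : Dep f (Set.Iio (l + 1))) (b : Bool) :
    Dep (fun ρ => f (consB b ρ)) (Set.Iio l) := by
  intro ρ ρ' e
  refine h _ _ fun i hi => ?_
  cases i with
  | zero => rfl
  | succ i =>
    have : i + 1 < l + 1 := hi
    exact e i (show i < l by omega)

theorem sum_range_two_mul' (φ : ℕ → ℝ) (m : ℕ) :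
    ∑ j ∈ range (m * 2), φ j = ∑ j ∈ range m, φ (2 * j) + ∑ j ∈ range m, φ (2 * j + 1) := by
  induction m with
  | zero => simp
  | succ m ih =>
    rw [show (m + 1) * 2 = m * 2 + 1 + 1 by ring, sum_range_succ, sum_range_succ, ih,
      sum_range_succ, sum_range_succ, mul_comm m 2]
    ring

section ex
variable {n : ℕ} {f g : (ℕ → Bool) → ℝ}

theorem Ex_const (n : ℕ) (c : ℝ) : Ex n (fun _ => c) = c := by
  unfold Ex
  simp only [sum_const, card_univ, Fintype.card_fun, Fintype.card_bool, Fintype.card_fin,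
    nsmul_eq_mul, Nat.cast_pow, Nat.cast_ofNat]
  field_simp
theorem Ex_add : Ex n (fun ρ => f ρ + g ρ) = Ex n f + Ex n g := by
  unfold Ex; rw [sum_add_distrib, add_div]
theorem Ex_sub : Ex n (fun ρ => f ρ - g ρ) = Ex n f - Ex n g := by
  unfold Ex; rw [sum_sub_distrib, sub_div]
theorem Ex_const_mul (c : ℝ) : Ex n (fun ρ => c * f ρ) = c * Ex n f := by
  unfold Ex; rw [← mul_sum, mul_div_assoc]
theorem Ex_mul_const (c : ℝ) : Ex n (fun ρ => f ρ * c) = Ex n f * c := by
  unfold Ex; rw [← sum_mul]; ring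
theorem Ex_sum {ι : Type} (s : Finset ι) (F : ι → (ℕ → Bool) → ℝ) :
    Ex n (fun ρ => ∑ i ∈ s, F i ρ) = ∑ i ∈ s, Ex n (F i) := by
  unfold Ex; rw [sum_comm, sum_div]
theorem Ex_mono (h : ∀ ρ, f ρ ≤ g ρ) : Ex n f ≤ Ex n g := by
  unfold Ex
  exact div_le_div_of_nonneg_right (sum_le_sum fun v _ => h _) (by positivity)
theorem Ex_nonneg (h : ∀ ρ, 0 ≤ f ρ) : 0 ≤ Ex n f := by
  unfold Ex
  exact div_nonneg (sum_nonneg fun v _ => h _) (by positivity)
theorem Ex_le_const {c : ℝ} (h : ∀ ρ, f ρ ≤ c) : Ex n f ≤ c :=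
  (Ex_mono (g := fun _ => c) h).trans_eq (Ex_const n c)
theorem le_Ex_const {c : ℝ} (h : ∀ ρ, c ≤ f ρ) : c ≤ Ex n f :=
  (Ex_const n c).symm.trans_le (Ex_mono (f := fun _ => c) h)
theorem abs_Ex_le : |Ex n f| ≤ Ex n fun ρ => |f ρ| := by
  unfold Ex
  rw [abs_div, abs_of_pos (show (0 : ℝ) < 2 ^ n by positivity)]
  exact div_le_div_of_nonneg_right (abs_sum_le_sum_abs _ _) (by positivity)
theorem abs_Ex_sub_le {c : ℝ} (h : ∀ ρ, |f ρ - g ρ| ≤ c) : |Ex n f - Ex n g| ≤ c := by
  rw [← Ex_sub]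
  exact abs_Ex_le.trans (Ex_le_const h)

/-- Unused bits do not matter. -/
theorem Ex_of_dep {l : ℕ} (h : Dep f (Set.Iio l)) (hl : l ≤ n) : Ex n f = Ex l f := by
  induction l generalizing n f with
  | zero =>
    have : f = fun _ => f fun _ => false := by
      funext ρ
      exact h _ _ fun i hi => absurd (show i < 0 from hi) (Nat.not_lt_zero i)
    rw [this, Ex_const, Ex_const]
  | succ l ih =>
    obtain ⟨m, rfl⟩ : ∃ m, n = m + 1 := ⟨n - 1, by omega⟩
    rw [Ex_succ, Ex_succ, ih (h.consB false) (by omega), ih (h.consB true) (by omega)]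

theorem shift_consB (o : ℕ) (b : Bool) (ρ : ℕ → Bool) : shift (o + 1) (consB b ρ) = shift o ρ := by
  funext i
  unfold shift
  rw [show o + 1 + i = (o + i) + 1 by omega]
  rfl

/-- A block of bits is uniform. -/
theorem Ex_shift {l o : ℕ} (h : Dep f (Set.Iio l)) (hl : o + l ≤ n) :
    Ex n (fun ρ => f (shift o ρ)) = Ex l f := by
  induction o generalizing n with
  | zero =>
    have : (fun ρ => f (shift 0 ρ)) = f := by
      funext ρ
      congr 1
      funext i
      simp [shift]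
    rw [this, Ex_of_dep h (by omega)]
  | succ o ih =>
    obtain ⟨m, rfl⟩ : ∃ m, n = m + 1 := ⟨n - 1, by omega⟩
    rw [Ex_succ]
    simp only [shift_consB]
    rw [ih (by omega)]
    ring

/-- Fubini / conditioning.  (Proof: the map `(v, v') ↦ (S.piecewise v v', S.piecewise v' v)` is an
involution of pairs of bit vectors.) -/
theorem Ex_fubini {α : Type} {π : (ℕ → Bool) → α} {F : α → (ℕ → Bool) → ℝ} {S S' : Set ℕ}
    (hπ : Dep π S) (hF : ∀ a, Dep (F a) S') (hd : Disjoint S S') :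
    Ex n (fun ρ => F (π ρ) ρ) = Ex n fun ρ => Ex n (F (π ρ)) := by
  classical
  let σ : (Fin n → Bool) × (Fin n → Bool) → (Fin n → Bool) × (Fin n → Bool) := fun p =>
    (fun i => if (i : ℕ) ∈ S then p.1 i else p.2 i, fun i => if (i : ℕ) ∈ S then p.2 i else p.1 i)
  have hσ : Function.Involutive σ := by
    rintro ⟨v, v'⟩
    refine Prod.ext ?_ ?_ <;> funext i <;> by_cases hi : (i : ℕ) ∈ S <;> simp [σ, hi]
  have key : ∑ p : (Fin n → Bool) × (Fin n → Bool), F (π (ext p.1)) (ext p.2) =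
      ∑ p : (Fin n → Bool) × (Fin n → Bool), F (π (ext p.1)) (ext p.1) := by
    rw [← Equiv.sum_comp (Function.Involutive.toPerm σ hσ)]
    refine sum_congr rfl fun p _ => ?_
    have h1 : π (ext (σ p).1) = π (ext p.1) := by
      refine hπ _ _ fun i hi => ?_
      unfold ext
      split_ifs with h
      · simp [σ, hi]
      · rfl
    have h2 : ∀ a, F a (ext (σ p).2) = F a (ext p.1) := by
      intro a
      refine hF a _ _ fun i hi => ?_
      have hi' : i ∉ S := fun h => Set.disjoint_left.1 hd h hi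
      unfold ext
      split_ifs with h
      · simp [σ, hi']
      · rfl
    show F (π (ext (σ p).1)) (ext (σ p).2) = _
    rw [h1, h2]
  rw [Fintype.sum_prod_type, Fintype.sum_prod_type] at key
  simp only [sum_const, card_univ, Fintype.card_fun, Fintype.card_bool, Fintype.card_fin,
    nsmul_eq_mul, Nat.cast_pow, Nat.cast_ofNat] at key
  unfold Ex
  rw [← sum_div, key, ← mul_sum]
  field_simp

theorem Ex_mul_indep {S S' : Set ℕ} (hf : Dep f S) (hg : Dep g S') (hd : Disjoint S S') :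
    Ex n (fun ρ => f ρ * g ρ) = Ex n f * Ex n g := by
  have h := Ex_fubini (n := n) (π := f) (F := fun a ρ => a * g ρ) hf
    (fun a => hg.comp fun t => a * t) hd
  rw [h]
  simp only [Ex_const_mul]
  exact Ex_mul_const _

theorem Ex_prod_indep {ι : Type} (s : Finset ι) (F : ι → (ℕ → Bool) → ℝ) (S : ι → Set ℕ)
    (hF : ∀ i ∈ s, Dep (F i) (S i)) (hd : ∀ i ∈ s, ∀ j ∈ s, i ≠ j → Disjoint (S i) (S j)) :
    Ex n (fun ρ => ∏ i ∈ s, F i ρ) = ∏ i ∈ s, Ex n (F i) := by
  classical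
  induction s using Finset.induction_on with
  | empty => simp [Ex_const]
  | insert a s ha ih =>
    simp only [prod_insert ha]
    have hdep : Dep (fun ρ => ∏ i ∈ s, F i ρ) (⋃ i ∈ s, S i) := by
      intro ρ ρ' e
      refine prod_congr rfl fun i hi => hF i (mem_insert_of_mem hi) _ _ fun j hj => e j ?_
      exact Set.mem_biUnion (mem_coe.2 hi) hj
    have hdis : Disjoint (S a) (⋃ i ∈ s, S i) := by
      refine Set.disjoint_left.2 fun j hj hj' => ?_
      simp only [Set.mem_iUnion] at hj'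
      obtain ⟨i, hi, hji⟩ := hj'
      have hne : a ≠ i := fun h => ha (h ▸ hi)
      exact Set.disjoint_left.1
        (hd a (mem_insert_self _ _) i (mem_insert_of_mem hi) hne) hj hji
    rw [Ex_mul_indep (hF a (mem_insert_self _ _)) hdep hdis,
      ih (fun i hi => hF i (mem_insert_of_mem hi))
        (fun i hi j hj => hd i (mem_insert_of_mem hi) j (mem_insert_of_mem hj))]

/-- `bitsVal e` is uniform on `range (2 ^ e)`. -/
theorem Ex_bitsVal (e : ℕ) (φ : ℕ → ℝ) :
    Ex e (fun ρ => φ (bitsVal e ρ)) = (∑ j ∈ range (2 ^ e), φ j) / 2 ^ e := by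
  induction e generalizing φ with
  | zero => simp [bitsVal, Ex_const]
  | succ e ih =>
    have h : ∀ (b : Bool) (ρ : ℕ → Bool),
        bitsVal (e + 1) (consB b ρ) = 2 * bitsVal e ρ + b.toNat := by
      intro b ρ
      rw [bitsVal_succ, Nat.bit_val]
      rfl
    rw [Ex_succ]
    simp only [h, Bool.toNat_false, Bool.toNat_true, add_zero]
    rw [ih fun j => φ (2 * j), ih fun j => φ (2 * j + 1), pow_succ 2 e, sum_range_two_mul',
      pow_succ]
    field_simp

end ex

section pr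
variable {n : ℕ} {E E' : (ℕ → Bool) → Prop}

theorem Pr_nonneg : 0 ≤ Pr n E :=
  Ex_nonneg fun ρ => by split_ifs <;> norm_num
theorem Pr_le_one : Pr n E ≤ 1 :=
  Ex_le_const fun ρ => by split_ifs <;> norm_num
theorem Pr_mono (h : ∀ ρ, E ρ → E' ρ) : Pr n E ≤ Pr n E' := by
  refine Ex_mono fun ρ => ?_
  by_cases h1 : E ρ
  · simp [h1, h ρ h1]
  · simp only [h1, if_false]
    split_ifs <;> norm_num
theorem Pr_not : Pr n (fun ρ => ¬ E ρ) = 1 - Pr n E := by
  unfold Pr
  refine Eq.trans ?_ (congrArg (· - _) (Ex_const n 1))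
  beta_reduce
  rw [← Ex_sub]
  congr 1
  funext ρ
  by_cases h1 : E ρ <;> simp [h1]
theorem Pr_or_le : Pr n (fun ρ => E ρ ∨ E' ρ) ≤ Pr n E + Pr n E' := by
  unfold Pr
  rw [← Ex_add]
  refine Ex_mono fun ρ => ?_
  by_cases h1 : E ρ <;> by_cases h2 : E' ρ <;> simp [h1, h2]
theorem Pr_exists_le {ι : Type} (s : Finset ι) (F : ι → (ℕ → Bool) → Prop) :
    Pr n (fun ρ => ∃ i ∈ s, F i ρ) ≤ ∑ i ∈ s, Pr n (F i) := by
  classical
  unfold Pr
  rw [← Ex_sum]
  refine Ex_mono fun ρ => ?_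
  have h0 : ∀ i ∈ s, (0 : ℝ) ≤ if F i ρ then 1 else 0 := fun i _ => by split_ifs <;> norm_num
  by_cases h1 : ∃ i ∈ s, F i ρ
  · rw [if_pos h1]
    obtain ⟨i, hi, hF⟩ := h1
    have := single_le_sum h0 hi
    rw [if_pos hF] at this
    convert this
  · rw [if_neg h1]
    convert sum_nonneg h0
theorem Pr_exists_le_card {ι : Type} (s : Finset ι) (F : ι → (ℕ → Bool) → Prop) {p : ℝ}
    (h : ∀ i ∈ s, Pr n (F i) ≤ p) : Pr n (fun ρ => ∃ i ∈ s, F i ρ) ≤ s.card * p := by
  refine (Pr_exists_le s F).trans ((sum_le_sum h).trans_eq ?_)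
  rw [sum_const, nsmul_eq_mul]
theorem Pr_of_dep {l : ℕ} (h : Dep E (Set.Iio l)) (hl : l ≤ n) : Pr n E = Pr l E := by
  classical
  unfold Pr
  exact Ex_of_dep (h.comp fun p : Prop => if p then (1 : ℝ) else 0) hl
theorem Pr_shift {l o : ℕ} (h : Dep E (Set.Iio l)) (hl : o + l ≤ n) :
    Pr n (fun ρ => E (shift o ρ)) = Pr l E := by
  classical
  unfold Pr
  exact Ex_shift (h.comp fun p : Prop => if p then (1 : ℝ) else 0) hl

/-- Conditioning on independent data. -/
theorem Pr_cond_le {α : Type} {π : (ℕ → Bool) → α} {F : α → (ℕ → Bool) → Prop} {S S' : Set ℕ}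
    {p : ℝ} (hπ : Dep π S) (hF : ∀ a, Dep (F a) S') (hd : Disjoint S S')
    (h : ∀ ρ, Pr n (F (π ρ)) ≤ p) : Pr n (fun ρ => F (π ρ) ρ) ≤ p := by
  classical
  unfold Pr at h ⊢
  have key := Ex_fubini (n := n) (π := π) (F := fun a ρ => if F a ρ then (1 : ℝ) else 0) hπ
    (fun a => (hF a).comp fun p : Prop => if p then (1 : ℝ) else 0) hd
  exact key.trans_le (Ex_le_const h)

/-- A bounded variable contributes little on a rare event. -/
theorem abs_Ex_ite_le {f : (ℕ → Bool) → ℝ} [DecidablePred E] {c : ℝ} (h : ∀ ρ, |f ρ| ≤ c) :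
    |Ex n fun ρ => if E ρ then f ρ else 0| ≤ c * Pr n E := by
  unfold Pr
  rw [← Ex_const_mul]
  refine abs_Ex_le.trans (Ex_mono fun ρ => ?_)
  by_cases h1 : E ρ
  · simp [h1, h ρ]
  · simp [h1]

theorem prBits_eq (U : ℕ) (F : List Bool → Prop) :
    prBits U F = Pr U fun ρ => F ((List.range U).map ρ) := by
  classical
  have h : ∀ v : Fin U → Bool, (List.range U).map (ext v) = List.ofFn v := by
    intro v
    refine List.ext_getElem (by simp) fun i h1 h2 => ?_
    have hi : i < U := by simpa using h2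
    simp [ext, hi]
  unfold prBits Crest.FinProb.uniformProb Pr Ex
  simp only [h, Fintype.card_fun, Fintype.card_bool, Fintype.card_fin, Nat.cast_pow,
    Nat.cast_ofNat, Set.mem_ofPred_eq]
  congr 1
  rw [card_filter, Nat.cast_sum]
  refine sum_congr rfl fun v _ => ?_
  by_cases h1 : F (List.ofFn v) <;> simp [h1]

end pr

end Crest.Agent.R288
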