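/-
R288/EngDep: which random bits a table depends on; the law of the requests.
-/
import Crest.Agent.R288.Prob

set_option autoImplicit false

namespace Crest.Agent.R288

open Finset

namespace Eng

variable {Pa De : Type} [DecidableEq De] {E : Eng Pa De} {Good : Pa → De → Prop}

/-- The table answering request `κ` (before the guard). -/
def sub (E : Eng Pa De) (P : Pa) (ms tapes : ℕ → ℕ → Bool) (D : De) (j : ℕ) (ρ : ℕ → Bool)
    (κ : Key De) (z : St) : ℚ :=
  E.ev P ms tapes κ.1 (j * 2 ^ κ.2.1 + E.idx P D ρ κ) (E.bits P tapes D ρ κ) z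

/-- What the rule sees. -/
def look (E : Eng Pa De) (P : Pa) (ms tapes : ℕ → ℕ → Bool) (D : De) (j : ℕ) (ρ : ℕ → Bool)
    (z : St) (κ : Key De) (z' : St) : ℚ :=
  if κ ∈ E.plan P D ∧ z'.1 ≤ E.X P ∧ Nat.dist z'.1 z.1 ≤ 2 ^ E.om P D then
    E.sub P ms tapes D j ρ κ (rdn (E.gam P κ.1) z') else E.X P

theorem Wf.pot_lt (hw : E.Wf Good) {P : Pa} {D : De} {κ : Key De} (h : Good P D)
    (hκ : κ ∈ E.plan P D) : E.pot P κ.1 < E.pot P D := by
  have h1 := hw.pot_sum P D h
  have h2 := hw.pot_pos P κ.1 (hw.sub P D κ h hκ)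
  have h3 : E.pot P κ.1 ≤ ((E.plan P D).map fun κ => E.pot P κ.1).sum :=
    List.single_le_sum (fun _ _ => Nat.zero_le _) _ (List.mem_map.2 ⟨κ, hκ, rfl⟩)
  omega

/-- Unfolding at a good descriptor. -/
theorem ev_eq (hw : E.Wf Good) {P : Pa} {D : De} (h : Good P D) (ms tapes : ℕ → ℕ → Bool) (j : ℕ)
    (ρ : ℕ → Bool) (z : St) :
    E.ev P ms tapes D j ρ z = if E.inW P D z then
      E.rule P D (E.idx P D ρ) (E.look P ms tapes D j ρ z)
        (fun b => decide (E.hgt D = 0 ∧ b ≤ E.X P ∧ Nat.dist b z.1 ≤ 2 ^ E.om P D) && ms j b) z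
      else E.X P := by
  rw [ev]
  congr 2
  funext κ z'
  unfold look sub
  by_cases hc : κ ∈ E.plan P D ∧ z'.1 ≤ E.X P ∧ Nat.dist z'.1 z.1 ≤ 2 ^ E.om P D
  · rw [if_pos hc, dif_pos ⟨hw.pot_lt h hc.1, hc⟩]
  · rw [if_neg hc, dif_neg fun h' => hc h'.2]

theorem ev_of_not_inW {P : Pa} {D : De} (ms tapes : ℕ → ℕ → Bool) (j : ℕ) (ρ : ℕ → Bool) {z : St}
    (hz : ¬ E.inW P D z) : E.ev P ms tapes D j ρ z = E.X P := by
  rw [ev, if_neg hz]

/-- A deterministic table request. -/
theorem sub_tab {P : Pa} {D D' : De} (ms tapes : ℕ → ℕ → Bool) (j e n : ℕ) (ρ : ℕ → Bool) (z : St) :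
    E.sub P ms tapes D j ρ (D', e, n, false, false) z = E.tab P ms tapes D' (j * 2 ^ e + n) z := by
  simp [sub, idx, bits, tab]

/-- The segment of a request. -/
def segSet (E : Eng Pa De) (P : Pa) (D : De) (κ : Key De) : Set ℕ :=
  Set.Ico (E.off P D κ) (E.off P D κ + E.seg P κ)

theorem engDep_take_le {α : Type} [DecidableEq α] (f : α → ℕ) {a : α} :
    ∀ {l : List α}, a ∈ l → ((l.takeWhile (· ≠ a)).map f).sum + f a ≤ (l.map f).sum
  | [], h => by simp at h
  | b :: l, h => by
    by_cases hb : b = a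
    · subst hb
      simp
    · have h' : a ∈ l := by
        rcases List.mem_cons.1 h with h | h
        · exact absurd h.symm hb
        · exact h
      have := engDep_take_le f h'
      simp only [List.takeWhile_cons, ne_eq, hb, not_false_eq_true, decide_true, if_true,
        List.map_cons, List.sum_cons] at this ⊢
      omega

theorem engDep_take_or {α : Type} [DecidableEq α] (f : α → ℕ) {a a' : α} (hne : a ≠ a') :
    ∀ {l : List α}, a ∈ l → a' ∈ l →
      ((l.takeWhile (· ≠ a)).map f).sum + f a ≤ ((l.takeWhile (· ≠ a')).map f).sum ∨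
      ((l.takeWhile (· ≠ a')).map f).sum + f a' ≤ ((l.takeWhile (· ≠ a)).map f).sum
  | [], h, _ => by simp at h
  | b :: l, h, h' => by
    by_cases hb : b = a
    · subst hb
      left
      simp [hne]
    · by_cases hb' : b = a'
      · subst hb'
        right
        simp [hb]
      · have h1 : a ∈ l := by
          rcases List.mem_cons.1 h with h | h
          · exact absurd h.symm hb
          · exact h
        have h2 : a' ∈ l := by
          rcases List.mem_cons.1 h' with h | h
          · exact absurd h.symm hb'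
          · exact h
        have := engDep_take_or f hne h1 h2
        simp only [List.takeWhile_cons, ne_eq, hb, hb', not_false_eq_true, decide_true, if_true,
          List.map_cons, List.sum_cons] at this ⊢
        omega

theorem off_add_seg_le (hw : E.Wf Good) {P : Pa} {D : De} {κ : Key De} (h : Good P D)
    (hκ : κ ∈ E.plan P D) : E.off P D κ + E.seg P κ ≤ E.pot P D := by
  have h1 := engDep_take_le (E.seg P) hκ
  have h2 := hw.pot_sum P D h
  have h3 : ((E.plan P D).map (E.seg P)).sum ≤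
      ((E.plan P D).map fun κ => 2 * E.pot P κ.1).sum := by
    refine List.sum_le_sum fun κ' hκ' => ?_
    have := hw.e_le P D κ' h hκ'
    unfold seg
    omega
  rw [List.sum_map_mul_left] at h3
  unfold off
  omega

theorem segSet_disjoint {P : Pa} {D : De} {κ κ' : Key De}
    (hκ : κ ∈ E.plan P D) (hκ' : κ' ∈ E.plan P D) (hne : κ ≠ κ') :
    Disjoint (E.segSet P D κ) (E.segSet P D κ') := by
  have := engDep_take_or (E.seg P) hne hκ hκ'
  refine Set.disjoint_left.2 fun i h1 h2 => ?_
  unfold segSet off at h1 h2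
  have a1 := h1.1
  have a2 := h1.2
  have a3 := h2.1
  have a4 := h2.2
  omega

theorem engDep_idx_congr {P : Pa} {D : De} {κ : Key De} {ρ ρ' : ℕ → Bool}
    (hρ : κ ∈ E.plan P D → ∀ i ∈ E.segSet P D κ, ρ i = ρ' i) :
    E.idx P D ρ κ = E.idx P D ρ' κ := by
  by_cases hκ : κ ∈ E.plan P D
  · rw [idx_of_mem E ρ hκ, idx_of_mem E ρ' hκ]
    split_ifs
    · refine (dep_bitsVal κ.2.1).shift (E.off P D κ) ρ ρ' fun i hi => hρ hκ i ⟨hi.1, ?_⟩
      have := hi.2
      unfold seg
      omega
    · rfl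
  · rw [idx_of_not_mem E ρ hκ, idx_of_not_mem E ρ' hκ]

theorem engDep_bits_congr {P : Pa} {D : De} {κ : Key De} {tapes tapes' : ℕ → ℕ → Bool}
    {ρ ρ' : ℕ → Bool} (hρ : ∀ i ∈ E.segSet P D κ, ρ i = ρ' i)
    (ht : κ.2.2.2.2 = false → ∀ b < E.pot P κ.1, tapes (E.tp P κ.1) b = tapes' (E.tp P κ.1) b) :
    ∀ b < E.pot P κ.1, E.bits P tapes D ρ κ b = E.bits P tapes' D ρ' κ b := by
  intro b hb
  unfold bits
  split_ifs with hf
  · refine hρ _ ⟨by omega, ?_⟩
    unfold seg
    omega
  · exact ht (by simpa using hf) b hb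

/-- A table only reads the first `pot` of its own bits and of the lower tapes
(strong induction on `pot`, both statements at once). -/
theorem ev_congr (hw : E.Wf Good) {P : Pa} {D : De} (h : Good P D) (ms : ℕ → ℕ → Bool)
    {tapes tapes' : ℕ → ℕ → Bool} {ρ ρ' : ℕ → Bool} (j : ℕ)
    (ht : ∀ i < E.tp P D, ∀ b < E.pot P D, tapes i b = tapes' i b)
    (hρ : ∀ b < E.pot P D, ρ b = ρ' b) :
    E.ev P ms tapes D j ρ = E.ev P ms tapes' D j ρ' := by
  induction hn : E.pot P D using Nat.strong_induction_on generalizing D j ρ ρ' with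
  | _ n ih =>
    have hseg : ∀ κ ∈ E.plan P D, ∀ i ∈ E.segSet P D κ, ρ i = ρ' i := fun κ hκ i hi =>
      hρ i (lt_of_lt_of_le hi.2 (off_add_seg_le hw h hκ))
    have hidx : E.idx P D ρ = E.idx P D ρ' := funext fun κ => engDep_idx_congr (hseg κ)
    funext z
    rw [ev_eq hw h, ev_eq hw h, hidx]
    congr 2
    funext κ z'
    unfold look
    split_ifs with hc
    · have hκ := hc.1
      have hlt := hw.pot_lt h hκ
      unfold sub
      rw [hidx]
      refine congrFun (ih _ (hn ▸ hlt) (hw.sub P D κ h hκ) _ (fun i hi b hb => ?_)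
        (engDep_bits_congr (hseg κ hκ) fun hf b hb => ?_) rfl) _
      · refine ht i ?_ b (hb.trans hlt)
        cases hf : κ.2.2.2.2
        · exact hi.trans (hw.tp_tab P D κ h hκ hf)
        · exact lt_of_lt_of_le hi (hw.tp_fresh P D κ h hκ hf)
      · exact ht _ (hw.tp_tab P D κ h hκ hf) b (hb.trans hlt)
    · rfl

theorem dep_ev (hw : E.Wf Good) {P : Pa} {D : De} (h : Good P D) (ms tapes : ℕ → ℕ → Bool) (j : ℕ) :
    Dep (fun ρ => E.ev P ms tapes D j ρ) (Set.Iio (E.pot P D)) :=
  fun _ _ e => ev_congr hw h ms j (fun _ _ _ _ => rfl) e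

/-- Index and table of a request only depend on its segment. -/
theorem dep_sub (hw : E.Wf Good) {P : Pa} {D : De} {κ : Key De} (h : Good P D)
    (hκ : κ ∈ E.plan P D) (ms tapes : ℕ → ℕ → Bool) (j : ℕ) :
    Dep (fun ρ => (E.idx P D ρ κ, E.sub P ms tapes D j ρ κ)) (E.segSet P D κ) := by
  intro ρ ρ' e
  have hidx : E.idx P D ρ κ = E.idx P D ρ' κ := engDep_idx_congr fun _ => e
  refine Prod.ext hidx ?_
  funext z
  simp only [sub, hidx]
  exact congrFun (ev_congr hw (hw.sub P D κ h hκ) ms _ (fun _ _ _ _ => rfl)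
    (engDep_bits_congr e fun _ _ _ => rfl)) z

/-- Law of a random fresh request: uniform index, fresh bits
(`Ex_shift`, `Ex_fubini`, `Ex_bitsVal`, `dep_ev`). -/
theorem law_fresh (hw : E.Wf Good) {P : Pa} {D D' : De} {e n : ℕ} (h : Good P D)
    (hκ : (D', e, n, true, true) ∈ E.plan P D) (ms tapes : ℕ → ℕ → Bool) (j : ℕ)
    (φ : ℕ → (St → ℚ) → ℝ) :
    Ex (E.pot P D) (fun ρ => φ (E.idx P D ρ (D', e, n, true, true))
        (E.sub P ms tapes D j ρ (D', e, n, true, true))) =
      (∑ i ∈ range (2 ^ e), Ex (E.pot P D') fun ρ => φ i (E.ev P ms tapes D' (j * 2 ^ e + i) ρ)) /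
        2 ^ e := by
  have hD' : Good P D' := hw.sub P D _ h hκ
  have hle := off_add_seg_le hw h hκ
  simp only [seg] at hle
  set o := E.off P D (D', e, n, true, true) with ho
  have e1 : (fun ρ => φ (E.idx P D ρ (D', e, n, true, true))
      (E.sub P ms tapes D j ρ (D', e, n, true, true))) =
      fun ρ => (fun i ρ => φ i (E.ev P ms tapes D' (j * 2 ^ e + i) (shift (o + e) ρ)))
        (bitsVal e (shift o ρ)) ρ := by
    funext ρ
    have hi : E.idx P D ρ (D', e, n, true, true) = bitsVal e (shift o ρ) := by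
      rw [idx_of_mem E ρ hκ]
      rfl
    have hs : E.sub P ms tapes D j ρ (D', e, n, true, true) =
        E.ev P ms tapes D' (j * 2 ^ e + bitsVal e (shift o ρ)) (shift (o + e) ρ) := by
      funext z
      unfold sub
      rw [hi]
      rfl
    rw [hi, hs]
  have hd : ∀ i, Dep (fun ρ => φ i (E.ev P ms tapes D' (j * 2 ^ e + i) ρ))
      (Set.Iio (E.pot P D')) := fun i => (dep_ev hw hD' ms tapes _).comp (φ i)
  rw [e1, Ex_fubini ((dep_bitsVal e).shift o) (fun i => (hd i).shift (o + e))
    (Set.disjoint_left.2 fun i h1 h2 => absurd h1.2 (not_lt.2 h2.1))]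
  have e2 : ∀ i, Ex (E.pot P D) (fun ρ => φ i (E.ev P ms tapes D' (j * 2 ^ e + i)
      (shift (o + e) ρ))) = Ex (E.pot P D') fun ρ => φ i (E.ev P ms tapes D' (j * 2 ^ e + i) ρ) :=
    fun i => Ex_shift (hd i) (by omega)
  simp only [e2]
  let ψ : ℕ → ℝ := fun i => Ex (E.pot P D') fun ρ => φ i (E.ev P ms tapes D' (j * 2 ^ e + i) ρ)
  have e3 := Ex_shift (n := E.pot P D) (l := e) (o := o) (f := fun ρ => ψ (bitsVal e ρ))
    ((dep_bitsVal e).comp ψ) (by omega)
  exact e3.trans (Ex_bitsVal e ψ)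

/-- Law of a random table request: uniform index. -/
theorem law_tab (hw : E.Wf Good) {P : Pa} {D D' : De} {e n : ℕ} (h : Good P D)
    (hκ : (D', e, n, true, false) ∈ E.plan P D) (ms tapes : ℕ → ℕ → Bool) (j : ℕ)
    (φ : ℕ → (St → ℚ) → ℝ) :
    Ex (E.pot P D) (fun ρ => φ (E.idx P D ρ (D', e, n, true, false))
        (E.sub P ms tapes D j ρ (D', e, n, true, false))) =
      (∑ i ∈ range (2 ^ e), φ i (E.tab P ms tapes D' (j * 2 ^ e + i))) / 2 ^ e := by
  have hle := off_add_seg_le hw h hκ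
  simp only [seg] at hle
  set o := E.off P D (D', e, n, true, false) with ho
  have e1 : (fun ρ => φ (E.idx P D ρ (D', e, n, true, false))
      (E.sub P ms tapes D j ρ (D', e, n, true, false))) =
      fun ρ => (fun ρ => (fun i => φ i (E.tab P ms tapes D' (j * 2 ^ e + i))) (bitsVal e ρ))
        (shift o ρ) := by
    funext ρ
    have hi : E.idx P D ρ (D', e, n, true, false) = bitsVal e (shift o ρ) := by
      rw [idx_of_mem E ρ hκ]
      rfl
    have hs : E.sub P ms tapes D j ρ (D', e, n, true, false) =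
        E.tab P ms tapes D' (j * 2 ^ e + bitsVal e (shift o ρ)) := by
      funext z
      unfold sub
      rw [hi]
      rfl
    rw [hi, hs]
  let ψ : ℕ → ℝ := fun i => φ i (E.tab P ms tapes D' (j * 2 ^ e + i))
  have e3 := Ex_shift (n := E.pot P D) (l := e) (o := o) (f := fun ρ => ψ (bitsVal e ρ))
    ((dep_bitsVal e).comp ψ) (by omega)
  rw [e1]
  exact e3.trans (Ex_bitsVal e ψ)

/-- **Conditioning on the lower tapes.**  An event about the table of `D` on its own tape, whose
description `Bad tapes` only reads the lower tapes, has probability at most `p` over the whole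
stream if it has probability at most `p` over the own bits for all tapes. -/
theorem pr_tape (hw : E.Wf Good) {P : Pa} {D : De} (h : Good P D) {len U : ℕ} {p : ℝ}
    (hlen : E.pot P D ≤ len) (hU : (E.tp P D + 1) * len ≤ U)
    (Bad : (ℕ → ℕ → Bool) → (ℕ → Bool) → Prop)
    (hB : ∀ tapes tapes' ρ ρ', (∀ i < E.tp P D, ∀ b < len, tapes i b = tapes' i b) →
      (∀ b < E.pot P D, ρ b = ρ' b) → Bad tapes ρ → Bad tapes' ρ')
    (hp : ∀ tapes, Pr (E.pot P D) (Bad tapes) ≤ p) :
    Pr U (fun r => Bad (tapesOf len r) (tapesOf len r (E.tp P D))) ≤ p := by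
  set t := E.tp P D with htp
  let π : (ℕ → Bool) → (ℕ → ℕ → Bool) := fun r i b =>
    if i < t ∧ b < len then tapesOf len r i b else false
  have hπ : Dep π (Set.Iio (t * len)) := by
    intro r r' e
    funext i b
    simp only [π]
    split_ifs with hc
    · refine e _ ?_
      have : (i + 1) * len ≤ t * len := Nat.mul_le_mul_right _ hc.1
      rw [Nat.add_mul, one_mul] at this
      have := hc.2
      show i * len + b < t * len
      omega
    · rfl
  have hdep : ∀ a, Dep (Bad a) (Set.Iio (E.pot P D)) := fun a ρ ρ' e =>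
    propext ⟨hB a a ρ ρ' (fun _ _ _ _ => rfl) e,
      hB a a ρ' ρ (fun _ _ _ _ => rfl) fun b hb => (e b hb).symm⟩
  have hU' : t * len + E.pot P D ≤ U := by
    rw [Nat.add_mul, one_mul] at hU
    omega
  refine le_trans (Pr_mono (E' := fun r => (fun a r => Bad a (shift (t * len) r)) (π r) r) ?_) ?_
  · intro r hr
    refine hB _ _ _ _ (fun i hi b hb => ?_) (fun _ _ => rfl) hr
    simp only [π, hi, hb, and_self, if_true]
  · refine Pr_cond_le hπ (fun a => (hdep a).shift (t * len))
      (Set.disjoint_left.2 fun i h1 h2 => absurd h1 (not_lt.2 h2.1)) fun r => ?_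
    rw [Pr_shift (hdep _) hU']
    exact hp _

end Eng

end Crest.Agent.R288
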