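/-
R288/Geo: the banded tree dynamic program `V`.
-/
import Crest.Agent.R288.Eng

set_option autoImplicit false

namespace Crest.Agent.R288

open Finset

/-- `ℓ¹` distance of states. -/
def dst (z z' : St) : ℕ := Nat.dist z.1 z'.1 + Nat.dist z.2 z'.2

/-- Cost of one row entered at column `z.1` and left at column `z.2`; `m` = mismatch bits. -/
def vleaf (m : ℕ → Bool) (z : St) : ℕ :=
  Nat.dist z.1 z.2 + if z.1 ≤ z.2 ∧ (List.range' z.1 (z.2 + 1 - z.1)).all m = true then 1 else 0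

/-- Cost of the rows `[j 2^h, (j+1) 2^h)` entered at column `z.1` and left at column `z.2`, all
intermediate columns in `[0, X]`. -/
def V (X : ℕ) (ms : ℕ → ℕ → Bool) : ℕ → ℕ → St → ℕ
  | 0, j, z => vleaf (ms j) z
  | h + 1, j, z => (range (X + 1)).inf' (by simp) fun s =>
      V X ms h (2 * j) (z.1, s) + V X ms h (2 * j + 1) (s, z.2)

section
variable {X : ℕ} {ms : ℕ → ℕ → Bool}

theorem dst_comm (z z' : St) : dst z z' = dst z' z := by
  simp only [dst, Nat.dist]; omega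
theorem dst_self (z : St) : dst z z = 0 := by
  simp only [dst, Nat.dist]; omega
theorem dst_tri (z z' z'' : St) : dst z z'' ≤ dst z z' + dst z' z'' := by
  simp only [dst, Nat.dist]; omega
theorem dist_le_dst (z z' : St) : Nat.dist z.1 z.2 ≤ Nat.dist z'.1 z'.2 + dst z z' := by
  simp only [dst, Nat.dist]; omega
theorem cast_dist (a b : ℕ) : ((Nat.dist a b : ℕ) : ℝ) = |(a : ℝ) - b| := by
  rcases le_total a b with h | h
  · rw [Nat.dist_eq_sub_of_le h, Nat.cast_sub h, abs_sub_comm,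
      abs_of_nonneg (sub_nonneg.2 (Nat.cast_le.2 h))]
  · rw [Nat.dist_eq_sub_of_le_right h, Nat.cast_sub h, abs_of_nonneg (sub_nonneg.2 (Nat.cast_le.2 h))]

theorem rdn_fst_le (γ : ℕ) (z : St) : (rdn γ z).1 ≤ z.1 := Nat.div_mul_le_self _ _
theorem rdn_snd_le (γ : ℕ) (z : St) : (rdn γ z).2 ≤ z.2 := Nat.div_mul_le_self _ _
theorem dvd_rdn (γ : ℕ) (z : St) : 2 ^ γ ∣ (rdn γ z).1 ∧ 2 ^ γ ∣ (rdn γ z).2 :=
  ⟨Nat.dvd_mul_left _ _, Nat.dvd_mul_left _ _⟩
theorem rdn_eq_self {γ : ℕ} {z : St} (h1 : 2 ^ γ ∣ z.1) (h2 : 2 ^ γ ∣ z.2) : rdn γ z = z :=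
  Prod.ext (Nat.div_mul_cancel h1) (Nat.div_mul_cancel h2)
theorem dst_rdn_le (γ : ℕ) (z : St) : dst z (rdn γ z) + 2 ≤ 2 * 2 ^ γ := by
  have hp : 0 < 2 ^ γ := Nat.two_pow_pos γ
  have h1 := Nat.div_add_mod' z.1 (2 ^ γ)
  have h2 := Nat.div_add_mod' z.2 (2 ^ γ)
  have h3 := Nat.mod_lt z.1 hp
  have h4 := Nat.mod_lt z.2 hp
  simp only [dst, rdn, Nat.dist]
  omega

theorem V_split_le (h j : ℕ) (z : St) {s : ℕ} (hs : s ≤ X) :
    V X ms (h + 1) j z ≤ V X ms h (2 * j) (z.1, s) + V X ms h (2 * j + 1) (s, z.2) := by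
  rw [V]
  exact Finset.inf'_le (fun s => V X ms h (2 * j) (z.1, s) + V X ms h (2 * j + 1) (s, z.2))
    (mem_range.2 (Nat.lt_succ_of_le hs))

theorem V_split_eq (h j : ℕ) (z : St) : ∃ s ≤ X,
    V X ms (h + 1) j z = V X ms h (2 * j) (z.1, s) + V X ms h (2 * j + 1) (s, z.2) := by
  obtain ⟨s, hs, he⟩ := Finset.exists_mem_eq_inf' (s := range (X + 1)) (by simp)
    (fun s => V X ms h (2 * j) (z.1, s) + V X ms h (2 * j + 1) (s, z.2))
  refine ⟨s, Nat.le_of_lt_succ (mem_range.1 hs), ?_⟩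
  rw [V]
  exact he

theorem vleaf_lip (m : ℕ → Bool) (z z' : St) : vleaf m z ≤ vleaf m z' + dst z z' := by
  obtain ⟨a, b⟩ := z
  obtain ⟨a', b'⟩ := z'
  simp only [vleaf, dst, Nat.dist]
  split_ifs with h1 h2 h2
  · omega
  · by_cases hab : a' ≤ b'
    · have h3 : ¬ (List.range' a' (b' + 1 - a')).all m = true := fun h => h2 ⟨hab, h⟩
      rw [List.all_eq_true] at h3
      push Not at h3
      obtain ⟨c, hc, hm⟩ := h3
      have h4 : c ∉ List.range' a (b + 1 - a) := fun h => hm (List.all_eq_true.1 h1.2 c h)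
      rw [List.mem_range'_1] at hc h4
      have := h1.1
      omega
    · have := h1.1
      omega
  · omega
  · omega

/-- `V` is `1`-Lipschitz (leaf: case analysis moving one column by one; then induction). -/
theorem V_lip (h j : ℕ) (z z' : St) : V X ms h j z ≤ V X ms h j z' + dst z z' := by
  induction h generalizing j z z' with
  | zero => exact vleaf_lip _ _ _
  | succ h ih =>
    obtain ⟨s, hs, he⟩ := V_split_eq (X := X) (ms := ms) h j z'
    have h1 := V_split_le (ms := ms) h j z hs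
    have h2 := ih (2 * j) (z.1, s) (z'.1, s)
    have h3 := ih (2 * j + 1) (s, z.2) (s, z'.2)
    simp only [dst, Nat.dist_self] at h2 h3 ⊢
    omega

theorem dist_le_V (h j : ℕ) (z : St) : Nat.dist z.1 z.2 ≤ V X ms h j z := by
  induction h generalizing j z with
  | zero => exact Nat.le_add_right _ _
  | succ h ih =>
    obtain ⟨s, -, he⟩ := V_split_eq (X := X) (ms := ms) h j z
    have h2 := ih (2 * j) (z.1, s)
    have h3 := ih (2 * j + 1) (s, z.2)
    simp only [Nat.dist] at h2 h3 ⊢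
    omega

theorem V_le (h j : ℕ) {z : St} (hz : z.1 ≤ X) :
    V X ms h j z ≤ Nat.dist z.1 z.2 + 2 ^ h := by
  induction h generalizing j z with
  | zero =>
    simp only [V, vleaf]
    split_ifs <;> omega
  | succ h ih =>
    have h1 := V_split_le (ms := ms) h j z hz
    have h2 := ih (2 * j) (z := (z.1, z.1)) hz
    have h3 := ih (2 * j + 1) (z := (z.1, z.2)) hz
    simp only [Nat.dist_self] at h2 h3
    rw [pow_succ]
    omega

/-- Subadditivity along any chain of columns. -/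
theorem V_chain_le (h e j : ℕ) (α : ℕ → ℕ) (hα : ∀ i, α i ≤ X) :
    V X ms (h + e) j (α 0, α (2 ^ e)) ≤
      ∑ i ∈ range (2 ^ e), V X ms h (j * 2 ^ e + i) (α i, α (i + 1)) := by
  induction e generalizing j α with
  | zero => simp
  | succ e ih =>
    have h1 := V_split_le (ms := ms) (h + e) j (α 0, α (2 ^ (e + 1))) (hα (2 ^ e))
    have h2 := ih (2 * j) α hα
    have h3 := ih (2 * j + 1) (fun i => α (2 ^ e + i)) fun i => hα _
    have hp : 2 ^ (e + 1) = 2 ^ e + 2 ^ e := by rw [pow_succ]; ring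
    have e1 : ∀ i, j * (2 ^ e + 2 ^ e) + i = 2 * j * 2 ^ e + i := fun i => by ring
    have e2 : ∀ i, 2 * j * 2 ^ e + (2 ^ e + i) = (2 * j + 1) * 2 ^ e + i := fun i => by ring
    rw [hp] at h1 ⊢
    rw [sum_range_add]
    simp only [e1, e2, Nat.add_assoc, Nat.add_zero] at h1 h2 h3 ⊢
    omega

/-- An optimal chain of columns. -/
theorem V_chain_eq (h e j : ℕ) {z : St} (h1 : z.1 ≤ X) (h2 : z.2 ≤ X) : ∃ α : ℕ → ℕ,
    (∀ i, α i ≤ X) ∧ α 0 = z.1 ∧ α (2 ^ e) = z.2 ∧
      ∑ i ∈ range (2 ^ e), V X ms h (j * 2 ^ e + i) (α i, α (i + 1)) = V X ms (h + e) j z := by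
  induction e generalizing j z with
  | zero =>
    refine ⟨fun i => if i = 0 then z.1 else z.2, fun i => ?_, by simp, by simp, by simp⟩
    dsimp only
    split_ifs
    · exact h1
    · exact h2
  | succ e ih =>
    obtain ⟨s, hs, he⟩ := V_split_eq (X := X) (ms := ms) (h + e) j z
    obtain ⟨α, ha, ha0, ha1, has⟩ := ih (2 * j) (z := (z.1, s)) h1 hs
    obtain ⟨β, hb, hb0, hb1, hbs⟩ := ih (2 * j + 1) (z := (s, z.2)) hs h2
    have hp : 2 ^ (e + 1) = 2 ^ e + 2 ^ e := by rw [pow_succ]; ring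
    have e1 : ∀ i, j * (2 ^ e + 2 ^ e) + i = 2 * j * 2 ^ e + i := fun i => by ring
    have e2 : ∀ i, 2 * j * 2 ^ e + (2 ^ e + i) = (2 * j + 1) * 2 ^ e + i := fun i => by ring
    set γ : ℕ → ℕ := fun i => if i ≤ 2 ^ e then α i else β (i - 2 ^ e) with hγ
    have g1 : ∀ i ≤ 2 ^ e, γ i = α i := fun i hi => if_pos hi
    have g2 : ∀ i, γ (2 ^ e + i) = β i := fun i => by
      rcases Nat.eq_zero_or_pos i with rfl | hi
      · rw [Nat.add_zero, g1 _ le_rfl, ha1, hb0]
      · rw [hγ]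
        dsimp only
        rw [if_neg (by omega), Nat.add_sub_cancel_left]
    refine ⟨γ, fun i => ?_, ?_, ?_, ?_⟩
    · rw [hγ]
      dsimp only
      split_ifs
      · exact ha _
      · exact hb _
    · rw [g1 _ (Nat.zero_le _), ha0]
    · rw [hp, g2, hb1]
    · rw [show h + (e + 1) = h + e + 1 from rfl, he, ← has, ← hbs, hp, sum_range_add]
      congr 1
      · refine sum_congr rfl fun i hi => ?_
        have := mem_range.1 hi
        rw [e1, g1 i (by omega), g1 (i + 1) (by omega)]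
      · refine sum_congr rfl fun i _ => ?_
        rw [e1, e2, Nat.add_assoc (2 ^ e) i 1, g2, g2]

end

end Crest.Agent.R288
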