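/-
R288/Num: rounding, list minima, grid balls, rational `exp` and `log`.
-/
import Crest.Agent.R288.Geo

set_option autoImplicit false

namespace Crest.Agent.R288

open Finset Crest.Agent.Lib.PolyTime

/-- Clamp. -/
def clampQ (lo hi x : ℚ) : ℚ := max lo (min hi x)

/-- Clamp to `[-2^s, 2^s]` and round up to a multiple of `2^{-s}`. -/
def rup (s : ℕ) (x : ℚ) : ℚ := (⌈clampQ (-2 ^ s) (2 ^ s) x * 2 ^ s⌉ : ℤ) / 2 ^ s

/-- Multiples of `2^{-s}`. -/
def OnG (s : ℕ) (x : ℚ) : Prop := ∃ n : ℤ, x = n / 2 ^ s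

/-- Minimum of a list and a default value. -/
def minL (l : List ℚ) (d : ℚ) : ℚ := l.foldr min d

/-- The multiples of `2^γ` in `[0, X]` within distance `r` of `a`. -/
def gball (X γ r a : ℕ) : List ℕ :=
  (List.range (min (a + r) X / 2 ^ γ + 1 - (a - r + 2 ^ γ - 1) / 2 ^ γ)).map
    fun i => ((a - r + 2 ^ γ - 1) / 2 ^ γ + i) * 2 ^ γ

/-- `exp (-x)` up to `2^{-s}` for `x ≥ 0`. -/
def expNeg (s : ℕ) (x : ℚ) : ℚ :=
  if (s : ℚ) < x then 0 else 1 / ∑ i ∈ range (8 * s + 8), x ^ i / (i.factorial : ℚ)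

/-- Partial sums of `-log (1 - v)`. -/
def lser (n : ℕ) (v : ℚ) : ℚ := ∑ i ∈ range n, v ^ (i + 1) / ((i : ℚ) + 1)

/-- `log y` up to `2^{-s}` for `1 ≤ y ≤ 2^s`. -/
def logQ (s : ℕ) (y : ℚ) : ℚ :=
  (Nat.log 2 ⌊y⌋₊ : ℚ) * lser (3 * s + 3) (1 / 2) + lser (3 * s + 3) (1 - 2 ^ Nat.log 2 ⌊y⌋₊ / y)

section
variable {s : ℕ} {x y : ℚ}

theorem clampQ_mem {lo hi : ℚ} (h : lo ≤ hi) (x : ℚ) : lo ≤ clampQ lo hi x ∧ clampQ lo hi x ≤ hi := by
  exact ⟨le_max_left _ _, max_le h (min_le_left _ _)⟩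
theorem clampQ_eq_self {lo hi : ℚ} (h1 : lo ≤ x) (h2 : x ≤ hi) : clampQ lo hi x = x := by
  rw [clampQ, min_eq_right h2, max_eq_right h1]
theorem abs_clampQ_sub_le {lo hi : ℚ} {t : ℝ} (h1 : (lo : ℝ) ≤ t) (h2 : t ≤ hi) (x : ℚ) :
    |(clampQ lo hi x : ℝ) - t| ≤ |(x : ℝ) - t| := by
  unfold clampQ
  push_cast
  rw [abs_le]
  have a1 := le_abs_self ((x : ℝ) - t)
  have a2 := neg_abs_le ((x : ℝ) - t)
  have a3 := abs_nonneg ((x : ℝ) - t)
  constructor
  · have : t - |(x : ℝ) - t| ≤ min (hi : ℝ) x := le_min (by linarith) (by linarith)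
    linarith [le_max_right (lo : ℝ) (min (hi : ℝ) x)]
  · have : max (lo : ℝ) (min (hi : ℝ) x) ≤ t + |(x : ℝ) - t| :=
      max_le (by linarith) ((min_le_right _ _).trans (by linarith))
    linarith

theorem Num_le_rup (s : ℕ) (x : ℚ) : clampQ (-2 ^ s) (2 ^ s) x ≤ rup s x := by
  unfold rup
  rw [le_div_iff₀ (by positivity)]
  exact Int.le_ceil _
theorem Num_rup_lt (s : ℕ) (x : ℚ) : rup s x < clampQ (-2 ^ s) (2 ^ s) x + 1 / 2 ^ s := by
  unfold rup
  rw [div_lt_iff₀ (by positivity), add_mul, one_div_mul_cancel (by positivity)]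
  exact Int.ceil_lt_add_one _
theorem Num_ceil_abs (s : ℕ) (x : ℚ) : |⌈clampQ (-2 ^ s) (2 ^ s) x * 2 ^ s⌉| ≤ 2 ^ s * 2 ^ s := by
  have h0 : (0 : ℚ) < 2 ^ s := by positivity
  obtain ⟨h1, h2⟩ := clampQ_mem (lo := -2 ^ s) (hi := 2 ^ s) (by linarith) x
  rw [abs_le]
  constructor
  · have h3 : ((-(2 ^ s * 2 ^ s) : ℤ) : ℚ) ≤ (⌈clampQ (-2 ^ s) (2 ^ s) x * 2 ^ s⌉ : ℤ) := by
      refine le_trans ?_ (Int.le_ceil _)
      push_cast
      nlinarith
    exact_mod_cast h3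
  · rw [Int.ceil_le]
    push_cast
    nlinarith

theorem min_le_rup (s : ℕ) (x : ℚ) : min x (2 ^ s) ≤ rup s x := by
  refine le_trans ?_ (Num_le_rup s x)
  rw [min_comm]
  exact le_max_right _ _
theorem le_rup (h : x ≤ 2 ^ s) : x ≤ rup s x := by
  have := min_le_rup s x
  rwa [min_eq_left h] at this
theorem rup_le (h : -2 ^ s ≤ x) : rup s x ≤ x + 1 / 2 ^ s := by
  have h1 := Num_rup_lt s x
  have h2 : clampQ (-2 ^ s) (2 ^ s) x ≤ x := max_le h (min_le_right _ _)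
  linarith
theorem abs_rup_sub_le (h : |x| ≤ 2 ^ s) : |rup s x - x| ≤ 1 / 2 ^ s := by
  rw [abs_le] at h ⊢
  have h1 := le_rup h.2
  have h2 := rup_le h.1
  have h3 : (0 : ℚ) < 1 / 2 ^ s := by positivity
  constructor <;> linarith
theorem rup_mono (h : x ≤ y) : rup s x ≤ rup s y := by
  unfold rup
  have h1 : clampQ (-2 ^ s) (2 ^ s) x ≤ clampQ (-2 ^ s) (2 ^ s) y :=
    max_le_max le_rfl (min_le_min le_rfl h)
  have h2 : ⌈clampQ (-2 ^ s) (2 ^ s) x * 2 ^ s⌉ ≤ ⌈clampQ (-2 ^ s) (2 ^ s) y * 2 ^ s⌉ :=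
    Int.ceil_mono (mul_le_mul_of_nonneg_right h1 (by positivity))
  exact div_le_div_of_nonneg_right (by exact_mod_cast h2) (by positivity)
theorem rup_nonneg (h : 0 ≤ x) : 0 ≤ rup s x := by
  exact le_trans (le_min h (by positivity)) (min_le_rup s x)
theorem onG_rup (s : ℕ) (x : ℚ) : OnG s (rup s x) := by
  exact ⟨_, rfl⟩
theorem abs_rup_le (s : ℕ) (x : ℚ) : |rup s x| ≤ 2 ^ s := by
  have h := Num_ceil_abs s x
  unfold rup
  rw [abs_div, abs_of_pos (by positivity : (0 : ℚ) < 2 ^ s), div_le_iff₀ (by positivity)]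
  exact_mod_cast h
theorem rup_eq_self (h : OnG s x) (h' : |x| ≤ 2 ^ s) : rup s x = x := by
  obtain ⟨n, hn⟩ := h
  rw [abs_le] at h'
  unfold rup
  rw [clampQ_eq_self h'.1 h'.2, hn, div_mul_cancel₀ _ (by positivity), Int.ceil_intCast]
/-- Rounding does not pass a grid point. -/
theorem rup_le_of_onG (h : x ≤ y) (hy : OnG s y) (hy' : -2 ^ s ≤ y) : rup s x ≤ y := by
  rcases le_total y (2 ^ s) with h1 | h1
  · exact (rup_mono h).trans (rup_eq_self hy (abs_le.2 ⟨hy', h1⟩)).le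
  · exact ((le_abs_self _).trans (abs_rup_le s x)).trans h1
theorem OnG.add (h : OnG s x) (h' : OnG s y) : OnG s (x + y) := by
  obtain ⟨n, rfl⟩ := h
  obtain ⟨m, rfl⟩ := h'
  exact ⟨n + m, by push_cast; ring⟩
theorem OnG.min (h : OnG s x) (h' : OnG s y) : OnG s (min x y) := by
  rcases min_choice x y with e | e <;> rw [e] <;> assumption
theorem onG_nat (s n : ℕ) : OnG s (n : ℚ) := by
  exact ⟨n * 2 ^ s, by push_cast; field_simp⟩
theorem onG_div {c : ℕ} (hc : c ≤ s) (n : ℕ) : OnG s ((n : ℚ) / 2 ^ c) := by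
  obtain ⟨d, rfl⟩ := Nat.exists_eq_add_of_le hc
  exact ⟨n * 2 ^ d, by push_cast; rw [pow_add]; field_simp⟩
theorem onG_minL {l : List ℚ} {d : ℚ} (hl : ∀ a ∈ l, OnG s a) (hd : OnG s d) : OnG s (minL l d) := by
  induction l with
  | nil => exact hd
  | cons a l ih =>
    exact (hl a List.mem_cons_self).min (ih fun b hb => hl b (List.mem_cons_of_mem _ hb))
theorem esize_rup_le (s : ℕ) (x : ℚ) : esize (rup s x) ≤ 24 * s + 40 := by
  have h := Num_ceil_abs s x
  have e : rup s x = mkRat ⌈clampQ (-2 ^ s) (2 ^ s) x * 2 ^ s⌉ (2 ^ s) := by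
    rw [Rat.mkRat_eq_div, rup]; push_cast; rfl
  have h1 := esize_rat_le (rup s x)
  have h2 := ratH_mkRat_le ⌈clampQ (-2 ^ s) (2 ^ s) x * 2 ^ s⌉ (2 ^ s) (by positivity)
  rw [← e] at h2
  have h3 : (max ⌈clampQ (-2 ^ s) (2 ^ s) x * 2 ^ s⌉.natAbs (2 ^ s)).size ≤ 2 * s + 1 := by
    rw [Nat.size_le]
    have a1 : ⌈clampQ (-2 ^ s) (2 ^ s) x * 2 ^ s⌉.natAbs ≤ 2 ^ s * 2 ^ s := by
      have : ((⌈clampQ (-2 ^ s) (2 ^ s) x * 2 ^ s⌉.natAbs : ℕ) : ℤ) ≤ ((2 ^ s * 2 ^ s : ℕ) : ℤ) := by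
        rw [Int.natCast_natAbs]; exact_mod_cast h
      exact_mod_cast this
    have a2 : 2 ^ s ≤ 2 ^ s * 2 ^ s := Nat.le_mul_of_pos_right _ (by positivity)
    have a3 : 2 ^ (2 * s + 1) = 2 * (2 ^ s * 2 ^ s) := by ring
    have a4 : 0 < 2 ^ s * 2 ^ s := by positivity
    exact max_lt (by omega) (by omega)
  omega

theorem minL_le_of_mem {l : List ℚ} {d a : ℚ} (h : a ∈ l) : minL l d ≤ a := by
  induction l with
  | nil => simp at h
  | cons b l ih =>
    rcases List.mem_cons.1 h with rfl | h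
    · exact min_le_left _ _
    · exact (min_le_right _ _).trans (ih h)
theorem minL_le_default (l : List ℚ) (d : ℚ) : minL l d ≤ d := by
  induction l with
  | nil => exact le_rfl
  | cons b l ih => exact (min_le_right _ _).trans ih
theorem le_minL {l : List ℚ} {d c : ℚ} (hl : ∀ a ∈ l, c ≤ a) (hd : c ≤ d) : c ≤ minL l d := by
  induction l with
  | nil => exact hd
  | cons b l ih =>
    exact le_min (hl b List.mem_cons_self) (ih fun a ha => hl a (List.mem_cons_of_mem _ ha))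
theorem minL_mem (l : List ℚ) (d : ℚ) : minL l d = d ∨ minL l d ∈ l := by
  induction l with
  | nil => exact Or.inl rfl
  | cons b l ih =>
    rcases min_choice b (minL l d) with e | e
    · exact Or.inr (by rw [show minL (b :: l) d = b from e]; exact List.mem_cons_self)
    · rw [show minL (b :: l) d = minL l d from e]
      exact ih.imp id (List.mem_cons_of_mem _)

theorem mem_gball {X γ r a b : ℕ} : b ∈ gball X γ r a ↔ 2 ^ γ ∣ b ∧ b ≤ X ∧ Nat.dist b a ≤ r := by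
  have hg : 0 < 2 ^ γ := by positivity
  unfold gball
  generalize 2 ^ γ = g at *
  have lo : ∀ j, (a - r + g - 1) / g ≤ j ↔ a - r ≤ j * g := fun j => by
    rw [← Nat.lt_succ_iff, Nat.div_lt_iff_lt_mul hg, Nat.succ_mul]; omega
  have hi : ∀ j, j ≤ min (a + r) X / g ↔ j * g ≤ min (a + r) X := fun j =>
    Nat.le_div_iff_mul_le hg
  simp only [List.mem_map, List.mem_range, Nat.dist]
  constructor
  · rintro ⟨i, hi', rfl⟩
    have h1 := (lo ((a - r + g - 1) / g + i)).1 (by omega)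
    have h2 := (hi ((a - r + g - 1) / g + i)).1 (by omega)
    exact ⟨Dvd.intro_left _ rfl, by omega, by omega⟩
  · rintro ⟨⟨j, rfl⟩, h1, h2⟩
    rw [mul_comm] at h1 h2 ⊢
    have h3 := (lo j).2 (by omega)
    have h4 := (hi j).2 (by omega)
    exact ⟨j - (a - r + g - 1) / g, by omega, by rw [Nat.add_sub_cancel' h3]⟩
theorem length_gball_le (X γ r a : ℕ) : (gball X γ r a).length ≤ 2 * (r / 2 ^ γ) + 2 := by
  have hg : 0 < 2 ^ γ := by positivity
  unfold gball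
  rw [List.length_map, List.length_range]
  generalize 2 ^ γ = g at *
  have h1 : min (a + r) X / g * g ≤ min (a + r) X := Nat.div_mul_le_self _ _
  have h2 : a - r + g - 1 < ((a - r + g - 1) / g + 1) * g := by
    rw [mul_comm]; exact Nat.lt_mul_div_succ _ hg
  have h3 : r < (r / g + 1) * g := by rw [mul_comm]; exact Nat.lt_mul_div_succ _ hg
  generalize min (a + r) X / g = hi at *
  generalize (a - r + g - 1) / g = lo at *
  generalize r / g = q at *
  have h4 : hi * g < (lo + 2 * q + 2) * g := by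
    rw [add_mul] at h2 h3
    rw [add_mul, add_mul, mul_assoc]
    omega
  have := Nat.lt_of_mul_lt_mul_right h4
  omega

theorem Num_one_le_sum (hx : 0 ≤ x) (n : ℕ) :
    1 ≤ ∑ i ∈ range (n + 1), x ^ i / (i.factorial : ℚ) := by
  rw [sum_range_succ']
  have : 0 ≤ ∑ i ∈ range n, x ^ (i + 1) / ((i + 1).factorial : ℚ) :=
    sum_nonneg fun i _ => by positivity
  simpa using this

theorem Num_exp_tail {t : ℝ} (h0 : 0 ≤ t) (h1 : t ≤ s) :
    Real.exp t - ∑ i ∈ range (8 * s + 8), t ^ i / (i.factorial : ℝ) ≤ 1 / 2 ^ s := by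
  have hn : ‖(t : ℂ)‖ = t := by rw [Complex.norm_real, Real.norm_of_nonneg h0]
  have h2 := Complex.exp_bound' (x := (t : ℂ)) (n := 8 * s + 8) (by
    rw [hn, div_le_iff₀ (by positivity)]
    push_cast
    have : (0 : ℝ) ≤ s := Nat.cast_nonneg s
    linarith)
  have e : Complex.exp (t : ℂ) - ∑ m ∈ range (8 * s + 8), (t : ℂ) ^ m / m.factorial =
      ((Real.exp t - ∑ i ∈ range (8 * s + 8), t ^ i / (i.factorial : ℝ) : ℝ) : ℂ) := by
    push_cast; rfl
  rw [e, Complex.norm_real, hn] at h2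
  refine (le_abs_self _).trans (h2.trans ?_)
  have h3 := Real.pow_div_factorial_le_exp (2 * t) (by linarith) (8 * s + 8)
  have h4 : Real.exp (2 * t) ≤ 2 ^ (4 * s) := by
    calc Real.exp (2 * t) ≤ Real.exp ((2 * s : ℕ) * 1) := Real.exp_le_exp.2 (by push_cast; linarith)
      _ = Real.exp 1 ^ (2 * s) := Real.exp_nat_mul 1 _
      _ ≤ 4 ^ (2 * s) := by gcongr; linarith [Real.exp_one_lt_three]
      _ = 2 ^ (4 * s) := by rw [show (4 : ℝ) = 2 ^ 2 by norm_num, ← pow_mul]; ring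
  rw [mul_pow, mul_div_assoc] at h3
  have h5 : 0 ≤ t ^ (8 * s + 8) / ((8 * s + 8).factorial : ℝ) := by positivity
  generalize t ^ (8 * s + 8) / ((8 * s + 8).factorial : ℝ) = u at *
  rw [le_div_iff₀ (by positivity)]
  have h6 : (2 : ℝ) ^ (4 * s) * (2 * 2 ^ s) ≤ 2 ^ (8 * s + 8) := by
    rw [← pow_succ', ← pow_add]
    exact pow_le_pow_right₀ (by norm_num) (by omega)
  have h7 : (0 : ℝ) < 2 ^ (4 * s) := by positivity
  have h8 : 2 ^ (4 * s) * (u * 2 * 2 ^ s) ≤ 2 ^ (4 * s) * 1 := by nlinarith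
  exact le_of_mul_le_mul_left h8 h7

theorem Num_lser_err (n : ℕ) {v : ℚ} (h0 : 0 ≤ v) (h1 : v ≤ 1 / 2) :
    |(lser n v : ℝ) + Real.log (1 - (v : ℝ))| ≤ (1 / 2) ^ n := by
  have a0 : (0 : ℝ) ≤ v := by exact_mod_cast h0
  have a1 : (v : ℝ) ≤ 1 / 2 := by
    have : (v : ℝ) ≤ ((1 / 2 : ℚ) : ℝ) := by exact_mod_cast h1
    simpa using this
  have h2 := Real.abs_log_sub_add_sum_range_le (x := (v : ℝ)) (by rw [abs_of_nonneg a0]; linarith) n
  unfold lser
  push_cast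
  refine h2.trans ?_
  rw [abs_of_nonneg a0, div_le_iff₀ (by linarith), pow_succ]
  have h3 : (v : ℝ) ^ n ≤ (1 / 2) ^ n := pow_le_pow_left₀ a0 a1 n
  have h4 : (0 : ℝ) ≤ (v : ℝ) ^ n := by positivity
  nlinarith

theorem expNeg_zero (s : ℕ) : expNeg s 0 = 1 := by
  unfold expNeg
  rw [if_neg (not_lt.2 (Nat.cast_nonneg s)), show 8 * s + 8 = (8 * s + 7) + 1 by ring,
    sum_range_succ']
  simp
theorem expNeg_mem (hx : 0 ≤ x) : 0 ≤ expNeg s x ∧ expNeg s x ≤ 1 := by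
  unfold expNeg
  split_ifs
  · exact ⟨le_rfl, zero_le_one⟩
  · have := Num_one_le_sum hx (8 * s + 7)
    rw [show 8 * s + 7 + 1 = 8 * s + 8 by ring] at this
    exact ⟨by positivity, (div_le_one (by linarith)).2 this⟩
/-- For `x ≤ s` the Taylor tail of `exp x` after `8 s + 8` terms is at most `2^{-s}`
(`Real.exp_bound'` after scaling, or `x^n / n! ≤ (e x / n)^n`); for `x > s`, `exp (-x) ≤ 2^{-s}`. -/
theorem abs_expNeg_sub_le (hx : 0 ≤ x) : |(expNeg s x : ℝ) - Real.exp (-x)| ≤ 1 / 2 ^ s := by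
  have hxR : (0 : ℝ) ≤ x := by exact_mod_cast hx
  unfold expNeg
  split_ifs with h
  · have hR : (s : ℝ) ≤ x := by exact_mod_cast h.le
    rw [Rat.cast_zero, zero_sub, abs_neg, abs_of_pos (Real.exp_pos _), Real.exp_neg, ← one_div]
    refine one_div_le_one_div_of_le (by positivity) ?_
    calc (2 : ℝ) ^ s ≤ Real.exp 1 ^ s := by gcongr; exact Real.exp_one_gt_two.le
      _ = Real.exp s := by rw [← Real.exp_nat_mul, mul_one]
      _ ≤ _ := Real.exp_le_exp.2 hR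
  · have hR : (x : ℝ) ≤ s := by exact_mod_cast not_lt.1 h
    have h1 := Num_one_le_sum hx (8 * s + 7)
    rw [show 8 * s + 7 + 1 = 8 * s + 8 by ring] at h1
    have h1' : (1 : ℝ) ≤ ∑ i ∈ range (8 * s + 8), (x : ℝ) ^ i / (i.factorial : ℝ) := by
      exact_mod_cast h1
    have h2 := Real.sum_le_exp_of_nonneg hxR (8 * s + 8)
    have h3 := Num_exp_tail hxR hR
    push_cast
    generalize ∑ i ∈ range (8 * s + 8), (x : ℝ) ^ i / (i.factorial : ℝ) = S at *
    rw [Real.exp_neg, ← one_div]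
    generalize Real.exp (x : ℝ) = E at *
    have hS : 0 < S := by linarith
    have hE : 0 < E := by linarith
    have h4 : 1 / S - 1 / E = (E - S) / (S * E) := by field_simp
    rw [h4, abs_of_nonneg (div_nonneg (by linarith) (by positivity))]
    refine le_trans (div_le_self (by linarith) (by nlinarith)) h3
/-- `Real.abs_log_sub_add_sum_range_le`. -/
theorem abs_logQ_sub_le (h1 : 1 ≤ y) (h2 : y ≤ 2 ^ s) :
    |(logQ s y : ℝ) - Real.log y| ≤ 1 / 2 ^ s := by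
  have hy0 : (0 : ℚ) < y := by linarith
  have hf : 1 ≤ ⌊y⌋₊ := Nat.le_floor (by exact_mod_cast h1)
  unfold logQ
  generalize hm : Nat.log 2 ⌊y⌋₊ = m
  have a1 : (2 : ℚ) ^ m ≤ y := by
    have : 2 ^ m ≤ ⌊y⌋₊ := hm ▸ Nat.pow_log_le_self 2 (by omega)
    exact le_trans (by exact_mod_cast this) (Nat.floor_le hy0.le)
  have a2 : y < 2 * 2 ^ m := by
    have : ⌊y⌋₊ + 1 ≤ 2 ^ (m + 1) := hm ▸ Nat.lt_pow_succ_log_self (by norm_num) _
    have h3 : ((⌊y⌋₊ + 1 : ℕ) : ℚ) ≤ ((2 ^ (m + 1) : ℕ) : ℚ) := by exact_mod_cast this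
    push_cast at h3
    have := Nat.lt_floor_add_one y
    rw [pow_succ] at h3
    linarith
  have a3 : m ≤ s := by
    have : (2 : ℚ) ^ m ≤ 2 ^ s := a1.trans h2
    exact (pow_le_pow_iff_right₀ (by norm_num)).1 this
  have b0 : (0 : ℝ) < y := by exact_mod_cast hy0
  have b1 : (2 : ℝ) ^ m ≤ y := by exact_mod_cast a1
  have b2 : (y : ℝ) < 2 * 2 ^ m := by exact_mod_cast a2
  have c1 := Num_lser_err (3 * s + 3) (v := 1 / 2) (by norm_num) le_rfl
  have c2 := Num_lser_err (3 * s + 3) (v := 1 - 2 ^ m / y)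
    (by rw [sub_nonneg, div_le_one hy0]; exact a1)
    (by have : 1 / 2 ≤ 2 ^ m / y := by rw [le_div_iff₀ hy0]; linarith
        linarith)
  have e1 : Real.log (1 - ((1 / 2 : ℚ) : ℝ)) = -Real.log 2 := by
    rw [← Real.log_inv]; norm_num
  have e2 : Real.log (1 - ((1 - 2 ^ m / y : ℚ) : ℝ)) = m * Real.log 2 - Real.log y := by
    push_cast
    rw [sub_sub_cancel, Real.log_div (by positivity) b0.ne', Real.log_pow]
  rw [e1] at c1
  rw [e2] at c2
  rw [Rat.cast_add, Rat.cast_mul, Rat.cast_natCast]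
  generalize ((lser (3 * s + 3) (1 / 2) : ℚ) : ℝ) = A at *
  generalize ((lser (3 * s + 3) (1 - 2 ^ m / y) : ℚ) : ℝ) = B at *
  have e3 : m * A + B - Real.log y = m * (A + -Real.log 2) + (B + (m * Real.log 2 - Real.log y)) := by
    ring
  rw [e3]
  refine (abs_add_le _ _).trans ?_
  rw [abs_mul, Nat.abs_cast]
  have d1 : (m : ℝ) + 1 ≤ 2 ^ s := by
    have : m + 1 ≤ 2 ^ s := le_trans (by omega) (Nat.lt_two_pow_self (n := s))
    exact_mod_cast this
  have d2 : (2 : ℝ) ^ s * (1 / 2) ^ (3 * s + 3) ≤ 1 / 2 ^ s := by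
    rw [one_div_pow, mul_one_div, div_le_div_iff₀ (by positivity) (by positivity), one_mul,
      ← pow_add]
    exact pow_le_pow_right₀ (by norm_num) (by omega)
  have d3 : (0 : ℝ) ≤ m := Nat.cast_nonneg m
  have d4 : (0 : ℝ) ≤ (1 / 2) ^ (3 * s + 3) := by positivity
  nlinarith [mul_le_mul_of_nonneg_left c1 d3, mul_le_mul_of_nonneg_right d1 d4]

end

section pt
variable {α : Type} [Enc α]

@[fun_prop] theorem pt_clampQ {lo hi x : α → ℚ} (h1 : PT lo) (h2 : PT hi) (h3 : PT x) :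
    PT fun a => clampQ (lo a) (hi a) (x a) := by
  unfold clampQ; fun_prop
@[fun_prop] theorem pt_rup {s : α → ℕ} {x : α → ℚ} (hs : PT s) (hs' : PB s) (hx : PT x) :
    PT fun a => rup (s a) (x a) := by
  have h2 : PT fun a => (2 : ℚ) ^ s a := PT.rat_pow (PT.const 2) hs hs'
  exact PT.rat_div ((pt_clampQ h2.rat_neg h2 hx).rat_mul h2).rat_ceil.rat_intCast h2
@[fun_prop] theorem pt_minL {l : α → List ℚ} {d : α → ℚ} (hl : PT l) (hd : PT d) :
    PT fun a => minL (l a) (d a) := by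
  exact PT.foldr_select (f := fun _ => min) hl hd (by fun_prop) fun _ x c => min_choice x c
theorem pt_gball {X γ r c : α → ℕ} (hX : PT X) (hγ : PT γ) (hγ' : PB γ) (hr : PT r) (hc : PT c)
    (hb : PB fun a => r a / 2 ^ γ a) : PT fun a => gball (X a) (γ a) (r a) (c a) := by
  have h2 : PT fun a => 2 ^ γ a := PT.nat_pow (PT.const 2) hγ hγ'
  have hlo : PT fun a => (c a - r a + 2 ^ γ a - 1) / 2 ^ γ a :=
    (((hc.nat_sub hr).nat_add h2).nat_sub (PT.const 1)).nat_div h2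
  have hn : PT fun a => min (c a + r a) (X a) / 2 ^ γ a + 1 - (c a - r a + 2 ^ γ a - 1) / 2 ^ γ a :=
    ((((hc.nat_add hr).nat_min hX).nat_div h2).nat_add (PT.const 1)).nat_sub hlo
  have hn' : PB fun a =>
      min (c a + r a) (X a) / 2 ^ γ a + 1 - (c a - r a + 2 ^ γ a - 1) / 2 ^ γ a :=
    (((PB.const 2).mul hb).add (PB.const 2)).mono fun a => by
      have := length_gball_le (X a) (γ a) (r a) (c a)
      rwa [gball, List.length_map, List.length_range] at this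
  exact (PT.range hn hn').map
    (f := fun a i => ((c a - r a + 2 ^ γ a - 1) / 2 ^ γ a + i) * 2 ^ γ a)
    (((hlo.comp PT.fst').nat_add PT.snd').nat_mul (h2.comp PT.fst'))
@[fun_prop] theorem pt_expNeg {s : α → ℕ} {x : α → ℚ} (hs : PT s) (hs' : PB s) (hx : PT x) :
    PT fun a => expNeg (s a) (x a) := by
  have hn : PT fun a => 8 * s a + 8 := by fun_prop
  have hn' : PB fun a => 8 * s a + 8 := by fun_prop
  have hm : PT fun p : α × ℕ => min p.2 (8 * s p.1 + 8) := PT.snd'.nat_min (hn.comp PT.fst')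
  have hm' : PB fun p : α × ℕ => min p.2 (8 * s p.1 + 8) := (hn'.comp PT.fst').min_right
  have h1 := PT.sum_range_rat
    (f := fun a i => x a ^ min i (8 * s a + 8) / ((min i (8 * s a + 8)).factorial : ℚ)) hn hn'
    (((hx.comp PT.fst').rat_pow hm hm').rat_div (PT.factorial hm hm').rat_natCast)
  have h2 : PT fun a => ∑ i ∈ range (8 * s a + 8), x a ^ i / (i.factorial : ℚ) :=
    h1.of_eq fun a => sum_congr rfl fun i hi => by rw [min_eq_left (mem_range.1 hi).le]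
  exact (hs.rat_natCast.rat_lt hx).ite (PT.const 0) ((PT.const 1).rat_div h2)
theorem Num_pt_lser {n : α → ℕ} {v : α → ℚ} (hn : PT n) (hn' : PB n) (hv : PT v) :
    PT fun a => lser (n a) (v a) := by
  have hm : PT fun p : α × ℕ => min p.2 (n p.1) + 1 :=
    (PT.snd'.nat_min (hn.comp PT.fst')).nat_add (PT.const 1)
  have hm' : PB fun p : α × ℕ => min p.2 (n p.1) + 1 :=
    (hn'.comp PT.fst').min_right.add (PB.const 1)
  have h1 := PT.sum_range_rat (f := fun a i => v a ^ (min i (n a) + 1) / ((i : ℚ) + 1)) hn hn'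
    (((hv.comp PT.fst').rat_pow hm hm').rat_div (PT.snd'.rat_natCast.rat_add (PT.const 1)))
  exact h1.of_eq fun a => sum_congr rfl fun i hi => by rw [min_eq_left (mem_range.1 hi).le]
@[fun_prop] theorem pt_logQ {s : α → ℕ} {x : α → ℚ} (hs : PT s) (hs' : PB s) (hx : PT x) :
    PT fun a => logQ (s a) (x a) := by
  have hn : PT fun a => 3 * s a + 3 := by fun_prop
  have hn' : PB fun a => 3 * s a + 3 := by fun_prop
  have hl : PT fun a => Nat.log 2 ⌊x a⌋₊ := PT.nat_log (PT.const 2) hx.rat_natFloor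
  have hl' : PB fun a => Nat.log 2 ⌊x a⌋₊ := PB.log (b := fun _ => 2) hx.rat_natFloor
  exact (hl.rat_natCast.rat_mul (Num_pt_lser hn hn' (PT.const _))).rat_add
    (Num_pt_lser hn hn' ((PT.const 1).rat_sub (((PT.const 2).rat_pow hl hl').rat_div hx)))
@[fun_prop] theorem pt_dist {x y : α → ℕ} (hx : PT x) (hy : PT y) :
    PT fun a => Nat.dist (x a) (y a) := by
  exact (hx.nat_sub hy).nat_add (hy.nat_sub hx)
@[fun_prop] theorem pt_dst {x y : α → St} (hx : PT x) (hy : PT y) :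
    PT fun a => dst (x a) (y a) := by
  exact (pt_dist hx.fst hy.fst).nat_add (pt_dist hx.snd hy.snd)
@[fun_prop] theorem pt_rdn {γ : α → ℕ} {z : α → St} (hγ : PT γ) (hγ' : PB γ) (hz : PT z) :
    PT fun a => rdn (γ a) (z a) := by
  have h2 : PT fun a => 2 ^ γ a := PT.nat_pow (PT.const 2) hγ hγ'
  exact ((hz.fst.nat_div h2).nat_mul h2).prodMk ((hz.snd.nat_div h2).nat_mul h2)

end pt

end Crest.Agent.R288
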