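/-
R288/NumS: rational soft minimum, Gibbs weights and linearised soft minimum.
-/
import Crest.Agent.R288.Num
import Crest.Agent.R288.LS

set_option autoImplicit false

namespace Crest.Agent.R288

open Finset Crest.Agent.Lib.PolyTime

variable {ι : Type}

/-- The smallest cost (`0` for no action). -/
def minA (A : List ι) (x : ι → ℚ) : ℚ := minL (A.map x) ((A.map x).headD 0)

/-- Rational soft minimum. -/
def sminQ (s : ℕ) (η : ℚ) (A : List ι) (x : ι → ℚ) : ℚ :=
  minA A x - logQ s (A.map fun a => expNeg s (η * (x a - minA A x))).sum / η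

/-- Rational Gibbs weights. -/
def gibbsQ (s : ℕ) (η : ℚ) (A : List ι) (x : ι → ℚ) (a : ι) : ℚ :=
  expNeg s (η * (x a - minA A x)) / (A.map fun b => expNeg s (η * (x b - minA A x))).sum

/-- Weights of round `m`. -/
def lsW (s : ℕ) (η : ℚ) (A : List ι) (q : ℕ → ι → ℚ) : ℕ → ι → ℚ
  | 0, _ => 1 / A.length
  | m + 1, a => gibbsQ s η A (fun b => cum q (m + 1) b + q m b) a

/-- Constant term of round `m`. -/
def lsC (s : ℕ) (η : ℚ) (A : List ι) (q : ℕ → ι → ℚ) : ℕ → ℚ
  | 0 => 0
  | m + 1 => sminQ s η A (fun b => cum q (m + 1) b + q m b) - sminQ s η A (cum q (m + 1)) -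
      (A.map fun a => lsW s η A q (m + 1) a * q m a).sum

/-- Rational version of `Phi`: exactly affine in `v`. -/
def lsQ (s : ℕ) (η : ℚ) (A : List ι) (q : ℕ → ι → ℚ) (m : ℕ) (v : ι → ℚ) : ℚ :=
  lsC s η A q m + (A.map fun a => lsW s η A q m a * v a).sum

section aux
variable {s : ℕ} {η : ℚ} {A : List ι} {x : ι → ℚ}

theorem ns_minA_le {a : ι} (ha : a ∈ A) : minA A x ≤ x a :=
  minL_le_of_mem (List.mem_map_of_mem ha)

theorem ns_exists_minA (hA : A ≠ []) : ∃ a ∈ A, x a = minA A x := by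
  obtain ⟨b, B, rfl⟩ := List.exists_cons_of_ne_nil hA
  rcases minL_mem ((b :: B).map x) (((b :: B).map x).headD 0) with h | h
  · exact ⟨b, List.mem_cons_self, by rw [minA, h]; rfl⟩
  · obtain ⟨a, ha, e⟩ := List.mem_map.1 h
    exact ⟨a, ha, e⟩

theorem ns_arg_nonneg (hη : 0 < η) {a : ι} (ha : a ∈ A) : 0 ≤ η * (x a - minA A x) :=
  mul_nonneg hη.le (sub_nonneg.2 (ns_minA_le ha))

theorem ns_sum_le {R : Type} [AddCommMonoid R] [PartialOrder R] [IsOrderedAddMonoid R]
    {f g : ι → R} (h : ∀ a ∈ A, f a ≤ g a) : (A.map f).sum ≤ (A.map g).sum := by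
  induction A with
  | nil => simp
  | cons b B ih =>
    simp only [List.map_cons, List.sum_cons]
    exact add_le_add (h b List.mem_cons_self) (ih fun a ha => h a (List.mem_cons_of_mem _ ha))

theorem ns_single_le {R : Type} [AddCommMonoid R] [PartialOrder R] [IsOrderedAddMonoid R]
    {f : ι → R} (h : ∀ a ∈ A, 0 ≤ f a) {a : ι} (ha : a ∈ A) : f a ≤ (A.map f).sum :=
  List.single_le_sum (fun y hy => by
    obtain ⟨b, hb, rfl⟩ := List.mem_map.1 hy
    exact h b hb) _ (List.mem_map_of_mem ha)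

theorem ns_abs_sum_le (f : ι → ℝ) : |(A.map f).sum| ≤ (A.map fun a => |f a|).sum := by
  induction A with
  | nil => simp
  | cons b B ih =>
    simp only [List.map_cons, List.sum_cons]
    exact (abs_add_le _ _).trans (by linarith)

theorem ns_sum_sub (f g : ι → ℝ) :
    (A.map fun a => f a - g a).sum = (A.map f).sum - (A.map g).sum := by
  induction A with
  | nil => simp
  | cons b B ih => simp only [List.map_cons, List.sum_cons, ih]; ring

theorem ns_sum_add (f g : ι → ℝ) :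
    (A.map fun a => f a + g a).sum = (A.map f).sum + (A.map g).sum := by
  induction A with
  | nil => simp
  | cons b B ih => simp only [List.map_cons, List.sum_cons, ih]; ring

theorem ns_sum_mul {R : Type} [CommSemiring R] (f : ι → R) (c : R) :
    (A.map fun a => f a * c).sum = (A.map f).sum * c := by
  induction A with
  | nil => simp
  | cons b B ih => simp only [List.map_cons, List.sum_cons, ih]; ring

theorem ns_sum_div {R : Type} [Field R] (f : ι → R) (c : R) :
    (A.map fun a => f a / c).sum = (A.map f).sum / c := by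
  simp only [div_eq_mul_inv]
  exact ns_sum_mul f c⁻¹

theorem ns_sum_const {R : Type} [Semiring R] (c : R) :
    (A.map fun _ => c).sum = A.length * c := by
  induction A with
  | nil => simp
  | cons b B ih => simp only [List.map_cons, List.sum_cons, ih, List.length_cons]; push_cast; noncomm_ring

theorem ns_cast_sum (f : ι → ℚ) : (((A.map f).sum : ℚ) : ℝ) = (A.map fun a => (f a : ℝ)).sum := by
  induction A with
  | nil => simp
  | cons b B ih => simp only [List.map_cons, List.sum_cons, Rat.cast_add, ih]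

/-- The rational partition function. -/
def nsS (s : ℕ) (η : ℚ) (A : List ι) (x : ι → ℚ) : ℚ :=
  (A.map fun a => expNeg s (η * (x a - minA A x))).sum

/-- The real partition function, normalised at the minimum. -/
noncomputable def nsT (η : ℚ) (A : List ι) (x : ι → ℚ) : ℝ :=
  (A.map fun a => Real.exp (-((η * (x a - minA A x) : ℚ) : ℝ))).sum

theorem ns_one_le_S (hη : 0 < η) (hA : A ≠ []) : 1 ≤ nsS s η A x := by
  obtain ⟨a, ha, e⟩ := ns_exists_minA (x := x) hA
  have h := ns_single_le (f := fun a => expNeg s (η * (x a - minA A x)))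
    (fun b hb => (expNeg_mem (ns_arg_nonneg hη hb)).1) ha
  simp only [e, sub_self, mul_zero, expNeg_zero] at h
  exact h

theorem ns_S_le (hη : 0 < η) : nsS s η A x ≤ A.length := by
  have h := ns_sum_le (A := A) (f := fun a => expNeg s (η * (x a - minA A x))) (g := fun _ => 1)
    (fun b hb => (expNeg_mem (ns_arg_nonneg hη hb)).2)
  rw [ns_sum_const, mul_one] at h
  exact h

theorem ns_one_le_T (hA : A ≠ []) : 1 ≤ nsT η A x := by
  obtain ⟨a, ha, e⟩ := ns_exists_minA (x := x) hA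
  have h := ns_single_le (f := fun a => Real.exp (-((η * (x a - minA A x) : ℚ) : ℝ)))
    (fun b _ => (Real.exp_pos _).le) ha
  simp only [e, sub_self, mul_zero, Rat.cast_zero, neg_zero, Real.exp_zero] at h
  exact h

theorem ns_sum_abs_le (hη : 0 < η) :
    (A.map fun a => |(expNeg s (η * (x a - minA A x)) : ℝ) -
      Real.exp (-((η * (x a - minA A x) : ℚ) : ℝ))|).sum ≤ A.length / 2 ^ s := by
  have h := ns_sum_le (A := A) (f := fun a => |(expNeg s (η * (x a - minA A x)) : ℝ) -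
      Real.exp (-((η * (x a - minA A x) : ℚ) : ℝ))|) (g := fun _ => (1 / 2 ^ s : ℝ))
    (fun b hb => abs_expNeg_sub_le (ns_arg_nonneg hη hb))
  rw [ns_sum_const] at h
  rw [div_eq_mul_one_div]
  exact h

theorem ns_abs_S_sub_T (hη : 0 < η) : |(nsS s η A x : ℝ) - nsT η A x| ≤ A.length / 2 ^ s := by
  rw [nsS, nsT, ns_cast_sum, ← ns_sum_sub]
  exact (ns_abs_sum_le _).trans (ns_sum_abs_le hη)

theorem ns_exp_eq (a : ι) : Real.exp (-(η : ℝ) * x a) =
    Real.exp (-((η * (x a - minA A x) : ℚ) : ℝ)) * Real.exp (-(η : ℝ) * minA A x) := by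
  rw [← Real.exp_add]; congr 1; push_cast; ring

theorem ns_sum_exp : (A.map fun a => Real.exp (-(η : ℝ) * x a)).sum =
    nsT η A x * Real.exp (-(η : ℝ) * minA A x) := by
  rw [nsT, ← ns_sum_mul]
  congr 1
  exact List.map_congr_left fun a _ => ns_exp_eq a

theorem ns_smin_eq (hη : 0 < η) (hA : A ≠ []) :
    smin η A (fun a => x a) = minA A x - Real.log (nsT η A x) / η := by
  have hT : 0 < nsT η A x := lt_of_lt_of_le one_pos (ns_one_le_T hA)
  have hη' : (η : ℝ) ≠ 0 := by exact_mod_cast hη.ne'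
  rw [smin, ns_sum_exp, Real.log_mul hT.ne' (Real.exp_pos _).ne', Real.log_exp]
  field_simp
  ring

theorem ns_gibbs_eq (a : ι) : gibbs η A (fun b => x b) a =
    Real.exp (-((η * (x a - minA A x) : ℚ) : ℝ)) / nsT η A x := by
  rw [gibbs, ns_sum_exp, ns_exp_eq (A := A) a, mul_div_mul_right _ _ (Real.exp_pos _).ne']

theorem ns_abs_log_sub {u w : ℝ} (hu : 1 ≤ u) (hw : 1 ≤ w) : |Real.log u - Real.log w| ≤ |u - w| := by
  have key : ∀ {u w : ℝ}, 1 ≤ u → 1 ≤ w → Real.log u - Real.log w ≤ |u - w| := by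
    intro u w hu hw
    have hw0 : 0 < w := by linarith
    have hu0 : 0 < u := by linarith
    rw [← Real.log_div hu0.ne' hw0.ne']
    refine (Real.log_le_sub_one_of_pos (div_pos hu0 hw0)).trans ?_
    have e : u / w - 1 = (u - w) / w := by field_simp
    rw [e]
    calc (u - w) / w ≤ |u - w| / w := by gcongr; exact le_abs_self _
      _ ≤ |u - w| := div_le_self (abs_nonneg _) hw
  rw [abs_le]
  constructor
  · have := key hw hu
    rw [abs_sub_comm] at this
    linarith
  · exact key hu hw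

theorem ns_cum_cast (q : ℕ → ι → ℚ) (m : ℕ) (b : ι) :
    ((cum q m b : ℚ) : ℝ) = cum (fun k a => (q k a : ℝ)) m b := by
  simp only [cum]; push_cast; rfl

theorem ns_minA_congr {y : ι → ℚ} (h : ∀ a ∈ A, x a = y a) : minA A x = minA A y := by
  rw [minA, minA, List.map_congr_left h]

theorem ns_S_congr {y : ι → ℚ} (h : ∀ a ∈ A, x a = y a) :
    (A.map fun a => expNeg s (η * (x a - minA A x))).sum =
      (A.map fun a => expNeg s (η * (y a - minA A y))).sum := by
  congr 1
  exact List.map_congr_left fun a ha => by rw [h a ha, ns_minA_congr h]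

theorem ns_sminQ_congr {y : ι → ℚ} (h : ∀ a ∈ A, x a = y a) : sminQ s η A x = sminQ s η A y := by
  rw [sminQ, sminQ, ns_S_congr h, ns_minA_congr h]

theorem ns_gibbsQ_congr {y : ι → ℚ} (h : ∀ a ∈ A, x a = y a) {a : ι} (ha : a ∈ A) :
    gibbsQ s η A x a = gibbsQ s η A y a := by
  rw [gibbsQ, gibbsQ, ns_S_congr h, ns_minA_congr h, h a ha]

theorem ns_cum_congr {q q' : ℕ → ι → ℚ} {m : ℕ} (hq : ∀ k < m, ∀ a ∈ A, q k a = q' k a) {a : ι}
    (ha : a ∈ A) : cum q m a = cum q' m a :=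
  Finset.sum_congr rfl fun k hk => hq k (Finset.mem_range.1 hk) a ha

end aux

section
variable {s : ℕ} {η : ℚ} {A : List ι} {x : ι → ℚ} {q q' : ℕ → ι → ℚ}

theorem abs_sminQ_sub_le (hη : 0 < η) (hA : A ≠ []) (hs : A.length ≤ 2 ^ s) :
    |(sminQ s η A x : ℝ) - smin η A fun a => x a| ≤ (A.length + 1) / 2 ^ s / η := by
  have hη' : (0 : ℝ) < η := by exact_mod_cast hη
  have h1 : 1 ≤ nsS s η A x := ns_one_le_S hη hA
  have h2 : nsS s η A x ≤ 2 ^ s := (ns_S_le hη).trans (by exact_mod_cast hs)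
  have h3 := abs_logQ_sub_le h1 h2
  have h4 := ns_abs_log_sub (u := (nsS s η A x : ℝ)) (by exact_mod_cast h1) (ns_one_le_T (η := η) (x := x) hA)
  have h5 := ns_abs_S_sub_T (s := s) (A := A) (x := x) hη
  have e : (sminQ s η A x : ℝ) - smin η A (fun a => x a) =
      -((logQ s (nsS s η A x) : ℝ) - Real.log (nsT η A x)) / η := by
    rw [ns_smin_eq hη hA, sminQ, ← nsS]; push_cast; ring
  rw [e, abs_div, abs_neg, abs_of_pos hη']
  gcongr
  have h6 := abs_sub_le (logQ s (nsS s η A x) : ℝ) (Real.log (nsS s η A x)) (Real.log (nsT η A x))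
  rw [add_div]
  linarith

theorem gibbsQ_nonneg (hη : 0 < η) {a : ι} (ha : a ∈ A) : 0 ≤ gibbsQ s η A x a := by
  have h1 : 1 ≤ nsS s η A x := ns_one_le_S hη (List.ne_nil_of_mem ha)
  exact div_nonneg (expNeg_mem (ns_arg_nonneg hη ha)).1 (le_trans zero_le_one h1)

theorem sum_gibbsQ (hη : 0 < η) (hA : A ≠ []) : (A.map (gibbsQ s η A x)).sum = 1 := by
  have h1 : 1 ≤ nsS s η A x := ns_one_le_S hη hA
  have e : gibbsQ s η A x = fun a => expNeg s (η * (x a - minA A x)) / nsS s η A x := rfl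
  rw [e, ns_sum_div, ← nsS]
  exact div_self (by linarith)

theorem sum_abs_gibbsQ_sub_le (hη : 0 < η) (hA : A ≠ []) :
    (A.map fun a => |(gibbsQ s η A x a : ℝ) - gibbs η A (fun b => x b) a|).sum ≤
      2 * A.length / 2 ^ s := by
  have h1 : (1 : ℝ) ≤ nsS s η A x := by exact_mod_cast ns_one_le_S (s := s) (x := x) hη hA
  have h2 := ns_one_le_T (η := η) (x := x) hA
  have h5 := ns_abs_S_sub_T (s := s) (A := A) (x := x) hη
  have h6 := ns_sum_abs_le (s := s) (A := A) (x := x) hη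
  set S : ℝ := (nsS s η A x : ℝ) with hS
  set T : ℝ := nsT η A x with hT
  have hS0 : 0 < S := by linarith
  have hT0 : 0 < T := by linarith
  have step : ∀ a ∈ A, |(gibbsQ s η A x a : ℝ) - gibbs η A (fun b => x b) a| ≤
      |(expNeg s (η * (x a - minA A x)) : ℝ) - Real.exp (-((η * (x a - minA A x) : ℚ) : ℝ))| +
        (expNeg s (η * (x a - minA A x)) : ℝ) * (|S - T| / S) := by
    intro a ha
    have he : (0 : ℝ) ≤ (expNeg s (η * (x a - minA A x)) : ℝ) := by
      exact_mod_cast (expNeg_mem (s := s) (ns_arg_nonneg hη ha)).1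
    rw [ns_gibbs_eq, gibbsQ, ← nsS, Rat.cast_div, ← hS, ← hT]
    generalize (expNeg s (η * (x a - minA A x)) : ℝ) = e at he ⊢
    generalize Real.exp (-((η * (x a - minA A x) : ℚ) : ℝ)) = t
    have e1 : e / S - t / T = (e - t) / T + e * ((T - S) / S) / T := by field_simp; ring
    rw [e1]
    refine (abs_add_le _ _).trans (add_le_add ?_ ?_)
    · rw [abs_div, abs_of_pos hT0]; exact div_le_self (abs_nonneg _) h2
    · rw [abs_div, abs_of_pos hT0, abs_mul, abs_of_nonneg he, abs_div, abs_of_pos hS0,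
        abs_sub_comm T S]
      exact div_le_self (by positivity) h2
  refine (ns_sum_le step).trans ?_
  rw [ns_sum_add, ns_sum_mul, ← ns_cast_sum, ← nsS, ← hS, mul_div_cancel₀ _ hS0.ne', mul_div_assoc]
  linarith

theorem lsW_nonneg (hη : 0 < η) (m : ℕ) {a : ι} (ha : a ∈ A) : 0 ≤ lsW s η A q m a := by
  cases m with
  | zero => simp only [lsW]; positivity
  | succ m => rw [lsW]; exact gibbsQ_nonneg hη ha

theorem sum_lsW (hη : 0 < η) (hA : A ≠ []) (m : ℕ) : (A.map (lsW s η A q m)).sum = 1 := by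
  cases m with
  | zero =>
    have e : lsW s η A q 0 = fun _ => (1 / A.length : ℚ) := rfl
    have h : (A.length : ℚ) ≠ 0 := by exact_mod_cast (List.length_pos_iff.2 hA).ne'
    rw [e, ns_sum_const]; field_simp
  | succ m =>
    have e : lsW s η A q (m + 1) = gibbsQ s η A (fun b => cum q (m + 1) b + q m b) := by
      funext a; rw [lsW]
    rw [e]; exact sum_gibbsQ hη hA

theorem lsW_congr (m : ℕ) (hq : ∀ k < m, ∀ a ∈ A, q k a = q' k a) {a : ι} (ha : a ∈ A) :
    lsW s η A q m a = lsW s η A q' m a := by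
  cases m with
  | zero => rfl
  | succ m =>
    rw [lsW, lsW]
    exact ns_gibbsQ_congr (x := fun b => cum q (m + 1) b + q m b)
      (y := fun b => cum q' (m + 1) b + q' m b) (fun b hb => by
      rw [ns_cum_congr hq hb, hq m (Nat.lt_succ_self m) b hb]) ha

theorem lsC_congr (m : ℕ) (hq : ∀ k < m, ∀ a ∈ A, q k a = q' k a) :
    lsC s η A q m = lsC s η A q' m := by
  cases m with
  | zero => rfl
  | succ m =>
    simp only [lsC]
    rw [ns_sminQ_congr (x := fun b => cum q (m + 1) b + q m b)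
      (y := fun b => cum q' (m + 1) b + q' m b) (fun b hb => by
        rw [ns_cum_congr hq hb, hq m (Nat.lt_succ_self m) b hb]),
      ns_sminQ_congr (x := cum q (m + 1)) (y := cum q' (m + 1)) (fun b hb => ns_cum_congr hq hb),
      List.map_congr_left (f := fun a => lsW s η A q (m + 1) a * q m a)
        (g := fun a => lsW s η A q' (m + 1) a * q' m a) (fun b hb => by
        rw [lsW_congr (m + 1) hq hb, hq m (Nat.lt_succ_self m) b hb])]

theorem lsQ_congr (m : ℕ) (hq : ∀ k < m, ∀ a ∈ A, q k a = q' k a) {v v' : ι → ℚ}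
    (hv : ∀ a ∈ A, v a = v' a) : lsQ s η A q m v = lsQ s η A q' m v' := by
  rw [lsQ, lsQ, lsC_congr m hq, List.map_congr_left (f := fun a => lsW s η A q m a * v a)
    (g := fun a => lsW s η A q' m a * v' a) (fun b hb => by rw [lsW_congr m hq hb, hv b hb])]

/-- The affine form evaluated at a real vector is close to `Phi`. -/
theorem abs_ls_sub_Phi_le (hη : 0 < η) (hA : A ≠ []) (hs : A.length ≤ 2 ^ s) (m : ℕ) {v : ι → ℝ}
    {R : ℝ} (hv : ∀ a ∈ A, |v a| ≤ R) (hq : ∀ k < m, ∀ a ∈ A, |(q k a : ℝ)| ≤ R) :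
    |((lsC s η A q m : ℝ) + (A.map fun a => (lsW s η A q m a : ℝ) * v a).sum) -
        Phi η A (fun k a => q k a) m v| ≤ (A.length + 1) / 2 ^ s * (2 / η + 4 * R) := by
  have hη' : (0 : ℝ) < η := by exact_mod_cast hη
  have hR : 0 ≤ R := by
    obtain ⟨a, ha⟩ := List.exists_mem_of_ne_nil A hA
    exact (abs_nonneg _).trans (hv a ha)
  cases m with
  | zero =>
    have e : (A.map fun a => (lsW s η A q 0 a : ℝ) * v a).sum = (A.map v).sum / A.length := by
      rw [← ns_sum_div]
      congr 1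
      refine List.map_congr_left fun a _ => ?_
      simp only [lsW]; push_cast; ring
    rw [e]
    simp only [lsC, Phi, Rat.cast_zero, zero_add, sub_self, abs_zero]
    positivity
  | succ m =>
    have h1 := abs_sminQ_sub_le (s := s) (x := fun b => cum q (m + 1) b + q m b) hη hA hs
    have h2 := abs_sminQ_sub_le (s := s) (x := cum q (m + 1)) hη hA hs
    have h3 := sum_abs_gibbsQ_sub_le (s := s) (x := fun b => cum q (m + 1) b + q m b) hη hA
    have c1 : (fun b => ((cum q (m + 1) b + q m b : ℚ) : ℝ)) =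
        fun b => cum (fun k a => (q k a : ℝ)) (m + 1) b + (q m b : ℝ) := by
      funext b; rw [Rat.cast_add, ns_cum_cast]
    have c2 : (fun b => ((cum q (m + 1) b : ℚ) : ℝ)) = cum (fun k a => (q k a : ℝ)) (m + 1) := by
      funext b; rw [ns_cum_cast]
    rw [c1] at h1 h3
    rw [c2] at h2
    simp only [lsC, lsW, Phi]
    rw [Rat.cast_sub, Rat.cast_sub, ns_cast_sum]
    set G : ι → ℝ := gibbs η A fun b => cum (fun k a => (q k a : ℝ)) (m + 1) b + (q m b : ℝ) with hG
    set W : ι → ℚ := gibbsQ s η A fun b => cum q (m + 1) b + q m b with hW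
    have e : (A.map fun a => (W a : ℝ) * v a).sum - (A.map fun a => ((W a * q m a : ℚ) : ℝ)).sum -
        (A.map fun a => G a * (v a - q m a)).sum =
        (A.map fun a => ((W a : ℝ) - G a) * (v a - q m a)).sum := by
      rw [← ns_sum_sub, ← ns_sum_sub]
      congr 1
      refine List.map_congr_left fun a _ => ?_
      push_cast; ring
    have h4 : |(A.map fun a => ((W a : ℝ) - G a) * (v a - q m a)).sum| ≤
        2 * A.length / 2 ^ s * (2 * R) := by
      refine (ns_abs_sum_le _).trans ?_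
      refine (ns_sum_le (g := fun a => |(W a : ℝ) - G a| * (2 * R)) fun a ha => ?_).trans ?_
      · rw [abs_mul]
        have h5 := hv a ha
        have h6 := hq m (Nat.lt_succ_self m) a ha
        have h7 := abs_sub (v a) (q m a : ℝ)
        gcongr
        linarith
      · rw [ns_sum_mul]
        gcongr
    rw [← e] at h4
    have h8 : 2 * (A.length : ℝ) / 2 ^ s * (2 * R) ≤ (A.length + 1) / 2 ^ s * (4 * R) := by
      have : 2 * (A.length : ℝ) / 2 ^ s * (2 * R) = A.length / 2 ^ s * (4 * R) := by ring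
      rw [this]
      gcongr
      linarith
    have h9 : ((A.length : ℝ) + 1) / 2 ^ s * (2 / η + 4 * R) =
        (A.length + 1) / 2 ^ s / η + (A.length + 1) / 2 ^ s / η + (A.length + 1) / 2 ^ s * (4 * R) := by
      ring
    rw [h9]
    rw [abs_le] at h1 h2 h4 ⊢
    constructor <;> linarith [h1.1, h1.2, h2.1, h2.2, h4.1, h4.2]

theorem abs_lsQ_sub_Phi_le (hη : 0 < η) (hA : A ≠ []) (hs : A.length ≤ 2 ^ s) (m : ℕ) {v : ι → ℚ}
    {R : ℝ} (hv : ∀ a ∈ A, |(v a : ℝ)| ≤ R) (hq : ∀ k < m, ∀ a ∈ A, |(q k a : ℝ)| ≤ R) :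
    |(lsQ s η A q m v : ℝ) - Phi η A (fun k a => q k a) m fun a => v a| ≤
      (A.length + 1) / 2 ^ s * (2 / η + 4 * R) := by
  have h := abs_ls_sub_Phi_le (q := q) hη hA hs m (v := fun a => (v a : ℝ)) hv hq
  rw [lsQ, Rat.cast_add, ns_cast_sum]
  simp only [Rat.cast_mul]
  exact h

end

section pt
variable {α : Type} [Enc α] [Enc ι]

theorem ns_pt_minA {A : α → List ι} {x : α → ι → ℚ} (hA : PT A) (hx : PT fun p : α × ι => x p.1 p.2) :
    PT fun a => minA (A a) (x a) := by
  have h : PT fun a => (A a).map (x a) := PT.map hA hx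
  exact pt_minL h (PT.headD h (PT.const 0))

theorem ns_pt_S {s : α → ℕ} {η : α → ℚ} {A : α → List ι} {x : α → ι → ℚ} (hs : PT s) (hs' : PB s)
    (hη : PT η) (hA : PT A) (hx : PT fun p : α × ι => x p.1 p.2) :
    PT fun a => ((A a).map fun b => expNeg (s a) (η a * (x a b - minA (A a) (x a)))).sum := by
  have hm := ns_pt_minA hA hx
  have h : PT fun p : α × ι => expNeg (s p.1) (η p.1 * (x p.1 p.2 - minA (A p.1) (x p.1))) := by
    have h1 : PT fun p : α × ι => minA (A p.1) (x p.1) := hm.comp PT.fst'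
    have h2 : PT fun p : α × ι => η p.1 := hη.comp PT.fst'
    exact pt_expNeg (hs.comp PT.fst') (hs'.comp PT.fst') (PT.rat_mul h2 (PT.rat_sub hx h1))
  exact PT.rat_sum (PT.map (f := fun a b => expNeg (s a) (η a * (x a b - minA (A a) (x a)))) hA h)

theorem pt_sminQ {s : α → ℕ} {η : α → ℚ} {A : α → List ι} {x : α → ι → ℚ} (hs : PT s) (hs' : PB s)
    (hη : PT η) (hA : PT A) (hx : PT fun p : α × ι => x p.1 p.2) :
    PT fun a => sminQ (s a) (η a) (A a) (x a) := by
  have hm := ns_pt_minA hA hx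
  have hl := pt_logQ hs hs' (ns_pt_S hs hs' hη hA hx)
  exact PT.rat_sub hm (PT.rat_div hl hη)

theorem pt_gibbsQ {s : α → ℕ} {η : α → ℚ} {A : α → List ι} {x : α → ι → ℚ} {b : α → ι} (hs : PT s)
    (hs' : PB s) (hη : PT η) (hA : PT A) (hx : PT fun p : α × ι => x p.1 p.2) (hb : PT b) :
    PT fun a => gibbsQ (s a) (η a) (A a) (x a) (b a) := by
  have hm := ns_pt_minA hA hx
  have hS := ns_pt_S hs hs' hη hA hx
  have hxb := hx.comp (PT.prodMk PT.id' hb)
  dsimp only at hxb
  have he := pt_expNeg hs hs' (PT.rat_mul hη (PT.rat_sub hxb hm))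
  exact PT.rat_div he hS

omit [Enc ι] in
theorem ns_lsW_eq (s : ℕ) (η : ℚ) (A : List ι) (q : ℕ → ι → ℚ) (m : ℕ) (b : ι) :
    (if m = 0 then (1 / (A.length : ℚ) : ℚ) else
      gibbsQ s η A (fun b => cum q m b + q (m - 1) b) b) = lsW s η A q m b := by
  cases m with
  | zero => rfl
  | succ k => rw [if_neg (Nat.succ_ne_zero k)]; rfl

omit [Enc ι] in
theorem ns_lsC_eq (s : ℕ) (η : ℚ) (A : List ι) (q : ℕ → ι → ℚ) (m : ℕ) :
    (if m = 0 then (0 : ℚ) else sminQ s η A (fun b => cum q m b + q (m - 1) b) -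
      sminQ s η A (cum q m) - (A.map fun b => lsW s η A q m b * q (m - 1) b).sum) =
      lsC s η A q m := by
  cases m with
  | zero => rfl
  | succ k => rw [if_neg (Nat.succ_ne_zero k)]; rfl

theorem ns_pt_cum {q : α → ℕ → ι → ℚ} {m : α → ℕ}
    (hq : PT fun p : α × ℕ × ι => q p.1 p.2.1 p.2.2) (hm : PT m) (hm' : PB m) :
    PT fun p : α × ι => cum (q p.1) (m p.1) p.2 := by
  have h0 : PT fun r : (α × ι) × ℕ => (r.1.1, r.2, r.1.2) := by fun_prop
  have h1 := PT.comp hq h0
  dsimp only at h1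
  exact PT.sum_range_rat (n := fun p : α × ι => m p.1) (f := fun p k => q p.1 k p.2)
    (hm.comp PT.fst') (hm'.comp PT.fst') h1

theorem ns_pt_q1 {q : α → ℕ → ι → ℚ} {m : α → ℕ}
    (hq : PT fun p : α × ℕ × ι => q p.1 p.2.1 p.2.2) (hm : PT m) :
    PT fun p : α × ι => q p.1 (m p.1 - 1) p.2 := by
  have h1 : PT fun p : α × ι => m p.1 := hm.comp PT.fst'
  have h0 : PT fun r : α × ι => (r.1, m r.1 - 1, r.2) :=
    PT.prodMk PT.fst' (PT.prodMk (PT.nat_sub h1 (PT.const 1)) PT.snd')
  have h2 := PT.comp hq h0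
  dsimp only at h2
  exact h2

theorem ns_pt_lsW {s : α → ℕ} {η : α → ℚ} {A : α → List ι} {q : α → ℕ → ι → ℚ} {m : α → ℕ}
    (hs : PT s) (hs' : PB s) (hη : PT η) (hA : PT A)
    (hq : PT fun p : α × ℕ × ι => q p.1 p.2.1 p.2.2) (hm : PT m) (hm' : PB m) :
    PT fun p : α × ι => lsW (s p.1) (η p.1) (A p.1) (q p.1) (m p.1) p.2 := by
  have hx : PT fun p : α × ι => cum (q p.1) (m p.1) p.2 + q p.1 (m p.1 - 1) p.2 :=
    PT.rat_add (ns_pt_cum hq hm hm') (ns_pt_q1 hq hm)
  have h0 : PT fun r : (α × ι) × ι => (r.1.1, r.2) := by fun_prop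
  have hx' := PT.comp hx h0
  dsimp only at hx'
  have h2 : PT fun p : α × ι => A p.1 := hA.comp PT.fst'
  have hg : PT fun p : α × ι => gibbsQ (s p.1) (η p.1) (A p.1)
      (fun b => cum (q p.1) (m p.1) b + q p.1 (m p.1 - 1) b) p.2 :=
    pt_gibbsQ (α := α × ι) (s := fun p => s p.1) (η := fun p => η p.1) (A := fun p => A p.1)
      (x := fun p b => cum (q p.1) (m p.1) b + q p.1 (m p.1 - 1) b) (b := fun p => p.2)
      (hs.comp PT.fst') (hs'.comp PT.fst') (hη.comp PT.fst') h2 hx' PT.snd'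
  have h1 : PT fun p : α × ι => m p.1 := hm.comp PT.fst'
  have h3 : PT fun p : α × ι => (1 / ((A p.1).length : ℚ) : ℚ) :=
    PT.rat_div (PT.const 1) (PT.rat_natCast (PT.length h2))
  have h4 : PT fun p : α × ι => m p.1 = 0 := PT.eq h1 (PT.const 0)
  exact (PT.ite h4 h3 hg).of_eq fun p => ns_lsW_eq _ _ _ _ _ _

theorem pt_lsQ {s : α → ℕ} {η : α → ℚ} {A : α → List ι} {q : α → ℕ → ι → ℚ} {m : α → ℕ}
    {v : α → ι → ℚ} (hs : PT s) (hs' : PB s) (hη : PT η) (hA : PT A)
    (hq : PT fun p : α × ℕ × ι => q p.1 p.2.1 p.2.2) (hm : PT m) (hm' : PB m)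
    (hv : PT fun p : α × ι => v p.1 p.2) :
    PT fun a => lsQ (s a) (η a) (A a) (q a) (m a) (v a) := by
  have hc := ns_pt_cum hq hm hm'
  have hq1 := ns_pt_q1 hq hm
  have hW := ns_pt_lsW hs hs' hη hA hq hm hm'
  have s1 := pt_sminQ (x := fun a b => cum (q a) (m a) b + q a (m a - 1) b) hs hs' hη hA
    (PT.rat_add hc hq1)
  have s2 := pt_sminQ (x := fun a => cum (q a) (m a)) hs hs' hη hA hc
  have s3 := PT.rat_sum (PT.map
    (f := fun a b => lsW (s a) (η a) (A a) (q a) (m a) b * q a (m a - 1) b) hA (PT.rat_mul hW hq1))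
  have s4 := PT.rat_sum (PT.map
    (f := fun a b => lsW (s a) (η a) (A a) (q a) (m a) b * v a b) hA (PT.rat_mul hW hv))
  have h4 : PT fun a => m a = 0 := PT.eq hm (PT.const 0)
  have hC : PT fun a => lsC (s a) (η a) (A a) (q a) (m a) :=
    (PT.ite h4 (PT.const (0 : ℚ)) (PT.rat_sub (PT.rat_sub s1 s2) s3)).of_eq
      fun a => ns_lsC_eq _ _ _ _ _
  exact PT.rat_add hC s4

end pt

end Crest.Agent.R288
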