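/-
R288/Est: an almost unbiased estimator of a soft minimum from few independent noisy copies.
-/
import Crest.Agent.R288.NumS
import Crest.Agent.R288.Prob

set_option autoImplicit false

namespace Crest.Agent.R288

open Finset Crest.Agent.Lib.PolyTime

variable {ι : Type}

/-- Polarised Taylor polynomial of `exp (-u) - 1`. -/
def tayE {R : Type} [Field R] (k : ℕ) (u : ℕ → R) : R :=
  ∑ r ∈ range k, (-1) ^ (r + 1) / ((r + 1).factorial : R) * ∏ l ∈ range (r + 1), u l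

/-- Polarised Taylor polynomial of `log (1 + y)`. -/
def tayL {R : Type} [Field R] (k : ℕ) (y : ℕ → R) : R :=
  ∑ r ∈ range k, (-1) ^ r / ((r : R) + 1) * ∏ i ∈ range (r + 1), y i

/-- The estimator: pilot `q0`, copies `qq i l` (`i, l < k`). -/
def estQ (s : ℕ) (β : ℚ) (k : ℕ) (A : List ι) (q0 : ι → ℚ) (qq : ℕ → ℕ → ι → ℚ) : ℚ :=
  sminQ s β A q0 - tayL k (fun i => (A.map fun a => gibbsQ s β A q0 a *
    tayE k fun l => clampQ (-1 / 4) (1 / 4) (β * (qq i l a - q0 a))).sum) / β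

theorem est_abs_prod_le {u : ℕ → ℝ} {x : ℝ} (m : ℕ) (h : ∀ l < m, |u l| ≤ x) :
    |∏ l ∈ range m, u l| ≤ x ^ m := by
  rw [abs_prod]
  refine (prod_le_prod (fun l _ => abs_nonneg _) fun l hl => h l (mem_range.1 hl)).trans (le_of_eq ?_)
  simp

theorem est_abs_prod_sub_le {u : ℕ → ℝ} {x v b : ℝ} (hv : |v| ≤ x) (m : ℕ) (h : ∀ l < m + 1, |u l| ≤ x)
    (hu : ∀ l < m + 1, |u l - v| ≤ b) :
    |∏ l ∈ range (m + 1), u l - v ^ (m + 1)| ≤ (m + 1) * (x ^ m * b) := by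
  have hx : 0 ≤ x := (abs_nonneg v).trans hv
  induction m with
  | zero => simpa using hu 0 one_pos
  | succ m ih =>
    have h1 := ih (fun l hl => h l (by omega)) fun l hl => hu l (by omega)
    have h2 := h (m + 1) (by omega)
    have h3 := hu (m + 1) (by omega)
    have h4 : |v ^ (m + 1)| ≤ x ^ (m + 1) := by rw [abs_pow]; exact pow_le_pow_left₀ (abs_nonneg v) hv _
    have e : ∏ l ∈ range (m + 1 + 1), u l - v ^ (m + 1 + 1) =
        (∏ l ∈ range (m + 1), u l - v ^ (m + 1)) * u (m + 1) + v ^ (m + 1) * (u (m + 1) - v) := by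
      rw [prod_range_succ _ (m + 1)]; ring
    rw [e]
    refine (abs_add_le _ _).trans ?_
    rw [abs_mul, abs_mul]
    have h5 := mul_le_mul h1 h2 (abs_nonneg _) ((abs_nonneg _).trans h1)
    have h6 := mul_le_mul h4 h3 (abs_nonneg _) (pow_nonneg hx _)
    refine (add_le_add h5 h6).trans (le_of_eq ?_)
    push_cast
    ring

theorem est_geom_le {x : ℝ} (h0 : 0 ≤ x) (h1 : x < 1) (k : ℕ) : ∑ r ∈ range k, x ^ r ≤ 1 / (1 - x) := by
  rw [le_div_iff₀ (by linarith), geom_sum_mul_neg]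
  have := pow_nonneg h0 k
  linarith

theorem est_abs_tay_le {c u : ℕ → ℝ} {x : ℝ} (h0 : 0 ≤ x) (h1 : x < 1) (hc : ∀ r : ℕ, |c r| * (r + 1) ≤ 1)
    (k : ℕ) (h : ∀ l < k, |u l| ≤ x) :
    |∑ r ∈ range k, c r * ∏ l ∈ range (r + 1), u l| ≤ x / (1 - x) := by
  refine (abs_sum_le_sum_abs _ _).trans ((sum_le_sum (g := fun r => x * x ^ r) fun r hr => ?_).trans ?_)
  · have h2 := est_abs_prod_le (r + 1) fun l hl => h l (by have := mem_range.1 hr; omega)
    have h3 : |c r| ≤ 1 := by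
      have := hc r
      have := abs_nonneg (c r)
      have : (0 : ℝ) ≤ r := Nat.cast_nonneg r
      nlinarith
    rw [abs_mul, ← pow_succ']
    exact (mul_le_mul h3 h2 (abs_nonneg _) zero_le_one).trans (one_mul _).le
  · rw [← mul_sum, div_eq_mul_one_div]
    exact mul_le_mul_of_nonneg_left (est_geom_le h0 h1 k) h0

theorem est_abs_tay_sub_le {c u : ℕ → ℝ} {x v b : ℝ} (h1 : x ≤ 1 / 2) (hb : 0 ≤ b) (hv : |v| ≤ x)
    (hc : ∀ r : ℕ, |c r| * (r + 1) ≤ 1) (k : ℕ) (h : ∀ l < k, |u l| ≤ x) (hu : ∀ l < k, |u l - v| ≤ b) :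
    |∑ r ∈ range k, c r * ∏ l ∈ range (r + 1), u l - ∑ r ∈ range k, c r * v ^ (r + 1)| ≤ 2 * b := by
  have h0 : 0 ≤ x := (abs_nonneg v).trans hv
  rw [← sum_sub_distrib]
  refine (abs_sum_le_sum_abs _ _).trans ((sum_le_sum (g := fun r => x ^ r * b) fun r hr => ?_).trans ?_)
  · have hr' := mem_range.1 hr
    have h2 := est_abs_prod_sub_le hv r (fun l hl => h l (by omega)) fun l hl => hu l (by omega)
    rw [← mul_sub, abs_mul]
    refine (mul_le_mul_of_nonneg_left h2 (abs_nonneg _)).trans ?_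
    rw [← mul_assoc]
    exact (mul_le_mul_of_nonneg_right (hc r) (by positivity)).trans (one_mul _).le
  · rw [← sum_mul]
    refine mul_le_mul_of_nonneg_right ((est_geom_le h0 (by linarith) k).trans ?_) hb
    rw [div_le_iff₀ (by linarith)]
    linarith

theorem est_cE (r : ℕ) : |(-1 : ℝ) ^ (r + 1) / ((r + 1).factorial : ℝ)| * (r + 1) ≤ 1 := by
  have h : ((r + 1 : ℕ) : ℝ) ≤ ((r + 1).factorial : ℝ) := Nat.cast_le.2 (Nat.self_le_factorial _)
  have h0 : (0 : ℝ) < ((r + 1).factorial : ℝ) := by positivity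
  rw [abs_div, abs_pow, abs_neg, abs_one, one_pow, abs_of_pos h0, div_mul_eq_mul_div, div_le_one h0]
  push_cast at h
  linarith

theorem est_cL (r : ℕ) : |(-1 : ℝ) ^ r / ((r : ℝ) + 1)| * (r + 1) ≤ 1 := by
  have h0 : (0 : ℝ) < (r : ℝ) + 1 := by positivity
  rw [abs_div, abs_pow, abs_neg, abs_one, one_pow, abs_of_pos h0, div_mul_cancel₀ _ h0.ne']

theorem abs_tayE_le (k : ℕ) {u : ℕ → ℝ} (h : ∀ l < k, |u l| ≤ 1 / 4) : |tayE k u| ≤ 1 / 3 :=
  (est_abs_tay_le (by norm_num) (by norm_num) est_cE k h).trans (by norm_num)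

theorem abs_tayL_le (k : ℕ) {y : ℕ → ℝ} (h : ∀ i < k, |y i| ≤ 1 / 3) : |tayL k y| ≤ 1 / 2 :=
  (est_abs_tay_le (by norm_num) (by norm_num) est_cL k h).trans (by norm_num)

theorem abs_tayE_sub_le (k : ℕ) {u : ℕ → ℝ} {v b : ℝ} (hb : 0 ≤ b) (hv : |v| ≤ 1 / 4)
    (h : ∀ l < k, |u l| ≤ 1 / 4) (hu : ∀ l < k, |u l - v| ≤ b) :
    |tayE k u - (Real.exp (-v) - 1)| ≤ 2 * b + (1 / 2) ^ k := by
  have h1 := est_abs_tay_sub_le (by norm_num) hb hv est_cE k h hu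
  have h2 := Real.exp_bound (x := -v) (by rw [abs_neg]; linarith) (n := k + 1) k.succ_pos
  have e : ∑ m ∈ range (k + 1), (-v) ^ m / (m.factorial : ℝ) =
      ∑ r ∈ range k, (-1) ^ (r + 1) / ((r + 1).factorial : ℝ) * v ^ (r + 1) + 1 := by
    rw [sum_range_succ']
    congr 1
    · exact sum_congr rfl fun r _ => by rw [neg_pow]; ring
    · simp
  have h3 : |-v| ^ (k + 1) * (((k + 1).succ : ℝ) / (((k + 1).factorial : ℝ) * (k + 1 : ℕ))) ≤ (1 / 2) ^ k := by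
    have a1 : |-v| ^ (k + 1) ≤ (1 / 2) ^ (k + 1) :=
      pow_le_pow_left₀ (abs_nonneg _) (by rw [abs_neg]; linarith) _
    have a2 : ((k + 1).succ : ℝ) / (((k + 1).factorial : ℝ) * (k + 1 : ℕ)) ≤ 2 := by
      have b1 : (1 : ℝ) ≤ ((k + 1).factorial : ℝ) := Nat.one_le_cast.2 (Nat.factorial_pos _)
      have b2 : (0 : ℝ) ≤ k := Nat.cast_nonneg k
      rw [div_le_iff₀ (by positivity)]
      push_cast
      nlinarith
    refine (mul_le_mul a1 a2 (by positivity) (by positivity)).trans (le_of_eq ?_)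
    ring
  rw [e] at h2
  unfold tayE
  have h4 := abs_le.1 h1
  have h5 := abs_le.1 (h2.trans h3)
  exact abs_le.2 ⟨by linarith [h4.1, h5.2], by linarith [h4.2, h5.1]⟩

theorem abs_tayL_sub_le (k : ℕ) {y : ℕ → ℝ} {w b : ℝ} (hb : 0 ≤ b) (hw : |w| ≤ 1 / 3)
    (h : ∀ i < k, |y i| ≤ 1 / 3) (hy : ∀ i < k, |y i - w| ≤ b) :
    |tayL k y - Real.log (1 + w)| ≤ 2 * b + (1 / 2) ^ k := by
  have h1 := est_abs_tay_sub_le (by norm_num) hb hw est_cL k h hy
  have h2 := Real.abs_log_sub_add_sum_range_le (x := -w) (by rw [abs_neg]; linarith) k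
  have e : ∑ i ∈ range k, (-w) ^ (i + 1) / ((i : ℝ) + 1) =
      -∑ r ∈ range k, (-1) ^ r / ((r : ℝ) + 1) * w ^ (r + 1) := by
    rw [← sum_neg_distrib]
    exact sum_congr rfl fun r _ => by rw [neg_pow]; ring
  have h3 : |-w| ^ (k + 1) / (1 - |-w|) ≤ (1 / 2) ^ k := by
    rw [abs_neg, div_le_iff₀ (by linarith), pow_succ]
    exact mul_le_mul (pow_le_pow_left₀ (abs_nonneg _) (by linarith) _) (by linarith) (abs_nonneg _)
      (by positivity)
  rw [e, sub_neg_eq_add] at h2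
  unfold tayL
  have h4 := abs_le.1 h1
  have h5 := abs_le.1 (h2.trans h3)
  exact abs_le.2 ⟨by linarith [h4.1, h5.2], by linarith [h4.2, h5.1]⟩

theorem est_cast (s : ℕ) (β : ℚ) (k : ℕ) (A : List ι) (q0 : ι → ℚ) (qq : ℕ → ℕ → ι → ℚ) :
    (estQ s β k A q0 qq : ℝ) = sminQ s β A q0 - tayL k (fun i => (A.map fun a => (gibbsQ s β A q0 a : ℝ) *
      tayE k fun l => (clampQ (-1 / 4) (1 / 4) (β * (qq i l a - q0 a)) : ℝ)).sum) / β := by
  simp [estQ, tayL, tayE, Rat.cast_list_sum, Function.comp_def]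

theorem est_abs_wsum_le' {A : List ι} {w f : ι → ℝ} {c : ℝ} (hw : ∀ a ∈ A, 0 ≤ w a)
    (hf : ∀ a ∈ A, |f a| ≤ c) : |(A.map fun a => w a * f a).sum| ≤ c * (A.map w).sum := by
  induction A with
  | nil => simp
  | cons a A ih =>
    have h1 := ih (fun b hb => hw b (List.mem_cons_of_mem _ hb)) fun b hb => hf b (List.mem_cons_of_mem _ hb)
    have h2 := hw a List.mem_cons_self
    have h3 := hf a List.mem_cons_self
    simp only [List.map_cons, List.sum_cons]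
    refine (abs_add_le _ _).trans ?_
    rw [abs_mul, abs_of_nonneg h2]
    nlinarith

theorem est_abs_wsum_sub_le {A : List ι} {w w' f : ι → ℝ} {c : ℝ} (hf : ∀ a ∈ A, |f a| ≤ c) :
    |(A.map fun a => w a * f a).sum - (A.map fun a => w' a * f a).sum| ≤
      c * (A.map fun a => |w a - w' a|).sum := by
  induction A with
  | nil => simp
  | cons a A ih =>
    have h1 := ih fun b hb => hf b (List.mem_cons_of_mem _ hb)
    have h3 := hf a List.mem_cons_self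
    simp only [List.map_cons, List.sum_cons]
    rw [add_sub_add_comm, ← sub_mul]
    refine (abs_add_le _ _).trans ?_
    rw [abs_mul]
    nlinarith [abs_nonneg (w a - w' a)]

theorem est_wsum_sub (A : List ι) (w f g : ι → ℝ) :
    (A.map fun a => w a * (f a - g a)).sum = (A.map fun a => w a * f a).sum - (A.map fun a => w a * g a).sum := by
  induction A with
  | nil => simp
  | cons a A ih => simp only [List.map_cons, List.sum_cons, ih]; ring

theorem est_abs_gsum_le {s : ℕ} {β : ℚ} {A : List ι} (hβ : 0 < β) (hA : A ≠ []) (q0 : ι → ℚ) {f : ι → ℝ}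
    {c : ℝ} (hf : ∀ a ∈ A, |f a| ≤ c) : |(A.map fun a => (gibbsQ s β A q0 a : ℝ) * f a).sum| ≤ c := by
  have h1 := est_abs_wsum_le' (w := fun a => (gibbsQ s β A q0 a : ℝ))
    (fun a ha => by exact_mod_cast gibbsQ_nonneg hβ ha) hf
  have h2 : (A.map fun a => (gibbsQ s β A q0 a : ℝ)).sum = 1 := by
    have := congrArg (Rat.cast : ℚ → ℝ) (sum_gibbsQ (s := s) (x := q0) hβ hA)
    simpa [Rat.cast_list_sum, Function.comp_def] using this
  rwa [h2, mul_one] at h1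

theorem est_abs_clamp_le (x : ℚ) : |(clampQ (-1 / 4) (1 / 4) x : ℝ)| ≤ 1 / 4 := by
  have h := clampQ_mem (lo := -1 / 4) (hi := 1 / 4) (by norm_num) x
  have h1 : ((-1 / 4 : ℚ) : ℝ) ≤ clampQ (-1 / 4) (1 / 4) x := Rat.cast_le.2 h.1
  have h2 : (clampQ (-1 / 4) (1 / 4) x : ℝ) ≤ ((1 / 4 : ℚ) : ℝ) := Rat.cast_le.2 h.2
  push_cast at h1 h2
  exact abs_le.2 ⟨by linarith, h2⟩

theorem est_len {s : ℕ} {A : List ι} (hs : 8 * (A.length + 1) ≤ 2 ^ s) :
    ((A.length : ℝ) + 1) / 2 ^ s ≤ 1 / 8 := by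
  have : (8 * (A.length + 1) : ℝ) ≤ 2 ^ s := by exact_mod_cast hs
  rw [div_le_iff₀ (by positivity)]
  linarith

/-- Sure bound when the pilot is good. -/
theorem abs_estQ_sub_le {s k : ℕ} {β : ℚ} {A : List ι} (hβ : 0 < β) (hA : A ≠ [])
    (hs : 8 * (A.length + 1) ≤ 2 ^ s) {q0 : ι → ℚ} (qq : ℕ → ℕ → ι → ℚ) {q : ι → ℝ}
    (h0 : ∀ a ∈ A, (β : ℝ) * |q0 a - q a| ≤ 1 / 8) :
    |(estQ s β k A q0 qq : ℝ) - smin β A q| ≤ 1 / β := by
  have hβ' : (0 : ℝ) < β := by exact_mod_cast hβ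
  have h1 := abs_sminQ_sub_le (x := q0) hβ hA (s := s) (by omega)
  have h2 := abs_smin_sub_le (x := fun a => (q0 a : ℝ)) (y := q) (ξ := 1 / 8 / β) hβ' hA fun a ha => by
    rw [le_div_iff₀ hβ', mul_comm]; exact h0 a ha
  have h3 := abs_tayL_le k (y := fun i => (A.map fun a => (gibbsQ s β A q0 a : ℝ) *
      tayE k fun l => (clampQ (-1 / 4) (1 / 4) (β * (qq i l a - q0 a)) : ℝ)).sum) fun i _ =>
    est_abs_gsum_le hβ hA q0 fun a _ => abs_tayE_le k fun l _ => est_abs_clamp_le _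
  have h4 := div_le_div_of_nonneg_right (est_len hs) hβ'.le
  have h5 := div_le_div_of_nonneg_right h3 hβ'.le
  rw [← abs_of_pos hβ', ← abs_div, abs_of_pos hβ'] at h5
  rw [est_cast]
  have e : 1 / (β : ℝ) = 1 / 8 / β + 1 / 8 / β + 1 / 2 / β + 1 / 4 / β := by ring
  have h6 : 0 ≤ 1 / 4 / (β : ℝ) := by positivity
  have a1 := abs_le.1 (h1.trans h4)
  have a2 := abs_le.1 h2
  have a3 := abs_le.1 h5
  exact abs_le.2 ⟨by linarith [a1.1, a2.1, a3.2], by linarith [a1.2, a2.2, a3.1]⟩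

theorem est_Ex_list {n : ℕ} (A : List ι) (F : ι → (ℕ → Bool) → ℝ) :
    Ex n (fun ρ => (A.map fun a => F a ρ).sum) = (A.map fun a => Ex n (F a)).sum := by
  induction A with
  | nil => simpa using Ex_const n 0
  | cons a A ih => simp only [List.map_cons, List.sum_cons, Ex_add, ih]

theorem est_Ex_tay {n k : ℕ} (c : ℕ → ℝ) (u : ℕ → (ℕ → Bool) → ℝ) (S : ℕ → Set ℕ)
    (hu : ∀ l < k, Dep (u l) (S l)) (hd : ∀ l < k, ∀ l' < k, l ≠ l' → Disjoint (S l) (S l')) :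
    Ex n (fun ρ => ∑ r ∈ range k, c r * ∏ l ∈ range (r + 1), u l ρ) =
      ∑ r ∈ range k, c r * ∏ l ∈ range (r + 1), Ex n (u l) := by
  rw [Ex_sum]
  refine sum_congr rfl fun r hr => ?_
  have hr' := mem_range.1 hr
  rw [Ex_const_mul, Ex_prod_indep _ _ S (fun l hl => hu l (by have := mem_range.1 hl; omega))
    fun l hl l' hl' => hd l (by have := mem_range.1 hl; omega) l' (by have := mem_range.1 hl'; omega)]

theorem est_tayE_congr {k : ℕ} {u u' : ℕ → ℝ} (h : ∀ l < k, u l = u' l) : tayE k u = tayE k u' :=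
  sum_congr rfl fun r hr => by
    rw [prod_congr rfl fun l hl => h l (by have := mem_range.1 hl; have := mem_range.1 hr; omega)]

theorem est_tayL_congr {k : ℕ} {u u' : ℕ → ℝ} (h : ∀ l < k, u l = u' l) : tayL k u = tayL k u' :=
  sum_congr rfl fun r hr => by
    rw [prod_congr rfl fun l hl => h l (by have := mem_range.1 hl; have := mem_range.1 hr; omega)]

/-- the mean of one clamped copy -/
theorem est_clamp_mean {n : ℕ} {β x0 : ℚ} (hβ : 0 < β) {x ε p Rm : ℝ} (hRm : 0 ≤ Rm) {X : (ℕ → Bool) → ℚ}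
    (h0 : (β : ℝ) * |x0 - x| ≤ 1 / 8) (hmean : |Ex n (fun ρ => X ρ) - x| ≤ ε)
    (htail : Pr n (fun ρ => 1 / 8 < (β : ℝ) * |X ρ - x|) ≤ p) (hsure : ∀ ρ, (β : ℝ) * |X ρ - x| ≤ Rm) :
    |Ex n (fun ρ => (clampQ (-1 / 4) (1 / 4) (β * (X ρ - x0)) : ℝ)) - β * (x - x0)| ≤
      β * ε + p * (Rm + 1) := by
  classical
  have hβ' : (0 : ℝ) < β := by exact_mod_cast hβ
  have hz : ∀ ρ, |(β : ℝ) * (X ρ - x0)| ≤ β * |X ρ - x| + 1 / 8 := fun ρ => by
    rw [abs_mul, abs_of_pos hβ']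
    have h1 := abs_sub_le (X ρ : ℝ) x x0
    rw [abs_sub_comm x] at h1
    nlinarith
  have e : (fun ρ => (clampQ (-1 / 4) (1 / 4) (β * (X ρ - x0)) : ℝ)) = fun ρ =>
      (β : ℝ) * (X ρ - x0) + if 1 / 8 < (β : ℝ) * |X ρ - x| then
        (clampQ (-1 / 4) (1 / 4) (β * (X ρ - x0)) : ℝ) - β * (X ρ - x0) else 0 := by
    funext ρ
    split_ifs with h
    · ring
    · have h1 := abs_le.1 ((hz ρ).trans (show _ ≤ 1 / 4 by linarith [not_lt.1 h]))
      have h2 : (-1 / 4 : ℚ) ≤ β * (X ρ - x0) := by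
        rw [← Rat.cast_le (K := ℝ)]; push_cast; linarith [h1.1]
      have h3 : β * (X ρ - x0) ≤ (1 / 4 : ℚ) := by
        rw [← Rat.cast_le (K := ℝ)]; push_cast; linarith [h1.2]
      rw [clampQ_eq_self h2 h3]
      push_cast
      ring
  have h1 := abs_Ex_ite_le (n := n) (E := fun ρ => 1 / 8 < (β : ℝ) * |X ρ - x|) (c := Rm + 1)
    (f := fun ρ => (clampQ (-1 / 4) (1 / 4) (β * (X ρ - x0)) : ℝ) - β * (X ρ - x0)) fun ρ => by
      refine (abs_sub _ _).trans ?_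
      linarith [est_abs_clamp_le (β * (X ρ - x0)), hz ρ, hsure ρ]
  have h2 := h1.trans (mul_le_mul_of_nonneg_left htail (by linarith))
  have h3 : |(β : ℝ) * (Ex n (fun ρ => X ρ) - x)| ≤ β * ε := by
    rw [abs_mul, abs_of_pos hβ']
    exact mul_le_mul_of_nonneg_left hmean hβ'.le
  rw [e, Ex_add, Ex_const_mul, Ex_sub, Ex_const]
  have a2 := abs_le.1 h2
  have a3 := abs_le.1 h3
  exact abs_le.2 ⟨by linarith [a2.1, a3.1], by linarith [a2.2, a3.2]⟩

/-- the bias for a fixed good pilot value -/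
theorem est_bias_core {s k n : ℕ} {β : ℚ} {A : List ι} (hβ : 0 < β) (hA : A ≠ [])
    (hs : 8 * (A.length + 1) ≤ 2 ^ s) (q : ι → ℝ) (q0 : ι → ℚ)
    (QQ : ℕ → ℕ → (ℕ → Bool) → ι → ℚ) (S : ℕ → ℕ → Set ℕ)
    (hQQ : ∀ i < k, ∀ l < k, Dep (QQ i l) (S i l))
    (hd : ∀ i < k, ∀ l < k, ∀ i' < k, ∀ l' < k, (i, l) ≠ (i', l') → Disjoint (S i l) (S i' l'))
    (hgood : ∀ a ∈ A, (β : ℝ) * |q0 a - q a| ≤ 1 / 8)
    {ε p Rm : ℝ} (hε : 0 ≤ ε) (hp : 0 ≤ p) (hRm : 0 ≤ Rm)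
    (hmean : ∀ i < k, ∀ l < k, ∀ a ∈ A, |Ex n (fun ρ => QQ i l ρ a) - q a| ≤ ε)
    (htail : ∀ i < k, ∀ l < k, ∀ a ∈ A, Pr n (fun ρ => 1 / 8 < (β : ℝ) * |QQ i l ρ a - q a|) ≤ p)
    (hsure : ∀ i < k, ∀ l < k, ∀ a ∈ A, ∀ ρ, (β : ℝ) * |QQ i l ρ a - q a| ≤ Rm) :
    |Ex n fun ρ => (estQ s β k A q0 (fun i l => QQ i l ρ) : ℝ) - smin β A q| ≤
      (4 * (β * ε + p * (Rm + 1)) + 3 * (1 / 2) ^ k + 6 * (A.length + 1) / 2 ^ s) / β := by
  have hβ' : (0 : ℝ) < β := by exact_mod_cast hβ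
  set u : ℕ → ℕ → ι → (ℕ → Bool) → ℝ :=
    fun i l a ρ => (clampQ (-1 / 4) (1 / 4) (β * (QQ i l ρ a - q0 a)) : ℝ) with hu
  have du : ∀ i < k, ∀ l < k, ∀ a, Dep (u i l a) (S i l) := fun i hi l hl a =>
    (hQQ i hi l hl).comp fun x => (clampQ (-1 / 4) (1 / 4) (β * (x a - q0 a)) : ℝ)
  set Y : ℕ → (ℕ → Bool) → ℝ :=
    fun i ρ => (A.map fun a => (gibbsQ s β A q0 a : ℝ) * tayE k fun l => u i l a ρ).sum with hY
  have dY : ∀ i < k, Dep (Y i) {j | ∃ l < k, j ∈ S i l} := fun i hi ρ ρ' h => by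
    simp only [hY]
    congr 2
    funext a
    rw [est_tayE_congr fun l hl => du i hi l hl a ρ ρ' fun j hj => h j ⟨l, hl, hj⟩]
  have eY : ∀ i < k, Ex n (Y i) =
      (A.map fun a => (gibbsQ s β A q0 a : ℝ) * tayE k fun l => Ex n (u i l a)).sum := fun i hi => by
    simp only [hY]
    rw [est_Ex_list]
    congr 2
    funext a
    rw [Ex_const_mul]
    congr 1
    exact est_Ex_tay _ _ (S i) (fun l hl => du i hi l hl a) fun l hl l' hl' h =>
      hd i hi l hl i hi l' hl' (by simpa using h)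
  have eL : Ex n (fun ρ => tayL k fun i => Y i ρ) = tayL k fun i => Ex n (Y i) :=
    est_Ex_tay _ _ (fun i => {j | ∃ l < k, j ∈ S i l}) dY fun i hi i' hi' h => by
      rw [Set.disjoint_left]
      rintro j ⟨l, hl, hj⟩ ⟨l', hl', hj'⟩
      exact Set.disjoint_left.1 (hd i hi l hl i' hi' l' hl' (by simp [h])) hj hj'
  have e0 : (Ex n fun ρ => (estQ s β k A q0 (fun i l => QQ i l ρ) : ℝ) - smin β A q) =
      sminQ s β A q0 - (tayL k fun i => Ex n (Y i)) / β - smin β A q := by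
    simp only [est_cast, div_eq_mul_inv]
    rw [Ex_sub, Ex_sub, Ex_const, Ex_const, Ex_mul_const, ← eL]
    simp only [hY, hu, div_eq_mul_inv]
  set b : ℝ := β * ε + p * (Rm + 1) with hb
  have hb0 : 0 ≤ b := by positivity
  have hv : ∀ a ∈ A, |(β : ℝ) * (q a - q0 a)| ≤ 1 / 8 := fun a ha => by
    rw [abs_mul, abs_of_pos hβ', abs_sub_comm]; exact hgood a ha
  have hm : ∀ i l a, |Ex n (u i l a)| ≤ 1 / 4 := fun i l a =>
    abs_Ex_le.trans (Ex_le_const fun ρ => est_abs_clamp_le _)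
  have he : ∀ a ∈ A, |Real.exp (-(β * (q a - q0 a))) - 1| ≤ 1 / 4 := fun a ha =>
    (Real.abs_exp_sub_one_le (by rw [abs_neg]; linarith [hv a ha])).trans (by
      rw [abs_neg]; linarith [hv a ha])
  set w : ℝ := (A.map fun a => gibbs β A (fun a => (q0 a : ℝ)) a *
    (Real.exp (-(β * (q a - q0 a))) - 1)).sum with hw
  have hw1 : |w| ≤ 1 / 3 := by
    have h1 := est_abs_wsum_le' (w := gibbs β A fun a => (q0 a : ℝ)) (fun a _ => gibbs_nonneg a) he
    rw [sum_gibbs hA] at h1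
    linarith
  have hw2 : smin β A q = smin β A (fun a => (q0 a : ℝ)) - Real.log (1 + w) / β := by
    have h1 := sum_gibbs (η := β) (x := fun a => (q0 a : ℝ)) hA
    rw [smin_eq_ref (x := fun a => (q0 a : ℝ)) hβ' hA, hw, est_wsum_sub]
    simp only [mul_one, neg_mul]
    rw [h1, add_sub_cancel]
    ring
  have hy : ∀ i < k, |Ex n (Y i) - w| ≤ 2 * b + (1 / 2) ^ k + 1 / 4 * (2 * A.length / 2 ^ s) := by
    intro i hi
    have h1 := est_abs_gsum_le (s := s) hβ hA q0 (c := 2 * b + (1 / 2) ^ k)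
      (f := fun a => (tayE k fun l => Ex n (u i l a)) - (Real.exp (-(β * (q a - q0 a))) - 1)) fun a ha =>
        abs_tayE_sub_le k hb0 ((hv a ha).trans (by norm_num)) (fun l _ => hm i l a) fun l hl =>
          est_clamp_mean hβ hRm (hgood a ha) (hmean i hi l hl a ha) (htail i hi l hl a ha)
            (hsure i hi l hl a ha)
    have h2 := (est_abs_wsum_sub_le (w := fun a => (gibbsQ s β A q0 a : ℝ))
      (w' := gibbs β A fun a => (q0 a : ℝ)) he).trans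
      (mul_le_mul_of_nonneg_left (sum_abs_gibbsQ_sub_le hβ hA) (by norm_num))
    rw [est_wsum_sub] at h1
    rw [eY i hi]
    exact (abs_sub_le _ _ _).trans (add_le_add h1 h2)
  have h1 := abs_tayL_sub_le k (y := fun i => Ex n (Y i)) (by positivity) hw1 (fun i hi => by
    rw [eY i hi]
    exact est_abs_gsum_le hβ hA q0 fun a _ => abs_tayE_le k fun l _ => hm i l a) hy
  have h2 := abs_sminQ_sub_le (x := q0) hβ hA (s := s) (by omega)
  have h3 := div_le_div_of_nonneg_right h1 hβ'.le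
  rw [← abs_of_pos hβ', ← abs_div, abs_of_pos hβ', sub_div] at h3
  have h4 : (2 * (2 * b + (1 / 2) ^ k + 1 / 4 * (2 * A.length / 2 ^ s)) + (1 / 2) ^ k) / (β : ℝ) +
      (A.length + 1) / 2 ^ s / β ≤ (4 * b + 3 * (1 / 2) ^ k + 6 * (A.length + 1) / 2 ^ s) / β := by
    rw [← add_div]
    refine div_le_div_of_nonneg_right ?_ hβ'.le
    have a1 : (0 : ℝ) ≤ A.length / 2 ^ s := by positivity
    have a2 : (0 : ℝ) ≤ 1 / 2 ^ s := by positivity
    have e1 : (2 * A.length / 2 ^ s : ℝ) = 2 * (A.length / 2 ^ s) := by ring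
    have e2 : ((A.length + 1) / 2 ^ s : ℝ) = A.length / 2 ^ s + 1 / 2 ^ s := by ring
    have e3 : (6 * (A.length + 1) / 2 ^ s : ℝ) = 6 * (A.length / 2 ^ s) + 6 * (1 / 2 ^ s) := by ring
    rw [e1, e2, e3]
    linarith
  rw [e0, hw2]
  have a2 := abs_le.1 h2
  have a3 := abs_le.1 h3
  exact abs_le.2 ⟨by linarith [a2.1, a3.2], by linarith [a2.2, a3.1]⟩

/-- **Bias.**  Condition on the pilot (`Ex_fubini` with `π ρ = (Q0 ρ, G ρ)`).  Given a good pilot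
value `q0`, put `v a = β (q a - q0 a)` (`|v a| ≤ 1/8`) and `û = clamp (β (QQ i l a - q0 a))`; the
clamp is inactive unless `β |QQ - q| > 1/8`, so `|E û - v a| ≤ β ε + p (Rm + 1)`.  Products of
independent copies have the product of the means as mean (`Ex_prod_indep`, first over `l`, then
over `i` with the unions of the sets), so `E (tayL …) = tayL k (fun i => ∑ gibbsQ · tayE k (E û))`.
Then `abs_tayE_sub_le`, `sum_abs_gibbsQ_sub_le`, `abs_tayL_sub_le`, `smin_eq_ref`,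
`abs_sminQ_sub_le`. -/
theorem est_bias {s k n : ℕ} {β : ℚ} {A : List ι} (hβ : 0 < β) (hA : A ≠ [])
    (hs : 8 * (A.length + 1) ≤ 2 ^ s) (q : ι → ℝ) (Q0 : (ℕ → Bool) → ι → ℚ)
    (QQ : ℕ → ℕ → (ℕ → Bool) → ι → ℚ) (G : (ℕ → Bool) → Prop) [DecidablePred G] (S0 : Set ℕ)
    (S : ℕ → ℕ → Set ℕ) (hQ0 : Dep Q0 S0) (hG : Dep G S0)
    (hQQ : ∀ i < k, ∀ l < k, Dep (QQ i l) (S i l))
    (hd0 : ∀ i < k, ∀ l < k, Disjoint S0 (S i l))
    (hd : ∀ i < k, ∀ l < k, ∀ i' < k, ∀ l' < k, (i, l) ≠ (i', l') → Disjoint (S i l) (S i' l'))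
    (hgood : ∀ ρ, G ρ → ∀ a ∈ A, (β : ℝ) * |Q0 ρ a - q a| ≤ 1 / 8)
    {ε p Rm : ℝ} (hε : 0 ≤ ε) (hp : 0 ≤ p) (hRm : 0 ≤ Rm)
    (hmean : ∀ i < k, ∀ l < k, ∀ a ∈ A, |Ex n (fun ρ => QQ i l ρ a) - q a| ≤ ε)
    (htail : ∀ i < k, ∀ l < k, ∀ a ∈ A, Pr n (fun ρ => 1 / 8 < (β : ℝ) * |QQ i l ρ a - q a|) ≤ p)
    (hsure : ∀ i < k, ∀ l < k, ∀ a ∈ A, ∀ ρ, (β : ℝ) * |QQ i l ρ a - q a| ≤ Rm) :
    |Ex n fun ρ => if G ρ then
        (estQ s β k A (Q0 ρ) (fun i l => QQ i l ρ) : ℝ) - smin β A q else 0| ≤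
      (4 * (β * ε + p * (Rm + 1)) + 3 * (1 / 2) ^ k + 6 * (A.length + 1) / 2 ^ s) / β := by
  have hβ' : (0 : ℝ) < β := by exact_mod_cast hβ
  have h1 := Ex_fubini (n := n) (π := fun ρ => (Q0 ρ, decide (G ρ)))
    (F := fun x ρ => if x.2 = true then
      (estQ s β k A x.1 (fun i l => QQ i l ρ) : ℝ) - smin β A q else 0)
    (S := S0) (S' := {j | ∃ i < k, ∃ l < k, j ∈ S i l})
    (hQ0.pair fun ρ ρ' h => decide_eq_decide.2 (iff_of_eq (hG ρ ρ' h)))
    (fun x ρ ρ' h => by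
      have e : (estQ s β k A x.1 (fun i l => QQ i l ρ) : ℝ) = estQ s β k A x.1 fun i l => QQ i l ρ' := by
        rw [est_cast, est_cast, est_tayL_congr fun i hi => ?_]
        congr 2
        funext a
        rw [est_tayE_congr fun l hl => ?_]
        rw [hQQ i hi l hl ρ ρ' fun j hj => h j ⟨i, hi, l, hl, hj⟩]
      simp only [e])
    (by
      rw [Set.disjoint_left]
      rintro j hj ⟨i, hi, l, hl, hj'⟩
      exact Set.disjoint_left.1 (hd0 i hi l hl) hj hj')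
  simp only [decide_eq_true_eq] at h1
  rw [h1]
  refine abs_Ex_le.trans (Ex_le_const fun ρ => ?_)
  by_cases hρ : G ρ
  · simp only [hρ, if_true]
    exact est_bias_core hβ hA hs q (Q0 ρ) QQ S hQQ hd (hgood ρ hρ) hε hp hRm hmean htail hsure
  · simp only [hρ, if_false, Ex_const, abs_zero]
    positivity

theorem est_pt_tay {α : Type} [Enc α] {k : α → ℕ} {c : ℕ → ℚ} {u : α → ℕ → ℚ} (hk : PT k) (hk' : PB k)
    (hc : PT fun p : α × ℕ => c (min p.2 (k p.1))) (hu : PT fun p : α × ℕ => u p.1 p.2) :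
    PT fun a => ∑ r ∈ range (k a), c r * ∏ l ∈ range (r + 1), u a l := by
  have h1 : PT fun p : α × ℕ => min p.2 (k p.1) + 1 := by fun_prop
  have h2 : PB fun p : α × ℕ => min p.2 (k p.1) + 1 :=
    (PB.min_right (hk'.comp PT.fst')).add (PB.const 1)
  refine (PT.sum_range_rat (f := fun a r => c (min r (k a)) * ∏ l ∈ range (min r (k a) + 1), u a l) hk hk'
    (hc.rat_mul (PT.prod_range_rat (f := fun (p : α × ℕ) l => u p.1 l) h1 h2
      (hu.comp (g := fun z : (α × ℕ) × ℕ => (z.1.1, z.2)) (by fun_prop))))).of_eq fun a => ?_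
  exact sum_congr rfl fun r hr => by rw [min_eq_left (mem_range.1 hr).le]

theorem est_pt_tayE {α : Type} [Enc α] {k : α → ℕ} {u : α → ℕ → ℚ} (hk : PT k) (hk' : PB k)
    (hu : PT fun p : α × ℕ => u p.1 p.2) : PT fun a => tayE (k a) (u a) := by
  have h1 : PT fun p : α × ℕ => min p.2 (k p.1) + 1 := by fun_prop
  have h2 : PB fun p : α × ℕ => min p.2 (k p.1) + 1 :=
    (PB.min_right (hk'.comp PT.fst')).add (PB.const 1)
  exact est_pt_tay (c := fun r => (-1) ^ (r + 1) / ((r + 1).factorial : ℚ)) hk hk'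
    (((PT.const (-1 : ℚ)).rat_pow h1 h2).rat_div (PT.factorial h1 h2).rat_natCast) hu

theorem est_pt_tayL {α : Type} [Enc α] {k : α → ℕ} {u : α → ℕ → ℚ} (hk : PT k) (hk' : PB k)
    (hu : PT fun p : α × ℕ => u p.1 p.2) : PT fun a => tayL (k a) (u a) := by
  have h1 : PT fun p : α × ℕ => min p.2 (k p.1) := by fun_prop
  have h2 : PB fun p : α × ℕ => min p.2 (k p.1) := PB.min_right (hk'.comp PT.fst')
  exact est_pt_tay (c := fun r => (-1) ^ r / ((r : ℚ) + 1)) hk hk'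
    (((PT.const (-1 : ℚ)).rat_pow h1 h2).rat_div (h1.rat_natCast.rat_add (PT.const 1))) hu

theorem pt_estQ {α : Type} [Enc α] [Enc ι] {s k : α → ℕ} {β : α → ℚ} {A : α → List ι}
    {q0 : α → ι → ℚ} {qq : α → ℕ → ℕ → ι → ℚ} (hs : PT s) (hs' : PB s) (hk : PT k) (hk' : PB k)
    (hβ : PT β) (hA : PT A) (h0 : PT fun p : α × ι => q0 p.1 p.2)
    (hq : PT fun p : α × ℕ × ℕ × ι => qq p.1 p.2.1 p.2.2.1 p.2.2.2) :
    PT fun a => estQ (s a) (β a) (k a) (A a) (q0 a) (qq a) := by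
  unfold estQ
  refine (pt_sminQ hs hs' hβ hA h0).rat_sub (PT.rat_div (est_pt_tayL hk hk' (PT.rat_sum (PT.map
    (f := fun (p : α × ℕ) a => gibbsQ (s p.1) (β p.1) (A p.1) (q0 p.1) a *
      tayE (k p.1) fun l => clampQ (-1 / 4) (1 / 4) (β p.1 * (qq p.1 p.2 l a - q0 p.1 a)))
    (hA.comp PT.fst') (PT.rat_mul ?_ ?_)))) hβ)
  · exact pt_gibbsQ (x := fun p : (α × ℕ) × ι => q0 p.1.1) (hs.comp (by fun_prop)) (hs'.comp (by fun_prop))
      (hβ.comp (by fun_prop)) (hA.comp (by fun_prop))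
      (h0.comp (g := fun z : ((α × ℕ) × ι) × ι => (z.1.1.1, z.2)) (by fun_prop)) PT.snd'
  · refine est_pt_tayE (u := fun (p : (α × ℕ) × ι) l =>
      clampQ (-1 / 4) (1 / 4) (β p.1.1 * (qq p.1.1 p.1.2 l p.2 - q0 p.1.1 p.2)))
      (hk.comp (by fun_prop)) (hk'.comp (by fun_prop)) (pt_clampQ (PT.const _) (PT.const _)
        (PT.rat_mul (hβ.comp (by fun_prop)) (PT.rat_sub ?_ ?_)))
    · exact hq.comp (g := fun z : ((α × ℕ) × ι) × ℕ => (z.1.1.1, z.1.1.2, z.2, z.1.2)) (by fun_prop)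
    · exact h0.comp (g := fun z : ((α × ℕ) × ι) × ℕ => (z.1.1.1, z.1.2)) (by fun_prop)

end Crest.Agent.R288
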