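/-
R288/Par: the parameters of the algorithm.  Author of the definitions: helper33.
-/
import Crest.Agent.R288.Est

set_option autoImplicit false
set_option linter.unusedSectionVars false

namespace Crest.Agent.R288

open Finset Crest.Agent.Lib.PolyTime

/-- Parameters: a unary pad, `l1 = log₂ N`, and the guess `e` (`ED ≤ 2 ^ e`). -/
def Pa : Type := List Unit × ℕ × ℕ

instance : Enc Pa := inferInstanceAs (Enc (List Unit × ℕ × ℕ))

namespace Pa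

variable (P : Pa)

/-- length of the pad -/
def pad : ℕ := (show List Unit × ℕ × ℕ from P).1.length
/-- `log₂ N` -/
def l1 : ℕ := (show List Unit × ℕ × ℕ from P).2.1
/-- the guess -/
def e : ℕ := (show List Unit × ℕ × ℕ from P).2.2
/-- `log log N` -/
def l2 : ℕ := Nat.log 2 P.l1
/-- `log log log N` -/
def l3 : ℕ := Nat.log 2 P.l2
/-- `gN N` -/
def g : ℕ := Nat.log 2 P.l3
/-- `2 ^ p ≈ log L` -/
def p : ℕ := P.l3 + 1
/-- height of a super-level -/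
def d : ℕ := P.l3 ^ 2
/-- height of a super-level of the start -/
def D : ℕ := P.d * P.l2
/-- height of the tree -/
def L : ℕ := (P.l1 / P.D + 1) * P.D
/-- `2 ^ Lx ≈ L` -/
def Lx : ℕ := P.l2 + 2
/-- largest column, `4 * 2 ^ e` -/
def X : ℕ := 2 ^ (P.e + 2)
/-- class `c` has density `2 ^ c / 2 ^ c0` -/
def c0 : ℕ := P.L - P.e + P.g + 10
/-- grids have mesh `Λ / 2 ^ kap` -/
def kap : ℕ := P.D + 12 * P.Lx
/-- classes from `cmax` on are trivial -/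
def cmax : ℕ := P.c0 + P.kap
/-- scales from `umax` on are trivial -/
def umax : ℕ := P.c0 + P.e + 2 + 3 * P.Lx
/-- states have width at most `2 ^ tw Λ` -/
def tw : ℕ := P.d + 3
/-- cap `2 ^ cp Λ` of the Lipschitz tables -/
def cp : ℕ := P.d + 4 * P.p + 3
/-- windows have radius `2 ^ omx Λ` -/
def omx : ℕ := P.cp + P.Lx + 4
/-- `γ = f = 2 ^ (-fx)` -/
def fx : ℕ := P.g + 20
/-- the first tracking window is `Λ / 2 ^ wx` -/
def wx : ℕ := P.d * (P.fx + 6) + 13 * P.p + 2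
/-- number of rounds (also: length of the averaging, budget of bad nodes) -/
def M : ℕ := P.l1 / 2 ^ (3 * P.p)
/-- number of phases -/
def T : ℕ := P.D + P.Lx + 4
/-- order of the Taylor polynomials -/
def kT : ℕ := 8 * P.Lx
/-- length of the ladder -/
def I : ℕ := P.d + 4 * P.p + 2
/-- `2 ^ (i + rx)` samples on step `i` of the ladder -/
def rx : ℕ := 40 * P.p
/-- `2 ^ rf` raw estimates per table -/
def rf : ℕ := 11 * P.Lx + 10
/-- `2 ^ (i + ra)` samples in zone `i` of the start -/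
def ra : ℕ := 6 * P.Lx + 5
/-- precision -/
def s : ℕ := P.c0 + P.e + 4 * P.kap + 20 * P.Lx
/-- ranks per phase -/
def PL : ℕ := P.D + 5 * P.M + 2
/-- first rank of phase `t` -/
def base (t : ℕ) : ℕ := P.L / P.D + 1 + t * P.PL
/-- the pad has length `2 ^ qx` -/
def qx : ℕ := 3 * P.kap

/-- the scale `Λ` of the worlds `(h, c)` with `h + c = u`; `Lam h = θ ℓ` -/
def Lam (u : ℕ) : ℚ := 2 ^ u / 2 ^ P.c0
/-- grid exponent -/
def gm (u : ℕ) : ℕ := u - P.cmax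
/-- `⌊2 ^ x Λ⌋` -/
def rad (u x : ℕ) : ℕ := 2 ^ (u + x) / 2 ^ P.c0
/-- largest width of a state -/
def wid (u : ℕ) : ℕ := P.rad u P.tw
/-- window exponent -/
def om (u : ℕ) : ℕ := u + P.omx - P.c0
/-- trivial worlds -/
def triv (h c : ℕ) : Prop := P.cmax ≤ c ∨ P.umax ≤ h + c

instance (h c : ℕ) : Decidable (P.triv h c) := by unfold triv; infer_instance

/-- the states of the worlds of scale `u` -/
def inW (u : ℕ) (z : St) : Prop :=
  z.1 ≤ P.X ∧ z.2 ≤ P.X ∧ 2 ^ P.gm u ∣ z.1 ∧ 2 ^ P.gm u ∣ z.2 ∧ Nat.dist z.1 z.2 ≤ P.wid u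

instance (u : ℕ) (z : St) : Decidable (P.inW u z) := by unfold inW; infer_instance

/-- rounding to the grid of scale `u` -/
def rd (u : ℕ) (z : St) : St := rdn (P.gm u) z

/-- `δ = 2 ^ (-Lx)` -/
def del : ℚ := 1 / 2 ^ P.Lx
/-- `γ = f` -/
def fq : ℚ := 1 / 2 ^ P.fx
/-- the handicap `G` -/
def Gq : ℚ := 1 / 2 ^ (13 * P.p)
/-- `η₀` -/
def eta : ℚ := 2 ^ (7 * P.p)
/-- `ϑ = β Λ` -/
def theta : ℚ := 2 ^ (16 * P.p)
/-- `μ₀` -/
def mu : ℚ := 2 ^ (4 * P.p)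
/-- `ζ` -/
def zeta : ℚ := 1 / 2 ^ (4 * P.Lx)
/-- `τ₁` -/
def tau : ℚ := 1 / 2 ^ (5 * P.Lx)
/-- relative size of all accumulated numerical errors -/
def ups : ℚ := 1 / 2 ^ (8 * P.Lx)
/-- regret per unit of mass -/
def rho : ℚ := 4 / 2 ^ (5 * P.p)
/-- energy threshold `w₀` -/
def w0 : ℚ := 1 / 2 ^ (2 * P.wx + 4 * P.p + 4)
/-- the cap -/
def cap : ℚ := 2 ^ P.cp
/-- the initial approximation factor -/
def K0 : ℚ := 2 ^ (P.D + P.Lx + 3)
/-- rounding loss per super-level -/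
def nu : ℚ := (P.d + 4) / 2 ^ P.kap
/-- tracking window at depth `i` -/
def Wq (u i : ℕ) : ℚ := P.Lam u * 2 ^ (i * (P.fx + 5)) / 2 ^ P.wx
/-- radius of the action windows, `⌊Wq u d⌋ = ⌊G Λ(u - d) / 4⌋` -/
def Wn (u : ℕ) : ℕ := 2 ^ u / 2 ^ (P.c0 + P.d + 13 * P.p + 2)

/-- The parameters are admissible. -/
structure OK : Prop where
  pad_eq : P.pad = 2 ^ P.qx
  g_ge : 20 ≤ P.g
  e_le : P.e ≤ P.L

variable {P}

/-! ### Arithmetic of the parameters -/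

theorem Par_lin {g : ℕ} (hg : 20 ≤ g) : 100 * (g + 30) ≤ 2 ^ g := by
  induction g, hg using Nat.le_induction with
  | base => norm_num
  | succ n hn ih => rw [pow_succ]; omega

theorem Par_quart {c : ℕ} (hc : 40 ≤ c) : 1000 * (c + 1) ^ 4 ≤ 2 ^ c := by
  induction c, hc using Nat.le_induction with
  | base => norm_num
  | succ n hn ih =>
    have h1 : 10 * (n + 1 + 1) ≤ 11 * (n + 1) := by omega
    have h2 : (10 * (n + 1 + 1)) ^ 4 ≤ (11 * (n + 1)) ^ 4 := Nat.pow_le_pow_left h1 4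
    rw [mul_pow, mul_pow] at h2
    rw [pow_succ 2]
    omega

theorem Par_log {n : ℕ} (h : Nat.log 2 n ≠ 0) : 2 ^ Nat.log 2 n ≤ n ∧ n < 2 * 2 ^ Nat.log 2 n := by
  refine ⟨Nat.pow_log_le_self 2 ?_, ?_⟩
  · rintro rfl
    simp at h
  · rw [← pow_succ']
    exact Nat.lt_pow_succ_log_self (by norm_num) n

theorem Par_pp {a b c d : ℕ} (h : a + d ≤ c + b) : (2 : ℚ) ^ a / 2 ^ b ≤ 2 ^ c / 2 ^ d := by
  rw [div_le_div_iff₀ (by positivity) (by positivity), ← pow_add, ← pow_add]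
  exact pow_le_pow_right₀ one_le_two h

section facts
variable (h : P.OK)
include h

theorem OK.Par_l3 : 2 ^ P.g ≤ P.l3 := (Par_log (n := P.l3) (by have := h.g_ge; unfold g at this; omega)).1
theorem OK.Par_l3_ge : 2 ^ 20 ≤ P.l3 := (Nat.pow_le_pow_right two_pos h.g_ge).trans h.Par_l3
theorem OK.Par_l2 : 2 ^ P.l3 ≤ P.l2 ∧ P.l2 < 2 * 2 ^ P.l3 :=
  Par_log (n := P.l2) (by have := h.Par_l3_ge; unfold l3 at this; omega)
theorem OK.Par_l32 : P.l3 < P.l2 := Nat.lt_two_pow_self.trans_le h.Par_l2.1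
theorem OK.Par_l1 : 2 ^ P.l2 ≤ P.l1 ∧ P.l1 < 2 * 2 ^ P.l2 :=
  Par_log (n := P.l1) (by have := h.Par_l3_ge; have := h.Par_l32; unfold l2 at this; omega)
theorem OK.Par_D_le : P.D ≤ P.l1 := by
  have h1 := h.Par_l3_ge
  have h2 := h.Par_l32
  refine le_trans ?_ ((Par_quart (c := P.l2) (by omega)).trans h.Par_l1.1)
  calc P.D = P.l3 ^ 2 * P.l2 := rfl
    _ ≤ (P.l2 + 1) ^ 2 * (P.l2 + 1) ^ 2 := by
      gcongr
      · omega
      · nlinarith
    _ = 1 * (P.l2 + 1) ^ 4 := by ring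
    _ ≤ _ := by gcongr; norm_num

theorem OK.p_ge : 2 ^ 20 ≤ P.p := by
  exact h.Par_l3_ge.trans (Nat.le_succ _)
theorem OK.gp : 100 * (P.g + 30) ≤ P.p := by
  exact (Par_lin h.g_ge).trans (h.Par_l3.trans (Nat.le_succ _))
theorem OK.two_pow_g_le : 2 ^ P.g ≤ P.p := by
  exact h.Par_l3.trans (Nat.le_succ _)
theorem OK.pd : 100 * P.p ≤ P.d := by
  have := h.Par_l3_ge
  unfold p d
  nlinarith
theorem OK.d_le : P.d ≤ P.p ^ 2 := by
  exact Nat.pow_le_pow_left (Nat.le_succ _) 2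
theorem OK.d_pos : 0 < P.d := by
  have := h.pd
  have := h.p_ge
  omega
theorem OK.D_pos : 0 < P.D := by
  exact Nat.mul_pos h.d_pos (Nat.zero_lt_of_lt h.Par_l32)
theorem OK.d_dvd_D : P.d ∣ P.D := by
  exact Nat.dvd_mul_right _ _
theorem OK.D_dvd_L : P.D ∣ P.L := by
  exact Nat.dvd_mul_left _ _
theorem OK.d_dvd_L : P.d ∣ P.L := by
  exact h.d_dvd_D.trans h.D_dvd_L
theorem OK.l1_lt_L : P.l1 < P.L := by
  unfold L
  rw [mul_comm]
  exact Nat.lt_mul_div_succ _ h.D_pos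
theorem OK.L_le : P.L ≤ 2 * P.l1 := by
  have h1 := Nat.div_mul_le_self P.l1 P.D
  have h2 := h.Par_D_le
  unfold L
  rw [add_mul]
  omega
theorem OK.l1_lt : 2 * P.l1 < 2 ^ P.Lx := by
  have := h.Par_l1.2
  unfold Lx
  rw [pow_add]
  omega
theorem OK.le_l1 : 2 ^ P.Lx ≤ 4 * P.l1 := by
  have := h.Par_l1.1
  unfold Lx
  rw [pow_add]
  omega
theorem OK.L_lt : P.L < 2 ^ P.Lx := by
  exact h.L_le.trans_lt h.l1_lt
theorem OK.Lx_le : P.Lx ≤ 2 ^ P.p + 1 := by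
  have := h.Par_l2.2
  unfold Lx p
  rw [pow_succ]
  omega
theorem OK.le_Lx : 2 ^ P.p ≤ 2 * P.Lx := by
  have := h.Par_l2.1
  unfold Lx p
  rw [pow_succ]
  omega
/-- everything polynomial in `p` is negligible against `Lx` -/
theorem OK.poly_p_le : 1000 * P.p ^ 4 ≤ P.Lx := by
  have h1 := h.Par_l3_ge
  exact (Par_quart (by omega)).trans (h.Par_l2.1.trans (Nat.le_add_right _ _))
theorem OK.wx_le : 100 * (P.wx + P.d + 50 * P.p) ≤ P.Lx := by
  have h1 := h.p_ge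
  have h2 := h.gp
  have h3 := h.d_le
  have h4 : P.d * (P.fx + 6) ≤ P.p ^ 2 * P.p := Nat.mul_le_mul h3 (by unfold fx; omega)
  have h5 : P.p ≤ P.p ^ 4 := Nat.le_self_pow (by norm_num) _
  have h6 : P.p ^ 2 ≤ P.p ^ 4 := Nat.pow_le_pow_right (by omega) (by norm_num)
  have h7 : P.p ^ 2 * P.p ≤ P.p ^ 4 := by
    rw [← pow_succ]
    exact Nat.pow_le_pow_right (by omega) (by norm_num)
  have h8 : 100 * P.p ≤ P.p ^ 2 := h.pd.trans h3
  have h9 := h.poly_p_le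
  unfold wx
  omega
theorem OK.Lx_le_D : 100 * P.Lx ≤ P.D := by
  have h1 := h.p_ge
  have h2 := h.pd
  have h3 := h.Par_l32
  have h4 : 300 * P.l2 ≤ P.d * P.l2 := Nat.mul_le_mul_right _ (by omega)
  unfold Lx D
  omega
theorem OK.kap_le : 8 * P.kap + 100 ≤ 2 ^ (2 * P.p) := by
  have h1 := h.p_ge
  have h2 := h.d_le
  have h3 := h.poly_p_le
  have h4 := h.Lx_le
  have h5 := h.Par_l32
  have h6 : P.l2 ≤ 2 ^ P.p := by unfold Lx at h4; omega
  have h7 : P.p ^ 2 ≤ P.p ^ 4 := Nat.pow_le_pow_right (by omega) (by norm_num)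
  have h8 : P.p ≤ P.p ^ 4 := Nat.le_self_pow (by norm_num) _
  have h9 : (8 * P.d + 400) * P.l2 ≤ 2 ^ P.p * 2 ^ P.p := Nat.mul_le_mul (by omega) h6
  rw [two_mul, pow_add]
  rw [add_mul, mul_assoc] at h9
  unfold kap D Lx
  omega
theorem OK.T_le : P.T ≤ P.kap := by
  unfold T kap Lx
  omega
theorem OK.omx_le : P.omx ≤ 2 * P.Lx := by
  have h1 := h.wx_le
  have h2 := h.p_ge
  unfold omx cp
  omega
theorem OK.M_ge : 2 ^ P.Lx ≤ P.M * 2 ^ (3 * P.p + 3) := by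
  have h1 := h.wx_le
  have h2 : 2 ^ (3 * P.p) ≤ P.l1 :=
    (Nat.pow_le_pow_right two_pos (by unfold Lx at h1; omega)).trans h.Par_l1.1
  have h3 : 0 < 2 ^ (3 * P.p) := Nat.two_pow_pos _
  have h4 : 0 < P.M := Nat.div_pos h2 h3
  have h5 : P.l1 < 2 ^ (3 * P.p) * (P.M + 1) := Nat.lt_mul_div_succ _ h3
  have h6 : 2 ^ (3 * P.p) * (P.M + 1) ≤ 2 ^ (3 * P.p) * (2 * P.M) :=
    Nat.mul_le_mul_left _ (by omega)
  have h7 := h.le_l1
  calc 2 ^ P.Lx ≤ 4 * (2 ^ (3 * P.p) * (2 * P.M)) := by omega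
    _ = _ := by ring
theorem OK.M_le : P.M * 2 ^ (3 * P.p) ≤ P.l1 := by
  exact Nat.div_mul_le_self _ _
theorem OK.M_pos : 0 < P.M := by
  refine Nat.pos_of_ne_zero fun h0 => ?_
  have h1 := h.M_ge
  have h2 := Nat.two_pow_pos P.Lx
  rw [h0] at h1
  omega
/-- `M` is almost `2 ^ Lx` -/
theorem OK.two_pow_le_M : 2 ^ (P.Lx / 2 + 3 * P.wx + 20 * P.p) ≤ P.M := by
  have h1 := h.wx_le
  have h2 := h.p_ge
  refine Nat.le_of_mul_le_mul_right (le_trans ?_ h.M_ge) (Nat.two_pow_pos _)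
  rw [← pow_add]
  exact Nat.pow_le_pow_right two_pos (by omega)
theorem OK.D_le_M : P.D + 2 ≤ P.M := by
  have h1 := h.kap_le
  have h2 : 2 ^ (2 * P.p) ≤ P.M := (Nat.pow_le_pow_right two_pos (by omega)).trans h.two_pow_le_M
  unfold kap at h1
  omega
theorem OK.cmax_le : P.cmax ≤ 2 ^ (P.Lx + 1) := by
  have h1 := h.kap_le
  have h2 := h.wx_le
  have h3 : 2 ^ (2 * P.p) ≤ 2 ^ P.Lx := Nat.pow_le_pow_right two_pos (by omega)
  have h4 := h.L_lt
  have h5 := h.gp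
  have h6 : 12 * P.Lx ≤ P.kap := Nat.le_add_left _ _
  rw [pow_succ]
  unfold cmax c0
  omega
theorem OK.s_le : P.s ≤ 2 ^ (P.Lx + 1) := by
  have h1 := h.kap_le
  have h2 := h.wx_le
  have h3 : 2 ^ (2 * P.p) ≤ 2 ^ P.Lx := Nat.pow_le_pow_right two_pos (by omega)
  have h4 := h.L_lt
  have h5 := h.gp
  have h6 : 12 * P.Lx ≤ P.kap := Nat.le_add_left _ _
  have h7 := h.e_le
  rw [pow_succ]
  unfold s c0
  omega
theorem OK.D_le_two_pow_d : 100 * P.D ≤ 2 ^ P.d := by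
  have h1 := h.kap_le
  have h2 := h.pd
  have h3 := h.p_ge
  have h4 : 2 ^ (2 * P.p + 4) ≤ 2 ^ P.d := Nat.pow_le_pow_right two_pos (by omega)
  rw [pow_add] at h4
  unfold kap at h1
  omega
theorem OK.base_le : P.base P.T + P.D ≤ P.l1 := by
  have h1 := h.kap_le
  have h2 := h.T_le
  have h3 := h.D_le_M
  have h4 := h.M_le
  have h5 := h.p_ge
  have h6 : P.L / P.D = P.l1 / P.D + 1 := Nat.mul_div_cancel _ h.D_pos
  have h7 : P.l1 / P.D ≤ P.l1 / 2 :=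
    Nat.div_le_div_left (by have := h.Lx_le_D; unfold Lx at this; omega) two_pos
  have h8 : P.T * P.PL ≤ P.T * (6 * P.M) := Nat.mul_le_mul_left _ (by unfold PL; omega)
  have h9 : (6 * P.T + 1) * P.M ≤ 2 ^ (2 * P.p) * P.M := Nat.mul_le_mul_right _ (by omega)
  have h10 : P.M * 2 ^ (2 * P.p + 1) ≤ P.M * 2 ^ (3 * P.p) :=
    Nat.mul_le_mul_left _ (Nat.pow_le_pow_right two_pos (by omega))
  have h11 : P.T * (6 * P.M) + P.M = (6 * P.T + 1) * P.M := by ring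
  have h12 : P.M * 2 ^ (2 * P.p + 1) = 2 * (2 ^ (2 * P.p) * P.M) := by ring
  unfold base
  omega

end facts

/-! ### Scales -/

theorem Lam_pos (u : ℕ) : 0 < P.Lam u := by
  unfold Lam
  positivity
theorem Lam_add (u i : ℕ) : P.Lam (u + i) = 2 ^ i * P.Lam u := by
  unfold Lam
  ring
theorem Lam_mono {u v : ℕ} (h : u ≤ v) : P.Lam u ≤ P.Lam v := by
  exact Par_pp (by omega)
theorem Lam_zero : P.Lam 0 = 1 / 2 ^ P.c0 := by
  simp [Lam]
theorem onG_Lam (u : ℕ) (n : ℕ) : OnG P.s (n * P.Lam u) := by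
  have := onG_div (s := P.s) (c := P.c0) (by unfold s; omega) (n * 2 ^ u)
  rwa [Nat.cast_mul, Nat.cast_pow, Nat.cast_ofNat, mul_div_assoc] at this
theorem gm_mono {u v : ℕ} (h : u ≤ v) : P.gm u ≤ P.gm v := by
  exact Nat.sub_le_sub_right h _
theorem le_rad_iff {u x n : ℕ} : n ≤ P.rad u x ↔ (n : ℚ) ≤ 2 ^ x * P.Lam u := by
  unfold rad Lam
  rw [Nat.le_div_iff_mul_le (Nat.two_pow_pos _), ← mul_div_assoc, le_div_iff₀ (by positivity),
    ← pow_add, add_comm x]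
  norm_cast
theorem le_Wn_iff {u n : ℕ} : n ≤ P.Wn u ↔ (n : ℚ) ≤ P.Wq u P.d := by
  have e : P.Wq u P.d = 2 ^ u / 2 ^ (P.c0 + P.d + 13 * P.p + 2) := by
    unfold Wq Lam wx
    rw [show P.d * (P.fx + 6) = P.d * (P.fx + 5) + P.d by ring]
    simp only [pow_add]
    field_simp
  unfold Wn
  rw [e, Nat.le_div_iff_mul_le (Nat.two_pow_pos _), le_div_iff₀ (by positivity)]
  norm_cast
theorem Wq_d {u : ℕ} (hu : P.d ≤ u) : P.Wq u P.d = P.Gq * P.Lam (u - P.d) / 4 := by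
  obtain ⟨v, rfl⟩ := Nat.exists_eq_add_of_le hu
  unfold Wq Lam wx Gq
  rw [show P.d * (P.fx + 6) = P.d * (P.fx + 5) + P.d by ring, Nat.add_sub_cancel_left]
  simp only [pow_add]
  field_simp
  norm_num
theorem Wq_succ (u i : ℕ) : P.Wq u (i + 1) = 32 * 2 ^ P.fx * P.Wq u i := by
  unfold Wq
  ring
theorem Wq_mono (u : ℕ) {i i' : ℕ} (h : i ≤ i') : P.Wq u i ≤ P.Wq u i' := by
  have := Lam_pos (P := P) u
  unfold Wq
  gcongr
  norm_num
theorem rad_le_om {u x : ℕ} (hx : x ≤ P.omx) : P.rad u x ≤ 2 ^ P.om u := by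
  refine Nat.div_le_of_le_mul ?_
  rw [← pow_add]
  exact Nat.pow_le_pow_right two_pos (by unfold om; omega)
/-- Rounding one column costs at most `Λ / 2 ^ kap` (nothing if the grid is `1`). -/
theorem sub_rd_le (u a : ℕ) :
    ((a - a / 2 ^ P.gm u * 2 ^ P.gm u : ℕ) : ℚ) ≤ P.Lam u / 2 ^ P.kap := by
  have h0 := Lam_pos (P := P) u
  rcases le_total u P.cmax with hu | hu
  · rw [show P.gm u = 0 from Nat.sub_eq_zero_of_le hu]
    simp only [pow_zero, Nat.div_one, mul_one, Nat.sub_self, Nat.cast_zero]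
    positivity
  · have h1 := Nat.div_add_mod' a (2 ^ P.gm u)
    have h2 := Nat.mod_lt a (Nat.two_pow_pos (P.gm u))
    have h3 : ((a - a / 2 ^ P.gm u * 2 ^ P.gm u : ℕ) : ℚ) ≤ 2 ^ P.gm u / 2 ^ 0 := by
      rw [pow_zero, div_one]
      exact_mod_cast (by omega : a - a / 2 ^ P.gm u * 2 ^ P.gm u ≤ 2 ^ P.gm u)
    unfold Lam
    rw [div_div, ← pow_add]
    exact h3.trans (Par_pp (by unfold gm cmax at *; omega))
theorem dst_rd_le (u : ℕ) (z : St) : (dst z (P.rd u z) : ℚ) ≤ 2 * P.Lam u / 2 ^ P.kap := by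
  have h1 := sub_rd_le (P := P) u z.1
  have h2 := sub_rd_le (P := P) u z.2
  have e : dst z (P.rd u z) = (z.1 - z.1 / 2 ^ P.gm u * 2 ^ P.gm u) +
      (z.2 - z.2 / 2 ^ P.gm u * 2 ^ P.gm u) := by
    unfold dst rd
    rw [Nat.dist_eq_sub_of_le_right (rdn_fst_le _ _), Nat.dist_eq_sub_of_le_right (rdn_snd_le _ _)]
    rfl
  rw [e, Nat.cast_add, mul_div_assoc]
  linarith
theorem rd_eq_self {u v : ℕ} {z : St} (hz : P.inW u z) (h : v ≤ u) : P.rd v z = z := by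
  have h1 : 2 ^ P.gm v ∣ 2 ^ P.gm u := pow_dvd_pow 2 (gm_mono h)
  exact rdn_eq_self (h1.trans hz.2.2.1) (h1.trans hz.2.2.2.1)
theorem triv_mono {h c h' c' : ℕ} (ht : P.triv h c) (h1 : c ≤ c') (h2 : h ≤ h') :
    P.triv h' c' := by
  unfold triv at *
  omega
/-- Nontrivial scales are bounded. -/
theorem Lam_le_of_not_triv {h c : ℕ} (ht : ¬ P.triv h c) :
    P.Lam (h + c) ≤ P.X * 2 ^ (3 * P.Lx) := by
  unfold Lam X
  rw [Nat.cast_pow, Nat.cast_ofNat, ← pow_add, ← div_one ((2 : ℚ) ^ (P.e + 2 + 3 * P.Lx)),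
    ← pow_zero (2 : ℚ)]
  exact Par_pp (by unfold triv umax at ht; omega)
/-- In a trivial world `min X ℓ` is negligible. -/
theorem min_le_of_triv {h c : ℕ} (ht : P.triv h c) :
    ((min P.X (2 ^ h) : ℕ) : ℚ) ≤ P.del ^ 3 * P.Lam (h + c) := by
  have e : P.del ^ 3 * P.Lam (h + c) = 2 ^ (h + c) / 2 ^ (P.c0 + 3 * P.Lx) := by
    unfold del Lam
    rw [pow_add _ P.c0, pow_mul']
    field_simp
  have k : ∀ n : ℕ, n + (P.c0 + 3 * P.Lx) ≤ h + c →
      ((2 ^ n : ℕ) : ℚ) ≤ 2 ^ (h + c) / 2 ^ (P.c0 + 3 * P.Lx) := fun n hn => by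
    have := Par_pp (a := n) (b := 0) hn
    rwa [pow_zero, div_one, ← Nat.cast_ofNat (n := 2), ← Nat.cast_pow] at this
  rw [e]
  rcases ht with ht | ht
  · exact (Nat.cast_le.2 (min_le_right _ _)).trans (k h (by unfold cmax kap at ht; omega))
  · exact (Nat.cast_le.2 (min_le_left _ _)).trans (k (P.e + 2) (by unfold umax at ht; omega))
theorem Par_ups (u : ℕ) : P.ups * P.ups * P.Lam u = 2 ^ u / 2 ^ (P.c0 + 8 * P.Lx + 8 * P.Lx) := by
  unfold ups Lam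
  simp only [pow_add]
  field_simp
/-- The unit of rounding is negligible even after a factor `2 ^ (3 kap)`. -/
theorem eps_le (u : ℕ) : (2 : ℚ) ^ (3 * P.kap) / 2 ^ P.s ≤ P.ups * P.ups * P.Lam u := by
  rw [Par_ups]
  exact Par_pp (by unfold s; omega)
/-- ... also relative to the largest magnitudes. -/
theorem eps_mul_le (u : ℕ) :
    (P.X : ℚ) * 2 ^ (3 * P.kap) / 2 ^ P.s ≤ P.ups * P.ups * P.Lam u := by
  unfold X
  rw [Par_ups, Nat.cast_pow, Nat.cast_ofNat, ← pow_add]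
  exact Par_pp (by unfold s Lx; omega)
theorem X_mul_le : (P.X : ℚ) * 2 ^ (3 * P.kap) ≤ 2 ^ P.s := by
  unfold X
  rw [Nat.cast_pow, Nat.cast_ofNat, ← pow_add]
  exact pow_le_pow_right₀ one_le_two (by unfold s Lx; omega)

end Pa

end Crest.Agent.R288
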