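/-
R288/Defs: the local functions of the algorithm and the engine.  Author: helper33.  FROZEN.

Worlds are pairs `(h, c)` (height, class), of scale `u = h + c`, `Λ = P.Lam u`.
-/
import Crest.Agent.R288.Par
import Crest.Agent.R288.EngDep

set_option autoImplicit false

namespace Crest.Agent.R288

open Finset Crest.Agent.Lib.PolyTime

namespace Pa

variable (P : Pa)

/-- The trivial upper bound. -/
def trivV (h : ℕ) (z : St) : ℚ := ((min P.X (Nat.dist z.1 z.2 + 2 ^ h) : ℕ) : ℚ)

/-- The nontrivial classes `≥ c` at height `h`. -/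
def clsList (h c : ℕ) : List ℕ := (List.range' c (P.cmax - c)).filter fun c' => ¬ P.triv h c'

/-- Lift through the classes `≥ c`; `f c' z` is the value of class `c'` at the rounding of `z`. -/
def upQ (f : ℕ → St → ℚ) (h c : ℕ) (z : St) : ℚ :=
  minL ((P.clsList h c).map fun c' => f c' z + dst z (P.rd (h + c') z)) (P.trivV h z)

/-- The states of scale `u` in the box of radius `r` around `z`. -/
def box (u r : ℕ) (z : St) : List St :=
  ((gball P.X (P.gm u) r z.1).product (gball P.X (P.gm u) r z.2)).filter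
    fun z' => Nat.dist z'.1 z'.2 ≤ P.wid u

/-! ### The start (tree distance with precision sampling) -/

/-- Zone limits. -/
def hiA (u : ℕ) : ℚ := 2 ^ (P.Lx + 2) * P.Lam u

/-- Envelope of the diagonal table `f` of a child world `(h', c')` at column `α`. -/
def aenv (f : St → ℚ) (h' c' α : ℕ) : ℚ :=
  if P.triv h' c' then min (P.hiA (h' + c')) (P.trivV h' (α, α)) else
    minL ((gball P.X (P.gm (h' + c')) (P.rad (h' + c') (P.Lx + 1)) α).map
      fun a => f (a, a) + 2 * (Nat.dist a α : ℚ)) (P.hiA (h' + c'))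

/-- The part of `x` in zone `i`. -/
def phiA (h' c i : ℕ) (x : ℚ) : ℚ :=
  max 0 (min x (P.hiA (h' + c + i)) - if i = 0 then 0 else P.hiA (h' + c + i - 1))

/-- Exact sum of zone `i` over all children; `f j' c'` is the table of child `j'` in class `c'`. -/
def aSum (f : ℕ → ℕ → St → ℚ) (h c α i : ℕ) : ℚ :=
  ∑ j' ∈ range (2 ^ P.D), P.phiA (h - P.D) c i (P.aenv (f j' (c + i)) (h - P.D) (c + i) α)

/-- Sampled sum of zone `i`; `f i r` is the table of sample `r`. -/
def aTerm (f : ℕ → ℕ → St → ℚ) (h c α i : ℕ) : ℚ :=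
  2 ^ P.D / 2 ^ (i + P.ra) *
    ∑ r ∈ range (2 ^ (i + P.ra)), P.phiA (h - P.D) c i (P.aenv (f i r) (h - P.D) (c + i) α)

/-- Combination of the zones. -/
def aComb (tm : ℕ → ℚ) (u : ℕ) : ℚ :=
  min P.X ((1 + 2 * P.del) * ∑ i ∈ range (P.D + 1), tm i + P.del ^ 2 * P.Lam u)

/-- The first table; `a` is the diagonal table, `m` the mismatch bits. -/
def nzero (a : St → ℚ) (m : ℕ → Bool) (h c : ℕ) (z : St) : ℚ :=
  if h = 0 then ((min P.X (vleaf m z) : ℕ) : ℚ) else
  if P.D ∣ h then min (P.trivV h z)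
    (if a (z.1, z.1) < P.hiA (h + c) then a (z.1, z.1) + (Nat.dist z.1 z.2 : ℚ) else P.X)
  else P.trivV h z

/-! ### Stage A -/

/-- First table of the next phase: old table `n` and last round `pm β` of the phase. -/
def nnext (n : St → ℚ) (pm : ℕ → St → ℚ) (h c : ℕ) (z : St) : ℚ :=
  minL (if P.d ∣ h then (List.range (P.M + 1)).map
    fun β => if pm β z < 3 * P.Lam (h + c) then pm β z else P.X else []) (n z)

/-- One closure step: class links, envelope links, split links. -/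
def nstep (f0 fL fR : ℕ → St → ℚ) (h c : ℕ) (z : St) : ℚ :=
  minL (((P.box (h + c) (P.rad (h + c) P.cp) z).map fun z' => f0 c z' + dst z z') ++
      if h = 0 then [] else (gball P.X (P.gm (h + c - 1)) (P.wid (h + c)) z.1).map
        fun a => P.upQ fL (h - 1) c (z.1, a) + P.upQ fR (h - 1) c (a, z.2))
    (P.upQ f0 h (c - 1) z)

/-- Average of `M` consecutive tables. -/
def nbar (f : ℕ → St → ℚ) (z : St) : ℚ := rup P.s ((∑ k ∈ range P.M, f k z) / P.M)

/-- Capped Lipschitz envelope of the average. -/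
def ntil (f : ℕ → St → ℚ) (u : ℕ) (z : St) : ℚ :=
  minL ((P.box u (P.rad u P.cp) z).map fun z' => P.nbar f z' + dst z z') (P.cap * P.Lam u)

/-! ### One super-level below the world `(h, c)`

`nt i j c' z`: Lipschitz table of the descendant `j` at depth `i` in class `c'` at the rounding of
`z`.  `y`: the state at the top. -/

/-- The class rule at height `h'`. -/
def cls (ntb : ℕ → St → ℚ) (h' c : ℕ) (z : St) : ℕ :=
  ((List.range' (c - 1) (P.cmax - (c - 1))).find?
    fun c' => decide (P.triv h' c' ∨ ntb c' z ≤ P.Lam (h' + c'))).getD P.cmax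

/-- The value `v` at a centre of depth `i` is small. -/
def small (u i : ℕ) (v : ℚ) : Prop := v ≤ 3 * 2 ^ P.fx * P.Wq u i

instance (u i : ℕ) (v : ℚ) : Decidable (P.small u i v) := by unfold small; infer_instance

/-- The centre `z` of depth `i` with value `v` is terminal. -/
def term (u i : ℕ) (v : ℚ) (z : St) : Prop :=
  ¬ P.small u i v ∧ v ≤ (1 + 2 * P.fq) * (Nat.dist z.1 z.2 : ℚ) ∧ v < P.cap * P.Lam (u - i)

instance (u i : ℕ) (v : ℚ) (z : St) : Decidable (P.term u i v z) := by unfold term; infer_instance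

/-- The predicted midpoint (proportional rule). -/
def mid (h c : ℕ) (nt : ℕ → ℕ → ℕ → St → ℚ) (i j : ℕ) (z : St) : ℕ :=
  if P.small (h + c) i (nt i j c z) then z.1 else
    ((gball P.X (P.gm (h + c - (i + 1))) (P.rad (h + c) 2) z.1).argmin fun a : ℕ =>
      |((a : ℚ) - z.1) - ((z.2 : ℚ) - z.1) / nt i j c z * nt (i + 1) (2 * j) c (z.1, a)|).getD z.1

/-- Centre of node `j` at depth `i`, and whether it is alive (no terminal strict ancestor). -/
def cen (h c : ℕ) (nt : ℕ → ℕ → ℕ → St → ℚ) (y : St) : ℕ → ℕ → St × Bool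
  | 0, _ => (y, true)
  | i + 1, j =>
    let q := cen h c nt y i (j / 2)
    if q.2 = false ∨ P.term (h + c) i (nt i (j / 2) c q.1) q.1 then (q.1, false) else
      (if j % 2 = 0 then (q.1.1, P.mid h c nt i (j / 2) q.1) else (P.mid h c nt i (j / 2) q.1, q.1.2),
        true)

/-- Class of the bottom node `j`, decided at its centre. -/
def clc (h c : ℕ) (nt : ℕ → ℕ → ℕ → St → ℚ) (y : St) (j : ℕ) : ℕ :=
  P.cls (nt P.d j) (h - P.d) c (P.cen h c nt y P.d j).1

/-- Mass of the bottom node `j`. -/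
def mb (h c : ℕ) (nt : ℕ → ℕ → ℕ → St → ℚ) (y : St) (j : ℕ) : ℚ :=
  if (P.cen h c nt y P.d j).2 then P.Lam (h - P.d + P.clc h c nt y j) else 0

/-- Mass of the node `j` at height `e` above the bottom. -/
def mass (h c : ℕ) (nt : ℕ → ℕ → ℕ → St → ℚ) (y : St) (e j : ℕ) : ℚ :=
  P.Lam (h + c - (P.d - e)) + ∑ j' ∈ range (2 ^ e), P.mb h c nt y (j * 2 ^ e + j')

/-- The actions around a predicted column. -/
def acts (u a : ℕ) : List ℕ := gball P.X (P.gm (u - P.d)) (P.Wn u) a

/-- Values of round `k` at node `j`, height `e` above the bottom, state `z`. -/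
def lsv (h c : ℕ) (nt : ℕ → ℕ → ℕ → St → ℚ) (y : St) (leaf : ℕ → ℕ → St → ℚ) :
    ℕ → ℕ → St → ℕ → ℚ
  | 0, j, z, k => leaf k j z
  | e + 1, j, z, k =>
    let zc := (P.cen h c nt y (P.d - (e + 1)) j).1
    let v := nt (P.d - (e + 1)) j c zc
    if P.term (h + c) (P.d - (e + 1)) v zc then v + dst z zc else
      rup P.s (lsQ P.s (P.eta / P.mass h c nt y (e + 1) j)
        (P.acts (h + c) (P.mid h c nt (P.d - (e + 1)) j zc))
        (fun k' a => lsv h c nt y leaf e (2 * j) (z.1, a) k' +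
          lsv h c nt y leaf e (2 * j + 1) (a, z.2) k') k
        fun a => lsv h c nt y leaf e (2 * j) (z.1, a) k + lsv h c nt y leaf e (2 * j + 1) (a, z.2) k)

/-- Value of a bottom node in class `c'`; `f` is its table at rounded states. -/
def botv (h' c' : ℕ) (f : St → ℚ) (z : St) : ℚ :=
  if P.triv h' c' then P.trivV h' z else f z + dst z (P.rd (h' + c') z)

/-- Bottom values with the classes of the centres; `pb j c' z` are the tables. -/
def bot (h c : ℕ) (nt : ℕ → ℕ → ℕ → St → ℚ) (y : St) (pb : ℕ → ℕ → St → ℚ) (j : ℕ) (z : St) : ℚ :=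
  P.botv (h - P.d) (P.clc h c nt y j) (pb j (P.clc h c nt y j)) z

/-- The top state `y` is enabled. -/
def enab (h c : ℕ) (nt : ℕ → ℕ → ℕ → St → ℚ) (y : St) : Prop :=
  ∑ j ∈ range (2 ^ P.d), P.mb h c nt y j ≤ P.mu * P.Lam (h + c) ∧
    ∀ j ∈ List.range (2 ^ P.d), (P.cen h c nt y P.d j).2 = true →
      Nat.dist (P.cen h c nt y P.d j).1.1 y.1 ≤ P.rad (h + c) 2

instance (h c : ℕ) (nt : ℕ → ℕ → ℕ → St → ℚ) (y : St) : Decidable (P.enab h c nt y) := by
  unfold enab; infer_instance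

/-- Only columns within `8 Λ` of the top are visible. -/
def grd (u : ℕ) (y : St) (f : ℕ → ℕ → ℕ → St → ℚ) : ℕ → ℕ → ℕ → St → ℚ :=
  fun a b c z => if Nat.dist z.1 y.1 ≤ P.rad u 3 then f a b c z else P.X

/-- The linearised value of the top `y` in round `k`; `pb k j c' z` are the bottom tables. -/
def Sm (h c : ℕ) (nt pb : ℕ → ℕ → ℕ → St → ℚ) (y : St) (k : ℕ) : ℚ :=
  if P.enab h c (P.grd (h + c) y nt) y then
    P.lsv h c (P.grd (h + c) y nt) y
      (fun k' => P.bot h c (P.grd (h + c) y nt) y (P.grd (h + c) y pb k')) P.d 0 y k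
  else 8 * P.Lam (h + c)

/-- The full dynamic program over one super-level. -/
def bigv (h c : ℕ) (nt : ℕ → ℕ → ℕ → St → ℚ) (y : St) (pm : ℕ → ℕ → St → ℚ) : ℕ → ℕ → St → ℚ
  | 0, j, z => P.botv (h - P.d) (P.cls (nt P.d j) (h - P.d) c z)
      (pm j (P.cls (nt P.d j) (h - P.d) c z)) z
  | e + 1, j, z => rup P.s (minL ((gball P.X (P.gm (h + c - P.d)) (P.rad (h + c) 2) y.1).map
      fun a => bigv h c nt y pm e (2 * j) (z.1, a) + bigv h c nt y pm e (2 * j + 1) (a, z.2)) P.X)

/-- Its value at the top, for the tables of round `k`. -/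
def Big (h c : ℕ) (nt pm : ℕ → ℕ → ℕ → St → ℚ) (y : St) (k : ℕ) : ℚ :=
  P.bigv h c (P.grd (h + c) y nt) y (P.grd (h + c) y pm k) P.d 0 y

/-- The safe expert. -/
def Kn (h c : ℕ) (nt pm : ℕ → ℕ → ℕ → St → ℚ) (β : ℕ) (x : St) (m : ℕ) : ℚ :=
  minL (if β = 0 then [] else ((P.box (h + c) (P.rad (h + c) 2) x).product (List.range (m + 1))).map
      fun q => P.Big h c nt pm q.1 q.2 + dst x q.1)
    (min (3 * P.Lam (h + c)) (nt 0 0 c x))

/-- Index list of the soft clipping. -/
def trmA (u : ℕ) (x : St) : List (ℕ × St) :=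
  (0, x) :: (1, x) :: (P.box u (P.rad u 2) x).map fun y => (2, y)

/-- Terms of the soft clipping of expert `i`. -/
def trm (u : ℕ) (S : St → ℚ) (Kv : ℚ) (i : ℕ) (x : St) (a : ℕ × St) : ℚ :=
  if a.1 = 0 then (if i = 0 then S x else Kv) else
  if a.1 = 1 then Kv + P.Gq * P.Lam u else S a.2 + dst x a.2 + P.Gq * P.Lam u

/-- Clipped cost of expert `i` in round `k`. -/
def cq (h c : ℕ) (nt pb pm : ℕ → ℕ → ℕ → St → ℚ) (β : ℕ) (x : St) (k i : ℕ) : ℚ :=
  sminQ P.s (P.theta / P.Lam (h + c)) (P.trmA (h + c) x)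
    (P.trm (h + c) (fun y => P.Sm h c nt pb y k) (P.Kn h c nt pm β x k) i x)

/-- Offset of round `m`. -/
def off (u m : ℕ) : ℚ := ((P.M - m : ℕ) : ℚ) * P.zeta * P.Lam u

/-- Importance-sampling estimate of the table of bottom node `j` in class `c'`; sample `r` of step
`i` of the ladder has index `Ix i r` and raw table `Rw i r`. -/
def estF (c : ℕ) (Ix : ℕ → ℕ → ℕ) (Rw : ℕ → ℕ → St → ℚ) (j c' : ℕ) (z : St) : ℚ :=
  if c' - (c - 1) < P.I then 2 ^ P.d / 2 ^ (c' - (c - 1) + P.rx) *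
    ∑ r ∈ range (2 ^ (c' - (c - 1) + P.rx)),
      if Ix (c' - (c - 1)) r = j then Rw (c' - (c - 1)) r z else 0
  else 0

/-- Replace the tables of the rounds `≥ m` by `E`. -/
def pbE (pb : ℕ → ℕ → ℕ → St → ℚ) (m : ℕ) (E : ℕ → ℕ → St → ℚ) : ℕ → ℕ → ℕ → St → ℚ :=
  fun k => if k < m then pb k else E

/-- Raw estimate at height `0`. -/
def rawLeaf (m : ℕ → Bool) (c k : ℕ) (z : St) : ℚ :=
  min ((min P.X (vleaf m z) : ℕ) : ℚ) (3 * P.Lam c) + P.off c k

/-- Raw estimate at positive height; `E a` is the estimate of the bottom tables in copy `a`. -/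
def rawF (h c : ℕ) (nt pb pm : ℕ → ℕ → ℕ → St → ℚ) (E : ℕ → ℕ → ℕ → St → ℚ) (m β : ℕ) (x : St) : ℚ :=
  clampQ (-P.Lam (h + c)) (5 * P.Lam (h + c))
    (lsQ P.s (P.eta / P.Lam (h + c)) [0, 1] (P.cq h c nt pb pm β x) m
      (fun i => estQ P.s (P.theta / P.Lam (h + c)) P.kT (P.trmA (h + c) x)
        (P.trm (h + c) (fun y => P.Sm h c nt (pbE pb m (E 0)) y m) (P.Kn h c nt pm β x m) i x)
        fun a b => P.trm (h + c) (fun y => P.Sm h c nt (pbE pb m (E (1 + a * P.kT + b))) y m)
          (P.Kn h c nt pm β x m) i x) + P.off (h + c) m)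

/-- Average of the raw estimates. -/
def tabAvg (f : ℕ → St → ℚ) (z : St) : ℚ := (∑ r ∈ range (2 ^ P.rf), f r z) / 2 ^ P.rf

end Pa

/-! ### Descriptors -/

/-- `(kind, t, m, β, h, c)`. -/
abbrev De : Type := ℕ × ℕ × ℕ × ℕ × ℕ × ℕ

/-- diagonal tables of the start -/
abbrev dA (h c : ℕ) : De := (0, 0, 0, 0, h, c)
/-- closure tables -/
abbrev dN (t k h c : ℕ) : De := (1, t, k, 0, h, c)
/-- Lipschitz tables -/
abbrev dT (t h c : ℕ) : De := (2, t, 0, 0, h, c)
/-- raw estimates -/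
abbrev dR (t m β h c : ℕ) : De := (3, t, m, β, h, c)
/-- averaged tables -/
abbrev dP (t m β h c : ℕ) : De := (4, t, m, β, h, c)
/-- a deterministic table request -/
abbrev qT (D : De) (e n : ℕ) : Key De := (D, e, n, false, false)
/-- a table request at a random descendant -/
abbrev qR (D : De) (e n : ℕ) : Key De := (D, e, n, true, false)
/-- a request with fresh bits at a random descendant -/
abbrev qF (D : De) (e n : ℕ) : Key De := (D, e, n, true, true)

namespace Pa

variable (P : Pa)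

/-- Rank (and tape). -/
def rk : De → ℕ
  | (k, t, m, β, h, _) =>
    if k = 0 then h / P.D else if k = 1 then P.base t + m else
    if k = 2 then P.base t + P.D + P.M + 1 else
    if k = 3 then P.base t + P.D + P.M + 2 + 2 * (m + β) else P.base t + P.D + P.M + 3 + 2 * (m + β)

/-- Potential. -/
def pot (D : De) : ℕ :=
  2 ^ (P.Lx + 14 * P.Lx * P.rk D + 44 * P.p * (D.2.2.2.2.1 / P.d) + (P.cmax - D.2.2.2.2.2))

/-- All bottom nodes in all nontrivial classes `≥ c - 1`. -/
def botKeys (h c : ℕ) (mk : ℕ → De) : List (Key De) :=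
  (P.clsList (h - P.d) (c - 1)).flatMap fun c' => (List.range (2 ^ P.d)).map fun j => qT (mk c') P.d j

/-- Requests of the start. -/
def planA (h c : ℕ) : List (Key De) :=
  if h = 0 then [] else ((List.range (P.D + 1)).filter fun i => ¬ P.triv (h - P.D) (c + i)).flatMap
    fun i => (List.range (2 ^ (i + P.ra))).map fun r => qR (dA (h - P.D) (c + i)) P.D r

/-- Requests of the closure tables. -/
def planN (t k h c : ℕ) : List (Key De) :=
  if k = 0 then
    if t = 0 then (if h ≠ 0 ∧ P.D ∣ h then [qT (dA h c) 0 0] else [])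
    else qT (dN (t - 1) P.D h c) 0 0 :: if P.d ∣ h then
      (List.range (P.M + 1)).map fun β => qT (dP (t - 1) (P.M - 1) β h c) 0 0 else []
  else ((P.clsList h (c - 1)).map fun c' => qT (dN t (k - 1) h c') 0 0) ++
    if h = 0 then [] else (P.clsList (h - 1) c).flatMap
      fun c' => [qT (dN t (k - 1) (h - 1) c') 1 0, qT (dN t (k - 1) (h - 1) c') 1 1]

/-- Requests of the raw estimates. -/
def planR (t m β h c : ℕ) : List (Key De) :=
  if h = 0 then [] else
    ((List.range P.d).flatMap fun i => (List.range (2 ^ i)).map fun j => qT (dT t (h - i) c) i j) ++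
    P.botKeys h c (fun c' => dT t (h - P.d) c') ++
    ((List.range m).flatMap fun k => P.botKeys h c fun c' => dP t k β (h - P.d) c') ++
    (if β = 0 then [] else
      (List.range (m + 1)).flatMap fun k => P.botKeys h c fun c' => dP t k (β - 1) (h - P.d) c') ++
    ((List.range P.I).filter fun i => ¬ P.triv (h - P.d) (c - 1 + i)).flatMap fun i =>
      (List.range ((P.kT ^ 2 + 1) * 2 ^ (i + P.rx))).map
        fun n => qF (dR t m β (h - P.d) (c - 1 + i)) P.d n

/-- All requests. -/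
def plan : De → List (Key De)
  | (k, t, m, β, h, c) =>
    if k = 0 then P.planA h c else if k = 1 then P.planN t m h c else
    if k = 2 then (List.range P.M).map fun k' => qT (dN t (P.D + k') h c) 0 0 else
    if k = 3 then P.planR t m β h c else
      (List.range (2 ^ P.rf)).map fun r => qF (dR t m β h c) 0 r

/-- Rule of the start. -/
def ruleA (G : Key De → St → ℚ) (ms : ℕ → Bool) (h c : ℕ) (z : St) : ℚ :=
  if h = 0 then (vleaf ms z : ℚ) else
    P.aComb (P.aTerm (fun i r => G (qR (dA (h - P.D) (c + i)) P.D r)) h c z.1) (h + c)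

/-- Rule of the closure tables. -/
def ruleN (G : Key De → St → ℚ) (ms : ℕ → Bool) (t k h c : ℕ) (z : St) : ℚ :=
  if k = 0 then
    if t = 0 then P.nzero (G (qT (dA h c) 0 0)) ms h c z
    else P.nnext (G (qT (dN (t - 1) P.D h c) 0 0))
      (fun β => G (qT (dP (t - 1) (P.M - 1) β h c) 0 0)) h c z
  else P.nstep (fun c' => G (qT (dN t (k - 1) h c') 0 0))
    (fun c' => G (qT (dN t (k - 1) (h - 1) c') 1 0)) (fun c' => G (qT (dN t (k - 1) (h - 1) c') 1 1))
    h c z

/-- Rule of the raw estimates. -/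
def ruleR (I : Key De → ℕ) (G : Key De → St → ℚ) (ms : ℕ → Bool) (t m β h c : ℕ) (z : St) : ℚ :=
  if h = 0 then P.rawLeaf ms c m z else
    P.rawF h c (fun i j c' => G (qT (dT t (h - i) c') i j))
      (fun k j c' => G (qT (dP t k β (h - P.d) c') P.d j))
      (fun k j c' => G (qT (dP t k (β - 1) (h - P.d) c') P.d j))
      (fun a => P.estF c
        (fun i r => I (qF (dR t m β (h - P.d) (c - 1 + i)) P.d (a * 2 ^ (i + P.rx) + r)))
        (fun i r => G (qF (dR t m β (h - P.d) (c - 1 + i)) P.d (a * 2 ^ (i + P.rx) + r))))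
      m β z

/-- All rules. -/
def rule (D : De) (I : Key De → ℕ) (G : Key De → St → ℚ) (ms : ℕ → Bool) (z : St) : ℚ :=
  match D with
  | (k, t, m, β, h, c) => rup P.s <|
    if ¬ P.inW (h + c) z then P.X else
    if k = 0 then P.ruleA G ms h c z else if k = 1 then P.ruleN G ms t m h c z else
    if k = 2 then P.ntil (fun k' => G (qT (dN t (P.D + k') h c) 0 0)) (h + c) z else
    if k = 3 then P.ruleR I G ms t m β h c z else
      clampQ 0 (4 * P.Lam (h + c)) (P.tabAvg (fun r => G (qF (dR t m β h c) 0 r)) z)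

end Pa

/-- The engine of the algorithm. -/
def eng : Eng Pa De where
  X := Pa.X
  hgt D := D.2.2.2.2.1
  gam P D := P.gm (D.2.2.2.2.1 + D.2.2.2.2.2)
  om P D := P.om (D.2.2.2.2.1 + D.2.2.2.2.2)
  wid P D := if D.1 = 0 then 0 else P.wid (D.2.2.2.2.1 + D.2.2.2.2.2)
  tp := Pa.rk
  pot := Pa.pot
  plan := Pa.plan
  rule := Pa.rule

/-- The good descriptors. -/
def Good (P : Pa) : De → Prop
  | (k, t, m, β, h, c) => P.OK ∧ h ≤ P.L ∧ ¬ P.triv h c ∧
    ((k = 0 ∧ t = 0 ∧ m = 0 ∧ β = 0 ∧ P.D ∣ h) ∨ (k = 1 ∧ t ≤ P.T ∧ m ≤ P.D + P.M ∧ β = 0) ∨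
      (k = 2 ∧ t < P.T ∧ m = 0 ∧ β = 0) ∨
      ((k = 3 ∨ k = 4) ∧ t < P.T ∧ m < P.M ∧ β ≤ P.M ∧ P.d ∣ h))

/-- The size bound of the engine. -/
def QP (P : Pa) : ℕ := 4 * P.pad

end Crest.Agent.R288
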