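/-
R288/Tabs: families of tables and the properties passed between the modules.
Author: helper33.  FROZEN.
-/
import Crest.Agent.R288.Defs

set_option autoImplicit false

namespace Crest.Agent.R288

open Finset

/-- A family of tables: height, index of the node, class, state. -/
abbrev Fam : Type := ℕ → ℕ → ℕ → St → ℚ

namespace Pa

variable (P : Pa) (ms : ℕ → ℕ → Bool)

/-- The nodes of the tree. -/
def Nd (h j : ℕ) : Prop := h ≤ P.L ∧ j < 2 ^ (P.L - h)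

/-- The true values, as reals. -/
def VV (h j : ℕ) (z : St) : ℝ := (V P.X ms h j z : ℝ)

/-- `Λ` as a real. -/
def La (u : ℕ) : ℝ := (P.Lam u : ℝ)

/-- Lookup of all classes at one node. -/
def lkF (N : Fam) (h j : ℕ) : ℕ → St → ℚ := fun c' z => N h j c' (P.rd (h + c') z)

/-- Validity of a closure table. -/
structure ValN (N : Fam) : Prop where
  out : ∀ h j c z, ¬ P.inW (h + c) z → N h j c z = P.X
  onG : ∀ h j c z, P.Nd h j → ¬ P.triv h c → OnG P.s (N h j c z)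
  val : ∀ h j c z, P.Nd h j → ¬ P.triv h c → P.inW (h + c) z →
    min (P.VV ms h j z) P.X ≤ N h j c z
  triv : ∀ h j c z, P.Nd h j → ¬ P.triv h c → P.inW (h + c) z → N h j c z ≤ P.trivV h z
  leaf : ∀ j c z, P.Nd 0 j → ¬ P.triv 0 c → P.inW (0 + c) z → (N 0 j c z : ℝ) ≤ P.VV ms 0 j z

/-- The closure iteration. -/
structure NRel (N : ℕ → Fam) : Prop where
  out : ∀ k h j c z, ¬ P.inW (h + c) z → N k h j c z = P.X
  step : ∀ k < P.D + P.M, ∀ h j c z, P.Nd h j → ¬ P.triv h c → P.inW (h + c) z →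
    N (k + 1) h j c z = rup P.s (P.nstep (P.lkF (N k) h j) (P.lkF (N k) (h - 1) (2 * j))
      (P.lkF (N k) (h - 1) (2 * j + 1)) h c z)

/-- Approximation guarantee on the states of all nontrivial worlds. -/
def HN (N : Fam) (K κ : ℝ) : Prop :=
  ∀ h j c z, P.Nd h j → ¬ P.triv h c → P.inW (h + c) z →
    (N h j c z : ℝ) ≤ K * P.VV ms h j z + κ * P.La (h + c)

/-- Approximation guarantee of the lift through the classes, at height `h`. -/
def UpH (N : Fam) (K κ : ℝ) (h : ℕ) : Prop :=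
  ∀ j c z, P.Nd h j → z.1 ≤ P.X → z.2 ≤ P.X →
    (P.upQ (P.lkF N h j) h c z : ℝ) ≤ K * P.VV ms h j z + κ * P.La (h + c)

/-- The Lipschitz tables come from the closure tables. -/
structure TRel (N : ℕ → Fam) (Nt : Fam) : Prop where
  out : ∀ h j c z, ¬ P.inW (h + c) z → Nt h j c z = P.X
  eq : ∀ h j c z, P.Nd h j → ¬ P.triv h c → P.inW (h + c) z →
    Nt h j c z = rup P.s (P.ntil (fun k => N (P.D + k) h j c) (h + c) z)

/-- The averaged table. -/
def nbM (N : ℕ → Fam) : Fam := fun h j c z =>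
  if P.inW (h + c) z then P.nbar (fun k => N (P.D + k) h j c) z else P.X

/-- Error of a link. -/
noncomputable def elk (K : ℝ) (h j c : ℕ) (z : St) : ℝ := (K * P.VV ms h j z + P.La (h + c)) / P.M

/-- What stage A delivers: averaged tables `Nb` and Lipschitz tables `Nt`. -/
structure StageA (Nb Nt : Fam) (K : ℝ) : Prop where
  K1 : 1 ≤ K
  K2 : K ≤ P.K0
  outb : ∀ h j c z, ¬ P.inW (h + c) z → Nb h j c z = P.X
  outt : ∀ h j c z, ¬ P.inW (h + c) z → Nt h j c z = P.X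
  val : ∀ h j c z, P.Nd h j → ¬ P.triv h c → P.inW (h + c) z →
    min (P.VV ms h j z) P.X ≤ Nb h j c z
  le : ∀ h j c z, P.Nd h j → ¬ P.triv h c → P.inW (h + c) z →
    (Nb h j c z : ℝ) ≤ K * P.VV ms h j z + P.La (h + c) / 8
  triv : ∀ h j c z, P.Nd h j → ¬ P.triv h c → P.inW (h + c) z → Nb h j c z ≤ P.trivV h z
  leaf : ∀ j c z, P.Nd 0 j → ¬ P.triv 0 c → P.inW (0 + c) z → (Nb 0 j c z : ℝ) ≤ P.VV ms 0 j z
  split : ∀ h j c z a, P.Nd (h + 1) j → ¬ P.triv (h + 1) c → P.inW (h + 1 + c) z →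
    P.inW (h + c) (z.1, a) → P.inW (h + c) (a, z.2) →
    (Nb (h + 1) j c z : ℝ) ≤ Nb h (2 * j) c (z.1, a) + Nb h (2 * j + 1) c (a, z.2) +
      P.elk ms K (h + 1) j c z
  cls : ∀ h j c c' z, P.Nd h j → ¬ P.triv h c → P.inW (h + c) z → c - 1 ≤ c' → ¬ P.triv h c' →
    (Nb h j c z : ℝ) ≤ Nb h j c' (P.rd (h + c') z) + dst z (P.rd (h + c') z) + P.elk ms K h j c z
  lip : ∀ h j c z z', P.Nd h j → ¬ P.triv h c → P.inW (h + c) z → P.inW (h + c) z' →
    Nt h j c z ≤ Nt h j c z' + dst z z'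
  tval : ∀ h j c z, P.Nd h j → ¬ P.triv h c → P.inW (h + c) z →
    min (min (P.VV ms h j z) P.X) (P.cap * P.La (h + c)) ≤ Nt h j c z
  tle : ∀ h j c z, P.Nd h j → ¬ P.triv h c → P.inW (h + c) z → Nt h j c z ≤ Nb h j c z
  tge : ∀ h j c z, P.Nd h j → ¬ P.triv h c → P.inW (h + c) z →
    min (P.cap * P.La (h + c)) (Nb h j c z - P.elk ms K h j c z) ≤ Nt h j c z

/-- The Lipschitz tables seen from the world `(h, c)` at node `j`. -/
def ntM (Nt : Fam) (h j c : ℕ) : ℕ → ℕ → ℕ → St → ℚ := fun i j' c' z =>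
  if j' < 2 ^ i ∧ z.1 ≤ P.X ∧
      ((i < P.d ∧ c' = c) ∨ (i = P.d ∧ c - 1 ≤ c' ∧ ¬ P.triv (h - P.d) c')) then
    Nt (h - i) (j * 2 ^ i + j') c' (P.rd (h - i + c') z) else P.X

/-- The bottom tables (`Pt k` = round `k`) seen from the world `(h, c)` at node `j`. -/
def pbM (Pt : ℕ → Fam) (h j c : ℕ) : ℕ → ℕ → ℕ → St → ℚ := fun k j' c' z =>
  if j' < 2 ^ P.d ∧ z.1 ≤ P.X ∧ c - 1 ≤ c' ∧ ¬ P.triv (h - P.d) c' then
    Pt k (h - P.d) (j * 2 ^ P.d + j') c' (P.rd (h - P.d + c') z) else P.X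

/-- Linearised value computed from the tables. -/
def SmM (Nt : Fam) (Pt : ℕ → ℕ → Fam) (β h j c : ℕ) (y : St) (k : ℕ) : ℚ :=
  P.Sm h c (P.ntM Nt h j c) (P.pbM (fun k => Pt k β) h j c) y k

/-- Safe expert computed from the tables. -/
def KnM (Nt : Fam) (Pt : ℕ → ℕ → Fam) (β h j c : ℕ) (x : St) (k : ℕ) : ℚ :=
  P.Kn h c (P.ntM Nt h j c) (P.pbM (fun k => Pt k (β - 1)) h j c) β x k

/-- Clipped costs computed from the tables. -/
def cqM (Nt : Fam) (Pt : ℕ → ℕ → Fam) (β h j c : ℕ) (x : St) : ℕ → ℕ → ℚ :=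
  P.cq h c (P.ntM Nt h j c) (P.pbM (fun k => Pt k β) h j c)
    (P.pbM (fun k => Pt k (β - 1)) h j c) β x

/-- The ideal value of the table `Pt m β`. -/
noncomputable def Pre (Nt : Fam) (Pt : ℕ → ℕ → Fam) (m β h j c : ℕ) (x : St) : ℝ :=
  (if h = 0 then min (min (P.VV ms 0 j x) P.X) (3 * P.La c) else
    Phi (P.eta / P.La (h + c)) [0, 1] (fun k i => P.cqM Nt Pt β h j c x k i) m
      fun i => P.cqM Nt Pt β h j c x m i) + P.off (h + c) m

/-- The tables of height `h` are close to their ideal values. -/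
structure TabRelAt (Nt : Fam) (Pt : ℕ → ℕ → Fam) (h : ℕ) : Prop where
  out : ∀ m β j c z, ¬ P.inW (h + c) z → Pt m β h j c z = P.X
  rng : ∀ m < P.M, ∀ β ≤ P.M, ∀ j c z, P.Nd h j → ¬ P.triv h c → P.inW (h + c) z →
    0 ≤ Pt m β h j c z ∧ (Pt m β h j c z : ℝ) ≤ 4 * P.La (h + c)
  onG : ∀ m < P.M, ∀ β ≤ P.M, ∀ j c z, P.Nd h j → ¬ P.triv h c → OnG P.s (Pt m β h j c z)
  close : ∀ m < P.M, ∀ β ≤ P.M, ∀ j c z, P.Nd h j → ¬ P.triv h c → P.inW (h + c) z →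
    |(Pt m β h j c z : ℝ) - P.Pre ms Nt Pt m β h j c z| ≤ P.zeta / 4 * P.La (h + c)

/-- The invariants of the tables of height `h`. -/
structure InvP (Nt : Fam) (Pt : ℕ → ℕ → Fam) (h : ℕ) : Prop where
  out : ∀ m β j c z, ¬ P.inW (h + c) z → Pt m β h j c z = P.X
  rng : ∀ m < P.M, ∀ β ≤ P.M, ∀ j c z, P.Nd h j → ¬ P.triv h c → P.inW (h + c) z →
    0 ≤ Pt m β h j c z ∧ (Pt m β h j c z : ℝ) ≤ 4 * P.La (h + c)
  val : ∀ m < P.M, ∀ β ≤ P.M, ∀ j c z, P.Nd h j → ¬ P.triv h c → P.inW (h + c) z →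
    min (min (P.VV ms h j z) P.X) (3 * P.La (h + c)) ≤ Pt m β h j c z
  mono : ∀ m, m + 1 < P.M → ∀ β ≤ P.M, ∀ j c z, P.Nd h j → ¬ P.triv h c → P.inW (h + c) z →
    Pt (m + 1) β h j c z ≤ Pt m β h j c z
  lip : ∀ m < P.M, ∀ β ≤ P.M, ∀ j c z z', P.Nd h j → ¬ P.triv h c → P.inW (h + c) z →
    P.inW (h + c) z' →
    (Pt m β h j c z : ℝ) ≤ Pt m β h j c z' + dst z z' + 2 * P.Gq * P.La (h + c)
  le_nt : ∀ m < P.M, ∀ β ≤ P.M, ∀ j c z, P.Nd h j → ¬ P.triv h c → P.inW (h + c) z →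
    (Pt m β h j c z : ℝ) ≤ Nt h j c z + 2 * P.Gq * P.La (h + c)

/-- A world at positive height whose super-level is complete. -/
structure Wd (h j c : ℕ) : Prop where
  nd : P.Nd h j
  nt : ¬ P.triv h c
  dle : P.d ≤ h

/-- The diagonal tables of the start are accurate. -/
structure ARel (A : Fam) : Prop where
  out : ∀ h j c z, ¬ (P.inW (h + c) z ∧ z.1 = z.2) → A h j c z = P.X
  leaf : ∀ j c a, P.Nd 0 j → ¬ P.triv 0 c → P.inW (0 + c) (a, a) → A 0 j c (a, a) = vleaf (ms j) (a, a)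
  node : ∀ h j c a, P.Nd h j → P.D ∣ h → h ≠ 0 → ¬ P.triv h c → P.inW (h + c) (a, a) →
    ∃ tm : ℕ → ℚ, A h j c (a, a) = rup P.s (P.aComb tm (h + c)) ∧ ∀ i ≤ P.D,
      |tm i - P.aSum (fun j' => A (h - P.D) (j * 2 ^ P.D + j')) h c a i| ≤
        P.del * P.aSum (fun j' => A (h - P.D) (j * 2 ^ P.D + j')) h c a i +
          P.del ^ 3 * P.Lam (h + c)

/-- The first closure table comes from the diagonal tables. -/
structure ZRel (A N : Fam) : Prop where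
  out : ∀ h j c z, ¬ P.inW (h + c) z → N h j c z = P.X
  eq : ∀ h j c z, P.Nd h j → ¬ P.triv h c → P.inW (h + c) z →
    N h j c z = rup P.s (P.nzero (A h j c) (ms j) h c z)

/-- The first closure table `N'` of the next phase. -/
structure XRel (N : Fam) (Pt : ℕ → ℕ → Fam) (N' : Fam) : Prop where
  out : ∀ h j c z, ¬ P.inW (h + c) z → N' h j c z = P.X
  eq : ∀ h j c z, P.Nd h j → ¬ P.triv h c → P.inW (h + c) z →
    N' h j c z = rup P.s (P.nnext (N h j c) (fun β => Pt (P.M - 1) β h j c) h c z)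

end Pa

end Crest.Agent.R288
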