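/-
R288/Wf: the requests are well formed and the potential halves.
-/
import Crest.Agent.R288.Defs

set_option autoImplicit false

namespace Crest.Agent.R288

open Finset

theorem Pa.mem_clsList {P : Pa} {h c c' : ℕ} : c' ∈ P.clsList h c ↔ c ≤ c' ∧ ¬ P.triv h c' := by
  rw [Pa.clsList, List.mem_filter, List.mem_range'_1, decide_eq_true_iff]
  unfold Pa.triv
  omega

theorem Pa.nodup_clsList (P : Pa) (h c : ℕ) : (P.clsList h c).Nodup := by
  exact (List.nodup_range' 1).filter _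

theorem Wf_geom (n a : ℕ) : ((List.range' a n).map fun c' => 2 ^ (a + n - c')).sum ≤ 2 ^ (n + 1) := by
  induction n generalizing a with
  | zero => simp
  | succ n ih =>
    have := ih (a + 1)
    rw [List.range'_succ, List.map_cons, List.sum_cons, show a + (n + 1) - a = n + 1 by omega,
      show a + (n + 1) = a + 1 + n by omega, pow_succ 2 (n + 1)]
    omega

/-- `∑_{c' ≥ c - 1} 2 ^ (cmax - c') ≤ 4 * 2 ^ (cmax - c)`. -/
theorem Pa.sum_clsList_le (P : Pa) (h c : ℕ) (hc : c ≤ P.cmax) :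
    ((P.clsList h (c - 1)).map fun c' => 2 ^ (P.cmax - c')).sum ≤ 4 * 2 ^ (P.cmax - c) := by
  have h1 := Wf_geom (P.cmax - (c - 1)) (c - 1)
  rw [show c - 1 + (P.cmax - (c - 1)) = P.cmax by omega] at h1
  refine ((List.filter_sublist.map _).sum_le_sum fun _ _ => Nat.zero_le _).trans (h1.trans ?_)
  rw [show 4 * 2 ^ (P.cmax - c) = 2 ^ (P.cmax - c + 2) by ring]
  exact Nat.pow_le_pow_right (by norm_num) (by omega)

/-! ### Lists -/

theorem Wf_nodup_flatMap {α β : Type} {l : List α} {f : α → List β} (hl : l.Nodup)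
    (h1 : ∀ a ∈ l, (f a).Nodup) (h2 : ∀ a b x, x ∈ f a → x ∈ f b → a = b) :
    (l.flatMap f).Nodup :=
  List.nodup_flatMap.2 ⟨h1, hl.imp fun hab _ ha hb => hab (h2 _ _ _ ha hb)⟩

theorem Wf_sum_flatMap {α β : Type} {l : List α} {f : α → List β} {w : β → ℕ} {g : α → ℕ}
    (h : ∀ a ∈ l, ((f a).map w).sum ≤ g a) : ((l.flatMap f).map w).sum ≤ (l.map g).sum := by
  induction l with
  | nil => simp
  | cons a l ih =>
    simp only [List.flatMap_cons, List.map_append, List.sum_append, List.map_cons, List.sum_cons]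
    exact add_le_add (h a List.mem_cons_self) (ih fun b hb => h b (List.mem_cons_of_mem _ hb))

theorem Wf_sum_flatMap_le {α β : Type} {l : List α} {f : α → List β} {w : β → ℕ} {B n : ℕ}
    (hn : l.length ≤ n) (h : ∀ a ∈ l, ((f a).map w).sum ≤ B) : ((l.flatMap f).map w).sum ≤ n * B := by
  refine (Wf_sum_flatMap (g := fun _ => B) h).trans ?_
  simpa using Nat.mul_le_mul_right B hn

/-! ### Requests of lower rank -/

variable {P : Pa}

/-- The conditions on one request that do not involve ranks. -/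
def Wf_KOK (P : Pa) (D : De) (κ : Key De) : Prop :=
  Good P κ.1 ∧ κ.1.2.2.2.2.1 + κ.2.1 = D.2.2.2.2.1 ∧ (κ.2.2.2.1 = false → κ.2.2.1 < 2 ^ κ.2.1)

/-- The class factor of the potential. -/
def Wf_wt (P : Pa) (κ : Key De) : ℕ := 2 ^ (P.cmax - κ.1.2.2.2.2.2)

/-- A list of requests of lower rank and of total weight `N`. -/
def Wf_Part (P : Pa) (D : De) (l : List (Key De)) (N : ℕ) : Prop :=
  l.Nodup ∧ (∀ κ ∈ l, Wf_KOK P D κ ∧ P.rk κ.1 < P.rk D) ∧
    (l.map (Wf_wt P)).sum ≤ N * 2 ^ (P.cmax - D.2.2.2.2.2)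

/-- All conditions on a plan. -/
def Wf_Fin (P : Pa) (D : De) (l : List (Key De)) : Prop :=
  l.Nodup ∧ (∀ κ ∈ l, Wf_KOK P D κ ∧
    (P.rk κ.1 < P.rk D ∨ (κ.2.2.2.2 = true ∧ P.rk κ.1 = P.rk D))) ∧
    2 * (l.map fun κ => P.pot κ.1).sum ≤ P.pot D

variable {D : De} {l l' : List (Key De)} {N N' : ℕ}

theorem Wf_Part.nil : Wf_Part P D [] N := ⟨List.nodup_nil, by simp, by simp⟩

theorem Wf_Part.append (h : Wf_Part P D l N) (h' : Wf_Part P D l' N')
    (hd : ∀ a ∈ l, ∀ b ∈ l', a ≠ b) : Wf_Part P D (l ++ l') (N + N') := by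
  refine ⟨List.nodup_append.2 ⟨h.1, h'.1, hd⟩, fun κ hκ => ?_, ?_⟩
  · exact (List.mem_append.1 hκ).elim (h.2.1 κ) (h'.2.1 κ)
  · rw [List.map_append, List.sum_append, add_mul]
    exact add_le_add h.2.2 h'.2.2

theorem Wf_Part.flatMap {α : Type} {s : List α} {f : α → List (Key De)} {n : ℕ} (hs : s.Nodup)
    (hn : s.length ≤ n) (h : ∀ a ∈ s, Wf_Part P D (f a) N)
    (h2 : ∀ a b x, x ∈ f a → x ∈ f b → a = b) : Wf_Part P D (s.flatMap f) (n * N) := by
  refine ⟨Wf_nodup_flatMap hs (fun a ha => (h a ha).1) h2, fun κ hκ => ?_, ?_⟩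
  · obtain ⟨a, ha, hκ⟩ := List.mem_flatMap.1 hκ
    exact (h a ha).2.1 κ hκ
  · rw [mul_assoc]
    exact Wf_sum_flatMap_le hn fun a ha => (h a ha).2.2

/-- Requests in the class of the caller. -/
theorem Wf_Part.range {n : ℕ} {f : ℕ → Key De} (hf : Function.Injective f)
    (h : ∀ i < n, (Wf_KOK P D (f i) ∧ P.rk (f i).1 < P.rk D) ∧ (f i).1.2.2.2.2.2 = D.2.2.2.2.2) :
    Wf_Part P D ((List.range n).map f) n := by
  refine ⟨List.nodup_range.map hf, fun κ hκ => ?_, ?_⟩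
  · obtain ⟨i, hi, rfl⟩ := List.mem_map.1 hκ
    exact (h i (List.mem_range.1 hi)).1
  · refine (List.sum_le_card_nsmul _ (2 ^ (P.cmax - D.2.2.2.2.2)) fun x hx => ?_).trans (by simp)
    obtain ⟨κ, hκ, rfl⟩ := List.mem_map.1 hx
    obtain ⟨i, hi, rfl⟩ := List.mem_map.1 hκ
    rw [Wf_wt, (h i (List.mem_range.1 hi)).2]

theorem Wf_Part.single {κ : Key De} (h : Wf_KOK P D κ) (h1 : P.rk κ.1 < P.rk D)
    (h2 : κ.1.2.2.2.2.2 = D.2.2.2.2.2) : Wf_Part P D [κ] 1 :=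
  ⟨List.nodup_singleton _, by simpa using ⟨h, h1⟩, by simp [Wf_wt, h2]⟩

/-- `n` requests in each class `≥ c - 1`. -/
theorem Wf_Part.cls {h c n : ℕ} (hc : c ≤ P.cmax) (hc' : D.2.2.2.2.2 ≤ c) {f : ℕ → List (Key De)}
    (h1 : ∀ c', (f c').Nodup) (h2 : ∀ c', (f c').length = n)
    (h3 : ∀ c', ∀ κ ∈ f c', κ.1.2.2.2.2.2 = c')
    (h4 : ∀ c', ¬ P.triv h c' → ∀ κ ∈ f c', Wf_KOK P D κ ∧ P.rk κ.1 < P.rk D) :
    Wf_Part P D ((P.clsList h (c - 1)).flatMap f) (4 * n) := by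
  refine ⟨Wf_nodup_flatMap (P.nodup_clsList _ _) (fun a _ => h1 a)
    fun a b x ha hb => (h3 a x ha).symm.trans (h3 b x hb), fun κ hκ => ?_, ?_⟩
  · obtain ⟨a, ha, hκ⟩ := List.mem_flatMap.1 hκ
    exact h4 a (Pa.mem_clsList.1 ha).2 κ hκ
  · refine (Wf_sum_flatMap (g := fun c' => n * 2 ^ (P.cmax - c')) fun c' _ => ?_).trans ?_
    · refine (List.sum_le_card_nsmul _ (2 ^ (P.cmax - c')) fun x hx => ?_).trans (by simp [h2])
      obtain ⟨κ, hκ, rfl⟩ := List.mem_map.1 hx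
      rw [Wf_wt, h3 c' κ hκ]
    · rw [List.sum_map_mul_left, mul_comm 4, mul_assoc]
      refine Nat.mul_le_mul_left _ ((P.sum_clsList_le h c hc).trans (Nat.mul_le_mul_left _ ?_))
      exact Nat.pow_le_pow_right (by norm_num) (by omega)

theorem Wf_Part.pot_le (h : Wf_Part P D l N) {K : ℕ} (hK : K * N ≤ 2 ^ (14 * P.Lx)) :
    K * (l.map fun κ => P.pot κ.1).sum ≤ P.pot D := by
  set A := 2 ^ (P.Lx + 14 * P.Lx * P.rk D + 44 * P.p * (D.2.2.2.2.1 / P.d)) with hA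
  have h1 : (l.map fun κ => P.pot κ.1 * 2 ^ (14 * P.Lx)).sum ≤ (l.map fun κ => A * Wf_wt P κ).sum := by
    refine List.sum_le_sum fun κ hκ => ?_
    obtain ⟨⟨-, a1, -⟩, a2⟩ := h.2.1 κ hκ
    have a3 := Nat.mul_le_mul_left (14 * P.Lx) (Nat.succ_le_of_lt a2)
    have a4 := Nat.mul_le_mul_left (44 * P.p)
      (Nat.div_le_div_right (c := P.d) (show κ.1.2.2.2.2.1 ≤ D.2.2.2.2.1 by omega))
    rw [Nat.mul_succ] at a3
    rw [hA, Pa.pot, Wf_wt, ← pow_add, ← pow_add]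
    exact Nat.pow_le_pow_right (by norm_num) (by omega)
  rw [List.sum_map_mul_left, List.sum_map_mul_right] at h1
  have h2 := Nat.mul_le_mul_left K (h1.trans (Nat.mul_le_mul_left A h.2.2))
  have h3 := Nat.mul_le_mul_right (A * 2 ^ (P.cmax - D.2.2.2.2.2)) hK
  refine Nat.le_of_mul_le_mul_right ?_ (Nat.two_pow_pos (14 * P.Lx))
  rw [Pa.pot, pow_add, ← hA]
  nlinarith

theorem Wf_Part.fin (h : Wf_Part P D l N) (hK : 2 * N ≤ 2 ^ (14 * P.Lx)) : Wf_Fin P D l :=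
  ⟨h.1, fun κ hκ => ⟨(h.2.1 κ hκ).1, Or.inl (h.2.1 κ hκ).2⟩, h.pot_le hK⟩

/-! ### Arithmetic -/

theorem Wf_Lx (h : P.OK) : 100 ≤ P.Lx := by
  have := h.wx_le
  have := h.p_ge
  omega

theorem Wf_le (h : P.OK) {n a b : ℕ} (hn : n ≤ 2 ^ (a * P.Lx + b)) (ha : a ≤ 13) (hb : b ≤ 100) :
    n ≤ 2 ^ (14 * P.Lx) := by
  have := Wf_Lx h
  have := Nat.mul_le_mul_right P.Lx ha
  exact hn.trans (Nat.pow_le_pow_right (by norm_num) (by omega))

theorem Wf_M (h : P.OK) : P.M < 2 ^ P.Lx := by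
  have h1 := h.M_le
  have h2 := h.l1_lt
  have h3 := Nat.le_mul_of_pos_right P.M (Nat.two_pow_pos (3 * P.p))
  omega

theorem Wf_D (h : P.OK) : P.D < 2 ^ P.Lx :=
  (Nat.le_of_dvd (Nat.zero_lt_of_lt h.l1_lt_L) h.D_dvd_L).trans_lt h.L_lt

theorem Wf_nt {h c h' : ℕ} (ht : ¬ P.triv h c) (hh : h' ≤ h) : ¬ P.triv h' c :=
  fun e => ht (Pa.triv_mono e le_rfl hh)

theorem Wf_c {h c : ℕ} (ht : ¬ P.triv h c) : c < P.cmax := by
  unfold Pa.triv at ht
  omega

theorem Wf_base (t : ℕ) : P.base (t + 1) = P.base t + (P.D + 5 * P.M + 2) := by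
  simp only [Pa.base, Pa.PL]
  ring

/-! ### The five kinds -/

variable {t m β h c : ℕ}

theorem Wf_A (ok : P.OK) (hL : h ≤ P.L) (hD : P.D ∣ h) :
    Wf_Fin P (dA h c) (P.planA h c) := by
  unfold Pa.planA
  split_ifs with h0
  · exact (Wf_Part.nil (N := 0)).fin (Nat.zero_le _)
  have h1 : P.D ≤ h := Nat.le_of_dvd (Nat.pos_of_ne_zero h0) hD
  refine Wf_Part.fin (N := (P.D + 1) * 2 ^ P.ra) ⟨Wf_nodup_flatMap (List.nodup_range.filter _)
    (fun i _ => List.nodup_range.map fun _ _ e => by simpa using e) fun a b x ha hb => ?_,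
    fun κ hκ => ?_, ?_⟩ (Wf_le ok (a := 7) (b := 6) ?_ (by norm_num) (by norm_num))
  · obtain ⟨r, -, rfl⟩ := List.mem_map.1 ha
    obtain ⟨r', -, e⟩ := List.mem_map.1 hb
    simp at e
    omega
  · obtain ⟨i, hi, hκ⟩ := List.mem_flatMap.1 hκ
    obtain ⟨r, -, rfl⟩ := List.mem_map.1 hκ
    refine ⟨⟨⟨ok, by omega, by simpa using (List.mem_filter.1 hi).2,
      Or.inl ⟨rfl, rfl, rfl, rfl, Nat.dvd_sub hD dvd_rfl⟩⟩, Nat.sub_add_cancel h1, by simp⟩, ?_⟩
    change (h - P.D) / P.D < h / P.D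
    rw [Nat.div_eq_sub_div ok.D_pos h1]
    omega
  · rw [mul_assoc]
    refine Wf_sum_flatMap_le ((List.length_filter_le _ _).trans (by simp)) fun i hi => ?_
    have := Wf_c (by simpa using (List.mem_filter.1 hi).2 : ¬ P.triv (h - P.D) (c + i))
    simp only [List.map_map, Function.comp_def, Wf_wt, List.map_const', List.length_range,
      List.sum_replicate, smul_eq_mul, ← pow_add]
    exact Nat.pow_le_pow_right (by norm_num) (by omega)
  · have := Nat.mul_le_mul_right (2 ^ P.ra) (Nat.succ_le_of_lt (Wf_D ok))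
    rw [← pow_add, Nat.succ_eq_add_one] at this
    rw [show 7 * P.Lx + 6 = P.Lx + P.ra + 1 by unfold Pa.ra; ring, pow_succ]
    omega

theorem Wf_N (ok : P.OK) (hL : h ≤ P.L) (ht : ¬ P.triv h c) (h1 : t ≤ P.T) (h2 : m ≤ P.D + P.M) :
    Wf_Fin P (dN t m h c) (P.planN t m h c) := by
  have hM := ok.M_pos
  have hc := Wf_c ht
  unfold Pa.planN
  by_cases hm : m = 0
  · subst hm
    rw [if_pos rfl]
    rcases t with _ | t
    · rw [if_pos rfl]
      split_ifs with h3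
      · refine Wf_Part.fin (Wf_Part.single ⟨⟨ok, hL, ht, Or.inl ⟨rfl, rfl, rfl, rfl, h3.2⟩⟩, rfl,
          by simp⟩ ?_ rfl) (Wf_le ok (a := 0) (b := 1) (by simp) (by norm_num) (by norm_num))
        have := Nat.div_le_div_right (c := P.D) hL
        change h / P.D < P.L / P.D + 1 + 0 * P.PL + 0
        omega
      · exact (Wf_Part.nil (N := 0)).fin (Nat.zero_le _)
    · rw [if_neg t.succ_ne_zero, Nat.add_sub_cancel]
      have hb := Wf_base (P := P) t
      rw [← List.singleton_append]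
      refine Wf_Part.fin (Wf_Part.append (N' := P.M + 1) (Wf_Part.single
        ⟨⟨ok, hL, ht, Or.inr (Or.inl ⟨rfl, by omega, by omega, rfl⟩)⟩, rfl, by simp⟩ ?_ rfl) ?_ ?_)
        (Wf_le ok (a := 1) (b := 2) ?_ (by norm_num) (by norm_num))
      · change P.base t + P.D < P.base (t + 1) + 0
        omega
      · split_ifs with h3
        · refine Wf_Part.range (fun _ _ e => by simpa using e) fun β hβ => ⟨⟨⟨⟨ok, hL, ht,
            Or.inr (Or.inr (Or.inr ⟨Or.inr rfl, by omega, by omega, by omega, h3⟩))⟩, rfl, by simp⟩,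
            ?_⟩, rfl⟩
          change P.base t + P.D + P.M + 3 + 2 * (P.M - 1 + β) < P.base (t + 1) + 0
          omega
        · exact Wf_Part.nil
      · split_ifs <;> simp
      · have := Wf_M ok
        rw [one_mul, pow_add]
        omega
  · rw [if_neg hm, ← List.flatMap_singleton' (List.map _ _), List.flatMap_map]
    have hr : ∀ h' c', P.rk (dN t (m - 1) h' c') < P.rk (dN t m h c) := fun h' c' => by
      change P.base t + (m - 1) < P.base t + m
      omega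
    have hg : ∀ h' ≤ h, ∀ c', ¬ P.triv h' c' → Good P (dN t (m - 1) h' c') := fun h' hh c' e =>
      ⟨ok, by omega, e, Or.inr (Or.inl ⟨rfl, h1, by omega, rfl⟩)⟩
    refine Wf_Part.fin (Wf_Part.append (N' := 4 * 2) (Wf_Part.cls (n := 1) hc.le le_rfl (by simp)
      (by simp) (by simp) fun c' e κ hκ => ?_) ?_ ?_)
      (Wf_le ok (a := 0) (b := 5) (by simp) (by norm_num) (by norm_num))
    · rw [List.mem_singleton.1 hκ]
      exact ⟨⟨hg h le_rfl c' e, rfl, by simp⟩, hr _ _⟩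
    · split_ifs with h0
      · exact Wf_Part.nil
      · refine Wf_Part.cls (c := c + 1) hc (Nat.le_succ _) (by simp) (by simp) (by simp)
          fun c' e κ hκ => ?_
        have h3 : h - 1 + 1 = h := by omega
        rcases List.mem_pair.1 hκ with rfl | rfl <;>
          exact ⟨⟨hg _ (Nat.sub_le _ _) c' e, h3, by simp⟩, hr _ _⟩
    · intro a ha b hb e
      subst e
      split_ifs at hb
      · simp at hb
      · simp only [List.mem_flatMap, List.mem_singleton, List.mem_pair] at ha hb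
        obtain ⟨c', -, rfl⟩ := ha
        simp at hb

theorem Wf_T (ok : P.OK) (hL : h ≤ P.L) (ht : ¬ P.triv h c) (h1 : t < P.T) :
    Wf_Fin P (dT t h c) ((List.range P.M).map fun k' => qT (dN t (P.D + k') h c) 0 0) := by
  refine Wf_Part.fin (Wf_Part.range (fun _ _ e => by simpa using e) fun k hk => ⟨⟨⟨⟨ok, hL, ht,
    Or.inr (Or.inl ⟨rfl, h1.le, by omega, rfl⟩)⟩, rfl, by simp⟩, ?_⟩, rfl⟩)
    (Wf_le ok (a := 1) (b := 1) ?_ (by norm_num) (by norm_num))
  · change P.base t + (P.D + k) < P.base t + P.D + P.M + 1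
    omega
  · have := Wf_M ok
    rw [one_mul, pow_add]
    omega

theorem Wf_P (ok : P.OK) (hL : h ≤ P.L) (ht : ¬ P.triv h c) (h1 : t < P.T) (h2 : m < P.M)
    (h3 : β ≤ P.M) (hd : P.d ∣ h) :
    Wf_Fin P (dP t m β h c) ((List.range (2 ^ P.rf)).map fun r => qF (dR t m β h c) 0 r) := by
  refine Wf_Part.fin (Wf_Part.range (fun _ _ e => by simpa using e) fun k hk => ⟨⟨⟨⟨ok, hL, ht,
    Or.inr (Or.inr (Or.inr ⟨Or.inl rfl, h1, h2, h3, hd⟩))⟩, rfl, by simp⟩, ?_⟩, rfl⟩)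
    (Wf_le ok (a := 11) (b := 11) (le_of_eq ?_) (by norm_num) (by norm_num))
  · change P.base t + P.D + P.M + 2 + 2 * (m + β) < P.base t + P.D + P.M + 3 + 2 * (m + β)
    omega
  · unfold Pa.rf
    ring

theorem Wf_bot (hc : c ≤ P.cmax) (hd : P.d ≤ h) {mk : ℕ → De}
    (h1 : ∀ c', (mk c').2.2.2.2 = (h - P.d, c'))
    (h2 : ∀ c', ¬ P.triv (h - P.d) c' → Good P (mk c') ∧ P.rk (mk c') < P.rk (dR t m β h c)) :
    Wf_Part P (dR t m β h c) (P.botKeys h c mk) (4 * 2 ^ P.d) := by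
  refine Wf_Part.cls hc le_rfl (fun c' => List.nodup_range.map fun _ _ e => by simpa using e)
    (by simp) (fun c' κ hκ => ?_) fun c' e κ hκ => ?_
  · obtain ⟨j, -, rfl⟩ := List.mem_map.1 hκ
    rw [h1]
  · obtain ⟨j, hj, rfl⟩ := List.mem_map.1 hκ
    refine ⟨⟨(h2 c' e).1, ?_, fun _ => List.mem_range.1 hj⟩, (h2 c' e).2⟩
    rw [h1]
    exact Nat.sub_add_cancel hd

theorem Wf_mem_bot {mk : ℕ → De} {κ : Key De} (hκ : κ ∈ P.botKeys h c mk) :
    ∃ c' j, κ = qT (mk c') P.d j := by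
  obtain ⟨c', -, hκ⟩ := List.mem_flatMap.1 hκ
  obtain ⟨j, -, rfl⟩ := List.mem_map.1 hκ
  exact ⟨c', j, rfl⟩

/-- The averaged tables of the rounds `< n` with budget `β'`. -/
theorem Wf_rounds (ok : P.OK) (hL : h ≤ P.L) (hc : c ≤ P.cmax) (h1 : t < P.T) (hd : P.d ∣ h)
    (hd' : P.d ≤ h) {n β' : ℕ} (hn : n ≤ P.M) (h3 : β' ≤ P.M) (h4 : n + β' ≤ m + β) :
    Wf_Part P (dR t m β h c) ((List.range n).flatMap fun k =>
      P.botKeys h c fun c' => dP t k β' (h - P.d) c') (P.M * (4 * 2 ^ P.d)) := by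
  refine Wf_Part.flatMap List.nodup_range (by simpa using hn) (fun k hk => Wf_bot hc hd'
    (fun _ => rfl) fun c' e => ⟨⟨ok, by omega, e, Or.inr (Or.inr (Or.inr ⟨Or.inr rfl, h1,
      (List.mem_range.1 hk).trans_le hn, h3, Nat.dvd_sub hd dvd_rfl⟩))⟩, ?_⟩) fun a b x ha hb => ?_
  · have := List.mem_range.1 hk
    change P.base t + P.D + P.M + 3 + 2 * (k + β') < P.base t + P.D + P.M + 2 + 2 * (m + β)
    omega
  · obtain ⟨c', j, rfl⟩ := Wf_mem_bot ha
    obtain ⟨c'', j', e⟩ := Wf_mem_bot hb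
    simp at e
    exact e.1.1

theorem Wf_fresh_arith (ok : P.OK) :
    4 * (P.I * ((P.kT ^ 2 + 1) * 2 ^ (P.rx + 1))) ≤ 2 ^ (44 * P.p) := by
  have h1 := ok.wx_le
  have h2 := ok.Lx_le
  have h3 := ok.p_ge
  have h4 : 2 ^ 12 ≤ 2 ^ P.p := Nat.pow_le_pow_right (by norm_num) (by omega)
  have h5 : P.I ≤ 2 ^ P.p := by unfold Pa.I; omega
  have h6 : P.kT ≤ 16 * 2 ^ P.p := by unfold Pa.kT; omega
  rw [show 2 ^ (44 * P.p) = 2 ^ P.p * (2 ^ P.p * (2 ^ P.p) ^ 2 * 2 ^ P.rx) by unfold Pa.rx; ring]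
  generalize 2 ^ P.p = x at *
  have h7 : P.kT ^ 2 + 1 ≤ 512 * x ^ 2 := by
    have := Nat.pow_le_pow_left h6 2
    nlinarith
  calc 4 * (P.I * ((P.kT ^ 2 + 1) * 2 ^ (P.rx + 1))) ≤ 4 * (x * (512 * x ^ 2 * 2 ^ (P.rx + 1))) := by
        gcongr
    _ = 2 ^ 12 * (x * x ^ 2 * 2 ^ P.rx) := by ring
    _ ≤ _ := Nat.mul_le_mul_right _ h4

theorem Wf_R (ok : P.OK) (hL : h ≤ P.L) (ht : ¬ P.triv h c) (h1 : t < P.T) (h2 : m < P.M)
    (h3 : β ≤ P.M) (hd : P.d ∣ h) : Wf_Fin P (dR t m β h c) (P.planR t m β h c) := by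
  unfold Pa.planR
  by_cases h0 : h = 0
  · rw [if_pos h0]
    exact (Wf_Part.nil (N := 0)).fin (Nat.zero_le _)
  rw [if_neg h0]
  have hc := (Wf_c ht).le
  have hd' : P.d ≤ h := Nat.le_of_dvd (Nat.pos_of_ne_zero h0) hd
  have hT : ∀ h' ≤ h, ∀ c', ¬ P.triv h' c' →
      Good P (dT t h' c') ∧ P.rk (dT t h' c') < P.rk (dR t m β h c) := fun h' hh c' e =>
    ⟨⟨ok, by omega, e, Or.inr (Or.inr (Or.inl ⟨rfl, h1, rfl, rfl⟩))⟩, by
      change P.base t + P.D + P.M + 1 < P.base t + P.D + P.M + 2 + 2 * (m + β)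
      omega⟩
  have p1 : Wf_Part P (dR t m β h c) ((List.range P.d).flatMap fun i =>
      (List.range (2 ^ i)).map fun j => qT (dT t (h - i) c) i j) (P.d * 2 ^ P.d) := by
    refine Wf_Part.flatMap List.nodup_range (by simp) (fun i hi => ?_) fun a b x ha hb => ?_
    · have hi := List.mem_range.1 hi
      have a1 := hT (h - i) (Nat.sub_le _ _) c (Wf_nt ht (Nat.sub_le _ _))
      have a2 := Wf_Part.range (P := P) (D := dR t m β h c) (n := 2 ^ i)
        (f := fun j => qT (dT t (h - i) c) i j) (fun _ _ e => by simpa using e)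
        fun j hj => ⟨⟨⟨a1.1, Nat.sub_add_cancel (by omega), fun _ => hj⟩, a1.2⟩, rfl⟩
      exact ⟨a2.1, a2.2.1, a2.2.2.trans
        (Nat.mul_le_mul_right _ (Nat.pow_le_pow_right (by norm_num) hi.le))⟩
    · obtain ⟨j, -, rfl⟩ := List.mem_map.1 ha
      obtain ⟨j', -, e⟩ := List.mem_map.1 hb
      simp at e
      omega
  have p2 := Wf_bot hc hd' (mk := fun c' => dT t (h - P.d) c') (fun _ => rfl)
    (hT _ (Nat.sub_le _ _))
  have p3 := Wf_rounds (m := m) (β := β) ok hL hc h1 hd hd' h2.le h3 le_rfl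
  have p4 : Wf_Part P (dR t m β h c) (if β = 0 then [] else (List.range (m + 1)).flatMap fun k =>
      P.botKeys h c fun c' => dP t k (β - 1) (h - P.d) c') (P.M * (4 * 2 ^ P.d)) := by
    split_ifs with hβ
    · exact Wf_Part.nil
    · exact Wf_rounds ok hL hc h1 hd hd' h2 (by omega) (by omega)
  have m1 : ∀ a ∈ (List.range P.d).flatMap fun i =>
      (List.range (2 ^ i)).map fun j => qT (dT t (h - i) c) i j, a.1.1 = 2 ∧ a.2.1 < P.d := by
    intro a ha
    obtain ⟨i, hi, ha⟩ := List.mem_flatMap.1 ha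
    obtain ⟨j, -, rfl⟩ := List.mem_map.1 ha
    exact ⟨rfl, List.mem_range.1 hi⟩
  have m2 : ∀ a ∈ P.botKeys h c fun c' => dT t (h - P.d) c', a.1.1 = 2 ∧ a.2.1 = P.d := by
    intro a ha
    obtain ⟨c', j, rfl⟩ := Wf_mem_bot ha
    exact ⟨rfl, rfl⟩
  have m3 : ∀ n β', ∀ a ∈ (List.range n).flatMap fun k =>
      P.botKeys h c fun c' => dP t k β' (h - P.d) c', a.1.1 = 4 ∧ a.1.2.2.2.1 = β' := by
    intro n β' a ha
    obtain ⟨i, -, ha⟩ := List.mem_flatMap.1 ha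
    obtain ⟨c', j, rfl⟩ := Wf_mem_bot ha
    exact ⟨rfl, rfl⟩
  have m4 : ∀ a ∈ (if β = 0 then [] else (List.range (m + 1)).flatMap fun k =>
      P.botKeys h c fun c' => dP t k (β - 1) (h - P.d) c'), a.1.1 = 4 ∧ a.1.2.2.2.1 < β := by
    intro a ha
    split_ifs at ha with hβ
    · simp at ha
    · have := m3 _ _ a ha
      omega
  have q := ((p1.append p2 fun a ha b hb e => by
      have := m1 a ha; have := m2 b hb; subst e; omega).append p3 fun a ha b hb e => by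
      have := m3 _ _ b hb
      subst e
      rcases List.mem_append.1 ha with ha | ha
      · have := m1 a ha; omega
      · have := m2 a ha; omega).append p4 fun a ha b hb e => by
      have := m4 b hb
      subst e
      simp only [List.mem_append] at ha
      rcases ha with (ha | ha) | ha
      · have := m1 a ha; omega
      · have := m2 a ha; omega
      · have := m3 _ _ a ha; omega
  have q4 := q.pot_le (K := 4) (Wf_le ok (a := 2) (b := 6) (by
    have a1 := Wf_M ok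
    have a2 : P.d ≤ P.Lx := by have := ok.wx_le; omega
    have a3 : 2 ^ P.d ≤ 2 ^ P.Lx := Nat.pow_le_pow_right (by norm_num) a2
    have a4 : P.d < 2 ^ P.Lx := a2.trans_lt Nat.lt_two_pow_self
    have a5 : 2 ^ 2 ≤ 2 ^ P.Lx := Nat.pow_le_pow_right (by norm_num) (by have := Wf_Lx ok; omega)
    have a6 := Nat.mul_le_mul (show P.d + 4 + 8 * P.M ≤ 16 * 2 ^ P.Lx by omega) a3
    rw [pow_add, two_mul, pow_add]
    linarith) (by norm_num) (by norm_num))
  have m5 : ∀ a ∈ ((List.range P.I).filter fun i => ¬ P.triv (h - P.d) (c - 1 + i)).flatMap fun i =>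
      (List.range ((P.kT ^ 2 + 1) * 2 ^ (i + P.rx))).map
        fun n => qF (dR t m β (h - P.d) (c - 1 + i)) P.d n,
      ∃ i n, ¬ P.triv (h - P.d) (c - 1 + i) ∧ a = qF (dR t m β (h - P.d) (c - 1 + i)) P.d n := by
    intro a ha
    obtain ⟨i, hi, ha⟩ := List.mem_flatMap.1 ha
    obtain ⟨j, -, rfl⟩ := List.mem_map.1 ha
    exact ⟨i, j, by simpa using (List.mem_filter.1 hi).2, rfl⟩
  refine ⟨List.nodup_append.2 ⟨q.1, Wf_nodup_flatMap (List.nodup_range.filter _)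
    (fun i _ => List.nodup_range.map fun _ _ e => by simpa using e) fun a b x ha hb => ?_,
    fun a ha b hb e => ?_⟩, fun κ hκ => ?_, ?_⟩
  · obtain ⟨r, -, rfl⟩ := List.mem_map.1 ha
    obtain ⟨r', -, e⟩ := List.mem_map.1 hb
    simp at e
    omega
  · obtain ⟨i, n, -, rfl⟩ := m5 b hb
    have := (q.2.1 a ha).2
    subst e
    exact lt_irrefl _ this
  · rcases List.mem_append.1 hκ with hκ | hκ
    · exact ⟨(q.2.1 κ hκ).1, Or.inl (q.2.1 κ hκ).2⟩
    · obtain ⟨i, n, e, rfl⟩ := m5 κ hκ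
      exact ⟨⟨⟨ok, by omega, e, Or.inr (Or.inr (Or.inr ⟨Or.inl rfl, h1, h2, h3,
        Nat.dvd_sub hd dvd_rfl⟩))⟩, Nat.sub_add_cancel hd', by simp⟩, Or.inr ⟨rfl, rfl⟩⟩
  · set E := P.Lx + 14 * P.Lx * P.rk (dR t m β h c) + 44 * P.p * ((h - P.d) / P.d) + (P.cmax - c)
      with hE
    have e1 : P.pot (dR t m β h c) = 2 ^ (44 * P.p) * 2 ^ E := by
      rw [Pa.pot, hE, ← pow_add, Nat.div_eq_sub_div ok.d_pos hd']
      congr 1
      ring
    have a1 := Wf_sum_flatMap_le (w := fun κ : Key De => P.pot κ.1)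
      (l := (List.range P.I).filter fun i => ¬ P.triv (h - P.d) (c - 1 + i))
      (f := fun i => (List.range ((P.kT ^ 2 + 1) * 2 ^ (i + P.rx))).map
        fun n => qF (dR t m β (h - P.d) (c - 1 + i)) P.d n) (n := P.I)
      (B := (P.kT ^ 2 + 1) * 2 ^ (P.rx + 1) * 2 ^ E) ((List.length_filter_le _ _).trans (by simp))
      fun i hi => by
        have := Wf_c (by simpa using (List.mem_filter.1 hi).2 : ¬ P.triv (h - P.d) (c - 1 + i))
        simp only [List.map_map, Function.comp_def, List.map_const', List.length_range,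
          List.sum_replicate, smul_eq_mul, mul_assoc, Pa.pot, ← pow_add]
        refine Nat.mul_le_mul_left _ (Nat.pow_le_pow_right (by norm_num) ?_)
        have e2 : P.rk (dR t m β (h - P.d) (c - 1 + i)) = P.rk (dR t m β h c) := rfl
        simp only [hE, e2, mul_assoc]
        omega
    have a2 := Nat.mul_le_mul_right (2 ^ E) (Wf_fresh_arith ok)
    rw [← e1] at a2
    rw [List.map_append, List.sum_append]
    simp only [mul_assoc] at a1 a2
    omega

theorem Wf_fin (hD : Good P D) : Wf_Fin P D (P.plan D) := by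
  obtain ⟨k, t, m, β, h, c⟩ := D
  obtain ⟨ok, hL, ht, ⟨rfl, rfl, rfl, rfl, h1⟩ | ⟨rfl, h1, h2, rfl⟩ | ⟨rfl, h1, rfl, rfl⟩ |
    ⟨rfl | rfl, h1, h2, h3, h4⟩⟩ := hD
  · exact Wf_A ok hL h1
  · exact Wf_N ok hL ht h1 h2
  · exact Wf_T ok hL ht h1
  · exact Wf_R ok hL ht h1 h2 h3 h4
  · exact Wf_P ok hL ht h1 h2 h3 h4

/-- Recipe: case analysis on the kind.  `pot_sum`: every table request has rank at least one less
(factor `2 ^ (14 Lx)`) and `h' / d ≤ h / d`; counts: start `∑_i 2^(i+ra) 2^(-i) = (D+1) 2^ra`;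
closure `≤ 12` or `M + 2`; Lipschitz `M`; averaged `2 ^ rf`; raw: tables `≤ (2M+3) * 4 * 2^d`, and the
fresh requests have the same rank, `(h - d) / d = h / d - 1` (factor `2 ^ (44 p)`) and total weight
`≤ (kT² + 1) * I * 2 ^ (rx + 1) ≤ 2 ^ (43 p + 8)`. -/
theorem eng_wf : eng.Wf Good := by
  refine ⟨fun P D κ hD hκ => ((Wf_fin hD).2.1 κ hκ).1.1, fun P D hD => (Wf_fin hD).1,
    fun P D κ hD hκ => ((Wf_fin hD).2.1 κ hκ).1.2.1, fun P D κ hD hκ => ((Wf_fin hD).2.1 κ hκ).1.2.2,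
    fun P D κ hD hκ _ => ((Wf_fin hD).2.1 κ hκ).2.elim le_of_lt fun h => h.2.le,
    fun P D κ hD hκ e => ((Wf_fin hD).2.1 κ hκ).2.resolve_right fun h => by simp [e] at h,
    fun P D _ => Nat.one_le_two_pow, fun P D κ hD hκ => ?_, fun P D hD => (Wf_fin hD).2.2⟩
  have h1 := ((Wf_fin hD).2.1 κ hκ).1.2.1
  have h2 : D.2.2.2.2.1 ≤ P.L := hD.2.1
  have h3 := Pa.OK.L_lt hD.1
  exact le_trans (by omega) (Nat.pow_le_pow_right (by norm_num)
    (show P.Lx ≤ P.Lx + _ + _ + _ by omega) : 2 ^ P.Lx ≤ P.pot κ.1)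

end Crest.Agent.R288
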