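/-
R288/Unf: the tables of the engine satisfy the deterministic relations.
-/
import Crest.Agent.R288.Tabs
import Crest.Agent.R288.Wf

set_option autoImplicit false

namespace Crest.Agent.R288

open Finset

namespace Pa

variable (P : Pa) (ms tapes : ℕ → ℕ → Bool)

/-- Diagonal tables. -/
def tA : Fam := fun h j c => eng.tab P ms tapes (dA h c) j
/-- Closure tables. -/
def tN (t k : ℕ) : Fam := fun h j c => eng.tab P ms tapes (dN t k h c) j
/-- Lipschitz tables. -/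
def tT (t : ℕ) : Fam := fun h j c => eng.tab P ms tapes (dT t h c) j
/-- Averaged tables. -/
def tP (t m β : ℕ) : Fam := fun h j c => eng.tab P ms tapes (dP t m β h c) j
/-- Raw estimates. -/
def raw (t m β h j c : ℕ) (ρ : ℕ → Bool) : St → ℚ := eng.ev P ms tapes (dR t m β h c) j ρ

variable {P}

theorem mem_box {u r : ℕ} {z z' : St} :
    z' ∈ P.box u r z ↔ P.inW u z' ∧ Nat.dist z'.1 z.1 ≤ r ∧ Nat.dist z'.2 z.2 ≤ r := by
  obtain ⟨a, b⟩ := z'
  simp only [box, List.mem_filter, List.pair_mem_product, mem_gball, inW, decide_eq_true_eq]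
  tauto

theorem unf_rad_div_le (u x : ℕ) : P.rad u x / 2 ^ P.gm u ≤ 2 ^ (x + P.kap) := by
  unfold rad
  rw [Nat.div_div_eq_div_mul, ← pow_add]
  refine Nat.div_le_of_le_mul ?_
  rw [← pow_add]
  refine Nat.pow_le_pow_right (by norm_num) ?_
  unfold gm cmax
  omega

theorem length_box_le (u x : ℕ) (z : St) :
    (P.box u (P.rad u x) z).length ≤ (2 * 2 ^ (x + P.kap) + 2) ^ 2 := by
  unfold box
  refine (List.length_filter_le _ _).trans ?_
  have h1 := length_gball_le P.X (P.gm u) (P.rad u x) z.1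
  have h2 := length_gball_le P.X (P.gm u) (P.rad u x) z.2
  have h3 := unf_rad_div_le (P := P) u x
  have h4 := List.length_product (gball P.X (P.gm u) (P.rad u x) z.1)
    (gball P.X (P.gm u) (P.rad u x) z.2)
  rw [sq]
  exact (le_of_eq h4).trans (Nat.mul_le_mul (by omega) (by omega))

theorem unf_wid_le (u : ℕ) : P.wid u ≤ 2 ^ P.om u :=
  rad_le_om (by unfold tw omx cp; omega)

theorem unf_cp_le (u : ℕ) : P.rad u P.cp ≤ 2 ^ P.om u :=
  rad_le_om (by unfold omx; omega)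

theorem unf_rad_mono {u v : ℕ} (h : u ≤ v) (x : ℕ) : P.rad u x ≤ P.rad v x :=
  Nat.div_le_div_right (Nat.pow_le_pow_right (by norm_num) (by omega))

/-- The guarded mismatch bits give the same leaf value. -/
theorem vleaf_guard (hP : P.OK) {c j : ℕ} {z : St} (hz : P.inW c z) :
    vleaf (fun b => decide (0 = 0 ∧ b ≤ P.X ∧ Nat.dist b z.1 ≤ 2 ^ P.om c) && ms j b) z =
      vleaf (ms j) z := by
  have _ := hP
  unfold vleaf
  congr 1
  refine if_congr (and_congr_right fun hle => ?_) rfl rfl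
  simp only [List.all_eq_true]
  refine forall₂_congr fun b hb => ?_
  obtain ⟨h1, h2⟩ := List.mem_range'_1.mp hb
  obtain ⟨-, h3, -, -, h4⟩ := hz
  have h5 := unf_wid_le (P := P) c
  have h6 : b ≤ P.X ∧ Nat.dist b z.1 ≤ 2 ^ P.om c := by
    simp only [Nat.dist] at h4 ⊢
    omega
  simp [h6]

theorem unf_inW {k t m β h c : ℕ} (hk : k ≠ 0) {z : St} :
    eng.inW P (k, t, m, β, h, c) z ↔ P.inW (h + c) z := by
  simp only [Eng.inW, eng, if_neg hk, inW]

theorem unf_inW_A {h c : ℕ} {z : St} :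
    eng.inW P (dA h c) z ↔ P.inW (h + c) z ∧ z.1 = z.2 := by
  simp only [Eng.inW, eng, if_true, inW, Nat.dist]
  constructor
  · rintro ⟨h1, h2, h3, h4, h5⟩
    exact ⟨⟨h1, h2, h3, h4, by omega⟩, by omega⟩
  · rintro ⟨⟨h1, h2, h3, h4, -⟩, h6⟩
    exact ⟨h1, h2, h3, h4, by omega⟩

/-- A guarded lookup that passes the guard. -/
theorem unf_look {D : De} {κ : Key De} {j : ℕ} {ρ : ℕ → Bool} {z z' : St} (hκ : κ ∈ P.plan D)
    (h1 : z'.1 ≤ P.X) (h2 : Nat.dist z'.1 z.1 ≤ 2 ^ P.om (D.2.2.2.2.1 + D.2.2.2.2.2)) :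
    eng.look P ms tapes D j ρ z κ z' =
      eng.sub P ms tapes D j ρ κ (P.rd (κ.1.2.2.2.2.1 + κ.1.2.2.2.2.2) z') :=
  if_pos ⟨hκ, h1, h2⟩

theorem unf_lookT {D D' : De} {e n j : ℕ} {ρ : ℕ → Bool} {z z' : St} (hκ : qT D' e n ∈ P.plan D)
    (h1 : z'.1 ≤ P.X) (h2 : Nat.dist z'.1 z.1 ≤ 2 ^ P.om (D.2.2.2.2.1 + D.2.2.2.2.2)) :
    eng.look P ms tapes D j ρ z (qT D' e n) z' =
      eng.tab P ms tapes D' (j * 2 ^ e + n) (P.rd (D'.2.2.2.2.1 + D'.2.2.2.2.2) z') := by
  rw [unf_look ms tapes hκ h1 h2, Eng.sub_tab]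

/-- Unfolding at a state. -/
theorem unf_ev {D : De} (hg : Good P D) {z : St} (hz : eng.inW P D z) (j : ℕ) (ρ : ℕ → Bool) :
    eng.ev P ms tapes D j ρ z = P.rule D (eng.idx P D ρ) (eng.look P ms tapes D j ρ z)
      (fun b => decide (D.2.2.2.2.1 = 0 ∧ b ≤ P.X ∧
        Nat.dist b z.1 ≤ 2 ^ P.om (D.2.2.2.2.1 + D.2.2.2.2.2)) && ms j b) z := by
  rw [Eng.ev_eq eng_wf hg, if_pos hz]
  rfl

theorem unf_upQ_congr {f g : ℕ → St → ℚ} {h c : ℕ} {z : St}
    (H : ∀ c' ∈ P.clsList h c, f c' z = g c' z) : P.upQ f h c z = P.upQ g h c z := by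
  unfold upQ
  congr 1
  exact List.map_congr_left fun c' hc' => by rw [H c' hc']

theorem unf_dist_self_le (a n : ℕ) : Nat.dist a a ≤ n := by simp

/-- Recipe for all unfoldings: `Eng.ev_eq eng_wf`, then show that every lookup made by the rule is
in the plan, has column `≤ X` and passes the window (`rad_le_om`), and use `Eng.sub_tab`,
`rd_eq_self`, `List.map_congr_left`. -/
theorem nrel (hP : P.OK) {t : ℕ} (ht : t ≤ P.T) : P.NRel (P.tN ms tapes t) := by
  refine ⟨fun k h j c z hz => Eng.ev_of_not_inW _ _ _ _ (by rwa [unf_inW one_ne_zero]), ?_⟩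
  intro k hk h j c z hn hc hz
  have hg : Good P (dN t (k + 1) h c) := ⟨hP, hn.1, hc, Or.inr (Or.inl ⟨rfl, ht, hk, rfl⟩)⟩
  have hplan : P.plan (dN t (k + 1) h c) =
      ((P.clsList h (c - 1)).map fun c' => qT (dN t k h c') 0 0) ++
        if h = 0 then [] else (P.clsList (h - 1) c).flatMap
          fun c' => [qT (dN t k (h - 1) c') 1 0, qT (dN t k (h - 1) c') 1 1] := by
    simp [plan, planN]
  have k0 : ∀ c' ∈ P.clsList h (c - 1), qT (dN t k h c') 0 0 ∈ P.plan (dN t (k + 1) h c) :=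
    fun c' hc' => by
      rw [hplan]
      exact List.mem_append_left _ (List.mem_map.mpr ⟨c', hc', rfl⟩)
  have k1 : h ≠ 0 → ∀ c' ∈ P.clsList (h - 1) c, ∀ n, n = 0 ∨ n = 1 →
      qT (dN t k (h - 1) c') 1 n ∈ P.plan (dN t (k + 1) h c) := fun h0 c' hc' n hn' => by
    rw [hplan, if_neg h0]
    refine List.mem_append_right _ (List.mem_flatMap.mpr ⟨c', hc', ?_⟩)
    rcases hn' with rfl | rfl <;> simp
  unfold tN Eng.tab
  rw [unf_ev ms tapes hg ((unf_inW one_ne_zero).mpr hz)]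
  simp only [rule, hz, not_true, if_false, if_true, one_ne_zero, ruleN, Nat.succ_ne_zero,
    Nat.add_sub_cancel]
  congr 1
  unfold nstep
  congr 1
  · congr 1
    · refine List.map_congr_left fun z' hz' => ?_
      obtain ⟨h1, h2, -⟩ := mem_box.mp hz'
      beta_reduce
      rw [unf_lookT ms tapes (k0 c (mem_clsList.mpr ⟨Nat.sub_le _ _, hc⟩)) h1.1
        (h2.trans (unf_cp_le _))]
      simp [lkF, Eng.tab]
    · by_cases h0 : h = 0
      · rw [if_pos h0, if_pos h0]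
      · rw [if_neg h0, if_neg h0]
        refine List.map_congr_left fun a ha => ?_
        obtain ⟨-, h1, h2⟩ := mem_gball.mp ha
        congr 1
        · refine unf_upQ_congr fun c' hc' => ?_
          rw [unf_lookT ms tapes (z := z) (z' := (z.1, a)) (k1 h0 c' hc' 0 (Or.inl rfl)) hz.1
            (unf_dist_self_le _ _)]
          simp [lkF, Eng.tab, mul_comm]
        · refine unf_upQ_congr fun c' hc' => ?_
          rw [unf_lookT ms tapes (z' := (a, z.2)) (k1 h0 c' hc' 1 (Or.inr rfl)) h1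
            (h2.trans (unf_wid_le _))]
          simp [lkF, Eng.tab, mul_comm]
  · refine unf_upQ_congr fun c' hc' => ?_
    rw [unf_lookT ms tapes (k0 c' hc') hz.1 (unf_dist_self_le _ _)]
    simp [lkF, Eng.tab]

theorem trel (hP : P.OK) {t : ℕ} (ht : t < P.T) :
    P.TRel (P.tN ms tapes t) (P.tT ms tapes t) := by
  refine ⟨fun h j c z hz => Eng.ev_of_not_inW _ _ _ _ (by rwa [unf_inW two_ne_zero]), ?_⟩
  intro h j c z hn hc hz
  have hg : Good P (dT t h c) := ⟨hP, hn.1, hc, Or.inr (Or.inr (Or.inl ⟨rfl, ht, rfl, rfl⟩))⟩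
  have k0 : ∀ k < P.M, qT (dN t (P.D + k) h c) 0 0 ∈ P.plan (dT t h c) := fun k hk => by
    have : P.plan (dT t h c) = (List.range P.M).map fun k' => qT (dN t (P.D + k') h c) 0 0 := by
      simp [plan]
    rw [this]
    exact List.mem_map.mpr ⟨k, List.mem_range.mpr hk, rfl⟩
  unfold tT Eng.tab
  rw [unf_ev ms tapes hg ((unf_inW two_ne_zero).mpr hz)]
  simp only [rule, hz, not_true, if_false, if_true, two_ne_zero, OfNat.ofNat_ne_one]
  congr 1
  unfold ntil
  congr 1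
  refine List.map_congr_left fun z' hz' => ?_
  obtain ⟨h1, h2, -⟩ := mem_box.mp hz'
  congr 1
  unfold nbar
  congr 2
  refine Finset.sum_congr rfl fun k hk => ?_
  beta_reduce
  rw [unf_lookT ms tapes (k0 k (Finset.mem_range.mp hk)) h1.1 (h2.trans (unf_cp_le _)),
    rd_eq_self h1 le_rfl]
  simp [tN]

theorem zrel (hP : P.OK) : P.ZRel ms (P.tA ms tapes) (P.tN ms tapes 0 0) := by
  refine ⟨fun h j c z hz => Eng.ev_of_not_inW _ _ _ _ (by rwa [unf_inW one_ne_zero]), ?_⟩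
  intro h j c z hn hc hz
  have hg : Good P (dN 0 0 h c) :=
    ⟨hP, hn.1, hc, Or.inr (Or.inl ⟨rfl, Nat.zero_le _, Nat.zero_le _, rfl⟩)⟩
  unfold tN Eng.tab
  rw [unf_ev ms tapes hg ((unf_inW one_ne_zero).mpr hz)]
  simp only [rule, hz, not_true, if_false, if_true, one_ne_zero, ruleN]
  congr 1
  unfold nzero
  by_cases h0 : h = 0
  · subst h0
    rw [if_pos rfl, if_pos rfl, vleaf_guard ms hP hz]
  · rw [if_neg h0, if_neg h0]
    by_cases hD : P.D ∣ h
    · have k0 : qT (dA h c) 0 0 ∈ P.plan (dN 0 0 h c) := by simp [plan, planN, h0, hD]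
      have e : eng.look P ms tapes (dN 0 0 h c) j (tapes (eng.tp P (dN 0 0 h c))) z
          (qT (dA h c) 0 0) (z.1, z.1) = P.tA ms tapes h j c (z.1, z.1) := by
        rw [unf_lookT ms tapes (z := z) (z' := (z.1, z.1)) k0 hz.1 (unf_dist_self_le _ _)]
        have : P.rd (h + c) (z.1, z.1) = (z.1, z.1) := rdn_eq_self hz.2.2.1 hz.2.2.1
        simp only [this]
        simp [tA]
      rw [if_pos hD, if_pos hD, e]
    · rw [if_neg hD, if_neg hD]

theorem xrel (hP : P.OK) {t : ℕ} (ht : t < P.T) :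
    P.XRel (P.tN ms tapes t P.D) (P.tP ms tapes t) (P.tN ms tapes (t + 1) 0) := by
  refine ⟨fun h j c z hz => Eng.ev_of_not_inW _ _ _ _ (by rwa [unf_inW one_ne_zero]), ?_⟩
  intro h j c z hn hc hz
  have hg : Good P (dN (t + 1) 0 h c) :=
    ⟨hP, hn.1, hc, Or.inr (Or.inl ⟨rfl, ht, Nat.zero_le _, rfl⟩)⟩
  have hplan : P.plan (dN (t + 1) 0 h c) = qT (dN t P.D h c) 0 0 :: if P.d ∣ h then
      (List.range (P.M + 1)).map fun β => qT (dP t (P.M - 1) β h c) 0 0 else [] := by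
    simp [plan, planN]
  have hrd : P.rd (h + c) z = z := rd_eq_self hz le_rfl
  have e0 : ∀ ρ, eng.look P ms tapes (dN (t + 1) 0 h c) j ρ z (qT (dN t P.D h c) 0 0) z =
      P.tN ms tapes t P.D h j c z := fun ρ => by
    rw [unf_lookT ms tapes (by rw [hplan]; exact List.mem_cons_self) hz.1 (unf_dist_self_le _ _)]
    simp only [hrd]
    simp [tN]
  have e1 : P.d ∣ h → ∀ ρ, ∀ β ∈ List.range (P.M + 1),
      eng.look P ms tapes (dN (t + 1) 0 h c) j ρ z (qT (dP t (P.M - 1) β h c) 0 0) z =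
      P.tP ms tapes t (P.M - 1) β h j c z := fun hd ρ β hβ => by
    rw [unf_lookT ms tapes (by
      rw [hplan, if_pos hd]
      exact List.mem_cons_of_mem _ (List.mem_map.mpr ⟨β, hβ, rfl⟩)) hz.1 (unf_dist_self_le _ _)]
    simp only [hrd]
    simp [tP]
  have e2 : P.tN ms tapes (t + 1) 0 h j c z = eng.ev P ms tapes (dN (t + 1) 0 h c) j
    (tapes (eng.tp P (dN (t + 1) 0 h c))) z := rfl
  rw [e2, unf_ev ms tapes hg ((unf_inW one_ne_zero).mpr hz)]
  simp only [rule, hz, not_true, if_false, if_true, one_ne_zero, ruleN, Nat.succ_ne_zero,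
    Nat.add_sub_cancel]
  congr 1
  unfold nnext
  rw [e0]
  congr 1
  by_cases hd : P.d ∣ h
  · rw [if_pos hd, if_pos hd]
    exact List.map_congr_left fun β hβ => by simp only [e1 hd _ β hβ]
  · rw [if_neg hd, if_neg hd]

theorem tA_out {h j c : ℕ} {z : St} (hz : ¬ (P.inW (h + c) z ∧ z.1 = z.2)) :
    P.tA ms tapes h j c z = P.X :=
  Eng.ev_of_not_inW _ _ _ _ (by rwa [unf_inW_A])

theorem tA_leaf (hP : P.OK) {j c a : ℕ} (hc : ¬ P.triv 0 c) (hz : P.inW (0 + c) (a, a)) :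
    P.tA ms tapes 0 j c (a, a) = vleaf (ms j) (a, a) := by
  have hg : Good P (dA 0 c) :=
    ⟨hP, Nat.zero_le _, hc, Or.inl ⟨rfl, rfl, rfl, rfl, dvd_zero _⟩⟩
  unfold tA Eng.tab
  rw [unf_ev ms tapes hg (unf_inW_A.mpr ⟨hz, rfl⟩)]
  simp only [rule, hz, not_true, if_false, if_true, ruleA]
  have e := vleaf_guard ms hP (j := j) hz
  simp only [] at e
  rw [e]
  refine rup_eq_self (onG_nat _ _) ?_
  have h1 : vleaf (ms j) (a, a) ≤ 1 := by
    unfold vleaf
    split_ifs <;> simp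
  rw [abs_of_nonneg (Nat.cast_nonneg _)]
  exact (show ((vleaf (ms j) (a, a) : ℕ) : ℚ) ≤ 1 by exact_mod_cast h1).trans
    (one_le_pow₀ (by norm_num))

theorem unf_aenv_congr {f g : St → ℚ} {h c α : ℕ} (H : ¬ P.triv h c →
    ∀ b ∈ gball P.X (P.gm (h + c)) (P.rad (h + c) (P.Lx + 1)) α, f (b, b) = g (b, b)) :
    P.aenv f h c α = P.aenv g h c α := by
  unfold aenv
  by_cases ht : P.triv h c
  · rw [if_pos ht, if_pos ht]
  · rw [if_neg ht, if_neg ht]
    congr 1
    exact List.map_congr_left fun b hb => by rw [H ht b hb]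

theorem unf_aTerm_congr {f g : ℕ → ℕ → St → ℚ} {h c α i : ℕ} (H : ∀ r < 2 ^ (i + P.ra),
    P.aenv (f i r) (h - P.D) (c + i) α = P.aenv (g i r) (h - P.D) (c + i) α) :
    P.aTerm f h c α i = P.aTerm g h c α i := by
  unfold aTerm
  rw [Finset.sum_congr rfl fun r hr => by rw [H r (Finset.mem_range.mp hr)]]

theorem unf_aComb_congr {f g : ℕ → ℚ} {u : ℕ} (H : ∀ i < P.D + 1, f i = g i) :
    P.aComb f u = P.aComb g u := by
  unfold aComb
  rw [Finset.sum_congr rfl fun i hi => H i (Finset.mem_range.mp hi)]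

theorem unf_tabAvg_congr {f g : ℕ → St → ℚ} {z : St} (H : ∀ r < 2 ^ P.rf, f r z = g r z) :
    P.tabAvg f z = P.tabAvg g z := by
  unfold tabAvg
  rw [Finset.sum_congr rfl fun r hr => H r (Finset.mem_range.mp hr)]

/-- Diagonal tables with arbitrary own bits. -/
theorem evA_eq (hP : P.OK) {h j c a : ℕ} (hh : h ≤ P.L) (hD : P.D ∣ h) (h0 : h ≠ 0)
    (hc : ¬ P.triv h c) (hz : P.inW (h + c) (a, a)) (ρ : ℕ → Bool) :
    eng.ev P ms tapes (dA h c) j ρ (a, a) = rup P.s (P.aComb (P.aTerm (fun i r =>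
      P.tA ms tapes (h - P.D) (j * 2 ^ P.D + eng.idx P (dA h c) ρ (qR (dA (h - P.D) (c + i)) P.D r))
        (c + i)) h c a) (h + c)) := by
  have hg : Good P (dA h c) := ⟨hP, hh, hc, Or.inl ⟨rfl, rfl, rfl, rfl, hD⟩⟩
  have hDh : P.D ≤ h := Nat.le_of_dvd (Nat.pos_of_ne_zero h0) hD
  have k0 : ∀ i < P.D + 1, ¬ P.triv (h - P.D) (c + i) → ∀ r < 2 ^ (i + P.ra),
      qR (dA (h - P.D) (c + i)) P.D r ∈ P.plan (dA h c) := fun i hi ht r hr => by
    have : P.plan (dA h c) = ((List.range (P.D + 1)).filter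
        fun i => ¬ P.triv (h - P.D) (c + i)).flatMap
        fun i => (List.range (2 ^ (i + P.ra))).map fun r => qR (dA (h - P.D) (c + i)) P.D r := by
      simp [plan, planA, h0]
    rw [this]
    exact List.mem_flatMap.mpr ⟨i, List.mem_filter.mpr ⟨List.mem_range.mpr hi, by simpa using ht⟩,
      List.mem_map.mpr ⟨r, List.mem_range.mpr hr, rfl⟩⟩
  rw [unf_ev ms tapes hg (unf_inW_A.mpr ⟨hz, rfl⟩)]
  simp only [rule, hz, not_true, if_false, if_true, ruleA, h0]
  refine congrArg (rup P.s) (unf_aComb_congr fun i hi => unf_aTerm_congr fun r hr =>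
    unf_aenv_congr fun ht b hb => ?_)
  obtain ⟨h1, h2, h3⟩ := mem_gball.mp hb
  have h4 : P.rad (h - P.D + (c + i)) (P.Lx + 1) ≤ 2 ^ P.om (h + c) :=
    (unf_rad_mono (by omega) _).trans (rad_le_om (by unfold omx; omega))
  have h5 : P.rd (h - P.D + (c + i)) (b, b) = (b, b) := rdn_eq_self h1 h1
  rw [unf_look ms tapes (z' := (b, b)) (k0 i hi ht r hr) h2 (h3.trans h4)]
  simp only [h5]
  simp [Eng.sub, Eng.bits, tA, Eng.tab]

/-- Averaged tables with arbitrary own bits. -/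
theorem evP_eq {t m β h j c : ℕ} (hg : Good P (dP t m β h c)) {z : St} (hz : P.inW (h + c) z)
    (ρ : ℕ → Bool) :
    eng.ev P ms tapes (dP t m β h c) j ρ z = rup P.s (clampQ 0 (4 * P.Lam (h + c))
      (P.tabAvg (fun r => eng.sub P ms tapes (dP t m β h c) j ρ (qF (dR t m β h c) 0 r)) z)) := by
  have k0 : ∀ r < 2 ^ P.rf, qF (dR t m β h c) 0 r ∈ P.plan (dP t m β h c) := fun r hr => by
    have : P.plan (dP t m β h c) =
        (List.range (2 ^ P.rf)).map fun r => qF (dR t m β h c) 0 r := by simp [plan]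
    rw [this]
    exact List.mem_map.mpr ⟨r, List.mem_range.mpr hr, rfl⟩
  have hrd : P.rd (h + c) z = z := rd_eq_self hz le_rfl
  rw [unf_ev ms tapes hg ((unf_inW (by norm_num)).mpr hz)]
  simp only [rule, hz, not_true, if_false, OfNat.ofNat_ne_zero, OfNat.ofNat_ne_one,
    show (4 : ℕ) ≠ 2 by norm_num, show (4 : ℕ) ≠ 3 by norm_num]
  refine congrArg (fun x => rup P.s (clampQ 0 (4 * P.Lam (h + c)) x))
    (unf_tabAvg_congr fun r hr => ?_)
  rw [unf_look ms tapes (k0 r hr) hz.1 (unf_dist_self_le _ _)]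
  simp only [hrd]

theorem tP_out {t m β h j c : ℕ} {z : St} (hz : ¬ P.inW (h + c) z) :
    P.tP ms tapes t m β h j c z = P.X :=
  Eng.ev_of_not_inW _ _ _ _ (by rwa [unf_inW (by norm_num)])

theorem raw_leaf {t m β j c : ℕ} (hg : Good P (dR t m β 0 c)) {z : St} (hz : P.inW (0 + c) z)
    (ρ : ℕ → Bool) : P.raw ms tapes t m β 0 j c ρ z = rup P.s (P.rawLeaf (ms j) c m z) := by
  unfold raw
  rw [unf_ev ms tapes hg ((unf_inW (by norm_num)).mpr hz)]
  simp only [rule, hz, not_true, if_false, if_true, OfNat.ofNat_ne_zero, OfNat.ofNat_ne_one,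
    show (3 : ℕ) ≠ 2 by norm_num, ruleR]
  have e := vleaf_guard ms hg.1 (j := j) hz
  simp only [] at e
  unfold rawLeaf
  rw [e]

theorem unf_eps_le (u : ℕ) : (1 : ℚ) / 2 ^ P.s ≤ P.Lam u := by
  have h1 := eps_le (P := P) u
  have h2 : P.ups ≤ 1 := by
    unfold ups
    exact div_le_one_of_le₀ (one_le_pow₀ (by norm_num)) (by positivity)
  have h3 : 0 ≤ P.ups := by unfold ups; positivity
  have h4 := Lam_pos (P := P) u
  calc (1 : ℚ) / 2 ^ P.s ≤ 2 ^ (3 * P.kap) / 2 ^ P.s :=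
        div_le_div_of_nonneg_right (one_le_pow₀ (by norm_num)) (by positivity)
    _ ≤ P.ups * P.ups * P.Lam u := h1
    _ ≤ 1 * 1 * P.Lam u := by gcongr
    _ = P.Lam u := by ring

theorem unf_off_mem (hP : P.OK) (u m : ℕ) : 0 ≤ P.off u m ∧ P.off u m ≤ P.Lam u := by
  have h4 := Lam_pos (P := P) u
  have h0 : 0 < P.zeta := by unfold zeta; positivity
  refine ⟨by unfold off; positivity, ?_⟩
  have h1 : P.M - m ≤ 2 ^ (4 * P.Lx) := by
    have e1 := hP.M_le
    have e2 := hP.l1_lt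
    have e3 : P.M ≤ P.M * 2 ^ (3 * P.p) := Nat.le_mul_of_pos_right _ (Nat.two_pow_pos _)
    have e4 : 2 ^ P.Lx ≤ 2 ^ (4 * P.Lx) := Nat.pow_le_pow_right (by norm_num) (by omega)
    omega
  have h2 : ((P.M - m : ℕ) : ℚ) * P.zeta ≤ 1 := by
    unfold zeta
    rw [mul_one_div]
    exact div_le_one_of_le₀ (by exact_mod_cast h1) (by positivity)
  unfold off
  calc _ ≤ 1 * P.Lam u := by gcongr
    _ = _ := one_mul _

theorem unf_abs_rup_le {h c : ℕ} (hc : ¬ P.triv h c) {x : ℚ} (h1 : -P.Lam (h + c) ≤ x)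
    (h2 : x ≤ 5 * P.Lam (h + c)) : |(rup P.s x : ℝ)| ≤ 6 * P.La (h + c) := by
  have h3 := unf_eps_le (P := P) (h + c)
  have h4 := Lam_pos (P := P) (h + c)
  have h5 : P.Lam (h + c) ≤ 2 ^ P.s := by
    refine (Lam_le_of_not_triv hc).trans (le_trans ?_ X_mul_le)
    refine mul_le_mul_of_nonneg_left (pow_le_pow_right₀ (by norm_num) ?_) (Nat.cast_nonneg _)
    unfold kap
    omega
  have h6 := rup_le (s := P.s) (x := x) (by linarith)
  have h7 := min_le_rup P.s x
  have h8 : -P.Lam (h + c) ≤ min x (2 ^ P.s) := le_min h1 (by linarith)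
  have h9 : |rup P.s x| ≤ 6 * P.Lam (h + c) := abs_le.mpr ⟨by linarith, by linarith⟩
  unfold La
  exact_mod_cast h9

/-- Raw estimates are bounded (`clampQ_mem`, resp. `off ≤ Λ`). -/
theorem abs_raw_le {t m β h j c : ℕ} (hg : Good P (dR t m β h c)) {z : St} (hz : P.inW (h + c) z)
    (ρ : ℕ → Bool) : |(P.raw ms tapes t m β h j c ρ z : ℝ)| ≤ 6 * P.La (h + c) := by
  have hc : ¬ P.triv h c := hg.2.2.1
  have h4 := Lam_pos (P := P) (h + c)
  by_cases h0 : h = 0
  · subst h0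
    rw [raw_leaf ms tapes hg hz]
    obtain ⟨o1, o2⟩ := unf_off_mem hg.1 c m
    rw [Nat.zero_add] at h4
    have e1 : (0 : ℚ) ≤ min ((min P.X (vleaf (ms j) z) : ℕ) : ℚ) (3 * P.Lam c) :=
      le_min (Nat.cast_nonneg _) (by linarith)
    have e2 := min_le_right ((min P.X (vleaf (ms j) z) : ℕ) : ℚ) (3 * P.Lam c)
    refine unf_abs_rup_le hc ?_ ?_ <;> rw [Nat.zero_add] <;> unfold rawLeaf <;> linarith
  · unfold raw
    rw [unf_ev ms tapes hg ((unf_inW (by norm_num)).mpr hz)]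
    simp only [rule, hz, not_true, if_false, if_true, OfNat.ofNat_ne_zero, OfNat.ofNat_ne_one,
      show (3 : ℕ) ≠ 2 by norm_num, ruleR, h0]
    unfold rawF
    exact unf_abs_rup_le hc (clampQ_mem (by linarith) _).1 (clampQ_mem (by linarith) _).2

end Pa

end Crest.Agent.R288
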