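/-
R288/Up: the lift through the classes; validity of the closure iteration.
-/
import Crest.Agent.R288.Unf

set_option autoImplicit false

namespace Crest.Agent.R288

open Finset

namespace Pa

variable {P : Pa} {ms : ℕ → ℕ → Bool}

theorem Nd.left {h j : ℕ} (hn : P.Nd (h + 1) j) : P.Nd h (2 * j) := by
  obtain ⟨h1, h2⟩ := hn
  refine ⟨by omega, ?_⟩
  rw [show P.L - h = P.L - (h + 1) + 1 by omega, pow_succ]
  omega
theorem Nd.right {h j : ℕ} (hn : P.Nd (h + 1) j) : P.Nd h (2 * j + 1) := by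
  obtain ⟨h1, h2⟩ := hn
  refine ⟨by omega, ?_⟩
  rw [show P.L - h = P.L - (h + 1) + 1 by omega, pow_succ]
  omega
theorem Nd.desc {h j i j' : ℕ} (hn : P.Nd h j) (hi : i ≤ h) (hj : j' < 2 ^ i) :
    P.Nd (h - i) (j * 2 ^ i + j') := by
  obtain ⟨h1, h2⟩ := hn
  refine ⟨by omega, ?_⟩
  rw [show P.L - (h - i) = P.L - h + i by omega, pow_add]
  calc j * 2 ^ i + j' < (j + 1) * 2 ^ i := by rw [Nat.succ_mul]; omega
    _ ≤ _ := Nat.mul_le_mul_right _ h2

theorem VV_nonneg (h j : ℕ) (z : St) : 0 ≤ P.VV ms h j z := Nat.cast_nonneg _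
theorem VV_lip (h j : ℕ) (z z' : St) : P.VV ms h j z ≤ P.VV ms h j z' + dst z z' := by
  unfold VV
  exact_mod_cast V_lip h j z z'
theorem La_pos (u : ℕ) : 0 < P.La u := by
  unfold La
  exact_mod_cast Lam_pos u

theorem trivV_valid (h j : ℕ) {z : St} (hz : z.1 ≤ P.X) :
    min (P.VV ms h j z) P.X ≤ P.trivV h z := by
  have := V_le (ms := ms) h j hz
  unfold VV trivV
  rw [Rat.cast_natCast, ← Nat.cast_min, Nat.cast_le]
  omega
theorem trivV_le_X (h : ℕ) (z : St) : P.trivV h z ≤ P.X := Nat.cast_le.2 (min_le_left _ _)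
theorem trivV_nonneg (h : ℕ) (z : St) : 0 ≤ P.trivV h z := Nat.cast_nonneg _
theorem trivV_lip (h : ℕ) (z z' : St) : P.trivV h z ≤ P.trivV h z' + dst z z' := by
  have := dist_le_dst z z'
  unfold trivV
  rw [← Nat.cast_add, Nat.cast_le]
  omega
theorem onG_trivV (h : ℕ) (z : St) : OnG P.s (P.trivV h z) := onG_nat _ _
/-- In a trivial world the trivial bound is accurate. -/
theorem trivV_le_of_triv {h c : ℕ} (ht : P.triv h c) (j : ℕ) (z : St) :
    (P.trivV h z : ℝ) ≤ P.VV ms h j z + P.del ^ 3 * P.La (h + c) := by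
  have h1 : ((min P.X (2 ^ h) : ℕ) : ℝ) ≤ P.del ^ 3 * P.La (h + c) := by
    unfold La
    exact_mod_cast min_le_of_triv ht
  have h2 := dist_le_V (X := P.X) (ms := ms) h j z
  have h3 : min P.X (Nat.dist z.1 z.2 + 2 ^ h) ≤ V P.X ms h j z + min P.X (2 ^ h) := by omega
  have h4 : ((min P.X (Nat.dist z.1 z.2 + 2 ^ h) : ℕ) : ℝ) ≤ V P.X ms h j z + ((min P.X (2 ^ h) : ℕ) : ℝ) := by
    exact_mod_cast h3
  unfold VV trivV
  rw [Rat.cast_natCast]
  linarith

theorem Up_mem_clsList {h c c' : ℕ} : c' ∈ P.clsList h c ↔ c ≤ c' ∧ ¬ P.triv h c' := by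
  simp only [clsList, List.mem_filter, List.mem_range'_1, decide_eq_true_eq]
  unfold triv
  omega

theorem Up_le_minL {l : List ℚ} {d : ℚ} {x : ℝ} (hl : ∀ a ∈ l, x ≤ a) (hd : x ≤ d) : x ≤ (minL l d : ℚ) := by
  rcases minL_mem l d with h | h
  · rw [h]; exact hd
  · exact hl _ h

theorem ValN.Up_val {N : Fam} (hN : P.ValN ms N) {h j c : ℕ} (hn : P.Nd h j) (hc : ¬ P.triv h c) (z z' : St) :
    min (P.VV ms h j z) P.X ≤ ((N h j c z' + dst z z' : ℚ) : ℝ) := by
  have h0 : (0 : ℝ) ≤ dst z z' := Nat.cast_nonneg _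
  push_cast
  by_cases hz : P.inW (h + c) z'
  · have h1 := hN.val h j c z' hn hc hz
    have h2 := VV_lip (P := P) (ms := ms) h j z z'
    simp only [min_def] at h1 ⊢
    split_ifs at h1 ⊢ <;> linarith
  · rw [hN.out h j c z' hz, Rat.cast_natCast]
    exact (min_le_right _ _).trans (by linarith)

theorem upQ_le_trivV (f : ℕ → St → ℚ) (h c : ℕ) (z : St) : P.upQ f h c z ≤ P.trivV h z := minL_le_default _ _
theorem upQ_le {f : ℕ → St → ℚ} {h c c' : ℕ} (z : St) (h1 : c ≤ c') (h2 : ¬ P.triv h c') :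
    P.upQ f h c z ≤ f c' z + dst z (P.rd (h + c') z) := minL_le_of_mem (List.mem_map.2 ⟨c', Up_mem_clsList.2 ⟨h1, h2⟩, rfl⟩)
theorem upQ_mono {f f' : ℕ → St → ℚ} {h c c' : ℕ} {z : St} (hc : c ≤ c')
    (hf : ∀ c'', c' ≤ c'' → ¬ P.triv h c'' → f c'' z ≤ f' c'' z) :
    P.upQ f h c z ≤ P.upQ f' h c' z := by
  refine le_minL (fun a ha => ?_) (upQ_le_trivV _ _ _ _)
  obtain ⟨c'', h1, rfl⟩ := List.mem_map.1 ha
  obtain ⟨h2, h3⟩ := Up_mem_clsList.1 h1
  exact (upQ_le z (hc.trans h2) h3).trans (add_le_add (hf c'' h2 h3) le_rfl)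

theorem upQ_valid {N : Fam} (hN : P.ValN ms N) {h j : ℕ} (hn : P.Nd h j) (c : ℕ) {z : St}
    (h1 : z.1 ≤ P.X) : min (P.VV ms h j z) P.X ≤ P.upQ (P.lkF N h j) h c z := by
  refine Up_le_minL (fun a ha => ?_) (trivV_valid h j h1)
  obtain ⟨c', h2, rfl⟩ := List.mem_map.1 ha
  exact hN.Up_val hn (Up_mem_clsList.1 h2).2 z _

theorem ValN.nonneg {N : Fam} (hN : P.ValN ms N) {h j c : ℕ} (hn : P.Nd h j) (hc : ¬ P.triv h c)
    (z : St) : 0 ≤ N h j c z := by
  have h1 := hN.Up_val hn hc z z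
  rw [dst_self, Nat.cast_zero, add_zero] at h1
  have h2 : (0 : ℝ) ≤ min (P.VV ms h j z) P.X := le_min (VV_nonneg h j z) (Nat.cast_nonneg _)
  exact_mod_cast h2.trans h1

theorem ValN.le_X {N : Fam} (hN : P.ValN ms N) {h j c : ℕ} (hn : P.Nd h j) (hc : ¬ P.triv h c)
    (z : St) : N h j c z ≤ P.X := by
  by_cases hz : P.inW (h + c) z
  · exact (hN.triv h j c z hn hc hz).trans (trivV_le_X h z)
  · exact (hN.out h j c z hz).le

/-- The iteration decreases (`nstep ≤ upQ … (c - 1) ≤` the entry of class `c`; `rup_le_of_onG`). -/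
theorem NRel.succ_le {N : ℕ → Fam} (hR : P.NRel N) {k : ℕ} (hk : k < P.D + P.M)
    (hN : P.ValN ms (N k)) {h j c : ℕ} (hn : P.Nd h j) (hc : ¬ P.triv h c) (z : St) :
    N (k + 1) h j c z ≤ N k h j c z := by
  by_cases hz : P.inW (h + c) z
  · rw [hR.step k hk h j c z hn hc hz]
    refine rup_le_of_onG ((minL_le_default _ _).trans ((upQ_le z (Nat.sub_le c 1) hc).trans ?_))
      (hN.onG h j c z hn hc) (le_trans (neg_nonpos.2 (by positivity)) (hN.nonneg hn hc z))
    rw [lkF, rd_eq_self hz le_rfl, dst_self, Nat.cast_zero, add_zero]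
  · rw [hR.out _ h j c z hz, hR.out _ h j c z hz]

/-- Every link is valid (`V_lip`, `V_split_le`, `min_le_rup`). -/
theorem NRel.valN_succ {N : ℕ → Fam} (hR : P.NRel N) {k : ℕ} (hk : k < P.D + P.M)
    (hN : P.ValN ms (N k)) : P.ValN ms (N (k + 1)) := by
  refine ⟨hR.out _, fun h j c z hn hc => ?_, fun h j c z hn hc hz => ?_,
    fun h j c z hn hc hz => (hR.succ_le hk hN hn hc z).trans (hN.triv h j c z hn hc hz),
    fun j c z hn hc hz => le_trans (by exact_mod_cast hR.succ_le hk hN hn hc z) (hN.leaf j c z hn hc hz)⟩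
  · by_cases hz : P.inW (h + c) z
    · rw [hR.step k hk h j c z hn hc hz]
      exact onG_rup _ _
    · rw [hR.out _ h j c z hz]
      exact onG_nat _ _
  · rw [hR.step k hk h j c z hn hc hz]
    refine le_trans ?_ (Rat.cast_le.2 (min_le_rup _ _))
    have hX : (P.X : ℚ) ≤ 2 ^ P.s :=
      le_trans (le_mul_of_one_le_right (Nat.cast_nonneg _) (one_le_pow₀ one_le_two)) X_mul_le
    rw [Rat.cast_min]
    refine le_min (Up_le_minL (fun a ha => ?_) (upQ_valid hN hn _ hz.1))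
      ((min_le_right _ _).trans (by exact_mod_cast hX))
    rcases List.mem_append.1 ha with ha | ha
    · obtain ⟨z', h1, rfl⟩ := List.mem_map.1 ha
      rw [lkF, rd_eq_self (mem_box.1 h1).1 le_rfl]
      exact hN.Up_val hn hc z z'
    · rcases h with _ | h
      · simp at ha
      · rw [if_neg (Nat.succ_ne_zero h)] at ha
        obtain ⟨a, h1, rfl⟩ := List.mem_map.1 ha
        have h2 := (mem_gball.1 h1).2.1
        have h3 := upQ_valid hN hn.left c (z := (z.1, a)) hz.1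
        have h4 := upQ_valid hN hn.right c (z := (a, z.2)) h2
        have h5 : P.VV ms (h + 1) j z ≤ P.VV ms h (2 * j) (z.1, a) + P.VV ms h (2 * j + 1) (a, z.2) := by
          unfold VV
          exact_mod_cast V_split_le h j z h2
        have h6 := VV_nonneg (P := P) (ms := ms) h (2 * j) (z.1, a)
        have h7 := VV_nonneg (P := P) (ms := ms) h (2 * j + 1) (a, z.2)
        have h8 : (0 : ℝ) ≤ P.X := Nat.cast_nonneg _
        rw [Nat.add_sub_cancel, Rat.cast_add]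
        refine le_trans ?_ (add_le_add h3 h4)
        simp only [min_def]
        split_ifs <;> linarith

theorem NRel.valN {N : ℕ → Fam} (hR : P.NRel N) (h0 : P.ValN ms (N 0)) {k : ℕ}
    (hk : k ≤ P.D + P.M) : P.ValN ms (N k) := by
  induction k with
  | zero => exact h0
  | succ k ih => exact hR.valN_succ hk (ih (by omega))

theorem NRel.anti {N : ℕ → Fam} (hR : P.NRel N) (h0 : P.ValN ms (N 0)) {k k' : ℕ} (hk : k ≤ k')
    (hk' : k' ≤ P.D + P.M) {h j c : ℕ} (hn : P.Nd h j) (hc : ¬ P.triv h c) (z : St) :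
    N k' h j c z ≤ N k h j c z := by
  induction k', hk using Nat.le_induction with
  | base => exact le_rfl
  | succ k' _ ih => exact (hR.succ_le hk' (hR.valN h0 (by omega)) hn hc z).trans (ih (by omega))

end Pa

end Crest.Agent.R288
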