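/-
R288/Ako1: the diagonal tables of the start are valid up to their cap.
-/
import Crest.Agent.R288.Up

set_option autoImplicit false

namespace Crest.Agent.R288

open Finset

namespace Pa

variable {P : Pa} {ms : ℕ → ℕ → Bool}

theorem Ako1_hi_pos (u : ℕ) : 0 < P.hiA u := by
  have := Lam_pos (P := P) u
  unfold hiA
  positivity

theorem Ako1_hi_mono {u v : ℕ} (h : u ≤ v) : P.hiA u ≤ P.hiA v :=
  mul_le_mul_of_nonneg_left (Lam_mono h) (by positivity)

theorem phiA_mono (h' c i : ℕ) {x y : ℚ} (h : x ≤ y) : P.phiA h' c i x ≤ P.phiA h' c i y := by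
  exact max_le_max le_rfl (sub_le_sub_right (min_le_min_right _ h) _)
theorem phiA_nonneg (h' c i : ℕ) (x : ℚ) : 0 ≤ P.phiA h' c i x := by
  exact le_max_left _ _
theorem phiA_le (h' c i : ℕ) (x : ℚ) : P.phiA h' c i x ≤ P.hiA (h' + c + i) := by
  refine max_le (Ako1_hi_pos _).le ((sub_le_self _ ?_).trans (min_le_right _ _))
  split_ifs
  · exact le_rfl
  · exact (Ako1_hi_pos _).le
theorem phiA_min (h' c i : ℕ) (x : ℚ) :
    P.phiA h' c i (min x (P.hiA (h' + c + i))) = P.phiA h' c i x := by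
  unfold phiA
  rw [min_assoc, min_self]
/-- The zones partition `[0, hiA (h' + c + n)]`. -/
theorem sum_phiA (h' c n : ℕ) {x : ℚ} (hx : 0 ≤ x) :
    ∑ i ∈ range (n + 1), P.phiA h' c i x = min x (P.hiA (h' + c + n)) := by
  induction n with
  | zero =>
    rw [sum_range_one, phiA, if_pos rfl, sub_zero]
    exact max_eq_right (le_min hx (Ako1_hi_pos _).le)
  | succ n ih =>
    rw [sum_range_succ, ih, phiA, if_neg (Nat.succ_ne_zero n),
      show h' + c + (n + 1) - 1 = h' + c + n by omega]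
    have h1 : P.hiA (h' + c + n) ≤ P.hiA (h' + c + (n + 1)) := Ako1_hi_mono (by omega)
    rcases le_total x (P.hiA (h' + c + n)) with h2 | h2
    · rw [min_eq_left h2, min_eq_left (h2.trans h1), max_eq_left (by linarith), add_zero]
    · rw [min_eq_right h2, max_eq_right (sub_nonneg.2 (le_min h2 h1))]
      ring

theorem Ako1_min_sum (s : Finset ℕ) (y : ℕ → ℚ) (hy : ∀ i, 0 ≤ y i) {B : ℚ} (hB : 0 ≤ B) :
    min (∑ i ∈ s, y i) B ≤ ∑ i ∈ s, min (y i) B := by
  by_cases h : ∀ i ∈ s, y i ≤ B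
  · rw [sum_congr rfl fun i hi => min_eq_left (h i hi)]
    exact min_le_left _ _
  · push Not at h
    obtain ⟨i, hi, hi'⟩ := h
    refine (min_le_right _ _).trans ((min_eq_right hi'.le).ge.trans ?_)
    exact single_le_sum (f := fun i => min (y i) B) (fun j _ => le_min (hy j) hB) hi

theorem Ako1_aenv {f : St → ℚ} {h' j c' α : ℕ} (hα : α ≤ P.X)
    (hf : ¬ P.triv h' c' → ∀ a, P.inW (h' + c') (a, a) →
      min (min (V P.X ms h' j (a, a) : ℚ) P.X) (P.hiA (h' + c')) ≤ f (a, a)) :
    min (min (V P.X ms h' j (α, α) : ℚ) P.X) (P.hiA (h' + c')) ≤ P.aenv f h' c' α := by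
  unfold aenv
  split_ifs with ht
  · refine le_min (min_le_right _ _) ((min_le_left _ _).trans ?_)
    have h1 := V_le (ms := ms) h' j (z := (α, α)) hα
    unfold trivV
    rw [← Nat.cast_min, Nat.cast_le]
    omega
  · refine le_minL (fun x hx => ?_) (min_le_right _ _)
    obtain ⟨a, ha, rfl⟩ := List.mem_map.1 hx
    obtain ⟨h1, h2, -⟩ := mem_gball.1 ha
    have h3 := hf ht a ⟨h2, h2, h1, h1, by simp⟩
    have h4 : (V P.X ms h' j (α, α) : ℚ) ≤ V P.X ms h' j (a, a) + 2 * (Nat.dist a α : ℚ) := by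
      have := V_lip (X := P.X) (ms := ms) h' j (α, α) (a, a)
      simp only [dst, Nat.dist_comm α a] at this
      have h5 : V P.X ms h' j (α, α) ≤ V P.X ms h' j (a, a) + 2 * Nat.dist a α := by omega
      exact_mod_cast h5
    have h5 : (0 : ℚ) ≤ 2 * (Nat.dist a α : ℚ) := by positivity
    refine le_trans ?_ (add_le_add_left h3 _)
    rw [← min_add_add_right, ← min_add_add_right]
    exact min_le_min (min_le_min h4 (by linarith)) (by linarith)

theorem Ako1_del (hP : P.OK) : 0 < P.del ∧ ((P.D : ℚ) + 1) * P.del ≤ 1 / 2 := by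
  have h1 := hP.Par_D_le
  have h2 := hP.Par_l1.2
  have h3 : 2 * (P.D + 1) ≤ 2 ^ P.Lx := by
    unfold Lx
    rw [pow_add]
    omega
  have h4 : 2 * ((P.D : ℚ) + 1) ≤ 2 ^ P.Lx := by exact_mod_cast h3
  unfold del
  refine ⟨by positivity, ?_⟩
  rw [mul_one_div, div_le_div_iff₀ (by positivity) (by norm_num)]
  linarith

theorem Ako1_valid (hP : P.OK) {A : Fam} (hA : P.ARel ms A) (J : ℕ) :
    ∀ j c a, P.Nd (J * P.D) j → ¬ P.triv (J * P.D) c → P.inW (J * P.D + c) (a, a) →
      min (min (V P.X ms (J * P.D) j (a, a) : ℚ) P.X) (P.hiA (J * P.D + c)) ≤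
        A (J * P.D) j c (a, a) := by
  induction J with
  | zero =>
    intro j c a hn hc hz
    rw [Nat.zero_mul] at hn hc hz ⊢
    rw [hA.leaf j c a hn hc hz]
    exact (min_le_left _ _).trans (min_le_left _ _)
  | succ J ih =>
    intro j c a hn hc hz
    have hD := hP.D_pos
    have e : (J + 1) * P.D = J * P.D + P.D := by ring
    have e' : (J + 1) * P.D - P.D = J * P.D := by omega
    obtain ⟨tm, h1, h2⟩ := hA.node _ j c a hn (Dvd.intro_left _ rfl) (by omega) hc hz
    obtain ⟨d0, d1⟩ := Ako1_del hP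
    have hL := Lam_pos (P := P) ((J + 1) * P.D + c)
    set S : ℕ → ℚ := fun i =>
      P.aSum (fun j' => A ((J + 1) * P.D - P.D) (j * 2 ^ P.D + j')) ((J + 1) * P.D) c a i with hS
    have hX0 : (0 : ℚ) ≤ P.X := Nat.cast_nonneg _
    -- the exact sums dominate the capped value
    have key : min (min (V P.X ms ((J + 1) * P.D) j (a, a) : ℚ) P.X) (P.hiA ((J + 1) * P.D + c)) ≤
        ∑ i ∈ range (P.D + 1), S i := by
      have k1 : ∑ j' ∈ range (2 ^ P.D), min (min (V P.X ms (J * P.D) (j * 2 ^ P.D + j') (a, a) : ℚ) P.X)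
          (P.hiA ((J + 1) * P.D + c)) ≤ ∑ i ∈ range (P.D + 1), S i := by
        simp only [hS, aSum, e']
        rw [sum_comm]
        refine sum_le_sum fun j' hj' => ?_
        rw [show (J + 1) * P.D + c = J * P.D + c + P.D by omega,
          ← sum_phiA _ _ _ (le_min (Nat.cast_nonneg _) hX0)]
        refine sum_le_sum fun i _ => ?_
        rw [← phiA_min]
        refine phiA_mono _ _ _ ?_
        rw [Nat.add_assoc]
        have hn' := hn.desc (i := P.D) (by omega) (mem_range.1 hj')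
        rw [e'] at hn'
        exact Ako1_aenv hz.1 fun ht a' ha' => ih _ _ a' hn' ht ha'
      refine le_trans ?_ k1
      simp only [min_assoc]
      refine le_trans (min_le_min_right _ ?_) (Ako1_min_sum _ _ (fun _ => Nat.cast_nonneg _)
        (le_min hX0 (Ako1_hi_pos _).le))
      have := V_chain_le (ms := ms) (J * P.D) P.D j (fun _ => a) fun _ => hz.1
      rw [e]
      exact_mod_cast this
    have hS0 : 0 ≤ ∑ i ∈ range (P.D + 1), S i :=
      sum_nonneg fun i _ => sum_nonneg fun j' _ => phiA_nonneg _ _ _ _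
    have k2 : (1 - P.del) * ∑ i ∈ range (P.D + 1), S i -
        ((P.D : ℚ) + 1) * (P.del ^ 3 * P.Lam ((J + 1) * P.D + c)) ≤
          ∑ i ∈ range (P.D + 1), tm i := by
      have : ∑ i ∈ range (P.D + 1), ((1 - P.del) * S i - P.del ^ 3 * P.Lam ((J + 1) * P.D + c)) ≤
          ∑ i ∈ range (P.D + 1), tm i := sum_le_sum fun i hi => by
        have := (abs_le.1 (h2 i (Nat.lt_succ_iff.1 (mem_range.1 hi)))).1
        simp only [hS]
        linarith
      rw [sum_sub_distrib, ← mul_sum, sum_const, card_range, nsmul_eq_mul] at this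
      push_cast at this
      exact this
    have d2 : P.del ≤ 1 / 2 := by
      have : (0 : ℚ) ≤ P.D := Nat.cast_nonneg _
      nlinarith
    have k3 : ∑ i ∈ range (P.D + 1), S i ≤ (1 + 2 * P.del) * ∑ i ∈ range (P.D + 1), tm i +
        P.del ^ 2 * P.Lam ((J + 1) * P.D + c) := by
      have a1 := mul_le_mul_of_nonneg_left k2 (by linarith : 0 ≤ 1 + 2 * P.del)
      have a2 : 0 ≤ P.del * (1 - 2 * P.del) * ∑ i ∈ range (P.D + 1), S i :=
        mul_nonneg (mul_nonneg d0.le (by linarith)) hS0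
      have a3 : (1 + 2 * P.del) * (((P.D : ℚ) + 1) * P.del) ≤ 2 * (1 / 2) :=
        mul_le_mul (by linarith) d1 (by positivity) (by norm_num)
      have a4 := mul_le_mul_of_nonneg_right a3
        (by positivity : 0 ≤ P.del ^ 2 * P.Lam ((J + 1) * P.D + c))
      nlinarith
    have hXs : (P.X : ℚ) ≤ 2 ^ P.s := by
      refine le_trans (le_mul_of_one_le_right hX0 (one_le_pow₀ one_le_two)) X_mul_le
    rw [h1]
    refine le_trans ?_ (le_rup ((min_le_left _ _).trans hXs))
    exact le_min ((min_le_left _ _).trans (min_le_right _ _)) (key.trans k3)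

/-- Recipe: induction on `h / D`.  For a child `j'` put `x = min (V (a,a)) X` (a natural number);
by induction and `V_lip`, `aenv ≥ min x hi_i` in every zone (trivial class: `trivV_valid`), so
`∑_i aSum i ≥ ∑_{j'} min x_{j'} (hiA (h + c)) ≥ min (V (a,a)) X (hiA (h+c))` by `V_chain_le` with the
constant chain.  `(1 + 2δ)(1 - δ) ≥ 1`, `(1 + 2δ)(D + 1) δ³ ≤ δ²`; `min_le_rup`. -/
theorem ARel.valid (hP : P.OK) {A : Fam} (hA : P.ARel ms A) {h j c a : ℕ} (hn : P.Nd h j)
    (hD : P.D ∣ h) (hc : ¬ P.triv h c) (hz : P.inW (h + c) (a, a)) :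
    min (min (P.VV ms h j (a, a)) P.X) (P.hiA (h + c)) ≤ A h j c (a, a) := by
  obtain ⟨J, rfl⟩ := hD
  rw [mul_comm] at hn hc hz ⊢
  have := Ako1_valid hP hA J j c a hn hc hz
  unfold VV
  exact_mod_cast this

end Pa

end Crest.Agent.R288
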