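/-
R288/SmA: elementary facts on centres, masses, classes and the recursion `lsv`.
-/
import Crest.Agent.R288.Tabs
import Crest.Agent.R288.Wf

set_option autoImplicit false

namespace Crest.Agent.R288

open Finset

namespace Pa

variable {P : Pa} {h c : ℕ} {nt nt' : ℕ → ℕ → ℕ → St → ℚ} {y : St}

/-- Node `(i, j)` is terminal. -/
def termAt (P : Pa) (h c : ℕ) (nt : ℕ → ℕ → ℕ → St → ℚ) (y : St) (i j : ℕ) : Prop :=
  P.term (h + c) i (nt i j c (P.cen h c nt y i j).1) (P.cen h c nt y i j).1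

instance (i j : ℕ) : Decidable (P.termAt h c nt y i j) := by unfold termAt; infer_instance

/-- Predicted midpoint of node `(i, j)`. -/
def midAt (P : Pa) (h c : ℕ) (nt : ℕ → ℕ → ℕ → St → ℚ) (y : St) (i j : ℕ) : ℕ :=
  P.mid h c nt i j (P.cen h c nt y i j).1

/-- The states within the action windows of the centre `zc`. -/
def InA (P : Pa) (u : ℕ) (zc z : St) : Prop := z.1 ∈ P.acts u zc.1 ∧ z.2 ∈ P.acts u zc.2

theorem SmA_cen_succ (i n : ℕ) : P.cen h c nt y (i + 1) n =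
    if (P.cen h c nt y i (n / 2)).2 = false ∨ P.termAt h c nt y i (n / 2) then
      ((P.cen h c nt y i (n / 2)).1, false) else
      (if n % 2 = 0 then ((P.cen h c nt y i (n / 2)).1.1, P.midAt h c nt y i (n / 2)) else
        (P.midAt h c nt y i (n / 2), (P.cen h c nt y i (n / 2)).1.2), true) := rfl

theorem cen_left {i j : ℕ} (ha : (P.cen h c nt y i j).2 = true) (ht : ¬ P.termAt h c nt y i j) :
    P.cen h c nt y (i + 1) (2 * j) = (((P.cen h c nt y i j).1.1, P.midAt h c nt y i j), true) := by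
  rw [SmA_cen_succ, show 2 * j / 2 = j by omega, if_neg (by simp [ha, ht]),
    if_pos (by omega)]

theorem cen_right {i j : ℕ} (ha : (P.cen h c nt y i j).2 = true) (ht : ¬ P.termAt h c nt y i j) :
    P.cen h c nt y (i + 1) (2 * j + 1) =
      ((P.midAt h c nt y i j, (P.cen h c nt y i j).1.2), true) := by
  rw [SmA_cen_succ, show (2 * j + 1) / 2 = j by omega, if_neg (by simp [ha, ht]),
    if_neg (by omega)]

theorem cen_dead {i j : ℕ} (hd : (P.cen h c nt y i j).2 = false ∨ P.termAt h c nt y i j) :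
    (P.cen h c nt y (i + 1) (2 * j)).2 = false ∧ (P.cen h c nt y (i + 1) (2 * j + 1)).2 = false := by
  constructor
  · rw [SmA_cen_succ, show 2 * j / 2 = j by omega, if_pos hd]
  · rw [SmA_cen_succ, show (2 * j + 1) / 2 = j by omega, if_pos hd]

/-- All descendants of a dead or terminal node are dead. -/
theorem cen_dead_desc {i j e j' : ℕ}
    (hd : (P.cen h c nt y i j).2 = false ∨ P.termAt h c nt y i j) (he : 0 < e) (hj : j' < 2 ^ e) :
    (P.cen h c nt y (i + e) (j * 2 ^ e + j')).2 = false := by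
  induction e generalizing j' with
  | zero => omega
  | succ e ih =>
    have e1 : (j * 2 ^ (e + 1) + j') / 2 = j * 2 ^ e + j' / 2 := by
      rw [pow_succ, ← mul_assoc]
      omega
    rw [pow_succ] at hj
    rw [← add_assoc, SmA_cen_succ, e1, if_pos]
    rcases Nat.eq_zero_or_pos e with rfl | he'
    · have e2 : j * 2 ^ 0 + j' / 2 = j := by omega
      rw [e2]
      exact hd
    · exact Or.inl (ih he' (by omega))

theorem mid_spec (i j : ℕ) {z : St} (h1 : z.1 ≤ P.X) (h2 : 2 ^ P.gm (h + c - (i + 1)) ∣ z.1) :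
    P.mid h c nt i j z ≤ P.X ∧ 2 ^ P.gm (h + c - (i + 1)) ∣ P.mid h c nt i j z ∧
      Nat.dist (P.mid h c nt i j z) z.1 ≤ P.rad (h + c) 2 := by
  unfold mid
  split_ifs with hs
  · exact ⟨h1, h2, by simp⟩
  · cases hm : (gball P.X (P.gm (h + c - (i + 1))) (P.rad (h + c) 2) z.1).argmin fun a : ℕ =>
      |((a : ℚ) - z.1) - ((z.2 : ℚ) - z.1) / nt i j c z * nt (i + 1) (2 * j) c (z.1, a)| with
    | none => exact ⟨h1, h2, by simp⟩
    | some a =>
      have := mem_gball.1 (List.argmin_mem hm)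
      exact ⟨this.2.1, this.1, this.2.2⟩

theorem cen_grid (hy : P.inW (h + c) y) (i j : ℕ) :
    (P.cen h c nt y i j).1.1 ≤ P.X ∧ (P.cen h c nt y i j).1.2 ≤ P.X ∧
      2 ^ P.gm (h + c - i) ∣ (P.cen h c nt y i j).1.1 ∧
      2 ^ P.gm (h + c - i) ∣ (P.cen h c nt y i j).1.2 := by
  induction i generalizing j with
  | zero => exact ⟨hy.1, hy.2.1, hy.2.2.1, hy.2.2.2.1⟩
  | succ i ih =>
    obtain ⟨h1, h2, h3, h4⟩ := ih (j / 2)
    have hd : 2 ^ P.gm (h + c - (i + 1)) ∣ 2 ^ P.gm (h + c - i) :=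
      pow_dvd_pow 2 (gm_mono (by omega))
    obtain ⟨m1, m2, -⟩ := mid_spec (P := P) (nt := nt) i (j / 2) h1 (hd.trans h3)
    rw [SmA_cen_succ]
    split_ifs
    · exact ⟨h1, h2, hd.trans h3, hd.trans h4⟩
    · exact ⟨h1, m1, hd.trans h3, m2⟩
    · exact ⟨m1, h2, m2, hd.trans h4⟩

theorem mem_acts {u a b : ℕ} :
    a ∈ P.acts u b ↔ 2 ^ P.gm (u - P.d) ∣ a ∧ a ≤ P.X ∧ Nat.dist a b ≤ P.Wn u := by
  exact mem_gball

theorem length_acts_le (hP : P.OK) (u b : ℕ) : (P.acts u b).length ≤ 2 ^ P.kap := by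
  have h1 := length_gball_le P.X (P.gm (u - P.d)) (P.Wn u) b
  have hk : 2 ≤ P.kap := by
    have := hP.g_ge
    unfold kap Lx
    omega
  have h2 : P.Wn u / 2 ^ P.gm (u - P.d) ≤ 2 ^ (P.kap - 2) := by
    unfold Wn
    rw [Nat.div_div_eq_div_mul]
    refine Nat.div_le_of_le_mul ?_
    rw [← pow_add, ← pow_add]
    exact Nat.pow_le_pow_right two_pos (by unfold gm cmax; omega)
  have h3 : 2 ^ P.kap = 4 * 2 ^ (P.kap - 2) := by
    rw [show P.kap = P.kap - 2 + 2 by omega, pow_add, Nat.add_sub_cancel]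
    ring
  have h4 := Nat.two_pow_pos (P.kap - 2)
  unfold acts
  omega

theorem cen_inA (hy : P.inW (h + c) y) {i : ℕ} (hi : i ≤ P.d) (j : ℕ) :
    P.InA (h + c) (P.cen h c nt y i j).1 (P.cen h c nt y i j).1 := by
  obtain ⟨h1, h2, h3, h4⟩ := cen_grid (nt := nt) hy i j
  have hd : 2 ^ P.gm (h + c - P.d) ∣ 2 ^ P.gm (h + c - i) := pow_dvd_pow 2 (gm_mono (by omega))
  exact ⟨mem_acts.2 ⟨hd.trans h3, h1, by simp⟩, mem_acts.2 ⟨hd.trans h4, h2, by simp⟩⟩

theorem midAt_mem_acts (hy : P.inW (h + c) y) {i : ℕ} (hi : i < P.d) (j : ℕ) :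
    P.midAt h c nt y i j ∈ P.acts (h + c) (P.midAt h c nt y i j) := by
  obtain ⟨h1, -, h3, -⟩ := cen_grid (nt := nt) hy i j
  have hd : 2 ^ P.gm (h + c - (i + 1)) ∣ 2 ^ P.gm (h + c - i) :=
    pow_dvd_pow 2 (gm_mono (by omega))
  have hd' : 2 ^ P.gm (h + c - P.d) ∣ 2 ^ P.gm (h + c - (i + 1)) :=
    pow_dvd_pow 2 (gm_mono (by omega))
  obtain ⟨m1, m2, -⟩ := mid_spec (P := P) (nt := nt) i j h1 (hd.trans h3)
  exact mem_acts.2 ⟨hd'.trans m2, m1, by simp⟩

theorem InA.dst_le {u : ℕ} (hu : P.d ≤ u) {zc z : St} (hz : P.InA u zc z) :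
    (dst z zc : ℚ) ≤ P.Gq * P.Lam (u - P.d) / 2 := by
  have h1 := le_Wn_iff.1 (mem_acts.1 hz.1).2.2
  have h2 := le_Wn_iff.1 (mem_acts.1 hz.2).2.2
  rw [Wq_d hu] at h1 h2
  unfold dst
  push_cast
  linarith

theorem mb_nonneg (j : ℕ) : 0 ≤ P.mb h c nt y j := by
  unfold mb
  split_ifs
  · exact (Lam_pos _).le
  · exact le_rfl

theorem mass_succ {e : ℕ} (he : e < P.d) (hd : P.d ≤ h) (j : ℕ) :
    P.mass h c nt y (e + 1) j = P.mass h c nt y e (2 * j) + P.mass h c nt y e (2 * j + 1) := by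
  unfold mass
  rw [show h + c - (P.d - (e + 1)) = h + c - (P.d - e) + 1 by omega, Lam_add,
    show 2 ^ (e + 1) = 2 ^ e + 2 ^ e by ring, Finset.sum_range_add]
  have e1 : ∀ x, j * (2 ^ e + 2 ^ e) + x = 2 * j * 2 ^ e + x := fun x => by ring
  have e2 : ∀ x, 2 * j * 2 ^ e + (2 ^ e + x) = (2 * j + 1) * 2 ^ e + x := fun x => by ring
  simp only [e1, e2]
  ring

theorem Lam_le_mass (e j : ℕ) : P.Lam (h + c - P.d) ≤ P.mass h c nt y e j := by
  have h1 : P.Lam (h + c - P.d) ≤ P.Lam (h + c - (P.d - e)) := Lam_mono (by omega)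
  have h2 : 0 ≤ ∑ j' ∈ range (2 ^ e), P.mb h c nt y (j * 2 ^ e + j') :=
    Finset.sum_nonneg fun _ _ => mb_nonneg _
  unfold mass
  linarith

theorem mass_pos (e j : ℕ) : 0 < P.mass h c nt y e j := by
  exact (Lam_pos _).trans_le (Lam_le_mass e j)

theorem mass_top : P.mass h c nt y P.d 0 =
    P.Lam (h + c) + ∑ j ∈ range (2 ^ P.d), P.mb h c nt y j := by
  simp [mass]

theorem mass_le (hen : P.enab h c nt y) {e j : ℕ} (he : e ≤ P.d) (hj : j < 2 ^ (P.d - e)) :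
    P.mass h c nt y e j ≤ (P.mu + 1) * P.Lam (h + c) := by
  have h1 : P.Lam (h + c - (P.d - e)) ≤ P.Lam (h + c) := Lam_mono (by omega)
  have h2 : ∑ j' ∈ range (2 ^ e), P.mb h c nt y (j * 2 ^ e + j') ≤
      ∑ j' ∈ range (2 ^ P.d), P.mb h c nt y j' := by
    have e1 := Finset.sum_Ico_eq_sum_range (P.mb h c nt y) (j * 2 ^ e) (j * 2 ^ e + 2 ^ e)
    rw [Nat.add_sub_cancel_left] at e1
    rw [← e1]
    refine Finset.sum_le_sum_of_subset_of_nonneg (fun x hx => ?_) fun _ _ _ => mb_nonneg _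
    rw [Finset.mem_Ico] at hx
    have h3 : (j + 1) * 2 ^ e ≤ 2 ^ (P.d - e) * 2 ^ e := Nat.mul_le_mul_right _ hj
    rw [← pow_add, Nat.sub_add_cancel he, add_mul] at h3
    exact Finset.mem_range.2 (by omega)
  have h3 := hen.1
  unfold mass
  linarith

section cls
variable {ntb : ℕ → St → ℚ} {h' : ℕ} {z : St}

theorem cls_le : P.cls ntb h' c z ≤ P.cmax := by
  unfold cls
  cases hm : (List.range' (c - 1) (P.cmax - (c - 1))).find?
    fun c' => decide (P.triv h' c' ∨ ntb c' z ≤ P.Lam (h' + c')) with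
  | none => exact le_rfl
  | some a =>
    have := List.mem_range'_1.1 (List.mem_of_find?_eq_some hm)
    simp only [Option.getD_some]
    omega
theorem cls_ge (hc : c ≤ P.cmax) : c - 1 ≤ P.cls ntb h' c z := by
  unfold cls
  cases hm : (List.range' (c - 1) (P.cmax - (c - 1))).find?
    fun c' => decide (P.triv h' c' ∨ ntb c' z ≤ P.Lam (h' + c')) with
  | none =>
    simp only [Option.getD_none]
    omega
  | some a => exact (List.mem_range'_1.1 (List.mem_of_find?_eq_some hm)).1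
theorem cls_spec : P.triv h' (P.cls ntb h' c z) ∨
    ntb (P.cls ntb h' c z) z ≤ P.Lam (h' + P.cls ntb h' c z) := by
  unfold cls
  cases hm : (List.range' (c - 1) (P.cmax - (c - 1))).find?
    fun c' => decide (P.triv h' c' ∨ ntb c' z ≤ P.Lam (h' + c')) with
  | none => exact Or.inl (Or.inl le_rfl)
  | some a => simpa using List.find?_some hm
theorem cls_min {c' : ℕ} (h1 : c - 1 ≤ c') (h2 : c' < P.cls ntb h' c z) :
    ¬ P.triv h' c' ∧ P.Lam (h' + c') < ntb c' z := by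
  unfold cls at h2
  rw [← not_le, ← not_or]
  cases hm : (List.range' (c - 1) (P.cmax - (c - 1))).find?
    fun c' => decide (P.triv h' c' ∨ ntb c' z ≤ P.Lam (h' + c')) with
  | none =>
    rw [hm, Option.getD_none] at h2
    simpa using List.find?_eq_none.1 hm c' (List.mem_range'_1.2 ⟨h1, by omega⟩)
  | some a =>
    rw [hm, Option.getD_some] at h2
    simpa using (List.find?_range'_eq_some.1 hm).2.2 c' h1 h2
end cls

/-- In an enabled world the nontrivial classes of alive nodes are on the ladder. -/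
theorem clc_lt (hen : P.enab h c nt y) (hd : P.d ≤ h) {j : ℕ} (hj : j < 2 ^ P.d)
    (ha : (P.cen h c nt y P.d j).2 = true) : P.clc h c nt y j - (c - 1) < P.I := by
  have h1 : P.mb h c nt y j ≤ ∑ j ∈ range (2 ^ P.d), P.mb h c nt y j :=
    Finset.single_le_sum (f := P.mb h c nt y) (fun _ _ => mb_nonneg _) (Finset.mem_range.2 hj)
  have h2 := h1.trans hen.1
  unfold mb mu at h2
  rw [if_pos ha, ← Lam_add] at h2
  by_contra hlt
  have h3 : P.Lam (h + c + 4 * P.p + 1) ≤ P.Lam (h - P.d + P.clc h c nt y j) :=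
    Lam_mono (by unfold I at hlt; omega)
  have h4 := Lam_add (P := P) (h + c + 4 * P.p) 1
  have h5 := Lam_pos (P := P) (h + c + 4 * P.p)
  linarith

theorem SmA_lsv_succ (leaf : ℕ → ℕ → St → ℚ) (e j : ℕ) (z : St) (k : ℕ) :
    P.lsv h c nt y leaf (e + 1) j z k =
      if P.termAt h c nt y (P.d - (e + 1)) j then
        nt (P.d - (e + 1)) j c (P.cen h c nt y (P.d - (e + 1)) j).1 +
          dst z (P.cen h c nt y (P.d - (e + 1)) j).1 else
      rup P.s (lsQ P.s (P.eta / P.mass h c nt y (e + 1) j)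
        (P.acts (h + c) (P.midAt h c nt y (P.d - (e + 1)) j))
        (fun k' a => P.lsv h c nt y leaf e (2 * j) (z.1, a) k' +
          P.lsv h c nt y leaf e (2 * j + 1) (a, z.2) k') k
        fun a => P.lsv h c nt y leaf e (2 * j) (z.1, a) k +
          P.lsv h c nt y leaf e (2 * j + 1) (a, z.2) k) := rfl

theorem lsv_congr {leaf leaf' : ℕ → ℕ → St → ℚ} {k : ℕ} (hl : ∀ k' ≤ k, leaf k' = leaf' k')
    (e j : ℕ) (z : St) : P.lsv h c nt y leaf e j z k = P.lsv h c nt y leaf' e j z k := by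
  induction e generalizing j z k with
  | zero => exact congrFun (congrFun (hl k le_rfl) j) z
  | succ e ih =>
    rw [SmA_lsv_succ, SmA_lsv_succ]
    split_ifs
    · rfl
    · congr 1
      refine lsQ_congr k (fun k' hk' a _ => ?_) fun a _ => ?_
      · have hl' : ∀ k'' ≤ k', leaf k'' = leaf' k'' := fun k'' hk'' => hl k'' (by omega)
        rw [ih hl', ih hl']
      · rw [ih hl, ih hl]

theorem Sm_congr_grd {pb pb' : ℕ → ℕ → ℕ → St → ℚ} {k : ℕ}
    (hn : P.grd (h + c) y nt = P.grd (h + c) y nt')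
    (hb : ∀ k' ≤ k, P.grd (h + c) y pb k' = P.grd (h + c) y pb' k') :
    P.Sm h c nt pb y k = P.Sm h c nt' pb' y k := by
  unfold Sm
  rw [hn]
  split_ifs
  · exact lsv_congr (fun k' hk' => by rw [hb k' hk']) _ _ _
  · rfl

theorem Sm_congr {pb pb' : ℕ → ℕ → ℕ → St → ℚ} {k : ℕ} (hb : ∀ k' ≤ k, pb k' = pb' k') :
    P.Sm h c nt pb y k = P.Sm h c nt pb' y k := by
  refine Sm_congr_grd rfl fun k' hk' => ?_
  funext b c' z
  unfold grd
  rw [hb k' hk']

theorem SmA_abs_rup_le (s : ℕ) (x : ℚ) : |(rup s x : ℝ)| ≤ |(x : ℝ)| + 1 := by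
  have h0 : (0 : ℚ) < 2 ^ s := by positivity
  have h1 := abs_clampQ_sub_le (lo := -2 ^ s) (hi := 2 ^ s) (t := 0)
    (by exact_mod_cast (by linarith : (-2 ^ s : ℚ) ≤ 0)) (by exact_mod_cast h0.le) x
  rw [sub_zero, sub_zero] at h1
  have h2 : ((clampQ (-2 ^ s) (2 ^ s) x : ℚ) : ℝ) ≤ rup s x := by exact_mod_cast Num_le_rup s x
  have h3 : (1 : ℚ) / 2 ^ s ≤ 1 := by
    rw [div_le_one h0]
    exact one_le_pow₀ one_le_two
  have h4 : (rup s x : ℝ) ≤ (clampQ (-2 ^ s) (2 ^ s) x : ℚ) + 1 := by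
    have := Num_rup_lt s x
    exact_mod_cast (by linarith : rup s x ≤ clampQ (-2 ^ s) (2 ^ s) x + 1)
  rw [abs_le] at h1 ⊢
  constructor <;> linarith [h1.1, h1.2]

/-- The children of an alive, non-terminal node. -/
theorem SmA_child {e j : ℕ} (he : e < P.d) (hj : j < 2 ^ (P.d - (e + 1)))
    (ha : (P.cen h c nt y (P.d - (e + 1)) j).2 = true) (ht : ¬ P.termAt h c nt y (P.d - (e + 1)) j)
    {z : St} (hz : P.InA (h + c) (P.cen h c nt y (P.d - (e + 1)) j).1 z) {a : ℕ}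
    (haa : a ∈ P.acts (h + c) (P.midAt h c nt y (P.d - (e + 1)) j)) :
    (2 * j < 2 ^ (P.d - e) ∧ (P.cen h c nt y (P.d - e) (2 * j)).2 = true ∧
      P.InA (h + c) (P.cen h c nt y (P.d - e) (2 * j)).1 (z.1, a)) ∧
    (2 * j + 1 < 2 ^ (P.d - e) ∧ (P.cen h c nt y (P.d - e) (2 * j + 1)).2 = true ∧
      P.InA (h + c) (P.cen h c nt y (P.d - e) (2 * j + 1)).1 (a, z.2)) := by
  rw [show P.d - e = P.d - (e + 1) + 1 by omega, cen_left ha ht, cen_right ha ht, pow_succ]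
  exact ⟨⟨by omega, rfl, hz.1, haa⟩, by omega, rfl, haa, hz.2⟩

theorem SmA_err (hP : P.OK) (hc : ¬ P.triv h c) (hen : P.enab h c nt y) {e j : ℕ} (he : e ≤ P.d)
    (hj : j < 2 ^ (P.d - e)) {u b : ℕ} (hb : b ∈ P.acts u b) {q : ℕ → ℕ → ℚ} {k : ℕ} {R : ℝ}
    (hq : ∀ k' ≤ k, ∀ a ∈ P.acts u b, |(q k' a : ℝ)| ≤ R) :
    |(lsQ P.s (P.eta / P.mass h c nt y e j) (P.acts u b) q k (q k) : ℝ) -
        Phi (P.eta / P.mass h c nt y e j : ℚ) (P.acts u b) (fun k' a => q k' a) k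
          fun a => q k a| ≤
      2 * 2 ^ P.kap / 2 ^ P.s * (2 * (P.X * 2 ^ (3 * P.Lx)) + 4 * R) ∧
    |Phi (P.eta / P.mass h c nt y e j : ℚ) (P.acts u b) (fun k' a => q k' a) k
      fun a => q k a| ≤ 3 * R := by
  have hm := mass_pos (P := P) (h := h) (c := c) (nt := nt) (y := y) e j
  have he0 : (0 : ℚ) < P.eta := by unfold eta; positivity
  have hη : 0 < P.eta / P.mass h c nt y e j := div_pos he0 hm
  have hA : P.acts u b ≠ [] := List.ne_nil_of_mem hb
  have hlen := length_acts_le hP u b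
  have hR : 0 ≤ R := (abs_nonneg _).trans (hq k le_rfl b hb)
  have hs : (P.acts u b).length ≤ 2 ^ P.s :=
    hlen.trans (Nat.pow_le_pow_right two_pos (by unfold s; omega))
  refine ⟨(abs_lsQ_sub_Phi_le hη hA hs k (hq k le_rfl) fun k' hk' => hq k' hk'.le).trans ?_,
    abs_Phi_le (by exact_mod_cast hη) hA k (hq k le_rfl) fun k' hk' => hq k' hk'.le⟩
  have h1 : ((P.acts u b).length : ℝ) + 1 ≤ 2 * 2 ^ P.kap := by
    have h2 := Nat.two_pow_pos P.kap
    exact_mod_cast (by omega : (P.acts u b).length + 1 ≤ 2 * 2 ^ P.kap)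
  have h2 : P.mu + 1 ≤ P.eta := by
    have hp := hP.p_ge
    have h3 : 2 ^ (4 * P.p) < 2 ^ (7 * P.p) := Nat.pow_lt_pow_right one_lt_two (by omega)
    unfold mu eta
    exact_mod_cast h3
  have h3 : 2 / (P.eta / P.mass h c nt y e j) ≤ 2 * (P.X * 2 ^ (3 * P.Lx)) := by
    have h4 := mass_le hen he hj
    have h5 := Lam_le_of_not_triv hc
    have h6 := Lam_pos (P := P) (h + c)
    rw [div_div_eq_mul_div, div_le_iff₀ he0]
    have h7 : (P.mu + 1) * P.Lam (h + c) ≤ P.eta * (P.X * 2 ^ (3 * P.Lx)) := by gcongr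
    linarith
  have h4 : (2 : ℝ) / ((P.eta / P.mass h c nt y e j : ℚ) : ℝ) ≤ 2 * (P.X * 2 ^ (3 * P.Lx)) := by
    exact_mod_cast h3
  have h5 : (0 : ℝ) < ((P.eta / P.mass h c nt y e j : ℚ) : ℝ) := by exact_mod_cast hη
  gcongr

/-- The numerical constants. -/
theorem SmA_num : (1 : ℝ) ≤ P.X ∧ (P.X : ℝ) * (2 ^ P.kap) ^ 3 ≤ 2 ^ P.s ∧
    (64 : ℝ) * 2 ^ (3 * P.Lx) ≤ 2 ^ P.kap ∧ (1 : ℝ) ≤ 2 ^ (3 * P.Lx) := by
  refine ⟨?_, ?_, ?_, one_le_pow₀ one_le_two⟩
  · unfold X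
    exact_mod_cast Nat.two_pow_pos _
  · rw [← pow_mul, mul_comm P.kap]
    exact_mod_cast X_mul_le (P := P)
  · rw [show (64 : ℝ) = 2 ^ 6 by norm_num, ← pow_add]
    exact pow_le_pow_right₀ one_le_two (by unfold kap Lx; omega)

/-- Crude magnitude bound (`abs_Phi_le`, `abs_lsQ_sub_Phi_le`, `mass_le`, `Lam_le_of_not_triv`). -/
theorem abs_lsv_le (hP : P.OK) (hc : ¬ P.triv h c) (hy : P.inW (h + c) y) (hen : P.enab h c nt y)
    {leaf : ℕ → ℕ → St → ℚ} {k : ℕ} {R : ℝ} (hR : 4 * (P.X : ℝ) ≤ R)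
    (hn : ∀ i j z, |nt i j c z| ≤ P.X)
    (hl : ∀ k' ≤ k, ∀ j < 2 ^ P.d, (P.cen h c nt y P.d j).2 = true →
      ∀ z, P.InA (h + c) (P.cen h c nt y P.d j).1 z → |(leaf k' j z : ℝ)| ≤ R)
    {e j : ℕ} (he : e ≤ P.d) (hj : j < 2 ^ (P.d - e)) (ha : (P.cen h c nt y (P.d - e) j).2 = true)
    {z : St} (hz : P.InA (h + c) (P.cen h c nt y (P.d - e) j).1 z) {k' : ℕ} (hk : k' ≤ k) :
    |(P.lsv h c nt y leaf e j z k' : ℝ)| ≤ 7 ^ e * R := by
  obtain ⟨n1, n2, n3, n4⟩ := SmA_num (P := P)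
  induction e generalizing j z k' with
  | zero => simpa [lsv] using hl k' hk j (by simpa using hj) (by simpa using ha) z (by simpa using hz)
  | succ e ih =>
    have h7 : (1 : ℝ) ≤ 7 ^ e := one_le_pow₀ (by norm_num)
    have hR7 : 4 ≤ 7 ^ e * R := by nlinarith
    rw [SmA_lsv_succ, pow_succ]
    split_ifs with ht
    · obtain ⟨g1, g2, -, -⟩ := cen_grid (nt := nt) hy (P.d - (e + 1)) j
      have z1 := (mem_acts.1 hz.1).2.1
      have z2 := (mem_acts.1 hz.2).2.1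
      have h1 : dst z (P.cen h c nt y (P.d - (e + 1)) j).1 ≤ 2 * P.X := by
        unfold dst Nat.dist
        omega
      have h2 : ((dst z (P.cen h c nt y (P.d - (e + 1)) j).1 : ℕ) : ℝ) ≤ 2 * P.X := by
        exact_mod_cast h1
      have h3 : |(nt (P.d - (e + 1)) j c (P.cen h c nt y (P.d - (e + 1)) j).1 : ℝ)| ≤ P.X := by
        exact_mod_cast hn _ _ _
      push_cast
      refine (abs_add_le _ _).trans ?_
      rw [Nat.abs_cast]
      nlinarith
    · obtain ⟨e1, e2⟩ := SmA_err hP hc hen he hj (midAt_mem_acts (nt := nt) hy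
        (i := P.d - (e + 1)) (by omega) j) (k := k') (R := 2 * (7 ^ e * R))
        (q := fun k' a => P.lsv h c nt y leaf e (2 * j) (z.1, a) k' +
          P.lsv h c nt y leaf e (2 * j + 1) (a, z.2) k') fun k'' hk'' a haa => by
          obtain ⟨⟨a1, a2, a3⟩, b1, b2, b3⟩ := SmA_child (by omega) hj ha ht hz haa
          have i1 := ih (by omega) a1 a2 a3 (hk''.trans hk)
          have i2 := ih (by omega) b1 b2 b3 (hk''.trans hk)
          push_cast
          exact (abs_add_le _ _).trans (by linarith)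
      refine (SmA_abs_rup_le _ _).trans ?_
      have e3 : 2 * 2 ^ P.kap / 2 ^ P.s * (2 * (P.X * 2 ^ (3 * P.Lx)) + 4 * (2 * (7 ^ e * R))) ≤
          1 + 7 ^ e * R / 4 := by
        rw [div_mul_eq_mul_div, div_le_iff₀ (by positivity)]
        set K : ℝ := 2 ^ P.kap
        set B : ℝ := 2 ^ (3 * P.Lx)
        set T : ℝ := 7 ^ e * R
        have k1 : 64 ≤ K := by linarith
        have k2 : 64 * K ≤ K ^ 3 := by
          nlinarith [mul_nonneg (by linarith : 0 ≤ K) (by nlinarith : 0 ≤ K ^ 2 - 64)]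
        have k3 : 4 * K * B ≤ K ^ 3 := by
          nlinarith [mul_nonneg (by linarith : 0 ≤ K) (by nlinarith : 0 ≤ K ^ 2 - 4 * B)]
        have k4 : (P.X : ℝ) * (4 * K * B) ≤ P.X * K ^ 3 := by gcongr
        have k5 : 64 * K ≤ 2 ^ P.s := by nlinarith
        have k6 : T / 4 * (64 * K) ≤ T / 4 * 2 ^ P.s := by gcongr
        nlinarith
      have e4 := abs_sub_abs_le_abs_sub
        ((lsQ P.s (P.eta / P.mass h c nt y (e + 1) j)
          (P.acts (h + c) (P.midAt h c nt y (P.d - (e + 1)) j))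
          (fun k' a => P.lsv h c nt y leaf e (2 * j) (z.1, a) k' +
            P.lsv h c nt y leaf e (2 * j + 1) (a, z.2) k') k'
          fun a => P.lsv h c nt y leaf e (2 * j) (z.1, a) k' +
            P.lsv h c nt y leaf e (2 * j + 1) (a, z.2) k' : ℚ) : ℝ) _ |>.trans e1
      linarith

/-- One node of the recursion is `Phi` up to `ups² Λ(u)` for every scale `u`, as long as the leaf
values are below `X 2 ^ kap` (`eps_mul_le`). -/
theorem lsv_succ_close (hP : P.OK) (hc : ¬ P.triv h c) (hy : P.inW (h + c) y)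
    (hen : P.enab h c nt y) {leaf : ℕ → ℕ → St → ℚ} {k : ℕ} (hn : ∀ i j z, |nt i j c z| ≤ P.X)
    (hl : ∀ k' ≤ k, ∀ j < 2 ^ P.d, (P.cen h c nt y P.d j).2 = true →
      ∀ z, P.InA (h + c) (P.cen h c nt y P.d j).1 z → |(leaf k' j z : ℝ)| ≤ P.X * 2 ^ P.kap)
    {e j : ℕ} (he : e < P.d) (hj : j < 2 ^ (P.d - (e + 1)))
    (ha : (P.cen h c nt y (P.d - (e + 1)) j).2 = true) (ht : ¬ P.termAt h c nt y (P.d - (e + 1)) j)
    {z : St} (hz : P.InA (h + c) (P.cen h c nt y (P.d - (e + 1)) j).1 z) (u : ℕ) :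
    |(P.lsv h c nt y leaf (e + 1) j z k : ℝ) -
      Phi (P.eta / P.mass h c nt y (e + 1) j : ℚ)
        (P.acts (h + c) (P.midAt h c nt y (P.d - (e + 1)) j))
        (fun k' a => (P.lsv h c nt y leaf e (2 * j) (z.1, a) k' +
          P.lsv h c nt y leaf e (2 * j + 1) (a, z.2) k' : ℚ)) k
        fun a => (P.lsv h c nt y leaf e (2 * j) (z.1, a) k +
          P.lsv h c nt y leaf e (2 * j + 1) (a, z.2) k : ℚ)| ≤ P.ups ^ 2 * P.La u := by
  obtain ⟨n1, n2, n3, n4⟩ := SmA_num (P := P)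
  have k1 : (64 : ℝ) ≤ 2 ^ P.kap := by linarith
  have h7 : (1 : ℝ) ≤ 7 ^ e := one_le_pow₀ (by norm_num)
  have h8 : (64 : ℝ) * 7 ^ e ≤ 2 ^ P.kap := by
    have h1 : P.d * 3 ≤ P.d * P.l2 :=
      Nat.mul_le_mul_left _ (by have := hP.Par_l3_ge; have := hP.Par_l32; omega)
    calc (64 : ℝ) * 7 ^ e ≤ 2 ^ 6 * (2 ^ 3) ^ e := by gcongr <;> norm_num
      _ = 2 ^ (6 + 3 * e) := by rw [← pow_mul, ← pow_add]
      _ ≤ _ := pow_le_pow_right₀ one_le_two (by unfold kap D Lx; omega)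
  obtain ⟨e1, e2⟩ := SmA_err hP hc hen (e := e + 1) he hj (midAt_mem_acts (nt := nt) hy
    (i := P.d - (e + 1)) (by omega) j) (k := k) (R := 2 * (7 ^ e * (P.X * 2 ^ P.kap)))
    (q := fun k' a => P.lsv h c nt y leaf e (2 * j) (z.1, a) k' +
      P.lsv h c nt y leaf e (2 * j + 1) (a, z.2) k') fun k'' hk'' a haa => by
      obtain ⟨⟨a1, a2, a3⟩, b1, b2, b3⟩ := SmA_child he hj ha ht hz haa
      have i1 := abs_lsv_le hP hc hy hen (R := P.X * 2 ^ P.kap) (by nlinarith) hn hl he.le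
        a1 a2 a3 hk''
      have i2 := abs_lsv_le hP hc hy hen (R := P.X * 2 ^ P.kap) (by nlinarith) hn hl he.le
        b1 b2 b3 hk''
      push_cast
      exact (abs_add_le _ _).trans (by linarith)
  rw [SmA_lsv_succ, if_neg ht]
  set w : ℚ := lsQ P.s (P.eta / P.mass h c nt y (e + 1) j)
    (P.acts (h + c) (P.midAt h c nt y (P.d - (e + 1)) j))
    (fun k' a => P.lsv h c nt y leaf e (2 * j) (z.1, a) k' +
      P.lsv h c nt y leaf e (2 * j + 1) (a, z.2) k') k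
    fun a => P.lsv h c nt y leaf e (2 * j) (z.1, a) k +
      P.lsv h c nt y leaf e (2 * j + 1) (a, z.2) k
  set F : ℝ := Phi (P.eta / P.mass h c nt y (e + 1) j : ℚ)
    (P.acts (h + c) (P.midAt h c nt y (P.d - (e + 1)) j))
    (fun k' a => (P.lsv h c nt y leaf e (2 * j) (z.1, a) k' +
      P.lsv h c nt y leaf e (2 * j + 1) (a, z.2) k' : ℚ)) k
    fun a => (P.lsv h c nt y leaf e (2 * j) (z.1, a) k +
      P.lsv h c nt y leaf e (2 * j + 1) (a, z.2) k : ℚ)
  have hfin : (P.X : ℝ) * (2 ^ P.kap) ^ 3 / 2 ^ P.s ≤ P.ups ^ 2 * P.La u := by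
    rw [← pow_mul, mul_comm P.kap, sq, La]
    have := (Rat.cast_le (K := ℝ)).2 (eps_mul_le (P := P) u)
    push_cast at this
    exact this
  set K : ℝ := 2 ^ P.kap
  set B : ℝ := 2 ^ (3 * P.Lx)
  set T : ℝ := 7 ^ e
  set S : ℝ := 2 ^ P.s with hS
  have hS0 : 0 < S := by positivity
  have hK0 : 0 < K := by linarith
  have k2 : K ≤ K ^ 2 := by nlinarith
  have k3 : K ^ 2 ≤ K ^ 3 := by nlinarith
  have k4 : 64 * B * K ≤ K ^ 2 := by nlinarith
  have k5 : 64 * T * K ≤ K ^ 2 := by nlinarith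
  have k6 : 64 * T * K ^ 2 ≤ K ^ 3 := by nlinarith [sq_nonneg K]
  have k7 : 2 * K * (2 * (P.X * B) + 4 * (2 * (T * (P.X * K)))) ≤ P.X * K ^ 3 / 2 := by
    have : 4 * K * B + 16 * T * K ^ 2 ≤ K ^ 3 / 2 := by nlinarith
    have := mul_le_mul_of_nonneg_left this (by linarith : (0 : ℝ) ≤ P.X)
    nlinarith
  have k8 : (2 : ℝ) ≤ P.X * K ^ 3 := by nlinarith
  have e3 : |(w : ℝ) - F| ≤ P.X * K ^ 3 / 2 / S := by
    refine e1.trans ?_
    rw [div_mul_eq_mul_div]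
    gcongr
  have e4 : (P.X : ℝ) * K ^ 3 / 2 / S ≤ 1 / 2 := by
    rw [div_le_iff₀ hS0]
    linarith
  have e5 : |(w : ℝ)| ≤ S := by
    have a1 := abs_sub_abs_le_abs_sub (w : ℝ) F
    have a2 : 64 * T * K * P.X ≤ K ^ 3 * P.X := by gcongr; linarith
    nlinarith
  have e6 : |w| ≤ 2 ^ P.s := by
    rw [hS] at e5
    exact_mod_cast e5
  have e7 : |(rup P.s w : ℝ) - w| ≤ 1 / S := by
    rw [hS]
    have := (Rat.cast_le (K := ℝ)).2 (abs_rup_sub_le e6)
    push_cast at this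
    exact this
  have e8 : 1 / S ≤ P.X * K ^ 3 / 2 / S := by gcongr; linarith
  calc |(rup P.s w : ℝ) - F| ≤ |(rup P.s w : ℝ) - w| + |(w : ℝ) - F| := abs_sub_le _ _ _
    _ ≤ P.X * K ^ 3 / 2 / S + P.X * K ^ 3 / 2 / S := by linarith
    _ = P.X * K ^ 3 / S := by ring
    _ ≤ _ := hfin

end Pa

end Crest.Agent.R288
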