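/-
R288/StA: averaging makes all links almost tight; the Lipschitz envelope.
-/
import Crest.Agent.R288.Up

set_option autoImplicit false

namespace Crest.Agent.R288

open Finset

namespace Pa

variable {P : Pa} {ms : ℕ → ℕ → Bool}

/-- Averaging: if `a (k+1) ≤ b k + ε`, `0 ≤ a`, then `avg a ≤ avg b + ε + a 0 / M`. -/
theorem avg_link {M : ℕ} (hM : 0 < M) {a b : ℕ → ℝ} {ε : ℝ} (h : ∀ k < M, a (k + 1) ≤ b k + ε)
    (h0 : 0 ≤ a M) :
    (∑ k ∈ range M, a k) / M ≤ (∑ k ∈ range M, b k) / M + ε + a 0 / M := by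
  have hM' : (0 : ℝ) < M := by exact_mod_cast hM
  have e1 : ∑ k ∈ range M, a k + a M = ∑ k ∈ range M, a (k + 1) + a 0 := by
    rw [← sum_range_succ, sum_range_succ']
  have e2 : ∑ k ∈ range M, a (k + 1) ≤ ∑ k ∈ range M, (b k + ε) :=
    sum_le_sum fun k hk => h k (mem_range.1 hk)
  rw [sum_add_distrib, sum_const, card_range, nsmul_eq_mul] at e2
  have e3 : (∑ k ∈ range M, b k) / M + ε + a 0 / M =
      (∑ k ∈ range M, b k + M * ε + a 0) / M := by
    field_simp
  rw [e3]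
  exact div_le_div_of_nonneg_right (by linarith) hM'.le

theorem StA_X_le (P : Pa) : (P.X : ℚ) ≤ 2 ^ P.s := by
  refine le_trans ?_ (X_mul_le (P := P))
  exact le_mul_of_one_le_right (Nat.cast_nonneg _) (one_le_pow₀ one_le_two)

theorem StA_neg_le (P : Pa) {y : ℚ} (hy : 0 ≤ y) : -(2 : ℚ) ^ P.s ≤ y :=
  le_trans (neg_nonpos.2 (by positivity)) hy

theorem StA_avg_le (hP : P.OK) {f : ℕ → ℚ} {y : ℚ} (h : ∀ k < P.M, f k ≤ y) :
    (∑ k ∈ range P.M, f k) / P.M ≤ y := by
  have hM : (0 : ℚ) < P.M := by exact_mod_cast hP.M_pos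
  rw [div_le_iff₀ hM]
  have := sum_le_sum (s := range P.M) (f := f) (g := fun _ => y) fun k hk => h k (mem_range.1 hk)
  rw [sum_const, card_range, nsmul_eq_mul] at this
  linarith

theorem StA_avg_leR (hP : P.OK) {f : ℕ → ℚ} {y : ℝ} (h : ∀ k < P.M, (f k : ℝ) ≤ y) :
    (((∑ k ∈ range P.M, f k) / P.M : ℚ) : ℝ) ≤ y := by
  have hM : (0 : ℝ) < P.M := by exact_mod_cast hP.M_pos
  push_cast
  rw [div_le_iff₀ hM]
  have := sum_le_sum (s := range P.M) (f := fun k => (f k : ℝ)) (g := fun _ => y)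
    fun k hk => h k (mem_range.1 hk)
  rw [sum_const, card_range, nsmul_eq_mul] at this
  linarith

theorem StA_le_avgR (hP : P.OK) {f : ℕ → ℚ} {y : ℝ} (h : ∀ k < P.M, y ≤ (f k : ℝ)) :
    y ≤ (((∑ k ∈ range P.M, f k) / P.M : ℚ) : ℝ) := by
  have hM : (0 : ℝ) < P.M := by exact_mod_cast hP.M_pos
  push_cast
  rw [le_div_iff₀ hM]
  have := sum_le_sum (s := range P.M) (g := fun k => (f k : ℝ)) (f := fun _ => y)
    fun k hk => h k (mem_range.1 hk)
  rw [sum_const, card_range, nsmul_eq_mul] at this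
  linarith

theorem StA_eps (hP : P.OK) (u : ℕ) : (P.M : ℚ) / 2 ^ P.s ≤ P.Lam u / 16 := by
  have h1 := eps_le (P := P) u
  have h2 : P.M ≤ 2 ^ (3 * P.kap) := by
    have a1 : P.M ≤ P.l1 := Nat.div_le_self _ _
    have a2 := hP.l1_lt
    have a3 : 2 ^ P.Lx ≤ 2 ^ (3 * P.kap) := Nat.pow_le_pow_right two_pos (by unfold kap; omega)
    omega
  have h3 : (P.M : ℚ) ≤ 2 ^ (3 * P.kap) := by exact_mod_cast h2
  have h4 : P.ups ≤ 1 / 4 := by
    unfold ups
    have : (2 : ℚ) ^ 2 ≤ 2 ^ (8 * P.Lx) := pow_le_pow_right₀ one_le_two (by unfold Lx; omega)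
    exact one_div_le_one_div_of_le (by norm_num) (by linarith)
  have h5 : 0 ≤ P.ups := by unfold ups; positivity
  have h6 := Lam_pos (P := P) u
  have h7 : P.ups * P.ups ≤ 1 / 16 :=
    (mul_le_mul h4 h4 h5 (by norm_num)).trans (by norm_num)
  have h8 : (P.M : ℚ) / 2 ^ P.s ≤ 2 ^ (3 * P.kap) / 2 ^ P.s :=
    div_le_div_of_nonneg_right h3 (pow_pos two_pos _).le
  have h9 : P.ups * P.ups * P.Lam u ≤ 1 / 16 * P.Lam u := mul_le_mul_of_nonneg_right h7 h6.le
  have h10 : 1 / 16 * P.Lam u = P.Lam u / 16 := by ring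
  exact h8.trans (h1.trans (h9.trans h10.le))

theorem StA_epsR (hP : P.OK) (u : ℕ) : (1 : ℝ) / 2 ^ P.s ≤ P.La u / 16 / P.M := by
  have hM : (0 : ℝ) < P.M := by exact_mod_cast hP.M_pos
  have h1 : (((P.M : ℚ) / 2 ^ P.s : ℚ) : ℝ) ≤ ((P.Lam u / 16 : ℚ) : ℝ) := by
    exact_mod_cast StA_eps hP u
  push_cast at h1
  rw [le_div_iff₀ hM]
  unfold La
  calc (1 : ℝ) / 2 ^ P.s * P.M = P.M / 2 ^ P.s := by ring
    _ ≤ _ := h1

theorem StA_self_mem_box {u r : ℕ} {z : St} (hz : P.inW u z) : z ∈ P.box u r z :=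
  mem_box.2 ⟨hz, by simp, by simp⟩

section avg
variable {N : ℕ → Fam}

/-- The plain average. -/
def StA_avg (P : Pa) (N : ℕ → Fam) (h j c : ℕ) (z : St) : ℚ :=
  (∑ k ∈ range P.M, N (P.D + k) h j c z) / P.M

theorem StA_nbM_eq {h j c : ℕ} {z : St} (hz : P.inW (h + c) z) :
    P.nbM N h j c z = rup P.s (StA_avg P N h j c z) := by
  unfold nbM
  rw [if_pos hz]
  rfl

theorem StA_val (hR : P.NRel N) (h0 : P.ValN ms (N 0)) {k : ℕ} (hk : k ≤ P.M) :
    P.ValN ms (N (P.D + k)) := hR.valN h0 (by omega)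

theorem StA_avg_nonneg (hR : P.NRel N) (h0 : P.ValN ms (N 0)) {h j c : ℕ} (hn : P.Nd h j)
    (hc : ¬ P.triv h c) (z : St) : 0 ≤ StA_avg P N h j c z := by
  unfold StA_avg
  refine div_nonneg (sum_nonneg fun k hk => ?_) (Nat.cast_nonneg _)
  exact (StA_val hR h0 (mem_range.1 hk).le).nonneg hn hc z

theorem StA_avg_le_X (hP : P.OK) (hR : P.NRel N) (h0 : P.ValN ms (N 0)) {h j c : ℕ}
    (hn : P.Nd h j) (hc : ¬ P.triv h c) (z : St) : StA_avg P N h j c z ≤ P.X :=
  StA_avg_le hP fun _ hk => (StA_val hR h0 hk.le).le_X hn hc z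

theorem StA_avg_le_nbM (hP : P.OK) (hR : P.NRel N) (h0 : P.ValN ms (N 0)) {h j c : ℕ}
    (hn : P.Nd h j) (hc : ¬ P.triv h c) (z : St) : StA_avg P N h j c z ≤ P.nbM N h j c z := by
  by_cases hz : P.inW (h + c) z
  · rw [StA_nbM_eq hz]
    exact le_rup ((StA_avg_le_X hP hR h0 hn hc z).trans (StA_X_le P))
  · unfold nbM
    rw [if_neg hz]
    exact StA_avg_le_X hP hR h0 hn hc z

theorem StA_nbM_nonneg (hP : P.OK) (hR : P.NRel N) (h0 : P.ValN ms (N 0)) {h j c : ℕ}
    (hn : P.Nd h j) (hc : ¬ P.triv h c) (z : St) : 0 ≤ P.nbM N h j c z :=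
  (StA_avg_nonneg hR h0 hn hc z).trans (StA_avg_le_nbM hP hR h0 hn hc z)

theorem StA_nbM_le (hR : P.NRel N) (h0 : P.ValN ms (N 0)) {h j c : ℕ}
    (hn : P.Nd h j) (hc : ¬ P.triv h c) {z : St} (hz : P.inW (h + c) z) :
    (P.nbM N h j c z : ℝ) ≤ StA_avg P N h j c z + 1 / 2 ^ P.s := by
  rw [StA_nbM_eq hz]
  have := (Rat.cast_le (K := ℝ)).2
    (rup_le (s := P.s) (StA_neg_le P (StA_avg_nonneg hR h0 hn hc z)))
  push_cast at this
  exact this

/-- The generic link. -/
theorem StA_link (hP : P.OK) (hR : P.NRel N) (h0 : P.ValN ms (N 0)) {K : ℝ}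
    (hH : P.HN ms (N P.D) K (1 / 16)) {h j c : ℕ} (hn : P.Nd h j) (hc : ¬ P.triv h c) {z : St}
    (hz : P.inW (h + c) z) {b : ℕ → ℚ} {B : ℚ} (hb : ∀ k < P.M, N (P.D + k + 1) h j c z ≤ b k)
    (hB : (∑ k ∈ range P.M, b k) / P.M ≤ B) :
    (P.nbM N h j c z : ℝ) ≤ B + P.elk ms K h j c z := by
  have hM : (0 : ℝ) < P.M := by exact_mod_cast hP.M_pos
  have h1 := avg_link (M := P.M) hP.M_pos (a := fun k => (N (P.D + k) h j c z : ℝ))
    (b := fun k => (b k : ℝ)) (ε := 0)
    (fun k hk => by rw [add_zero]; exact_mod_cast hb k hk)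
    (by exact_mod_cast (StA_val hR h0 le_rfl).nonneg hn hc z)
  have h2 := StA_nbM_le hR h0 hn hc hz
  have h3 := hH h j c z hn hc hz
  have h4 := StA_epsR hP (h + c)
  have h5 : (((∑ k ∈ range P.M, b k) / P.M : ℚ) : ℝ) ≤ B := by exact_mod_cast hB
  have h6 := La_pos (P := P) (h + c)
  unfold StA_avg at h2
  push_cast at h2 h5
  simp only [add_zero] at h1
  have h7 : (N P.D h j c z : ℝ) / P.M ≤ (K * P.VV ms h j z + 1 / 16 * P.La (h + c)) / P.M :=
    div_le_div_of_nonneg_right h3 hM.le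
  have h8 : (K * P.VV ms h j z + 1 / 16 * P.La (h + c)) / P.M + P.La (h + c) / 16 / P.M ≤
      P.elk ms K h j c z := by
    unfold elk
    rw [← add_div]
    exact div_le_div_of_nonneg_right (by linarith) hM.le
  linarith

/-- One step of the iteration is below every grid point above `nstep`. -/
theorem StA_step_le (hR : P.NRel N) {k : ℕ} (hk : k < P.M) {h j c : ℕ} (hn : P.Nd h j)
    (hc : ¬ P.triv h c) {z : St} (hz : P.inW (h + c) z) {y : ℚ} (hy : OnG P.s y) (hy0 : 0 ≤ y)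
    (hle : P.nstep (P.lkF (N (P.D + k)) h j) (P.lkF (N (P.D + k)) (h - 1) (2 * j))
      (P.lkF (N (P.D + k)) (h - 1) (2 * j + 1)) h c z ≤ y) : N (P.D + k + 1) h j c z ≤ y := by
  rw [hR.step (P.D + k) (by omega) h j c z hn hc hz]
  exact rup_le_of_onG hle hy (StA_neg_le P hy0)

theorem StA_avg_add (hP : P.OK) (f : ℕ → ℚ) (y : ℚ) :
    (∑ k ∈ range P.M, (f k + y)) / P.M = (∑ k ∈ range P.M, f k) / P.M + y := by
  have hM : (0 : ℚ) < P.M := by exact_mod_cast hP.M_pos
  rw [sum_add_distrib, sum_const, card_range, nsmul_eq_mul]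
  field_simp

theorem StA_env (hP : P.OK) (hR : P.NRel N) (h0 : P.ValN ms (N 0)) {K : ℝ}
    (hH : P.HN ms (N P.D) K (1 / 16)) {h j c : ℕ} (hn : P.Nd h j) (hc : ¬ P.triv h c) {z z' : St}
    (hz : P.inW (h + c) z) (hz' : z' ∈ P.box (h + c) (P.rad (h + c) P.cp) z) :
    (P.nbM N h j c z : ℝ) ≤ P.nbM N h j c z' + dst z z' + P.elk ms K h j c z := by
  have hw : P.inW (h + c) z' := (mem_box.1 hz').1
  have := StA_link hP hR h0 hH hn hc hz (b := fun k => N (P.D + k) h j c z' + dst z z')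
    (B := P.nbM N h j c z' + dst z z') (fun k hk => ?_) ?_
  · exact_mod_cast this
  · have hv := StA_val hR h0 hk.le
    refine StA_step_le hR hk hn hc hz ((hv.onG h j c z' hn hc).add (onG_nat _ _))
      (add_nonneg (hv.nonneg hn hc z') (Nat.cast_nonneg _)) ?_
    unfold nstep
    refine minL_le_of_mem (List.mem_append_left _ (List.mem_map.2 ⟨z', hz', ?_⟩))
    unfold lkF
    rw [rd_eq_self hw le_rfl]
  · rw [StA_avg_add hP]
    exact add_le_add_left (StA_avg_le_nbM hP hR h0 hn hc z') _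

theorem StA_cls (hP : P.OK) (hR : P.NRel N) (h0 : P.ValN ms (N 0)) {K : ℝ}
    (hH : P.HN ms (N P.D) K (1 / 16)) {h j c c' : ℕ} (hn : P.Nd h j) (hc : ¬ P.triv h c) {z : St}
    (hz : P.inW (h + c) z) (h1 : c - 1 ≤ c') (hc' : ¬ P.triv h c') :
    (P.nbM N h j c z : ℝ) ≤ P.nbM N h j c' (P.rd (h + c') z) + dst z (P.rd (h + c') z) +
      P.elk ms K h j c z := by
  have := StA_link hP hR h0 hH hn hc hz
    (b := fun k => N (P.D + k) h j c' (P.rd (h + c') z) + dst z (P.rd (h + c') z))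
    (B := P.nbM N h j c' (P.rd (h + c') z) + dst z (P.rd (h + c') z)) (fun k hk => ?_) ?_
  · exact_mod_cast this
  · have hv := StA_val hR h0 hk.le
    refine StA_step_le hR hk hn hc hz ((hv.onG h j c' _ hn hc').add (onG_nat _ _))
      (add_nonneg (hv.nonneg hn hc' _) (Nat.cast_nonneg _)) ?_
    unfold nstep
    exact (minL_le_default _ _).trans (upQ_le z h1 hc')
  · rw [StA_avg_add hP]
    exact add_le_add_left (StA_avg_le_nbM hP hR h0 hn hc' _) _

theorem StA_wid_mono {u v : ℕ} (h : u ≤ v) : P.wid u ≤ P.wid v := by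
  unfold wid rad
  exact Nat.div_le_div_right (Nat.pow_le_pow_right two_pos (by omega))

theorem StA_split (hP : P.OK) (hR : P.NRel N) (h0 : P.ValN ms (N 0)) {K : ℝ}
    (hH : P.HN ms (N P.D) K (1 / 16)) {h j c a : ℕ} (hn : P.Nd (h + 1) j)
    (hc : ¬ P.triv (h + 1) c) {z : St} (hz : P.inW (h + 1 + c) z)
    (hl : P.inW (h + c) (z.1, a)) (hr : P.inW (h + c) (a, z.2)) :
    (P.nbM N (h + 1) j c z : ℝ) ≤ P.nbM N h (2 * j) c (z.1, a) + P.nbM N h (2 * j + 1) c (a, z.2) +
      P.elk ms K (h + 1) j c z := by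
  have hc' : ¬ P.triv h c := fun ht => hc (triv_mono ht le_rfl (Nat.le_succ h))
  have := StA_link hP hR h0 hH hn hc hz
    (b := fun k => N (P.D + k) h (2 * j) c (z.1, a) + N (P.D + k) h (2 * j + 1) c (a, z.2))
    (B := P.nbM N h (2 * j) c (z.1, a) + P.nbM N h (2 * j + 1) c (a, z.2)) (fun k hk => ?_) ?_
  · exact_mod_cast this
  · have hv := StA_val hR h0 hk.le
    refine StA_step_le hR hk hn hc hz
      ((hv.onG h _ c _ hn.left hc').add (hv.onG h _ c _ hn.right hc'))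
      (add_nonneg (hv.nonneg hn.left hc' _) (hv.nonneg hn.right hc' _)) ?_
    unfold nstep
    have ha : a ∈ gball P.X (P.gm (h + 1 + c - 1)) (P.wid (h + 1 + c)) z.1 := by
      rw [mem_gball, show h + 1 + c - 1 = h + c by omega]
      refine ⟨hl.2.2.2.1, hl.2.1, ?_⟩
      rw [Nat.dist_comm]
      exact hl.2.2.2.2.trans (StA_wid_mono (by omega))
    refine le_trans (minL_le_of_mem (List.mem_append_right _ ?_)
      (a := P.upQ (P.lkF (N (P.D + k)) (h + 1 - 1) (2 * j)) (h + 1 - 1) c (z.1, a) +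
        P.upQ (P.lkF (N (P.D + k)) (h + 1 - 1) (2 * j + 1)) (h + 1 - 1) c (a, z.2))) ?_
    · rw [if_neg (Nat.succ_ne_zero h)]
      exact List.mem_map.2 ⟨a, ha, rfl⟩
    · rw [Nat.add_sub_cancel]
      have e1 := upQ_le (f := P.lkF (N (P.D + k)) h (2 * j)) (z.1, a) (le_refl c) hc'
      have e2 := upQ_le (f := P.lkF (N (P.D + k)) h (2 * j + 1)) (a, z.2) (le_refl c) hc'
      unfold lkF at e1 e2
      rw [rd_eq_self hl le_rfl, dst_self] at e1
      rw [rd_eq_self hr le_rfl, dst_self] at e2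
      unfold lkF
      push_cast at e1 e2
      linarith
  · rw [sum_add_distrib, add_div]
    exact add_le_add (StA_avg_le_nbM hP hR h0 hn.left hc' _) (StA_avg_le_nbM hP hR h0 hn.right hc' _)

end avg

/-- The outer rounding in `ntil` is the identity (everything is on the grid). -/
theorem TRel.eq' (hP : P.OK) {N : ℕ → Fam} {Nt : Fam} (hT : P.TRel N Nt) (hR : P.NRel N)
    (h0 : P.ValN ms (N 0)) {h j c : ℕ} {z : St} (hn : P.Nd h j) (hc : ¬ P.triv h c)
    (hz : P.inW (h + c) z) :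
    Nt h j c z = minL ((P.box (h + c) (P.rad (h + c) P.cp) z).map
      fun z' => P.nbM N h j c z' + dst z z') (P.cap * P.Lam (h + c)) := by
  rw [hT.eq h j c z hn hc hz]
  have e : P.ntil (fun k => N (P.D + k) h j c) (h + c) z =
      minL ((P.box (h + c) (P.rad (h + c) P.cp) z).map
        fun z' => P.nbM N h j c z' + dst z z') (P.cap * P.Lam (h + c)) := by
    unfold ntil
    congr 1
    refine List.map_congr_left fun z' hz' => ?_
    unfold nbM
    rw [if_pos (mem_box.1 hz').1]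
  rw [e]
  refine rup_eq_self (onG_minL ?_ ?_) (abs_le.2 ⟨StA_neg_le P (le_minL ?_ ?_), ?_⟩)
  · intro a ha
    obtain ⟨z', hz', rfl⟩ := List.mem_map.1 ha
    rw [StA_nbM_eq (mem_box.1 hz').1]
    exact (onG_rup _ _).add (onG_nat _ _)
  · have := onG_Lam (P := P) (h + c) (2 ^ P.cp)
    rwa [Nat.cast_pow, Nat.cast_ofNat] at this
  · intro a ha
    obtain ⟨z', -, rfl⟩ := List.mem_map.1 ha
    exact add_nonneg (StA_nbM_nonneg hP hR h0 hn hc z') (Nat.cast_nonneg _)
  · have := Lam_pos (P := P) (h + c)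
    unfold cap
    positivity
  · refine (minL_le_of_mem (List.mem_map.2 ⟨z, StA_self_mem_box hz, rfl⟩)).trans ?_
    rw [dst_self, StA_nbM_eq hz, Nat.cast_zero, add_zero]
    exact (le_abs_self _).trans (abs_rup_le _ _)

/-- Recipe.  `nbM = rup (avg)` lies in `[avg, avg + 2^{-s}]` and below every grid point above `avg`
(`rup_le_of_onG`: `triv`, `leaf`).  Links: `avg_link` with `a k = N (D + k) z`,
`a 0 ≤ K V + Λ / 16`, `2 * 2^{-s} ≤ Λ / (2 M)` (`eps_le`); in `split` use `upQ_le` at class `c` and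
`rd_eq_self`; `dist a z.1 ≤ wid (h + c) ≤ wid (h + 1 + c)`.  The envelope link gives
`nbM z ≤ nbM z' + dst z z' + elk` for `z'` in the box, whence `tge`.  `lip`: if the minimum at `z'` is
attained at `z''`, either `z''` is in the box of `z` (triangle inequality) or
`dst z z'' > cap Λ ≥ Nt z`. -/
theorem stageA (hP : P.OK) {N : ℕ → Fam} {Nt : Fam} (hR : P.NRel N) (hT : P.TRel N Nt)
    (h0 : P.ValN ms (N 0)) {K : ℝ} (h1 : 1 ≤ K) (h2 : K ≤ P.K0)
    (hH : P.HN ms (N P.D) K (1 / 16)) : P.StageA ms (P.nbM N) Nt K := by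
  have hval : ∀ h j c z, P.Nd h j → ¬ P.triv h c → P.inW (h + c) z →
      min (P.VV ms h j z) P.X ≤ P.nbM N h j c z := by
    intro h j c z hn hc hz
    have a1 : ((StA_avg P N h j c z : ℚ) : ℝ) ≤ P.nbM N h j c z := by
      exact_mod_cast StA_avg_le_nbM hP hR h0 hn hc z
    exact le_trans (StA_le_avgR hP fun k hk => (StA_val hR h0 hk.le).val h j c z hn hc hz) a1
  have hcase : ∀ h j c z, P.Nd h j → ¬ P.triv h c → P.inW (h + c) z →
      Nt h j c z = P.cap * P.Lam (h + c) ∨ ∃ z' ∈ P.box (h + c) (P.rad (h + c) P.cp) z,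
        Nt h j c z = P.nbM N h j c z' + dst z z' := by
    intro h j c z hn hc hz
    rw [hT.eq' hP hR h0 hn hc hz]
    refine (minL_mem _ _).imp id fun hm => ?_
    obtain ⟨z', hz', e⟩ := List.mem_map.1 hm
    exact ⟨z', hz', e.symm⟩
  have hcap : ∀ h j c z, P.Nd h j → ¬ P.triv h c → P.inW (h + c) z →
      Nt h j c z ≤ P.cap * P.Lam (h + c) := by
    intro h j c z hn hc hz
    rw [hT.eq' hP hR h0 hn hc hz]
    exact minL_le_default _ _
  have hbox : ∀ h j c z z', P.Nd h j → ¬ P.triv h c → P.inW (h + c) z →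
      z' ∈ P.box (h + c) (P.rad (h + c) P.cp) z → Nt h j c z ≤ P.nbM N h j c z' + dst z z' := by
    intro h j c z z' hn hc hz hz'
    rw [hT.eq' hP hR h0 hn hc hz]
    exact minL_le_of_mem (List.mem_map.2 ⟨z', hz', rfl⟩)
  refine
    { K1 := h1
      K2 := h2
      outb := fun h j c z hz => by unfold nbM; rw [if_neg hz]
      outt := hT.out
      val := hval
      le := ?_
      triv := ?_
      leaf := ?_
      split := fun h j c z a hn hc hz hl hr => StA_split hP hR h0 hH hn hc hz hl hr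
      cls := fun h j c c' z hn hc hz h1 hc' => StA_cls hP hR h0 hH hn hc hz h1 hc'
      lip := ?_
      tval := ?_
      tle := ?_
      tge := ?_ }
  · intro h j c z hn hc hz
    have a1 := StA_nbM_le hR h0 hn hc hz
    have a2 : ((StA_avg P N h j c z : ℚ) : ℝ) ≤ K * P.VV ms h j z + 1 / 16 * P.La (h + c) := by
      refine StA_avg_leR hP fun k hk => le_trans ?_ (hH h j c z hn hc hz)
      exact_mod_cast hR.anti h0 (Nat.le_add_right P.D k) (by omega) hn hc z
    have a3 := StA_epsR hP (h + c)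
    have a4 := La_pos (P := P) (h + c)
    have a5 : P.La (h + c) / 16 / P.M ≤ P.La (h + c) / 16 :=
      div_le_self (by positivity) (by exact_mod_cast hP.M_pos)
    linarith
  · intro h j c z hn hc hz
    rw [StA_nbM_eq hz]
    exact rup_le_of_onG (StA_avg_le hP fun k hk => (StA_val hR h0 hk.le).triv h j c z hn hc hz)
      (onG_trivV h z) (StA_neg_le P (trivV_nonneg h z))
  · intro j c z hn hc hz
    rw [StA_nbM_eq hz]
    have a1 : StA_avg P N 0 j c z ≤ (V P.X ms 0 j z : ℚ) := by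
      refine StA_avg_le hP fun k hk => ?_
      have := (StA_val hR h0 hk.le).leaf j c z hn hc hz
      unfold VV at this
      exact_mod_cast this
    have a2 := rup_le_of_onG a1 (onG_nat _ _) (StA_neg_le P (Nat.cast_nonneg _))
    unfold VV
    exact_mod_cast a2
  · intro h j c z z' hn hc hz hz'
    have d0 : (0 : ℚ) ≤ dst z z' := Nat.cast_nonneg _
    rcases hcase h j c z' hn hc hz' with e | ⟨z'', hz'', e⟩
    · rw [e]
      linarith [hcap h j c z hn hc hz]
    · have t : (dst z z'' : ℚ) ≤ dst z z' + dst z' z'' := by exact_mod_cast dst_tri z z' z''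
      rw [e]
      by_cases hb : z'' ∈ P.box (h + c) (P.rad (h + c) P.cp) z
      · linarith [hbox h j c z z'' hn hc hz hb]
      · have a1 : ¬ dst z z'' ≤ P.rad (h + c) P.cp := by
          intro hd
          refine hb (mem_box.2 ⟨(mem_box.1 hz'').1, ?_, ?_⟩)
          · rw [Nat.dist_comm]
            exact le_trans (Nat.le_add_right _ _) hd
          · rw [Nat.dist_comm]
            exact le_trans (Nat.le_add_left _ _) hd
        rw [le_rad_iff, not_le] at a1
        have a2 := hcap h j c z hn hc hz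
        have a3 := StA_nbM_nonneg hP hR h0 hn hc z''
        unfold cap at a2
        linarith
  · intro h j c z hn hc hz
    rcases hcase h j c z hn hc hz with e | ⟨z', hz', e⟩
    · rw [e]
      refine (min_le_right _ _).trans (le_of_eq ?_)
      unfold La
      push_cast
      rfl
    · rw [e]
      refine (min_le_left _ _).trans ?_
      have a1 := hval h j c z' hn hc (mem_box.1 hz').1
      have a2 := VV_lip (P := P) (ms := ms) h j z z'
      have d0 : (0 : ℝ) ≤ dst z z' := Nat.cast_nonneg _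
      push_cast
      rcases le_total (P.VV ms h j z') P.X with b | b
      · rw [min_eq_left b] at a1
        linarith [min_le_left (P.VV ms h j z) (P.X : ℝ)]
      · rw [min_eq_right b] at a1
        linarith [min_le_right (P.VV ms h j z) (P.X : ℝ)]
  · intro h j c z hn hc hz
    have := hbox h j c z z hn hc hz (StA_self_mem_box hz)
    rwa [dst_self, Nat.cast_zero, add_zero] at this
  · intro h j c z hn hc hz
    rcases hcase h j c z hn hc hz with e | ⟨z', hz', e⟩
    · rw [e]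
      refine (min_le_left _ _).trans (le_of_eq ?_)
      unfold La
      push_cast
      rfl
    · rw [e]
      refine (min_le_right _ _).trans ?_
      have a1 := StA_env hP hR h0 hH hn hc hz hz'
      push_cast
      linarith

variable {Nb Nt : Fam} {K : ℝ}

theorem StageA.t_nonneg (hA : P.StageA ms Nb Nt K) {h j c : ℕ} (hn : P.Nd h j) (hc : ¬ P.triv h c)
    (z : St) : 0 ≤ Nt h j c z := by
  by_cases hz : P.inW (h + c) z
  · have a1 := hA.tval h j c z hn hc hz
    have a2 := La_pos (P := P) (h + c)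
    have a3 : (0 : ℝ) ≤ P.cap := by unfold cap; push_cast; positivity
    have a4 : (0 : ℝ) ≤ Nt h j c z :=
      le_trans (le_min (le_min (VV_nonneg h j z) (Nat.cast_nonneg _)) (by positivity)) a1
    exact_mod_cast a4
  · rw [hA.outt h j c z hz]
    exact Nat.cast_nonneg _

theorem StageA.t_le_X (hA : P.StageA ms Nb Nt K) {h j c : ℕ} (hn : P.Nd h j) (hc : ¬ P.triv h c)
    (z : St) : Nt h j c z ≤ P.X := by
  by_cases hz : P.inW (h + c) z
  · exact (hA.tle h j c z hn hc hz).trans ((hA.triv h j c z hn hc hz).trans (trivV_le_X h z))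
  · rw [hA.outt h j c z hz]

/-- `|t| ≤ Nt` since `|t| ≤ V`, `|t| ≤ X`, `|t| ≤ wid ≤ cap Λ`. -/
theorem StageA.dist_le_t (hA : P.StageA ms Nb Nt K) {h j c : ℕ} (hn : P.Nd h j)
    (hc : ¬ P.triv h c) {z : St} (hz : P.inW (h + c) z) :
    ((Nat.dist z.1 z.2 : ℕ) : ℚ) ≤ Nt h j c z := by
  have a1 := hA.tval h j c z hn hc hz
  have a2 : ((Nat.dist z.1 z.2 : ℕ) : ℝ) ≤ P.VV ms h j z := by
    unfold VV
    exact_mod_cast dist_le_V h j z
  have a3 : ((Nat.dist z.1 z.2 : ℕ) : ℝ) ≤ P.X := by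
    have b1 := hz.1
    have b2 := hz.2.1
    have : Nat.dist z.1 z.2 ≤ P.X := by unfold Nat.dist; omega
    exact_mod_cast this
  have a4 : ((Nat.dist z.1 z.2 : ℕ) : ℚ) ≤ P.cap * P.Lam (h + c) := by
    refine (le_rad_iff.1 hz.2.2.2.2).trans ?_
    unfold cap
    exact mul_le_mul_of_nonneg_right
      (pow_le_pow_right₀ one_le_two (by unfold tw cp; omega)) (Lam_pos _).le
  have a5 : ((Nat.dist z.1 z.2 : ℕ) : ℝ) ≤ P.cap * P.La (h + c) := by
    unfold La
    exact_mod_cast a4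
  have a6 : ((Nat.dist z.1 z.2 : ℕ) : ℝ) ≤ Nt h j c z := le_trans (le_min (le_min a2 a3) a5) a1
  exact_mod_cast a6

theorem StageA.dist_le_b (hA : P.StageA ms Nb Nt K) {h j c : ℕ} (hn : P.Nd h j)
    (hc : ¬ P.triv h c) {z : St} (hz : P.inW (h + c) z) :
    ((Nat.dist z.1 z.2 : ℕ) : ℚ) ≤ Nb h j c z :=
  (hA.dist_le_t hn hc hz).trans (hA.tle h j c z hn hc hz)

end Pa

end Crest.Agent.R288
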