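/-
R288/Cls: the class rule, and the bottom values of an enabled top.
-/
import Crest.Agent.R288.SmA
import Crest.Agent.R288.StA

set_option autoImplicit false

namespace Crest.Agent.R288

open Finset

namespace Pa

variable {P : Pa} {ms : ℕ → ℕ → Bool} {Nb Nt : Fam} {Pt : ℕ → ℕ → Fam} {K : ℝ}

theorem cls_kap_ge (hP : P.OK) : 13 * P.p + 6 ≤ P.kap ∧ 3 * P.Lx + 3 ≤ P.kap ∧
    P.D + P.Lx + 6 ≤ P.kap ∧ 1 ≤ P.p := by
  have h1 := hP.wx_le
  have h2 : 1 ≤ P.p := by unfold p; omega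
  unfold kap
  omega

theorem cls_G_le (hP : P.OK) : 0 < P.Gq ∧ P.Gq ≤ 1 / 32 := by
  have h := (cls_kap_ge hP).2.2.2
  refine ⟨by unfold Gq; positivity, ?_⟩
  unfold Gq
  refine one_div_le_one_div_of_le (by norm_num) ?_
  calc (32 : ℚ) = 2 ^ 5 := by norm_num
    _ ≤ _ := pow_le_pow_right₀ (by norm_num) (by omega)

theorem cls_inv_kap_le (hP : P.OK) : (64 : ℚ) / 2 ^ P.kap ≤ P.Gq := by
  have h := (cls_kap_ge hP).1
  unfold Gq
  rw [div_le_div_iff₀ (by positivity) (by positivity)]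
  calc (64 : ℚ) * 2 ^ (13 * P.p) = 2 ^ (13 * P.p + 6) := by rw [pow_add]; norm_num [mul_comm]
    _ ≤ 2 ^ P.kap := pow_le_pow_right₀ (by norm_num) h
    _ = _ := (one_mul _).symm

/-- Rounding costs at most `G Λ / 32`. -/
theorem cls_dst_rd (hP : P.OK) (u : ℕ) (z : St) :
    (dst z (P.rd u z) : ℚ) ≤ P.Gq * P.Lam u / 32 := by
  have h1 := dst_rd_le (P := P) u z
  have h2 := cls_inv_kap_le hP
  have h3 := Lam_pos (P := P) u
  calc _ ≤ 2 * P.Lam u / 2 ^ P.kap := h1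
    _ = 64 / 2 ^ P.kap * P.Lam u / 32 := by ring
    _ ≤ _ := by gcongr

theorem cls_Lam_le {h' c c' : ℕ} (h : c - 1 ≤ c') : P.Lam (h' + c) ≤ 2 * P.Lam (h' + c') := by
  have h1 := Lam_add (P := P) (h' + c') 1
  rw [pow_one] at h1
  rw [← h1]
  exact Lam_mono (by omega)

theorem cls_tw (u : ℕ) : 8 * P.Lam u ≤ 2 ^ P.tw * P.Lam u := by
  refine mul_le_mul_of_nonneg_right ?_ (Lam_pos u).le
  calc (8 : ℚ) = 2 ^ 3 := by norm_num
    _ ≤ _ := pow_le_pow_right₀ (by norm_num) (by unfold tw; omega)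

theorem cls_inW_rd {u : ℕ} {z : St} (hz : z.1 ≤ P.X ∧ z.2 ≤ P.X) :
    P.inW u (P.rd u z) ↔
      ((Nat.dist (P.rd u z).1 (P.rd u z).2 : ℕ) : ℚ) ≤ 2 ^ P.tw * P.Lam u := by
  rw [← le_rad_iff]
  exact ⟨fun h => h.2.2.2.2, fun h => ⟨(rdn_fst_le _ _).trans hz.1, (rdn_snd_le _ _).trans hz.2,
    (dvd_rdn _ _).1, (dvd_rdn _ _).2, h⟩⟩

theorem cls_dst_tri (z z' z'' : St) : (dst z z'' : ℚ) ≤ dst z z' + dst z' z'' := by
  exact_mod_cast dst_tri z z' z''

theorem cls_dist_le (z z' : St) :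
    ((Nat.dist z.1 z.2 : ℕ) : ℚ) ≤ (Nat.dist z'.1 z'.2 : ℕ) + (dst z z' : ℚ) := by
  exact_mod_cast dist_le_dst z z'

theorem cls_dst_rd_rd (hP : P.OK) (u : ℕ) (z z' : St) :
    (dst (P.rd u z) (P.rd u z') : ℚ) ≤ dst z z' + P.Gq * P.Lam u / 16 := by
  have h1 := cls_dst_tri (P.rd u z) z (P.rd u z')
  have h2 := cls_dst_tri z z' (P.rd u z')
  have h3 := cls_dst_rd hP u z
  have h4 := cls_dst_rd hP u z'
  rw [dst_comm (P.rd u z) z] at h1
  linarith

theorem cls_close (hP : P.OK) {h' c c' : ℕ} (h : c - 1 ≤ c') {z zc : St}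
    (hd : (dst z zc : ℚ) ≤ P.Gq * P.Lam (h' + c)) :
    (dst (P.rd (h' + c') z) (P.rd (h' + c') zc) : ℚ) ≤ P.Lam (h' + c') / 8 := by
  have h1 := cls_dst_rd_rd hP (h' + c') z zc
  have h2 := cls_Lam_le (P := P) (h' := h') h
  obtain ⟨h3, h4⟩ := cls_G_le hP
  have h5 := Lam_pos (P := P) (h' + c')
  have h6 : P.Gq * P.Lam (h' + c) ≤ P.Gq * (2 * P.Lam (h' + c')) :=
    mul_le_mul_of_nonneg_left h2 h3.le
  have h7 : P.Gq * P.Lam (h' + c') ≤ 1 / 32 * P.Lam (h' + c') :=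
    mul_le_mul_of_nonneg_right h4 h5.le
  linarith

/-- A nontrivial class chosen at `zc` is fine for every `z` near `zc`.  If `rd zc` were no state its
value would be `X ≤ Λ'` while `X ≥ |t| > 2^tw Λ'`; so `|t (rd zc)| ≤ Nt ≤ Λ'`, and
`dst (rd z) (rd zc) ≤ 2 G Λ' + 4 Λ' / 2^kap` because `Λ' ≥ Λ(h' + c) / 2`. -/
theorem cls_dom (hP : P.OK) (hA : P.StageA ms Nb Nt K) {h' j c : ℕ} (hn : P.Nd h' j)
    (hc : c ≤ P.cmax) {ntb : ℕ → St → ℚ} {zc z : St}
    (hb : ∀ c', c - 1 ≤ c' → ¬ P.triv h' c' → ntb c' zc = Nt h' j c' (P.rd (h' + c') zc))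
    (hzc : zc.1 ≤ P.X ∧ zc.2 ≤ P.X) (hz : z.1 ≤ P.X ∧ z.2 ≤ P.X)
    (hd : (dst z zc : ℚ) ≤ P.Gq * P.Lam (h' + c)) (ht : ¬ P.triv h' (P.cls ntb h' c zc)) :
    P.inW (h' + P.cls ntb h' c zc) (P.rd (h' + P.cls ntb h' c zc) z) ∧
      Nt h' j (P.cls ntb h' c zc) (P.rd (h' + P.cls ntb h' c zc) z) ≤
        2 * P.Lam (h' + P.cls ntb h' c zc) := by
  have hge := cls_ge (P := P) (ntb := ntb) (h' := h') (z := zc) hc
  have hsp := (cls_spec (P := P) (ntb := ntb) (h' := h') (c := c) (z := zc)).resolve_left ht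
  generalize P.cls ntb h' c zc = c' at *
  rw [hb c' hge ht] at hsp
  have hΛ := Lam_pos (P := P) (h' + c')
  have htw := cls_tw (P := P) (h' + c')
  have hcl := cls_close hP hge hd
  have h1 : P.inW (h' + c') (P.rd (h' + c') zc) := by
    by_contra hn'
    rw [hA.outt _ _ _ _ hn'] at hsp
    refine hn' ((cls_inW_rd hzc).2 ?_)
    have e1 : (P.rd (h' + c') zc).1 ≤ P.X := (rdn_fst_le _ _).trans hzc.1
    have e2 : (P.rd (h' + c') zc).2 ≤ P.X := (rdn_snd_le _ _).trans hzc.2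
    have e3 : Nat.dist (P.rd (h' + c') zc).1 (P.rd (h' + c') zc).2 ≤ P.X := by
      simp only [Nat.dist]; omega
    have e4 : ((Nat.dist (P.rd (h' + c') zc).1 (P.rd (h' + c') zc).2 : ℕ) : ℚ) ≤ P.X := by
      exact_mod_cast e3
    linarith
  have h2 := hA.dist_le_t hn ht h1
  have h3 := cls_dist_le (P.rd (h' + c') z) (P.rd (h' + c') zc)
  have h4 : P.inW (h' + c') (P.rd (h' + c') z) := (cls_inW_rd hz).2 (by linarith)
  have h5 := hA.lip h' j c' _ _ hn ht h4 h1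
  exact ⟨h4, by linarith⟩

/-- The chosen class is not too large.  If `cls = c - 1` the mass is `Λ / 2` or (`c = 0`) `Lam h'`.
Otherwise `c'' = cls - 1` failed the test at `zc`: either `rd zc` or `rd z` is no state of class
`c''` (then `V z ≥ |t| ≥ Λ''`), or `7/8 Λ'' ≤ Nt (rd z) ≤ Nb ≤ K V (rd z) + Λ'' / 8`. -/
theorem cls_mass (hP : P.OK) (hA : P.StageA ms Nb Nt K) {h' j c : ℕ} (hn : P.Nd h' j)
    (hc : c ≤ P.cmax) {ntb : ℕ → St → ℚ} {zc z : St}
    (hb : ∀ c', c - 1 ≤ c' → ¬ P.triv h' c' → ntb c' zc = Nt h' j c' (P.rd (h' + c') zc))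
    (hzc : zc.1 ≤ P.X ∧ zc.2 ≤ P.X) (hz : z.1 ≤ P.X ∧ z.2 ≤ P.X)
    (hd : (dst z zc : ℚ) ≤ P.Gq * P.Lam (h' + c)) :
    P.La (h' + P.cls ntb h' c zc) ≤ P.La (h' + c) / 2 + P.La h' + 8 * K * P.VV ms h' j z := by
  have hge := cls_ge (P := P) (ntb := ntb) (h' := h') (z := zc) hc
  have hmin := fun c' => cls_min (P := P) (ntb := ntb) (h' := h') (c := c) (z := zc) (c' := c')
  generalize P.cls ntb h' c zc = c1 at *
  have hK := hA.K1
  have hV : 0 ≤ P.VV ms h' j z := Nat.cast_nonneg _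
  have hKV : P.VV ms h' j z ≤ K * P.VV ms h' j z := le_mul_of_one_le_left hV hK
  have hLa : ∀ u, 0 < P.La u := fun u => by unfold La; exact_mod_cast Lam_pos u
  have hs : ∀ u, P.La (u + 1) = 2 * P.La u := fun u => by
    unfold La
    rw [Lam_add, pow_one]
    push_cast
    ring
  have g1 := hLa (h' + c)
  have g2 := hLa h'
  rcases hge.eq_or_lt with e | hlt
  · rcases Nat.eq_zero_or_pos c with rfl | hc0
    · rw [← e]
      simp only [Nat.zero_sub, Nat.add_zero] at g1 ⊢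
      linarith
    · have e' : h' + c = h' + c1 + 1 := by omega
      rw [e', hs]
      linarith
  obtain ⟨c', rfl⟩ : ∃ c', c1 = c' + 1 := ⟨c1 - 1, by omega⟩
  have hge' : c - 1 ≤ c' := by omega
  obtain ⟨ht, hf⟩ := hmin c' hge' (Nat.lt_succ_self _)
  rw [hb c' hge' ht] at hf
  rw [← add_assoc, hs]
  have hΛ := Lam_pos (P := P) (h' + c')
  have htw := cls_tw (P := P) (h' + c')
  have hcl := cls_close hP hge' hd
  have hr := cls_dst_rd hP (h' + c') z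
  have hG : P.Gq * P.Lam (h' + c') ≤ 1 / 32 * P.Lam (h' + c') :=
    mul_le_mul_of_nonneg_right (cls_G_le hP).2 hΛ.le
  have hfar : P.Lam (h' + c') ≤ ((Nat.dist z.1 z.2 : ℕ) : ℚ) →
      P.La (h' + c') ≤ P.VV ms h' j z := fun hh => by
    have e1 : ((Nat.dist z.1 z.2 : ℕ) : ℚ) ≤ (V P.X ms h' j z : ℕ) := by
      exact_mod_cast dist_le_V (X := P.X) (ms := ms) h' j z
    unfold La VV
    exact_mod_cast hh.trans e1
  have d1 := cls_dist_le (P.rd (h' + c') z) z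
  rw [dst_comm] at d1
  by_cases h4 : P.inW (h' + c') (P.rd (h' + c') z)
  swap
  · have := not_le.1 (mt (cls_inW_rd hz).2 h4)
    have := hfar (by linarith)
    linarith
  by_cases h1 : P.inW (h' + c') (P.rd (h' + c') zc)
  swap
  · have := not_le.1 (mt (cls_inW_rd hzc).2 h1)
    have d2 := cls_dist_le (P.rd (h' + c') zc) (P.rd (h' + c') z)
    rw [dst_comm] at d2
    have := hfar (by linarith)
    linarith
  have h5 := hA.lip h' j c' _ _ hn ht h1 h4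
  rw [dst_comm] at h5
  have h6 := hA.tle h' j c' _ hn ht h4
  have h7 := hA.le h' j c' _ hn ht h4
  have h8 : 7 * P.La (h' + c') ≤ 8 * Nb h' j c' (P.rd (h' + c') z) := by
    have : 7 * P.Lam (h' + c') ≤ 8 * Nb h' j c' (P.rd (h' + c') z) := by linarith
    unfold La
    exact_mod_cast this
  have h9 : P.VV ms h' j (P.rd (h' + c') z) ≤
      P.VV ms h' j z + 2 * P.La (h' + c') / 2 ^ P.kap := by
    have e1 : ((V P.X ms h' j (P.rd (h' + c') z) : ℕ) : ℚ) ≤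
        (V P.X ms h' j z : ℕ) + (dst z (P.rd (h' + c') z) : ℚ) := by
      rw [dst_comm]
      exact_mod_cast V_lip (X := P.X) (ms := ms) h' j (P.rd (h' + c') z) z
    have e2 := dst_rd_le (P := P) (h' + c') z
    have e3 : ((V P.X ms h' j (P.rd (h' + c') z) : ℕ) : ℚ) ≤
        (V P.X ms h' j z : ℕ) + 2 * P.Lam (h' + c') / 2 ^ P.kap := by linarith
    unfold La VV
    exact_mod_cast e3
  have h10 : K * (2 * P.La (h' + c') / 2 ^ P.kap) ≤ P.La (h' + c') / 4 := by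
    have e1 : 8 * K ≤ 2 ^ P.kap := by
      have e2 := hA.K2
      have e3 : (P.K0 : ℝ) = 2 ^ (P.D + P.Lx + 3) := by unfold K0; push_cast; rfl
      have e4 : (2 : ℝ) ^ (P.D + P.Lx + 3 + 3) ≤ 2 ^ P.kap :=
        pow_le_pow_right₀ (by norm_num) (cls_kap_ge hP).2.2.1
      rw [pow_add] at e4
      rw [e3] at e2
      linarith
    have e5 := hLa (h' + c')
    rw [← mul_div_assoc, div_le_iff₀ (by positivity)]
    nlinarith
  have h11 := mul_le_mul_of_nonneg_left h9 (zero_le_one.trans hK)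
  rw [mul_add] at h11
  have := hLa (h' + c')
  linarith

/-- Guarded Lipschitz tables of the top `y`. -/
abbrev ntG (P : Pa) (Nt : Fam) (h j c : ℕ) (y : St) : ℕ → ℕ → ℕ → St → ℚ :=
  P.grd (h + c) y (P.ntM Nt h j c)

/-- Guarded bottom tables of the top `y`. -/
abbrev pbG (P : Pa) (Pt : ℕ → ℕ → Fam) (β h j c : ℕ) (y : St) : ℕ → ℕ → ℕ → St → ℚ :=
  P.grd (h + c) y (P.pbM (fun k => Pt k β) h j c)

/-- Bottom values of the top `y`. -/
abbrev leafG (P : Pa) (Nt : Fam) (Pt : ℕ → ℕ → Fam) (β h j c : ℕ) (y : St) : ℕ → ℕ → St → ℚ :=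
  fun k => P.bot h c (P.ntG Nt h j c y) y (P.pbG Pt β h j c y k)

/-- The standing hypotheses on a top state. -/
structure Top (P : Pa) (ms : ℕ → ℕ → Bool) (Nb Nt : Fam) (Pt : ℕ → ℕ → Fam) (K : ℝ) (h j c : ℕ)
    (y : St) : Prop where
  ok : P.OK
  sa : P.StageA ms Nb Nt K
  wd : P.Wd h j c
  inv : P.InvP ms Nt Pt (h - P.d)
  hy : P.inW (h + c) y

variable {β h j c : ℕ} {y : St}

theorem cls_Nd (hn : P.Nd h j) {i j' : ℕ} (hi : i ≤ h) (hj : j' < 2 ^ i) :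
    P.Nd (h - i) (j * 2 ^ i + j') := by
  obtain ⟨h1, h2⟩ := hn
  refine ⟨by omega, ?_⟩
  rw [show P.L - (h - i) = P.L - h + i by omega, pow_add]
  calc j * 2 ^ i + j' < (j + 1) * 2 ^ i := by rw [add_mul, one_mul]; omega
    _ ≤ _ := Nat.mul_le_mul_right _ h2

theorem ntM_mem (hA : P.StageA ms Nb Nt K) (hw : P.Wd h j c) (i j' c' : ℕ) (z : St) :
    0 ≤ P.ntM Nt h j c i j' c' z ∧ P.ntM Nt h j c i j' c' z ≤ P.X := by
  unfold ntM
  split_ifs with hh
  · obtain ⟨h1, -, h2⟩ := hh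
    have hd := hw.dle
    have hi : i ≤ h := by omega
    have ht : ¬ P.triv (h - i) c' := by
      rcases h2 with ⟨-, rfl⟩ | ⟨rfl, -, h3⟩
      · exact fun h4 => hw.nt (triv_mono h4 le_rfl (Nat.sub_le _ _))
      · exact h3
    exact ⟨hA.t_nonneg (cls_Nd hw.nd hi h1) ht _, hA.t_le_X (cls_Nd hw.nd hi h1) ht _⟩
  · exact ⟨Nat.cast_nonneg _, le_rfl⟩

theorem ntG_mem (hA : P.StageA ms Nb Nt K) (hw : P.Wd h j c) (i j' c' : ℕ) (z : St) :
    0 ≤ P.ntG Nt h j c y i j' c' z ∧ P.ntG Nt h j c y i j' c' z ≤ P.X := by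
  unfold ntG grd
  split_ifs
  · exact ntM_mem hA hw _ _ _ _
  · exact ⟨Nat.cast_nonneg _, le_rfl⟩

theorem cls_leaf_triv {j' : ℕ} (ht : P.triv (h - P.d) (P.clc h c (P.ntG Nt h j c y) y j'))
    (k : ℕ) (z : St) : P.leafG Nt Pt β h j c y k j' z = P.trivV (h - P.d) z := by
  unfold leafG bot botv
  rw [if_pos ht]

theorem cls_trivV_lip (h' : ℕ) (z z' : St) : P.trivV h' z ≤ P.trivV h' z' + dst z z' := by
  have h1 := dist_le_dst z z'
  have : min P.X (Nat.dist z.1 z.2 + 2 ^ h') ≤ min P.X (Nat.dist z'.1 z'.2 + 2 ^ h') + dst z z' := by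
    generalize 2 ^ h' = n
    omega
  unfold trivV
  exact_mod_cast this

theorem cls_inA_dst (hd : P.d ≤ h) {zc z z' : St} (hz : P.InA (h + c) zc z)
    (hz' : P.InA (h + c) zc z') : (dst z z' : ℚ) ≤ P.Gq * P.Lam (h + c - P.d) := by
  have h1 := hz.dst_le (by omega)
  have h2 := hz'.dst_le (by omega)
  have h3 := cls_dst_tri z zc z'
  rw [dst_comm zc z'] at h3
  linarith

theorem cls_mass_zero {nt : ℕ → ℕ → ℕ → St → ℚ} {j' : ℕ} (ha : (P.cen h c nt y P.d j').2 = true) :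
    P.mass h c nt y 0 j' = P.Lam (h + c - P.d) + P.Lam (h - P.d + P.clc h c nt y j') := by
  simp [mass, mb, ha]

section bot
variable (hT : P.Top ms Nb Nt Pt K h j c y) (hβ : β ≤ P.M)
  (hen : P.enab h c (P.ntG Nt h j c y) y) {j' : ℕ} (hj : j' < 2 ^ P.d)
  (ha : (P.cen h c (P.ntG Nt h j c y) y P.d j').2 = true)
include hT hβ hen hj ha

/-- The guards pass (`4 Λ + W ≤ 8 Λ`) and `cls_dom` applies. -/
theorem bot_eq {z : St} (hz : P.InA (h + c) (P.cen h c (P.ntG Nt h j c y) y P.d j').1 z)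
    (ht : ¬ P.triv (h - P.d) (P.clc h c (P.ntG Nt h j c y) y j')) :
    P.inW (h - P.d + P.clc h c (P.ntG Nt h j c y) y j')
        (P.rd (h - P.d + P.clc h c (P.ntG Nt h j c y) y j') z) ∧
      Nt (h - P.d) (j * 2 ^ P.d + j') (P.clc h c (P.ntG Nt h j c y) y j')
        (P.rd (h - P.d + P.clc h c (P.ntG Nt h j c y) y j') z) ≤
        2 * P.Lam (h - P.d + P.clc h c (P.ntG Nt h j c y) y j') ∧
      Nat.dist z.1 y.1 ≤ P.rad (h + c) 3 ∧
      ∀ k, P.leafG Nt Pt β h j c y k j' z =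
        Pt k β (h - P.d) (j * 2 ^ P.d + j') (P.clc h c (P.ntG Nt h j c y) y j')
          (P.rd (h - P.d + P.clc h c (P.ntG Nt h j c y) y j') z) +
        dst z (P.rd (h - P.d + P.clc h c (P.ntG Nt h j c y) y j') z) := by
  have _ := hβ
  have hd := hT.wd.dle
  have hc : c ≤ P.cmax := by
    have := hT.wd.nt
    unfold triv at this
    omega
  have hg := cen_grid (nt := P.ntG Nt h j c y) hT.hy P.d j'
  have h2 := hen.2 j' (List.mem_range.2 hj) ha
  have hz1 := (mem_acts.1 hz.1).2.1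
  have hz2 := (mem_acts.1 hz.2).2.1
  have hdst := hz.dst_le (by omega)
  have hge : c - 1 ≤ P.clc h c (P.ntG Nt h j c y) y j' := cls_ge hc
  have hΛ := Lam_pos (P := P) (h + c)
  have hΛ' := Lam_pos (P := P) (h + c - P.d)
  obtain ⟨hG0, hG⟩ := cls_G_le hT.ok
  generalize hzc : (P.cen h c (P.ntG Nt h j c y) y P.d j').1 = zc at *
  have h2' := le_rad_iff.1 h2
  have h3 : Nat.dist zc.1 y.1 ≤ P.rad (h + c) 3 := le_rad_iff.2 (by linarith)
  have h4 : Nat.dist z.1 y.1 ≤ P.rad (h + c) 3 := by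
    refine le_rad_iff.2 ?_
    have e1 : Nat.dist z.1 y.1 ≤ dst z zc + Nat.dist zc.1 y.1 := by
      simp only [dst, Nat.dist]; omega
    have e2 : ((Nat.dist z.1 y.1 : ℕ) : ℚ) ≤ dst z zc + (Nat.dist zc.1 y.1 : ℕ) := by
      exact_mod_cast e1
    have e3 : P.Lam (h + c - P.d) ≤ P.Lam (h + c) := Lam_mono (Nat.sub_le _ _)
    have e4 : P.Gq * P.Lam (h + c - P.d) ≤ 1 / 32 * P.Lam (h + c) := by gcongr
    linarith
  have hcl : P.clc h c (P.ntG Nt h j c y) y j' =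
      P.cls (P.ntG Nt h j c y P.d j') (h - P.d) c zc := by rw [← hzc]; rfl
  have hdom := cls_dom hT.ok hT.sa (cls_Nd hT.wd.nd hd hj) hc (ntb := P.ntG Nt h j c y P.d j')
    (zc := zc) (z := z) (fun c' h5 h6 => by
      unfold ntG grd ntM
      rw [if_pos h3, if_pos ⟨hj, hg.1, Or.inr ⟨rfl, h5, h6⟩⟩]) ⟨hg.1, hg.2.1⟩ ⟨hz1, hz2⟩
    (by
      rw [show h - P.d + c = h + c - P.d by omega]
      have : 0 ≤ P.Gq * P.Lam (h + c - P.d) := by positivity
      linarith) (hcl ▸ ht)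
  rw [← hcl] at hdom
  refine ⟨hdom.1, hdom.2, h4, fun k => ?_⟩
  unfold leafG bot botv
  rw [if_neg ht]
  unfold pbG grd pbM
  rw [if_pos h4, if_pos ⟨hj, hz1, hge, ht⟩]

theorem bot_val {z : St} (hz : P.InA (h + c) (P.cen h c (P.ntG Nt h j c y) y P.d j').1 z) {k : ℕ}
    (hk : k < P.M) : min (P.VV ms (h - P.d) (j * 2 ^ P.d + j') z) P.X ≤
      P.leafG Nt Pt β h j c y k j' z := by
  have hn := cls_Nd hT.wd.nd hT.wd.dle hj
  by_cases ht : P.triv (h - P.d) (P.clc h c (P.ntG Nt h j c y) y j')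
  · rw [cls_leaf_triv ht]
    have h1 := V_le (X := P.X) (ms := ms) (h - P.d) (j * 2 ^ P.d + j') (mem_acts.1 hz.1).2.1
    have h2 : min (V P.X ms (h - P.d) (j * 2 ^ P.d + j') z) P.X ≤
        min P.X (Nat.dist z.1 z.2 + 2 ^ (h - P.d)) := by
      rw [min_comm]
      exact min_le_min_left _ h1
    unfold VV trivV
    exact_mod_cast h2
  obtain ⟨h1, h2, -, h3⟩ := bot_eq hT hβ hen hj ha hz ht
  rw [h3]
  generalize P.clc h c (P.ntG Nt h j c y) y j' = c' at *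
  have h4 := hT.sa.tval _ _ _ _ hn ht h1
  have h5 := hT.inv.val k hk β hβ _ _ _ hn ht h1
  have hΛ : 0 < P.La (h - P.d + c') := by unfold La; exact_mod_cast Lam_pos _
  have h6 : (Nt (h - P.d) (j * 2 ^ P.d + j') c' (P.rd (h - P.d + c') z) : ℝ) ≤
      2 * P.La (h - P.d + c') := by unfold La; exact_mod_cast h2
  have h7 : (8 : ℝ) ≤ P.cap := by
    have : (2 : ℝ) ^ 3 ≤ 2 ^ P.cp := pow_le_pow_right₀ (by norm_num) (by unfold cp; omega)
    unfold cap
    push_cast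
    linarith
  have h8 : 8 * P.La (h - P.d + c') ≤ P.cap * P.La (h - P.d + c') := by gcongr
  have h9 : P.VV ms (h - P.d) (j * 2 ^ P.d + j') z ≤
      P.VV ms (h - P.d) (j * 2 ^ P.d + j') (P.rd (h - P.d + c') z) +
        dst z (P.rd (h - P.d + c') z) := by
    unfold VV
    exact_mod_cast V_lip (X := P.X) (ms := ms) _ _ z (P.rd (h - P.d + c') z)
  have h10 : (0 : ℝ) ≤ dst z (P.rd (h - P.d + c') z) := Nat.cast_nonneg _
  have h11 : min (P.VV ms (h - P.d) (j * 2 ^ P.d + j') (P.rd (h - P.d + c') z)) P.X ≤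
      2 * P.La (h - P.d + c') := by
    rcases min_le_iff.1 (h4.trans h6) with e | e
    · exact e
    · linarith
  rw [min_eq_left (by linarith)] at h5
  push_cast
  rcases min_le_iff.1 h5 with e | e
  · exact (min_le_left _ _).trans (by linarith)
  · exact (min_le_right _ _).trans (by linarith)

theorem bot_mono {z : St} (hz : P.InA (h + c) (P.cen h c (P.ntG Nt h j c y) y P.d j').1 z) {k : ℕ}
    (hk : k + 1 < P.M) :
    P.leafG Nt Pt β h j c y (k + 1) j' z ≤ P.leafG Nt Pt β h j c y k j' z := by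
  have hn := cls_Nd hT.wd.nd hT.wd.dle hj
  by_cases ht : P.triv (h - P.d) (P.clc h c (P.ntG Nt h j c y) y j')
  · rw [cls_leaf_triv ht, cls_leaf_triv ht]
  obtain ⟨h1, -, -, h3⟩ := bot_eq hT hβ hen hj ha hz ht
  rw [h3, h3]
  have := hT.inv.mono k hk β hβ _ _ _ hn ht h1
  linarith

theorem bot_osc {z z' : St} (hz : P.InA (h + c) (P.cen h c (P.ntG Nt h j c y) y P.d j').1 z)
    (hz' : P.InA (h + c) (P.cen h c (P.ntG Nt h j c y) y P.d j').1 z') {k : ℕ} (hk : k < P.M) :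
    (P.leafG Nt Pt β h j c y k j' z : ℝ) ≤ P.leafG Nt Pt β h j c y k j' z' +
      4 * P.Gq * P.mass h c (P.ntG Nt h j c y) y 0 j' := by
  have hn := cls_Nd hT.wd.nd hT.wd.dle hj
  have hzz := cls_inA_dst hT.wd.dle hz hz'
  have hG := (cls_G_le hT.ok).1
  have g1 : 0 ≤ P.Gq * P.Lam (h + c - P.d) := mul_nonneg hG.le (Lam_pos _).le
  have g2 : 0 ≤ P.Gq * P.Lam (h - P.d + P.clc h c (P.ntG Nt h j c y) y j') :=
    mul_nonneg hG.le (Lam_pos _).le
  suffices H : P.leafG Nt Pt β h j c y k j' z ≤ P.leafG Nt Pt β h j c y k j' z' +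
      4 * P.Gq * P.mass h c (P.ntG Nt h j c y) y 0 j' by exact_mod_cast H
  rw [cls_mass_zero ha]
  by_cases ht : P.triv (h - P.d) (P.clc h c (P.ntG Nt h j c y) y j')
  · rw [cls_leaf_triv ht, cls_leaf_triv ht]
    have := cls_trivV_lip (P := P) (h - P.d) z z'
    linarith
  obtain ⟨h1, -, -, h3⟩ := bot_eq hT hβ hen hj ha hz ht
  obtain ⟨h1', -, -, h3'⟩ := bot_eq hT hβ hen hj ha hz' ht
  rw [h3, h3']
  generalize P.clc h c (P.ntG Nt h j c y) y j' = c' at *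
  have h4 := hT.inv.lip k hk β hβ _ _ _ _ hn ht h1 h1'
  have h5 : Pt k β (h - P.d) (j * 2 ^ P.d + j') c' (P.rd (h - P.d + c') z) ≤
      Pt k β (h - P.d) (j * 2 ^ P.d + j') c' (P.rd (h - P.d + c') z') +
        dst (P.rd (h - P.d + c') z) (P.rd (h - P.d + c') z') + 2 * P.Gq * P.Lam (h - P.d + c') := by
    unfold La at h4
    exact_mod_cast h4
  have h6 := cls_dst_rd_rd hT.ok (h - P.d + c') z z'
  have h7 := cls_dst_rd hT.ok (h - P.d + c') z
  have h8 : (0 : ℚ) ≤ dst z' (P.rd (h - P.d + c') z') := Nat.cast_nonneg _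
  linarith

theorem bot_rng {z z' : St} (hz : P.InA (h + c) (P.cen h c (P.ntG Nt h j c y) y P.d j').1 z)
    (hz' : P.InA (h + c) (P.cen h c (P.ntG Nt h j c y) y P.d j').1 z') {k k' : ℕ} (hk : k < P.M)
    (hk' : k' < P.M) :
    (P.leafG Nt Pt β h j c y k j' z : ℝ) ≤ P.leafG Nt Pt β h j c y k' j' z' +
      5 * P.mass h c (P.ntG Nt h j c y) y 0 j' := by
  have hn := cls_Nd hT.wd.nd hT.wd.dle hj
  have hzz := cls_inA_dst hT.wd.dle hz hz'
  obtain ⟨hG, hG'⟩ := cls_G_le hT.ok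
  have g1 := Lam_pos (P := P) (h + c - P.d)
  have g2 := Lam_pos (P := P) (h - P.d + P.clc h c (P.ntG Nt h j c y) y j')
  have g3 := mul_le_mul_of_nonneg_right hG' g1.le
  have g4 := mul_le_mul_of_nonneg_right hG' g2.le
  suffices H : P.leafG Nt Pt β h j c y k j' z ≤ P.leafG Nt Pt β h j c y k' j' z' +
      5 * P.mass h c (P.ntG Nt h j c y) y 0 j' by exact_mod_cast H
  rw [cls_mass_zero ha]
  by_cases ht : P.triv (h - P.d) (P.clc h c (P.ntG Nt h j c y) y j')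
  · rw [cls_leaf_triv ht, cls_leaf_triv ht]
    have := cls_trivV_lip (P := P) (h - P.d) z z'
    linarith
  obtain ⟨h1, -, -, h3⟩ := bot_eq hT hβ hen hj ha hz ht
  obtain ⟨h1', -, -, h3'⟩ := bot_eq hT hβ hen hj ha hz' ht
  rw [h3, h3']
  generalize P.clc h c (P.ntG Nt h j c y) y j' = c' at *
  have h4 := (hT.inv.rng k hk β hβ _ _ _ hn ht h1).2
  have h5 : Pt k β (h - P.d) (j * 2 ^ P.d + j') c' (P.rd (h - P.d + c') z) ≤
      4 * P.Lam (h - P.d + c') := by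
    unfold La at h4
    exact_mod_cast h4
  have h6 := (hT.inv.rng k' hk' β hβ _ _ _ hn ht h1').1
  have h7 := cls_dst_rd hT.ok (h - P.d + c') z
  have h8 : (0 : ℚ) ≤ dst z' (P.rd (h - P.d + c') z') := Nat.cast_nonneg _
  linarith

theorem bot_abs {z : St} (hz : P.InA (h + c) (P.cen h c (P.ntG Nt h j c y) y P.d j').1 z) {k : ℕ}
    (hk : k < P.M) : |(P.leafG Nt Pt β h j c y k j' z : ℝ)| ≤ P.X * 2 ^ P.kap := by
  have hn := cls_Nd hT.wd.nd hT.wd.dle hj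
  obtain ⟨hG, hG'⟩ := cls_G_le hT.ok
  have hX : (0 : ℚ) ≤ P.X := Nat.cast_nonneg _
  have e1 : (2 : ℚ) ^ (3 * P.Lx + 3) ≤ 2 ^ P.kap :=
    pow_le_pow_right₀ (by norm_num) (cls_kap_ge hT.ok).2.1
  have e2 : (1 : ℚ) ≤ 2 ^ (3 * P.Lx) := one_le_pow₀ (by norm_num)
  rw [pow_add] at e1
  have e3 := mul_le_mul_of_nonneg_left e1 hX
  have e4 := mul_le_mul_of_nonneg_left e2 hX
  suffices H : |P.leafG Nt Pt β h j c y k j' z| ≤ P.X * 2 ^ P.kap by exact_mod_cast H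
  by_cases ht : P.triv (h - P.d) (P.clc h c (P.ntG Nt h j c y) y j')
  · rw [cls_leaf_triv ht]
    have h1 : P.trivV (h - P.d) z ≤ P.X := by
      unfold trivV
      exact_mod_cast min_le_left _ _
    have h2 : 0 ≤ P.trivV (h - P.d) z := Nat.cast_nonneg _
    rw [abs_of_nonneg h2]
    linarith
  obtain ⟨h1, -, -, h3⟩ := bot_eq hT hβ hen hj ha hz ht
  rw [h3]
  generalize P.clc h c (P.ntG Nt h j c y) y j' = c' at *
  obtain ⟨h6, h4⟩ := hT.inv.rng k hk β hβ _ _ _ hn ht h1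
  have h5 : Pt k β (h - P.d) (j * 2 ^ P.d + j') c' (P.rd (h - P.d + c') z) ≤
      4 * P.Lam (h - P.d + c') := by
    unfold La at h4
    exact_mod_cast h4
  have h7 := cls_dst_rd hT.ok (h - P.d + c') z
  have h8 : (0 : ℚ) ≤ dst z (P.rd (h - P.d + c') z) := Nat.cast_nonneg _
  have g2 := Lam_pos (P := P) (h - P.d + c')
  have g4 := mul_le_mul_of_nonneg_right hG' g2.le
  have h9 := Lam_le_of_not_triv ht
  rw [abs_of_nonneg (by linarith)]
  linarith

end bot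

end Pa

end Crest.Agent.R288
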