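/-
R288/BigK: the full dynamic program over a super-level and the safe expert.
-/
import Crest.Agent.R288.Cls

set_option autoImplicit false

namespace Crest.Agent.R288

open Finset

namespace Pa

variable {P : Pa} {ms : ℕ → ℕ → Bool} {Nb Nt : Fam} {Pt : ℕ → ℕ → Fam} {K : ℝ} {β h j c : ℕ}
  {y x : St}

/-- `Big` computed from the tables `Pt · β`. -/
abbrev BigM (P : Pa) (Nt : Fam) (Pt : ℕ → ℕ → Fam) (β h j c : ℕ) (y : St) (k : ℕ) : ℚ :=
  P.Big h c (P.ntM Nt h j c) (P.pbM (fun k => Pt k β) h j c) y k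

theorem BigK_c_le (hT : P.Top ms Nb Nt Pt K h j c y) : c ≤ P.cmax := by
  have := hT.wd.nt
  unfold triv at this
  omega

theorem BigK_cap : (8 : ℝ) ≤ P.cap := by
  have : (2 : ℝ) ^ 3 ≤ 2 ^ P.cp := pow_le_pow_right₀ (by norm_num) (by unfold cp; omega)
  unfold cap
  push_cast
  linarith

theorem BigK_VV_lip (h j : ℕ) (z z' : St) : P.VV ms h j z ≤ P.VV ms h j z' + dst z z' := by
  unfold VV
  exact_mod_cast V_lip (X := P.X) (ms := ms) h j z z'

theorem BigK_X_le : (P.X : ℚ) ≤ 2 ^ P.s := by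
  refine le_trans ?_ (X_mul_le (P := P))
  exact le_mul_of_one_le_right (Nat.cast_nonneg _) (one_le_pow₀ one_le_two)

theorem BigK_bot_val (hT : P.Top ms Nb Nt Pt K h j c y) (hβ : β ≤ P.M) {k : ℕ} (hk : k < P.M)
    {j' : ℕ} (hj : j' < 2 ^ P.d) {z : St} (hz1 : z.1 ≤ P.X) (hz2 : z.2 ≤ P.X) :
    min (P.VV ms (h - P.d) (j * 2 ^ P.d + j') z) P.X ≤
      P.bigv h c (P.ntG Nt h j c y) y (P.pbG Pt β h j c y k) 0 j' z := by
  have hn := cls_Nd hT.wd.nd hT.wd.dle hj
  have hc := BigK_c_le hT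
  have hge : c - 1 ≤ P.cls (P.ntG Nt h j c y P.d j') (h - P.d) c z := cls_ge hc
  rw [bigv]
  unfold botv
  by_cases ht : P.triv (h - P.d) (P.cls (P.ntG Nt h j c y P.d j') (h - P.d) c z)
  · rw [if_pos ht]
    have h1 := V_le (X := P.X) (ms := ms) (h - P.d) (j * 2 ^ P.d + j') hz1
    have h2 : min (V P.X ms (h - P.d) (j * 2 ^ P.d + j') z) P.X ≤
        min P.X (Nat.dist z.1 z.2 + 2 ^ (h - P.d)) := by
      rw [min_comm]
      exact min_le_min_left _ h1
    unfold VV trivV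
    exact_mod_cast h2
  rw [if_neg ht]
  by_cases hg : Nat.dist z.1 y.1 ≤ P.rad (h + c) 3
  swap
  · have e : P.pbG Pt β h j c y k j' (P.cls (P.ntG Nt h j c y P.d j') (h - P.d) c z) z = P.X := by
      unfold pbG grd
      rw [if_neg hg]
    rw [e]
    push_cast
    exact (min_le_right _ _).trans (le_add_of_nonneg_right (Nat.cast_nonneg _))
  have hG := (cls_G_le hT.ok).1
  obtain ⟨h1, h2⟩ := cls_dom hT.ok hT.sa hn hc (ntb := P.ntG Nt h j c y P.d j')
    (zc := z) (z := z) (fun c' h5 h6 => by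
      unfold ntG grd ntM
      rw [if_pos hg, if_pos ⟨hj, hz1, Or.inr ⟨rfl, h5, h6⟩⟩]) ⟨hz1, hz2⟩ ⟨hz1, hz2⟩
    (by
      rw [dst_self, Nat.cast_zero]
      exact mul_nonneg hG.le (Lam_pos _).le) ht
  have h3 : P.pbG Pt β h j c y k j' (P.cls (P.ntG Nt h j c y P.d j') (h - P.d) c z) z =
      Pt k β (h - P.d) (j * 2 ^ P.d + j') (P.cls (P.ntG Nt h j c y P.d j') (h - P.d) c z)
        (P.rd (h - P.d + P.cls (P.ntG Nt h j c y P.d j') (h - P.d) c z) z) := by
    unfold pbG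
    rw [grd, if_pos hg, pbM, if_pos ⟨hj, hz1, hge, ht⟩]
  rw [h3]
  generalize P.cls (P.ntG Nt h j c y P.d j') (h - P.d) c z = c' at *
  have h4 := hT.sa.tval _ _ _ _ hn ht h1
  have h5 := hT.inv.val k hk β hβ _ _ _ hn ht h1
  have hΛ : 0 < P.La (h - P.d + c') := by unfold La; exact_mod_cast Lam_pos _
  have h6 : (Nt (h - P.d) (j * 2 ^ P.d + j') c' (P.rd (h - P.d + c') z) : ℝ) ≤
      2 * P.La (h - P.d + c') := by unfold La; exact_mod_cast h2
  have h7 := BigK_cap (P := P)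
  have h8 : 8 * P.La (h - P.d + c') ≤ P.cap * P.La (h - P.d + c') := by gcongr
  have h9 := BigK_VV_lip (P := P) (ms := ms) (h - P.d) (j * 2 ^ P.d + j') z
    (P.rd (h - P.d + c') z)
  have h10 : (0 : ℝ) ≤ dst z (P.rd (h - P.d + c') z) := Nat.cast_nonneg _
  have h11 : min (P.VV ms (h - P.d) (j * 2 ^ P.d + j') (P.rd (h - P.d + c') z)) P.X ≤
      2 * P.La (h - P.d + c') := by
    rcases min_le_iff.1 (h4.trans h6) with e | e
    · exact e
    · linarith
  rw [min_eq_left (by linarith)] at h5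
  push_cast
  rcases min_le_iff.1 h5 with e | e
  · exact (min_le_left _ _).trans (by linarith)
  · exact (min_le_right _ _).trans (by linarith)

theorem BigK_val (hT : P.Top ms Nb Nt Pt K h j c y) (hβ : β ≤ P.M) {k : ℕ} (hk : k < P.M)
    (e : ℕ) : ∀ i, i + e = P.d → ∀ j' < 2 ^ i, ∀ z : St, z.1 ≤ P.X → z.2 ≤ P.X →
    min (P.VV ms (h - P.d + e) (j * 2 ^ i + j') z) P.X ≤
      P.bigv h c (P.ntG Nt h j c y) y (P.pbG Pt β h j c y k) e j' z := by
  induction e with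
  | zero =>
    intro i hi j' hj z hz1 hz2
    obtain rfl : i = P.d := hi
    exact BigK_bot_val hT hβ hk hj hz1 hz2
  | succ e ih =>
    intro i hi j' hj z hz1 hz2
    rw [bigv]
    refine le_trans ?_ (Rat.cast_le.2 (le_rup ((minL_le_default _ _).trans BigK_X_le)))
    refine Up_le_minL (fun v hv => ?_) (by rw [Rat.cast_natCast]; exact min_le_right _ _)
    obtain ⟨a, ha, rfl⟩ := List.mem_map.1 hv
    have haX := (mem_gball.1 ha).2.1
    have h1 := ih (i + 1) (by omega) (2 * j') (by rw [pow_succ]; omega) (z.1, a) hz1 haX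
    have h2 := ih (i + 1) (by omega) (2 * j' + 1) (by rw [pow_succ]; omega) (a, z.2) haX hz2
    have h3 : P.VV ms (h - P.d + (e + 1)) (j * 2 ^ i + j') z ≤
        P.VV ms (h - P.d + e) (j * 2 ^ (i + 1) + 2 * j') (z.1, a) +
          P.VV ms (h - P.d + e) (j * 2 ^ (i + 1) + (2 * j' + 1)) (a, z.2) := by
      have := V_split_le (X := P.X) (ms := ms) (h - P.d + e) (j * 2 ^ i + j') z haX
      rw [show 2 * (j * 2 ^ i + j') = j * 2 ^ (i + 1) + 2 * j' by ring] at this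
      unfold VV
      exact_mod_cast this
    have g1 : 0 ≤ P.VV ms (h - P.d + e) (j * 2 ^ (i + 1) + 2 * j') (z.1, a) := Nat.cast_nonneg _
    have g2 : 0 ≤ P.VV ms (h - P.d + e) (j * 2 ^ (i + 1) + (2 * j' + 1)) (a, z.2) :=
      Nat.cast_nonneg _
    have g3 : (0 : ℝ) ≤ P.X := Nat.cast_nonneg _
    push_cast
    rcases min_le_iff.1 h1 with e1 | e1 <;> rcases min_le_iff.1 h2 with e2 | e2
    · exact (min_le_left _ _).trans (by linarith)
    · exact (min_le_right _ _).trans (by linarith)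
    · exact (min_le_right _ _).trans (by linarith)
    · exact (min_le_right _ _).trans (by linarith)

theorem BigK_nonneg (hT : P.Top ms Nb Nt Pt K h j c y) (hβ : β ≤ P.M) {k : ℕ} (hk : k < P.M)
    {e i j' : ℕ} (hi : i + e = P.d) (hj : j' < 2 ^ i) {z : St} (hz1 : z.1 ≤ P.X)
    (hz2 : z.2 ≤ P.X) :
    0 ≤ P.bigv h c (P.ntG Nt h j c y) y (P.pbG Pt β h j c y k) e j' z := by
  have h1 := BigK_val hT hβ hk e i hi j' hj z hz1 hz2
  have h2 : (0 : ℝ) ≤ min (P.VV ms (h - P.d + e) (j * 2 ^ i + j') z) P.X :=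
    le_min (Nat.cast_nonneg _) (Nat.cast_nonneg _)
  exact_mod_cast h2.trans h1

/-- Induction on `e` for all states with columns `≤ X`.  Bottom: if the guard fails both lookups
give `X`; else `cls_dom` with `z = zc` and `InvP.val`. -/
theorem big_val (hT : P.Top ms Nb Nt Pt K h j c y) (hβ : β ≤ P.M) {k : ℕ} (hk : k < P.M) :
    min (P.VV ms h j y) P.X ≤ P.BigM Nt Pt β h j c y k := by
  have h1 := BigK_val hT hβ hk P.d 0 (Nat.zero_add _) 0 (by norm_num) y hT.hy.1 hT.hy.2.1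
  rwa [Nat.sub_add_cancel hT.wd.dle, pow_zero, mul_one, add_zero] at h1

/-- Upper bound along any path on the fine grid near `y`. -/
theorem big_le (hT : P.Top ms Nb Nt Pt K h j c y) (hβ : β ≤ P.M) {k : ℕ} (hk : k < P.M)
    {zo : ℕ → ℕ → St} (h0 : zo 0 0 = y)
    (hs : ∀ i < P.d, ∀ j' < 2 ^ i, ∃ a, 2 ^ P.gm (h + c - P.d) ∣ a ∧ a ≤ P.X ∧
      Nat.dist a y.1 ≤ P.rad (h + c) 2 ∧ zo (i + 1) (2 * j') = ((zo i j').1, a) ∧
        zo (i + 1) (2 * j' + 1) = (a, (zo i j').2)) :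
    (P.BigM Nt Pt β h j c y k : ℝ) ≤ ∑ j' ∈ range (2 ^ P.d),
      (P.botv (h - P.d) (P.cls (P.ntG Nt h j c y P.d j') (h - P.d) c (zo P.d j'))
        (P.pbG Pt β h j c y k j' (P.cls (P.ntG Nt h j c y P.d j') (h - P.d) c (zo P.d j')))
        (zo P.d j') : ℝ) + P.ups * P.La (h + c) := by
  have hX : ∀ i ≤ P.d, ∀ j' < 2 ^ i, (zo i j').1 ≤ P.X ∧ (zo i j').2 ≤ P.X := by
    intro i
    induction i with
    | zero =>
      intro _ j' hj
      obtain rfl : j' = 0 := by simpa using hj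
      rw [h0]
      exact ⟨hT.hy.1, hT.hy.2.1⟩
    | succ i ih =>
      intro hi j' hj
      have hj2 : j' / 2 < 2 ^ i := by rw [pow_succ] at hj; omega
      obtain ⟨a, -, haX, -, e1, e2⟩ := hs i (by omega) (j' / 2) hj2
      obtain ⟨g1, g2⟩ := ih (by omega) (j' / 2) hj2
      rcases Nat.mod_two_eq_zero_or_one j' with e | e
      · rw [show j' = 2 * (j' / 2) by omega, e1]
        exact ⟨g1, haX⟩
      · rw [show j' = 2 * (j' / 2) + 1 by omega, e2]
        exact ⟨haX, g2⟩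
  have key : ∀ e i, i + e = P.d → ∀ j' < 2 ^ i,
      P.bigv h c (P.ntG Nt h j c y) y (P.pbG Pt β h j c y k) e j' (zo i j') + 1 / 2 ^ P.s ≤
        ∑ n ∈ range (2 ^ e), P.bigv h c (P.ntG Nt h j c y) y (P.pbG Pt β h j c y k) 0
          (j' * 2 ^ e + n) (zo P.d (j' * 2 ^ e + n)) + 2 ^ e / 2 ^ P.s := by
    intro e
    induction e with
    | zero =>
      intro i hi j' _
      obtain rfl : i = P.d := hi
      simp
    | succ e ih =>
      intro i hi j' hj
      obtain ⟨a, ha1, haX, ha2, e1, e2⟩ := hs i (by omega) j' hj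
      have hj1 : 2 * j' < 2 ^ (i + 1) := by rw [pow_succ]; omega
      have hj2 : 2 * j' + 1 < 2 ^ (i + 1) := by rw [pow_succ]; omega
      have h1 := ih (i + 1) (by omega) (2 * j') hj1
      have h2 := ih (i + 1) (by omega) (2 * j' + 1) hj2
      obtain ⟨g1, g2⟩ := hX i (by omega) j' hj
      rw [e1] at h1
      rw [e2] at h2
      have n1 := BigK_nonneg hT hβ hk (e := e) (i := i + 1) (by omega) hj1
        (z := ((zo i j').1, a)) g1 haX
      have n2 := BigK_nonneg hT hβ hk (e := e) (i := i + 1) (by omega) hj2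
        (z := (a, (zo i j').2)) haX g2
      have h3 : P.bigv h c (P.ntG Nt h j c y) y (P.pbG Pt β h j c y k) (e + 1) j' (zo i j') ≤
          P.bigv h c (P.ntG Nt h j c y) y (P.pbG Pt β h j c y k) e (2 * j') ((zo i j').1, a) +
          P.bigv h c (P.ntG Nt h j c y) y (P.pbG Pt β h j c y k) e (2 * j' + 1) (a, (zo i j').2) +
            1 / 2 ^ P.s := by
        rw [bigv]
        refine (rup_mono (minL_le_of_mem (List.mem_map.2 ⟨a, mem_gball.2 ⟨ha1, haX, ha2⟩, rfl⟩))).trans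
          (rup_le ?_)
        have : (0 : ℚ) ≤ 2 ^ P.s := by positivity
        linarith
      have hp : 2 ^ (e + 1) = 2 ^ e + 2 ^ e := by rw [pow_succ]; ring
      have f1 : ∀ n, j' * (2 ^ e + 2 ^ e) + n = 2 * j' * 2 ^ e + n := fun n => by ring
      have f2 : ∀ n, 2 * j' * 2 ^ e + (2 ^ e + n) = (2 * j' + 1) * 2 ^ e + n := fun n => by ring
      rw [hp, sum_range_add]
      simp only [f1, f2]
      have f3 : (2 : ℚ) ^ (e + 1) / 2 ^ P.s = 2 ^ e / 2 ^ P.s + 2 ^ e / 2 ^ P.s := by ring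
      rw [f3]
      linarith
  have h1 := key P.d 0 (Nat.zero_add _) 0 (by norm_num)
  rw [h0] at h1
  simp only [zero_mul, zero_add] at h1
  have h2 : (2 : ℚ) ^ P.d / 2 ^ P.s ≤ P.ups * P.Lam (h + c) := by
    have a1 : P.d ≤ P.D := Nat.le_of_dvd hT.ok.D_pos hT.ok.d_dvd_D
    have a2 : (2 : ℚ) ^ P.d / 2 ^ P.s ≤ 2 ^ (3 * P.kap) / 2 ^ P.s :=
      Par_pp (by unfold kap; omega)
    have a3 := eps_le (P := P) (h + c)
    have a4 : 0 ≤ P.ups := by unfold ups; positivity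
    have a5 : P.ups ≤ 1 := by
      unfold ups
      rw [div_le_one (by positivity)]
      exact one_le_pow₀ one_le_two
    have a6 : P.ups * P.ups * P.Lam (h + c) ≤ P.ups * P.Lam (h + c) :=
      mul_le_mul_of_nonneg_right (mul_le_of_le_one_right a4 a5) (Lam_pos _).le
    linarith
  have h3 : (0 : ℚ) ≤ 1 / 2 ^ P.s := by positivity
  have h4 : P.BigM Nt Pt β h j c y k ≤ ∑ j' ∈ range (2 ^ P.d),
      P.botv (h - P.d) (P.cls (P.ntG Nt h j c y P.d j') (h - P.d) c (zo P.d j'))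
        (P.pbG Pt β h j c y k j' (P.cls (P.ntG Nt h j c y P.d j') (h - P.d) c (zo P.d j')))
        (zo P.d j') + P.ups * P.Lam (h + c) := by
    have e1 : P.BigM Nt Pt β h j c y k =
      P.bigv h c (P.ntG Nt h j c y) y (P.pbG Pt β h j c y k) P.d 0 y := rfl
    rw [e1]
    simp only [bigv] at h1
    linarith
  unfold La
  exact_mod_cast h4

theorem ntM_top (hP : P.OK) (hx : P.inW (h + c) x) :
    P.ntM Nt h j c 0 0 c x = Nt h j c x := by
  unfold ntM
  rw [if_pos ⟨by norm_num, hx.1, Or.inl ⟨hP.d_pos, rfl⟩⟩, Nat.sub_zero, pow_zero, mul_one, add_zero,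
    rd_eq_self hx le_rfl]

theorem BigK_kn_cases (k : ℕ) :
    P.KnM Nt Pt β h j c x k = min (3 * P.Lam (h + c)) (P.ntM Nt h j c 0 0 c x) ∨
      ∃ y ∈ P.box (h + c) (P.rad (h + c) 2) x, ∃ k' ≤ k, β ≠ 0 ∧
        P.KnM Nt Pt β h j c x k = P.BigM Nt Pt (β - 1) h j c y k' + dst x y := by
  unfold KnM Kn
  rcases minL_mem (if β = 0 then [] else
      ((P.box (h + c) (P.rad (h + c) 2) x).product (List.range (k + 1))).map
        fun q => P.Big h c (P.ntM Nt h j c) (P.pbM (fun k => Pt k (β - 1)) h j c) q.1 q.2 +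
          dst x q.1) (min (3 * P.Lam (h + c)) (P.ntM Nt h j c 0 0 c x)) with e | e
  · exact Or.inl e
  · right
    by_cases h0 : β = 0
    · rw [if_pos h0] at e
      exact absurd e List.not_mem_nil
    rw [if_neg h0] at e ⊢
    obtain ⟨⟨y, k'⟩, hq, e'⟩ := List.mem_map.1 e
    obtain ⟨h1, h2⟩ := List.pair_mem_product.1 hq
    exact ⟨y, h1, k', Nat.le_of_lt_succ (List.mem_range.1 h2), h0, e'.symm⟩

theorem BigK_kn_le_def (k : ℕ) :
    P.KnM Nt Pt β h j c x k ≤ min (3 * P.Lam (h + c)) (P.ntM Nt h j c 0 0 c x) :=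
  minL_le_default _ _

theorem BigK_kn_le (h0 : β ≠ 0) {k k' : ℕ} (hk : k' ≤ k)
    (hy : y ∈ P.box (h + c) (P.rad (h + c) 2) x) :
    P.KnM Nt Pt β h j c x k ≤ P.BigM Nt Pt (β - 1) h j c y k' + dst x y := by
  unfold KnM Kn
  rw [if_neg h0]
  exact minL_le_of_mem (List.mem_map.2 ⟨(y, k'),
    List.pair_mem_product.2 ⟨hy, List.mem_range.2 (Nat.lt_succ_of_le hk)⟩, rfl⟩)

section kn
variable (hT : P.Top ms Nb Nt Pt K h j c x) (hβ : β ≤ P.M)
include hT hβ

theorem kn_val {k : ℕ} (hk : k < P.M) :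
    min (min (P.VV ms h j x) P.X) (3 * P.La (h + c)) ≤ P.KnM Nt Pt β h j c x k := by
  rcases BigK_kn_cases (P := P) (Nt := Nt) (Pt := Pt) (β := β) (h := h) (j := j) (c := c) (x := x) k
    with e | ⟨y, hy, k', hk', -, e⟩
  · rw [e, ntM_top hT.ok hT.hy]
    have h1 := hT.sa.tval _ _ _ _ hT.wd.nd hT.wd.nt hT.hy
    have hΛ : 0 < P.La (h + c) := by unfold La; exact_mod_cast Lam_pos _
    have h7 := BigK_cap (P := P)
    have h8 : 3 * P.La (h + c) ≤ P.cap * P.La (h + c) := by gcongr; linarith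
    push_cast
    exact le_min (min_le_right _ _) ((min_le_min_left _ h8).trans h1)
  · rw [e]
    have h1 := big_val (y := y) ⟨hT.ok, hT.sa, hT.wd, hT.inv, (mem_box.1 hy).1⟩
      (β := β - 1) (by omega) (k := k') (by omega)
    have h2 := BigK_VV_lip (P := P) (ms := ms) h j x y
    have h3 : (0 : ℝ) ≤ dst x y := Nat.cast_nonneg _
    refine (min_le_left _ _).trans ?_
    push_cast
    rcases min_le_iff.1 h1 with e1 | e1
    · exact (min_le_left _ _).trans (by linarith)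
    · exact (min_le_right _ _).trans (by linarith)

theorem kn_le_cap (k : ℕ) : P.KnM Nt Pt β h j c x k ≤ 3 * P.Lam (h + c) := by
  have _ := hT
  have _ := hβ
  exact (BigK_kn_le_def k).trans (min_le_left _ _)

theorem kn_le_nt (k : ℕ) : P.KnM Nt Pt β h j c x k ≤ Nt h j c x := by
  have _ := hβ
  rw [← ntM_top (Nt := Nt) (j := j) hT.ok hT.hy]
  exact (BigK_kn_le_def k).trans (min_le_right _ _)

theorem kn_le_big (h0 : β ≠ 0) (k : ℕ) :
    P.KnM Nt Pt β h j c x k ≤ P.BigM Nt Pt (β - 1) h j c x k := by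
  have _ := hβ
  have h1 := BigK_kn_le (Nt := Nt) (Pt := Pt) (j := j) h0 (le_refl k)
    (StA_self_mem_box (r := P.rad (h + c) 2) hT.hy)
  rwa [dst_self, Nat.cast_zero, add_zero] at h1

theorem kn_mono (k : ℕ) : P.KnM Nt Pt β h j c x (k + 1) ≤ P.KnM Nt Pt β h j c x k := by
  have _ := hT
  have _ := hβ
  rcases BigK_kn_cases (P := P) (Nt := Nt) (Pt := Pt) (β := β) (h := h) (j := j) (c := c) (x := x) k
    with e | ⟨y, hy, k', hk', h0, e⟩
  · rw [e]
    exact BigK_kn_le_def _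
  · rw [e]
    exact BigK_kn_le h0 (by omega) hy

/-- If the minimum at `x'` is attained at `(x'', k')`, either `x''` is in the box of `x`, or
`dst x x'' > 4 Λ ≥ Kn x` (and `Big ≥ 0`). -/
theorem kn_lip {x' : St} (hx' : P.inW (h + c) x') {k : ℕ} (hk : k < P.M) :
    P.KnM Nt Pt β h j c x k ≤ P.KnM Nt Pt β h j c x' k + dst x x' := by
  have h1 := kn_le_cap hT hβ k
  have h2 := kn_le_nt hT hβ k
  have h3 : (0 : ℚ) ≤ dst x x' := Nat.cast_nonneg _
  rcases BigK_kn_cases (P := P) (Nt := Nt) (Pt := Pt) (β := β) (h := h) (j := j) (c := c) (x := x') k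
    with e | ⟨y, hy, k', hk', h0, e⟩
  · rw [e, ntM_top hT.ok hx']
    have h4 := hT.sa.lip _ _ _ _ _ hT.wd.nd hT.wd.nt hT.hy hx'
    rcases le_total (3 * P.Lam (h + c)) (Nt h j c x') with e1 | e1
    · rw [min_eq_left e1]
      linarith
    · rw [min_eq_right e1]
      linarith
  · rw [e]
    have h4 := cls_dst_tri x x' y
    have hyW := (mem_box.1 hy).1
    by_cases hb : y ∈ P.box (h + c) (P.rad (h + c) 2) x
    · have := BigK_kn_le (Nt := Nt) (Pt := Pt) (j := j) h0 hk' hb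
      linarith
    have h5 : ¬ dst x y ≤ P.rad (h + c) 2 := fun hh => hb (mem_box.2 ⟨hyW, by
      simp only [dst, Nat.dist] at hh ⊢; omega, by simp only [dst, Nat.dist] at hh ⊢; omega⟩)
    rw [le_rad_iff, not_le] at h5
    have h6 := big_val (y := y) ⟨hT.ok, hT.sa, hT.wd, hT.inv, hyW⟩
      (β := β - 1) (by omega) (k := k') (by omega)
    have h7 : (0 : ℝ) ≤ min (P.VV ms h j y) P.X := le_min (Nat.cast_nonneg _) (Nat.cast_nonneg _)
    have h8 : 0 ≤ P.BigM Nt Pt (β - 1) h j c y k' := by exact_mod_cast h7.trans h6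
    have h9 := Lam_pos (P := P) (h + c)
    linarith

end kn

end Pa

end Crest.Agent.R288
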