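/-
R288/SmI: validity, monotonicity and oscillation of the linearised values.
-/
import Crest.Agent.R288.Cls

set_option autoImplicit false

namespace Crest.Agent.R288

open Finset

namespace Pa

variable {P : Pa} {ms : ℕ → ℕ → Bool} {Nb Nt : Fam} {Pt : ℕ → ℕ → Fam} {K : ℝ} {β h j c : ℕ}
  {y : St}

/-- The values below the top `y`. -/
abbrev lsG (P : Pa) (Nt : Fam) (Pt : ℕ → ℕ → Fam) (β h j c : ℕ) (y : St) :
    ℕ → ℕ → St → ℕ → ℚ := P.lsv h c (P.ntG Nt h j c y) y (P.leafG Nt Pt β h j c y)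

/-- The invariants at node `j'` of height `e` above the bottom. -/
structure LsvInv (P : Pa) (ms : ℕ → ℕ → Bool) (Nt : Fam) (Pt : ℕ → ℕ → Fam) (β h j c : ℕ) (y : St)
    (e j' : ℕ) : Prop where
  val : ∀ z, P.InA (h + c) (P.cen h c (P.ntG Nt h j c y) y (P.d - e) j').1 z → ∀ k < P.M,
    min (P.VV ms (h - P.d + e) (j * 2 ^ (P.d - e) + j') z) P.X -
      (2 ^ (e + 1) - 2) * P.ups ^ 2 * P.La (h + c - P.d) ≤ P.lsG Nt Pt β h j c y e j' z k
  mono : ∀ z, P.InA (h + c) (P.cen h c (P.ntG Nt h j c y) y (P.d - e) j').1 z → ∀ k, k + 1 < P.M →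
    (P.lsG Nt Pt β h j c y e j' z (k + 1) : ℝ) ≤ P.lsG Nt Pt β h j c y e j' z k +
      (2 ^ (e + 1) - 2) * P.ups ^ 2 * P.La (h + c - P.d)
  osc : ∀ z z', P.InA (h + c) (P.cen h c (P.ntG Nt h j c y) y (P.d - e) j').1 z →
    P.InA (h + c) (P.cen h c (P.ntG Nt h j c y) y (P.d - e) j').1 z' → ∀ k < P.M,
    (P.lsG Nt Pt β h j c y e j' z k : ℝ) ≤ P.lsG Nt Pt β h j c y e j' z' k +
      (4 + 2 * e / P.d) * P.Gq * P.mass h c (P.ntG Nt h j c y) y e j'
  rng : ∀ z z', P.InA (h + c) (P.cen h c (P.ntG Nt h j c y) y (P.d - e) j').1 z →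
    P.InA (h + c) (P.cen h c (P.ntG Nt h j c y) y (P.d - e) j').1 z' → ∀ k < P.M, ∀ k' < P.M,
    (P.lsG Nt Pt β h j c y e j' z k : ℝ) ≤ P.lsG Nt Pt β h j c y e j' z' k' +
      (5 + e / P.d) * P.mass h c (P.ntG Nt h j c y) y e j'

theorem SmI_nd (hw : P.Wd h j c) {i j' : ℕ} (hi : i ≤ P.d) (hj : j' < 2 ^ i) :
    P.Nd (h - i) (j * 2 ^ i + j') := by
  obtain ⟨h1, h2⟩ := hw.nd
  have h3 := hw.dle
  refine ⟨by omega, ?_⟩
  rw [show P.L - (h - i) = P.L - h + i by omega, pow_add]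
  calc j * 2 ^ i + j' < (j + 1) * 2 ^ i := by rw [add_mul, one_mul]; omega
    _ ≤ _ := Nat.mul_le_mul_right _ h2

theorem SmI_par1 (hP : P.OK) : 36 * (P.eta : ℝ) * P.Gq * P.d ≤ 1 := by
  have h1 := hP.d_le
  have h2 := hP.p_ge
  have h3 : P.p ^ 2 ≤ (2 ^ P.p) ^ 2 := Nat.pow_le_pow_left Nat.lt_two_pow_self.le 2
  have h4 : 2 ^ 6 ≤ 2 ^ (4 * P.p) := Nat.pow_le_pow_right two_pos (by omega)
  have h5 : 36 * P.d ≤ 2 ^ (4 * P.p) * (2 ^ P.p) ^ 2 := Nat.mul_le_mul (by omega) (by omega)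
  have h6 : (36 * P.d : ℝ) ≤ 2 ^ (4 * P.p) * (2 ^ P.p) ^ 2 := by exact_mod_cast h5
  unfold eta Gq
  push_cast
  rw [show (36 : ℝ) * 2 ^ (7 * P.p) * (1 / 2 ^ (13 * P.p)) * P.d =
    36 * P.d * 2 ^ (7 * P.p) / 2 ^ (13 * P.p) by ring, div_le_one (by positivity)]
  calc _ ≤ 2 ^ (4 * P.p) * (2 ^ P.p) ^ 2 * (2 : ℝ) ^ (7 * P.p) := by gcongr
    _ = _ := by ring

theorem SmI_par2 (hP : P.OK) : 2 * (P.ups : ℝ) ^ 2 * P.d ≤ P.Gq := by
  have h1 := hP.wx_le
  have h2 := hP.p_ge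
  have h3 : (P.d : ℝ) ≤ 2 ^ P.d := by exact_mod_cast Nat.lt_two_pow_self.le
  have h4 : (2 : ℝ) ^ (1 + P.d + 13 * P.p) ≤ 2 ^ (16 * P.Lx) := pow_le_pow_right₀ one_le_two (by omega)
  unfold ups Gq
  push_cast
  rw [show 2 * (1 / (2 : ℝ) ^ (8 * P.Lx)) ^ 2 * P.d = 2 * P.d / 2 ^ (16 * P.Lx) by ring,
    div_le_div_iff₀ (by positivity) (by positivity), one_mul]
  calc _ ≤ 2 * 2 ^ P.d * (2 : ℝ) ^ (13 * P.p) := by gcongr
    _ = 2 ^ (1 + P.d + 13 * P.p) := by ring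
    _ ≤ _ := h4

theorem SmI_par3 (hP : P.OK) : 0 < (P.Gq : ℝ) ∧ (P.Gq : ℝ) ≤ 1 / 2 := by
  have h2 := hP.p_ge
  unfold Gq
  push_cast
  refine ⟨by positivity, one_div_le_one_div_of_le two_pos ?_⟩
  exact le_self_pow₀ one_le_two (by omega)

theorem SmI_par4 (hP : P.OK) : 0 < (P.ups : ℝ) ∧ (P.ups : ℝ) ≤ 1 / 2 := by
  have h2 := Wf_Lx hP
  unfold ups
  push_cast
  refine ⟨by positivity, one_div_le_one_div_of_le two_pos ?_⟩
  exact le_self_pow₀ one_le_two (by omega)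

theorem SmI_La_pos (u : ℕ) : 0 < P.La u := by
  unfold La
  exact_mod_cast Lam_pos u

theorem SmI_two_pow (e : ℕ) : (0 : ℝ) ≤ 2 ^ (e + 1) - 2 := by
  have : (1 : ℝ) ≤ 2 ^ e := one_le_pow₀ one_le_two
  rw [pow_succ]
  linarith

theorem SmI_term {nt : ℕ → ℕ → ℕ → St → ℚ} {leaf : ℕ → ℕ → St → ℚ} {e j' : ℕ}
    (ht : P.termAt h c nt y (P.d - (e + 1)) j') (z : St) (k : ℕ) :
    P.lsv h c nt y leaf (e + 1) j' z k =
      nt (P.d - (e + 1)) j' c (P.cen h c nt y (P.d - (e + 1)) j').1 +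
        dst z (P.cen h c nt y (P.d - (e + 1)) j').1 := by
  rw [lsv]
  exact if_pos ht

/-- comparison of two values of `Phi` -/
theorem SmI_cmp {ι : Type} {η : ℝ} {A : List ι} (hη : 0 < η) (hA : A ≠ []) {q q' : ℕ → ι → ℝ}
    {v v' : ι → ℝ} {m m' : ℕ} {g ξ : ℝ} (hg : ∀ k < m, ∀ a ∈ A, ∀ b ∈ A, q k a ≤ q k b + g)
    (hηg : η * g ≤ 1) (h : ∀ a ∈ A, ∀ b ∈ A, v a ≤ v' b + ξ) :
    Phi η A q m v ≤ Phi η A q' m' v' + ξ + η * g ^ 2 := by
  have := le_Phi (q := q') (v := v') hη hA m' (lo := Phi η A q m v - ξ - η * g ^ 2) fun b hb => by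
    have := Phi_le (q := q) (v := v) hη hA m (fun a ha => h a ha b hb) hg hηg
    linarith
  linarith

/-- A terminal value is valid: the centre is on its grid (`cen_grid`), so the value is `X` or the
table `Nt`, which is below the cap. -/
theorem term_val (hT : P.Top ms Nb Nt Pt K h j c y) {i j' : ℕ} (hi : i < P.d) (hj : j' < 2 ^ i)
    (ht : P.termAt h c (P.ntG Nt h j c y) y i j') :
    min (P.VV ms (h - i) (j * 2 ^ i + j') (P.cen h c (P.ntG Nt h j c y) y i j').1) P.X ≤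
      P.ntG Nt h j c y i j' c (P.cen h c (P.ntG Nt h j c y) y i j').1 := by
  have hd := hT.wd.dle
  obtain ⟨g1, g2, g3, g4⟩ := cen_grid (nt := P.ntG Nt h j c y) hT.hy i j'
  have h1 := ht.2.2
  set zc := (P.cen h c (P.ntG Nt h j c y) y i j').1 with hzc
  have e : h - i + c = h + c - i := by omega
  by_cases c1 : Nat.dist zc.1 y.1 ≤ P.rad (h + c) 3
  swap
  · rw [show P.ntG Nt h j c y i j' c zc = P.X from if_neg c1]
    exact_mod_cast min_le_right _ _
  have e1 : P.ntG Nt h j c y i j' c zc = Nt (h - i) (j * 2 ^ i + j') c zc := by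
    rw [show P.ntG Nt h j c y i j' c zc = P.ntM Nt h j c i j' c zc from if_pos c1, ntM,
      if_pos ⟨hj, g1, Or.inl ⟨hi, rfl⟩⟩, e, rd, rdn_eq_self g3 g4]
  rw [e1] at h1 ⊢
  by_cases c2 : P.inW (h - i + c) zc
  swap
  · rw [hT.sa.outt _ _ _ _ c2]
    exact_mod_cast min_le_right _ _
  have h2 := hT.sa.tval _ _ c zc (SmI_nd hT.wd hi.le hj) (Wf_nt hT.wd.nt (Nat.sub_le _ _)) c2
  have h3 : (Nt (h - i) (j * 2 ^ i + j') c zc : ℝ) < P.cap * P.La (h - i + c) := by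
    rw [e, La]
    exact_mod_cast h1
  rcases min_le_iff.1 h2 with h4 | h4
  · exact h4
  · exact absurd h3 (not_lt.2 h4)

theorem SmI_inv_term (hT : P.Top ms Nb Nt Pt K h j c y) {e j' : ℕ} (he : e + 1 ≤ P.d)
    (hj : j' < 2 ^ (P.d - (e + 1))) (ht : P.termAt h c (P.ntG Nt h j c y) y (P.d - (e + 1)) j') :
    P.LsvInv ms Nt Pt β h j c y (e + 1) j' := by
  have hd := hT.wd.dle
  obtain ⟨G0, G1⟩ := SmI_par3 hT.ok
  have hε : (0 : ℝ) ≤ (2 ^ (e + 1 + 1) - 2) * P.ups ^ 2 * P.La (h + c - P.d) :=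
    mul_nonneg (mul_nonneg (SmI_two_pow _) (sq_nonneg _)) (SmI_La_pos _).le
  have hm : P.La (h + c - P.d) ≤ P.mass h c (P.ntG Nt h j c y) y (e + 1) j' := by
    unfold La
    exact_mod_cast Lam_le_mass _ _
  have hL := SmI_La_pos (P := P) (h + c - P.d)
  have hdst : ∀ z, P.InA (h + c) (P.cen h c (P.ntG Nt h j c y) y (P.d - (e + 1)) j').1 z →
      (dst z (P.cen h c (P.ntG Nt h j c y) y (P.d - (e + 1)) j').1 : ℝ) ≤
        P.Gq * P.mass h c (P.ntG Nt h j c y) y (e + 1) j' := by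
    intro z hz
    have h1 : (dst z (P.cen h c (P.ntG Nt h j c y) y (P.d - (e + 1)) j').1 : ℝ) ≤
        P.Gq * P.La (h + c - P.d) / 2 := by
      unfold La
      exact_mod_cast hz.dst_le (by omega)
    nlinarith
  have hq : (0 : ℝ) ≤ ((e + 1 : ℕ) : ℝ) / P.d := by positivity
  refine ⟨fun z hz k hk => ?_, fun z hz k hk => ?_, fun z z' hz hz' k hk => ?_,
    fun z z' hz hz' k hk k' hk' => ?_⟩
  · have h1 := term_val hT (by omega) hj ht
    have h2 : P.VV ms (h - (P.d - (e + 1))) (j * 2 ^ (P.d - (e + 1)) + j') z ≤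
        P.VV ms (h - (P.d - (e + 1))) (j * 2 ^ (P.d - (e + 1)) + j')
          (P.cen h c (P.ntG Nt h j c y) y (P.d - (e + 1)) j').1 +
          dst z (P.cen h c (P.ntG Nt h j c y) y (P.d - (e + 1)) j').1 := by
      unfold VV
      exact_mod_cast V_lip _ _ _ _
    rw [lsG, SmI_term ht, show h - P.d + (e + 1) = h - (P.d - (e + 1)) by omega]
    push_cast
    have h3 : (0 : ℝ) ≤ dst z (P.cen h c (P.ntG Nt h j c y) y (P.d - (e + 1)) j').1 := Nat.cast_nonneg _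
    rcases min_le_iff.1 h1 with h4 | h4
    · linarith [min_le_left (P.VV ms (h - (P.d - (e + 1))) (j * 2 ^ (P.d - (e + 1)) + j') z) (P.X : ℝ)]
    · linarith [min_le_right (P.VV ms (h - (P.d - (e + 1))) (j * 2 ^ (P.d - (e + 1)) + j') z) (P.X : ℝ)]
  · rw [lsG, SmI_term ht, SmI_term ht]
    linarith
  · rw [lsG, SmI_term ht, SmI_term ht, mul_div_assoc]
    have h1 := hdst z hz
    have h3 : (0 : ℝ) ≤ dst z' (P.cen h c (P.ntG Nt h j c y) y (P.d - (e + 1)) j').1 := Nat.cast_nonneg _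
    have h4 := mul_nonneg hq (mul_nonneg G0.le (hL.le.trans hm))
    have h5 := mul_nonneg G0.le (hL.le.trans hm)
    rw [Rat.cast_add, Rat.cast_add, Rat.cast_natCast, Rat.cast_natCast]
    linarith
  · rw [lsG, SmI_term ht, SmI_term ht]
    have h1 := hdst z hz
    have h3 : (0 : ℝ) ≤ dst z' (P.cen h c (P.ntG Nt h j c y) y (P.d - (e + 1)) j').1 := Nat.cast_nonneg _
    have h4 := mul_nonneg hq (hL.le.trans hm)
    have h5 := mul_le_mul_of_nonneg_right G1 (hL.le.trans hm)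
    rw [Rat.cast_add, Rat.cast_add, Rat.cast_natCast, Rat.cast_natCast]
    linarith

theorem SmI_inv_node (hT : P.Top ms Nb Nt Pt K h j c y) (hβ : β ≤ P.M)
    (hen : P.enab h c (P.ntG Nt h j c y) y) {e j' : ℕ} (he : e + 1 ≤ P.d)
    (hj : j' < 2 ^ (P.d - (e + 1)))
    (ha : (P.cen h c (P.ntG Nt h j c y) y (P.d - (e + 1)) j').2 = true)
    (ht : ¬ P.termAt h c (P.ntG Nt h j c y) y (P.d - (e + 1)) j')
    (IL : P.LsvInv ms Nt Pt β h j c y e (2 * j')) (IR : P.LsvInv ms Nt Pt β h j c y e (2 * j' + 1)) :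
    P.LsvInv ms Nt Pt β h j c y (e + 1) j' := by
  have hd := hT.wd.dle
  obtain ⟨G0, G1⟩ := SmI_par3 hT.ok
  have p1 := SmI_par1 hT.ok
  have p2 := SmI_par2 hT.ok
  have hd0 : (0 : ℝ) < P.d := by exact_mod_cast hT.ok.d_pos
  have hd1 : ((e : ℝ) + 1) ≤ P.d := by exact_mod_cast he
  have hi : P.d - e = P.d - (e + 1) + 1 := by omega
  have cl := cen_left ha ht
  have cr := cen_right ha ht
  rw [← hi] at cl cr
  have hA := List.ne_nil_of_mem (midAt_mem_acts (nt := P.ntG Nt h j c y) hT.hy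
    (show P.d - (e + 1) < P.d by omega) j')
  have close := fun z hz k (hk : k < P.M) => lsv_succ_close (z := z) (k := k)
    (leaf := P.leafG Nt Pt β h j c y) hT.ok hT.wd.nt hT.hy hen
    (fun i j'' z => abs_le.2 ⟨le_trans (neg_nonpos.2 (Nat.cast_nonneg _))
      (ntG_mem hT.sa hT.wd i j'' c z).1, (ntG_mem hT.sa hT.wd i j'' c z).2⟩)
    (fun k' hk' j'' hj'' ha'' z hz => bot_abs hT hβ hen hj'' ha'' hz (lt_of_le_of_lt hk' hk))
    (show e < P.d by omega) hj ha ht hz (h + c - P.d)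
  have hms : (P.mass h c (P.ntG Nt h j c y) y (e + 1) j' : ℝ) =
      P.mass h c (P.ntG Nt h j c y) y e (2 * j') + P.mass h c (P.ntG Nt h j c y) y e (2 * j' + 1) := by
    exact_mod_cast mass_succ (show e < P.d by omega) hd j'
  have hm : P.La (h + c - P.d) ≤ P.mass h c (P.ntG Nt h j c y) y (e + 1) j' := by
    unfold La
    exact_mod_cast Lam_le_mass _ _
  have hL := SmI_La_pos (P := P) (h + c - P.d)
  have hη0 : (0 : ℝ) < P.eta := by
    unfold eta
    positivity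
  set A := P.acts (h + c) (P.midAt h c (P.ntG Nt h j c y) y (P.d - (e + 1)) j') with hAd
  set m : ℝ := (P.mass h c (P.ntG Nt h j c y) y (e + 1) j' : ℝ) with hmd
  have hm0 : 0 < m := hL.trans_le hm
  have inL : ∀ z, P.InA (h + c) (P.cen h c (P.ntG Nt h j c y) y (P.d - (e + 1)) j').1 z → ∀ a ∈ A,
      P.InA (h + c) (P.cen h c (P.ntG Nt h j c y) y (P.d - e) (2 * j')).1 (z.1, a) := by
    intro z hz a ha
    rw [cl]
    exact ⟨hz.1, ha⟩
  have inR : ∀ z, P.InA (h + c) (P.cen h c (P.ntG Nt h j c y) y (P.d - (e + 1)) j').1 z → ∀ a ∈ A,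
      P.InA (h + c) (P.cen h c (P.ntG Nt h j c y) y (P.d - e) (2 * j' + 1)).1 (a, z.2) := by
    intro z hz a ha
    rw [cr]
    exact ⟨ha, hz.2⟩
  set q : St → ℕ → ℕ → ℝ := fun z k a => (P.lsG Nt Pt β h j c y e (2 * j') (z.1, a) k : ℝ) +
    P.lsG Nt Pt β h j c y e (2 * j' + 1) (a, z.2) k with hqd
  set ε : ℝ := P.ups ^ 2 * P.La (h + c - P.d) with hεd
  have hη : (0 : ℝ) < P.eta / m := div_pos hη0 hm0
  have close' : ∀ z, P.InA (h + c) (P.cen h c (P.ntG Nt h j c y) y (P.d - (e + 1)) j').1 z →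
      ∀ k < P.M, |(P.lsG Nt Pt β h j c y (e + 1) j' z k : ℝ) - Phi (P.eta / m) A (q z) k (q z k)| ≤ ε := by
    intro z hz k hk
    have := close z hz k hk
    simp only [Rat.cast_add, Rat.cast_div] at this
    exact this
  clear close
  have qosc : ∀ z z', P.InA (h + c) (P.cen h c (P.ntG Nt h j c y) y (P.d - (e + 1)) j').1 z →
      P.InA (h + c) (P.cen h c (P.ntG Nt h j c y) y (P.d - (e + 1)) j').1 z' → ∀ k < P.M,
      ∀ a ∈ A, ∀ b ∈ A, q z k a ≤ q z' k b + (4 + 2 * e / P.d) * P.Gq * m := by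
    intro z z' hz hz' k hk a ha b hb
    have h1 := IL.osc _ _ (inL z hz a ha) (inL z' hz' b hb) k hk
    have h2 := IR.osc _ _ (inR z hz a ha) (inR z' hz' b hb) k hk
    simp only [hqd]
    rw [hms]
    linarith
  have qg : ∀ z, P.InA (h + c) (P.cen h c (P.ntG Nt h j c y) y (P.d - (e + 1)) j').1 z → ∀ k < P.M,
      ∀ k' < k, ∀ a ∈ A, ∀ b ∈ A, q z k' a ≤ q z k' b + 6 * P.Gq * m := by
    intro z hz k hk k' hk' a ha b hb
    refine (qosc z z hz hz k' (hk'.trans hk) a ha b hb).trans (add_le_add_right ?_ _)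
    have : 2 * (e : ℝ) / P.d ≤ 2 := by
      rw [div_le_iff₀ hd0]
      linarith
    gcongr
    linarith
  have hd1' : (1 : ℝ) ≤ P.d := by
    have : (0 : ℝ) ≤ e := Nat.cast_nonneg _
    linarith
  have hηg : P.eta / m * (6 * P.Gq * m) ≤ 1 := by
    rw [show P.eta / m * (6 * P.Gq * m) = 6 * (P.eta * P.Gq) by field_simp]
    have := mul_pos hη0 G0
    nlinarith
  have hηg2 : P.eta / m * (6 * P.Gq * m) ^ 2 + 2 * ε ≤ 2 / P.d * P.Gq * m := by
    rw [show P.eta / m * (6 * P.Gq * m) ^ 2 = 36 * P.eta * P.Gq * (P.Gq * m) by field_simp; ring,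
      show 2 / (P.d : ℝ) * P.Gq * m = (P.Gq * m + P.Gq * m) / P.d by ring, le_div_iff₀ hd0]
    have h1 := mul_le_mul_of_nonneg_right p1 (mul_pos G0 hm0).le
    have h2 := mul_le_mul p2 hm hL.le G0.le
    rw [hεd]
    linarith
  have hε0 : 0 ≤ ε := mul_nonneg (sq_nonneg _) hL.le
  refine ⟨fun z hz k hk => ?_, fun z hz k hk => ?_, fun z z' hz hz' k hk => ?_,
    fun z z' hz hz' k hk k' hk' => ?_⟩
  · have h1 := (abs_le.1 (close' z hz k hk)).1
    have h2 := le_Phi (q := q z) (v := q z k) hη hA k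
      (lo := min (P.VV ms (h - P.d + (e + 1)) (j * 2 ^ (P.d - (e + 1)) + j') z) P.X -
        2 * ((2 ^ (e + 1) - 2) * ε)) fun a ha => by
      have h3 := IL.val _ (inL z hz a ha) k hk
      have h4 := IR.val _ (inR z hz a ha) k hk
      have h5 : P.VV ms (h - P.d + (e + 1)) (j * 2 ^ (P.d - (e + 1)) + j') z ≤
          P.VV ms (h - P.d + e) (j * 2 ^ (P.d - e) + 2 * j') (z.1, a) +
            P.VV ms (h - P.d + e) (j * 2 ^ (P.d - e) + (2 * j' + 1)) (a, z.2) := by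
        have := V_split_le (X := P.X) (ms := ms) (h - P.d + e) (j * 2 ^ (P.d - (e + 1)) + j') z
          (mem_acts.1 ha).2.1
        rw [hi, show j * 2 ^ (P.d - (e + 1) + 1) + 2 * j' = 2 * (j * 2 ^ (P.d - (e + 1)) + j') by ring,
          show j * 2 ^ (P.d - (e + 1) + 1) + (2 * j' + 1) = 2 * (j * 2 ^ (P.d - (e + 1)) + j') + 1 by ring]
        unfold VV
        exact_mod_cast this
      have h6 : 0 ≤ P.VV ms (h - P.d + e) (j * 2 ^ (P.d - e) + 2 * j') (z.1, a) := Nat.cast_nonneg _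
      have h7 : 0 ≤ P.VV ms (h - P.d + e) (j * 2 ^ (P.d - e) + (2 * j' + 1)) (a, z.2) := Nat.cast_nonneg _
      have h8 : (0 : ℝ) ≤ P.X := Nat.cast_nonneg _
      have h9 := min_le_left (P.VV ms (h - P.d + (e + 1)) (j * 2 ^ (P.d - (e + 1)) + j') z) (P.X : ℝ)
      have h10 := min_le_right (P.VV ms (h - P.d + (e + 1)) (j * 2 ^ (P.d - (e + 1)) + j') z) (P.X : ℝ)
      rw [mul_assoc, ← hεd] at h3 h4
      simp only [hqd]
      rcases min_cases (P.VV ms (h - P.d + e) (j * 2 ^ (P.d - e) + 2 * j') (z.1, a)) (P.X : ℝ) with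
        h11 | h11 <;>
      rcases min_cases (P.VV ms (h - P.d + e) (j * 2 ^ (P.d - e) + (2 * j' + 1)) (a, z.2)) (P.X : ℝ) with
        h12 | h12 <;> rw [h11.1] at h3 <;> rw [h12.1] at h4 <;> linarith
    rw [mul_assoc, ← hεd, pow_succ (2 : ℝ) (e + 1)]
    linarith
  · have h1 := (abs_le.1 (close' z hz (k + 1) hk)).2
    have h2 := (abs_le.1 (close' z hz k (by omega))).1
    have h3 := Phi_succ_le (q := q z) hη hA k
    have h4 := Phi_mono (η := P.eta / m) (q := q z) (v := q z (k + 1)) (v' := q z k) hA (k + 1)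
      (ξ := 2 * ((2 ^ (e + 1) - 2) * ε)) fun a ha => by
      have h5 := IL.mono _ (inL z hz a ha) k hk
      have h6 := IR.mono _ (inR z hz a ha) k hk
      rw [mul_assoc, ← hεd] at h5 h6
      simp only [hqd]
      linarith
    rw [mul_assoc, ← hεd, pow_succ (2 : ℝ) (e + 1)]
    linarith
  · have h1 := (abs_le.1 (close' z hz k hk)).2
    have h2 := (abs_le.1 (close' z' hz' k hk)).1
    have h3 := SmI_cmp (q := q z) (q' := q z') (m' := k) hη hA (qg z hz k hk) hηg (qosc z z' hz hz' k hk)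
    have e1 : (4 + 2 * ((e + 1 : ℕ) : ℝ) / P.d) * P.Gq * m =
        (4 + 2 * e / P.d) * P.Gq * m + 2 / P.d * P.Gq * m := by
      push_cast
      ring
    rw [e1]
    linarith
  · have h1 := (abs_le.1 (close' z hz k hk)).2
    have h2 := (abs_le.1 (close' z' hz' k' hk')).1
    have h3 := SmI_cmp (q := q z) (q' := q z') (v := q z k) (v' := q z' k') (m' := k')
      (ξ := (5 + e / P.d) * m) hη hA (qg z hz k hk) hηg fun a ha b hb => by
      have h4 := IL.rng _ _ (inL z hz a ha) (inL z' hz' b hb) k hk k' hk'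
      have h5 := IR.rng _ _ (inR z hz a ha) (inR z' hz' b hb) k hk k' hk'
      simp only [hqd]
      rw [hms]
      linarith
    have e1 : (5 + ((e + 1 : ℕ) : ℝ) / P.d) * m = (5 + e / P.d) * m + 2 / P.d * (1 / 2) * m := by
      push_cast
      ring
    have h6 : 2 / (P.d : ℝ) * P.Gq * m ≤ 2 / P.d * (1 / 2) * m := by gcongr
    rw [e1]
    linarith

/-- Induction on `e`.  Bottom: `bot_*`.  Terminal node: constant in `k`, Lipschitz in `z`
(`InA.dst_le`, `Lam_le_mass`).  Inner node: `lsv_succ_close` (with `u = h + c - d`), `cen_left`,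
`cen_right`, `mass_succ`, then `le_Phi` + `V_split_le` (val), `Phi_mono` + `Phi_succ_le` (mono),
`Phi_le` with `g = 6 G mass`, `η g² = 36 η₀ G² mass ≤ G mass / d`, and `le_Phi` (osc, rng). -/
theorem lsv_inv (hT : P.Top ms Nb Nt Pt K h j c y) (hβ : β ≤ P.M)
    (hen : P.enab h c (P.ntG Nt h j c y) y) {e j' : ℕ} (he : e ≤ P.d) (hj : j' < 2 ^ (P.d - e))
    (ha : (P.cen h c (P.ntG Nt h j c y) y (P.d - e) j').2 = true) :
    P.LsvInv ms Nt Pt β h j c y e j' := by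
  induction e generalizing j' with
  | zero =>
    refine ⟨fun z hz k hk => ?_, fun z hz k hk => ?_, fun z z' hz hz' k hk => ?_,
      fun z z' hz hz' k hk k' hk' => ?_⟩
    · have := bot_val hT hβ hen hj ha hz hk
      rw [show ((2 : ℝ) ^ (0 + 1) - 2) = 0 by norm_num, zero_mul, zero_mul, sub_zero]
      exact this
    · have := bot_mono hT hβ hen hj ha hz hk
      rw [show ((2 : ℝ) ^ (0 + 1) - 2) = 0 by norm_num, zero_mul, zero_mul, add_zero]
      exact Rat.cast_le.2 this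
    · have := bot_osc hT hβ hen hj ha hz hz' hk
      rw [Nat.cast_zero, mul_zero, zero_div, add_zero]
      exact this
    · have := bot_rng hT hβ hen hj ha hz hz' hk hk'
      rw [Nat.cast_zero, zero_div, add_zero]
      exact this
  | succ e ih =>
    by_cases ht : P.termAt h c (P.ntG Nt h j c y) y (P.d - (e + 1)) j'
    · exact SmI_inv_term hT he hj ht
    have hi : P.d - e = P.d - (e + 1) + 1 := by omega
    refine SmI_inv_node hT hβ hen he hj ha ht (ih (by omega) ?_ ?_) (ih (by omega) ?_ ?_)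
    · rw [hi, pow_succ]
      omega
    · rw [hi, cen_left ha ht]
    · rw [hi, pow_succ]
      omega
    · rw [hi, cen_right ha ht]

theorem SmI_err (hT : P.Top ms Nb Nt Pt K h j c y) :
    ((2 : ℝ) ^ (P.d + 1) - 2) * P.ups ^ 2 * P.La (h + c - P.d) ≤ P.ups * P.La (h + c) := by
  have hd := hT.wd.dle
  obtain ⟨u0, u1⟩ := SmI_par4 hT.ok
  have hL := SmI_La_pos (P := P) (h + c - P.d)
  have e : P.La (h + c) = 2 ^ P.d * P.La (h + c - P.d) := by
    have := Lam_add (P := P) (h + c - P.d) P.d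
    rw [show h + c - P.d + P.d = h + c by omega] at this
    unfold La
    exact_mod_cast this
  rw [e, pow_succ]
  have h1 : (0 : ℝ) < 2 ^ P.d := by positivity
  have h2 := mul_pos u0 hL
  have h3 := mul_le_mul_of_nonneg_right u1 (mul_pos h1 h2).le
  have h4 := mul_pos u0 h2
  linarith

theorem SmI_top (hT : P.Top ms Nb Nt Pt K h j c y) (hβ : β ≤ P.M)
    (hen : P.enab h c (P.ntG Nt h j c y) y) : P.LsvInv ms Nt Pt β h j c y P.d 0 ∧
      P.InA (h + c) (P.cen h c (P.ntG Nt h j c y) y (P.d - P.d) 0).1 y := by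
  refine ⟨lsv_inv hT hβ hen le_rfl (Nat.two_pow_pos _) ?_, ?_⟩
  · rw [Nat.sub_self]
    rfl
  · rw [Nat.sub_self]
    exact cen_inA (nt := P.ntG Nt h j c y) hT.hy (Nat.zero_le _) 0

theorem sm_ge (hT : P.Top ms Nb Nt Pt K h j c y) (hβ : β ≤ P.M) {k : ℕ} (hk : k < P.M) :
    min (min (P.VV ms h j y) P.X) (3 * P.La (h + c)) - P.ups * P.La (h + c) ≤
      P.SmM Nt Pt β h j c y k := by
  obtain ⟨u0, u1⟩ := SmI_par4 hT.ok
  have hL := SmI_La_pos (P := P) (h + c)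
  by_cases hen : P.enab h c (P.ntG Nt h j c y) y
  · obtain ⟨h1, h2⟩ := SmI_top hT hβ hen
    have h3 := h1.val y h2 k hk
    have h4 := SmI_err hT
    rw [Nat.sub_add_cancel hT.wd.dle, Nat.sub_self, pow_zero, mul_one, add_zero] at h3
    rw [show P.SmM Nt Pt β h j c y k = P.lsG Nt Pt β h j c y P.d 0 y k from if_pos hen]
    linarith [min_le_left (min (P.VV ms h j y) P.X) (3 * P.La (h + c))]
  · rw [show P.SmM Nt Pt β h j c y k = 8 * P.Lam (h + c) from if_neg hen]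
    push_cast
    have := mul_pos u0 hL
    have h1 := min_le_right (min (P.VV ms h j y) P.X) (3 * P.La (h + c))
    unfold La at *
    linarith

theorem sm_mono (hT : P.Top ms Nb Nt Pt K h j c y) (hβ : β ≤ P.M) {k : ℕ} (hk : k + 1 < P.M) :
    (P.SmM Nt Pt β h j c y (k + 1) : ℝ) ≤ P.SmM Nt Pt β h j c y k + P.ups * P.La (h + c) := by
  obtain ⟨u0, u1⟩ := SmI_par4 hT.ok
  have hL := SmI_La_pos (P := P) (h + c)
  by_cases hen : P.enab h c (P.ntG Nt h j c y) y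
  · obtain ⟨h1, h2⟩ := SmI_top hT hβ hen
    have h3 := h1.mono y h2 k hk
    have h4 := SmI_err hT
    rw [show P.SmM Nt Pt β h j c y k = P.lsG Nt Pt β h j c y P.d 0 y k from if_pos hen,
      show P.SmM Nt Pt β h j c y (k + 1) = P.lsG Nt Pt β h j c y P.d 0 y (k + 1) from if_pos hen]
    linarith
  · rw [show P.SmM Nt Pt β h j c y k = 8 * P.Lam (h + c) from if_neg hen,
      show P.SmM Nt Pt β h j c y (k + 1) = 8 * P.Lam (h + c) from if_neg hen]
    have := mul_pos u0 hL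
    linarith

end Pa

end Crest.Agent.R288
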