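/-
R288/PreI: the soft clipping; the invariants pass to the next super-level.
-/
import Crest.Agent.R288.SmI
import Crest.Agent.R288.BigK

set_option autoImplicit false

namespace Crest.Agent.R288

open Finset

namespace Pa

variable {P : Pa} {ms : ℕ → ℕ → Bool} {Nb Nt : Fam} {Pt : ℕ → ℕ → Fam} {K : ℝ} {β h j c : ℕ}
  {x : St}

/-- The Lipschitz envelope of round `k`. -/
def envM (P : Pa) (Nt : Fam) (Pt : ℕ → ℕ → Fam) (β h j c : ℕ) (x : St) (k : ℕ) : ℚ :=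
  minL ((P.box (h + c) (P.rad (h + c) 2) x).map fun y => P.SmM Nt Pt β h j c y k + dst x y)
    (P.KnM Nt Pt β h j c x k)

theorem Top.move (hT : P.Top ms Nb Nt Pt K h j c x) {y : St} (hy : P.inW (h + c) y) :
    P.Top ms Nb Nt Pt K h j c y := ⟨hT.ok, hT.sa, hT.wd, hT.inv, hy⟩

theorem length_trmA_le (hP : P.OK) (u : ℕ) (x : St) :
    8 * ((P.trmA u x).length + 1) ≤ 2 ^ (2 * P.kap + 12) := by
  have _ := hP
  have h1 := length_box_le (P := P) u 2 x
  have h2 : 0 < 2 ^ P.kap := Nat.two_pow_pos _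
  simp only [trmA, List.length_cons, List.length_map]
  rw [pow_add] at h1
  rw [pow_add, pow_mul']
  nlinarith

theorem PreI_pp {a b c d : ℕ} (h : a + d ≤ c + b) : (2 : ℝ) ^ a / 2 ^ b ≤ 2 ^ c / 2 ^ d := by
  rw [div_le_div_iff₀ (by positivity) (by positivity), ← pow_add, ← pow_add]
  exact pow_le_pow_right₀ one_le_two h

/-- The inequalities between the small parameters. -/
structure PreI_Par (P : Pa) : Prop where
  u0 : (0 : ℝ) < P.ups
  uz : 8 * (P.ups : ℝ) ≤ P.zeta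
  M1 : (1 : ℝ) ≤ P.M
  MM : 8 * ((P.M : ℝ) * P.M * P.zeta) ≤ P.Gq
  G1 : 16 * (P.Gq : ℝ) ≤ 1
  e0 : (0 : ℝ) < P.eta
  eG : 16 * ((P.eta : ℝ) * P.Gq) ≤ 1
  r1 : 80 * ((P.eta : ℝ) * P.Gq) ≤ P.rho
  r2 : 8 / (P.eta : ℝ) ≤ P.rho
  r3 : 16 * (P.Gq : ℝ) ≤ P.rho

theorem PreI_par (hP : P.OK) : PreI_Par P := by
  have h1 := hP.wx_le
  have h2 := hP.p_ge
  have hM : (P.M : ℝ) ≤ 2 ^ P.Lx := by exact_mod_cast (Wf_M hP).le
  have hM1 : (1 : ℝ) ≤ P.M := by exact_mod_cast hP.M_pos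
  refine ⟨?_, ?_, hM1, ?_, ?_, ?_, ?_, ?_, ?_, ?_⟩ <;>
    simp only [ups, zeta, Gq, eta, rho] <;> push_cast
  · positivity
  · calc (8 : ℝ) * (1 / 2 ^ (8 * P.Lx)) = 2 ^ 3 / 2 ^ (8 * P.Lx) := by ring
      _ ≤ 2 ^ 0 / 2 ^ (4 * P.Lx) := PreI_pp (by omega)
      _ = _ := by rw [pow_zero]
  · calc (8 : ℝ) * (P.M * P.M * (1 / 2 ^ (4 * P.Lx))) ≤
          8 * (2 ^ P.Lx * 2 ^ P.Lx * (1 / 2 ^ (4 * P.Lx))) := by gcongr
      _ = 2 ^ (3 + P.Lx + P.Lx) / 2 ^ (4 * P.Lx) := by rw [pow_add, pow_add]; ring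
      _ ≤ 2 ^ 0 / 2 ^ (13 * P.p) := PreI_pp (by omega)
      _ = _ := by rw [pow_zero]
  · calc (16 : ℝ) * (1 / 2 ^ (13 * P.p)) = 2 ^ 4 / 2 ^ (13 * P.p) := by ring
      _ ≤ 2 ^ 0 / 2 ^ 0 := PreI_pp (by omega)
      _ = _ := by norm_num
  · positivity
  · calc (16 : ℝ) * (2 ^ (7 * P.p) * (1 / 2 ^ (13 * P.p))) = 2 ^ (4 + 7 * P.p) / 2 ^ (13 * P.p) := by
          rw [pow_add]; ring
      _ ≤ 2 ^ 0 / 2 ^ 0 := PreI_pp (by omega)
      _ = _ := by norm_num
  · calc (80 : ℝ) * (2 ^ (7 * P.p) * (1 / 2 ^ (13 * P.p))) ≤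
          128 * (2 ^ (7 * P.p) * (1 / 2 ^ (13 * P.p))) := by gcongr; norm_num
      _ = 2 ^ (7 + 7 * P.p) / 2 ^ (13 * P.p) := by rw [pow_add]; ring
      _ ≤ 2 ^ 2 / 2 ^ (5 * P.p) := PreI_pp (by omega)
      _ = _ := by norm_num
  · calc (8 : ℝ) / 2 ^ (7 * P.p) = 2 ^ 3 / 2 ^ (7 * P.p) := by norm_num
      _ ≤ 2 ^ 2 / 2 ^ (5 * P.p) := PreI_pp (by omega)
      _ = _ := by norm_num
  · calc (16 : ℝ) * (1 / 2 ^ (13 * P.p)) = 2 ^ 4 / 2 ^ (13 * P.p) := by ring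
      _ ≤ 2 ^ 2 / 2 ^ (5 * P.p) := PreI_pp (by omega)
      _ = _ := by norm_num

/-- The same inequalities multiplied by a scale `Λ`. -/
theorem PreI_scaled (hP : P.OK) (u : ℕ) : 0 < P.La u ∧ 0 < (P.ups : ℝ) * P.La u ∧
    8 * ((P.ups : ℝ) * P.La u) ≤ P.zeta * P.La u ∧
    (P.zeta : ℝ) * P.La u ≤ P.M * (P.zeta * P.La u) ∧
    (P.M : ℝ) * (P.zeta * P.La u) ≤ P.M * (P.M * (P.zeta * P.La u)) ∧
    8 * ((P.M : ℝ) * (P.M * (P.zeta * P.La u))) ≤ P.Gq * P.La u ∧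
    16 * ((P.Gq : ℝ) * P.La u) ≤ P.La u := by
  have hp := PreI_par hP
  have hL := La_pos (P := P) u
  have h0 := mul_pos hp.u0 hL
  have h1 := mul_le_mul_of_nonneg_right hp.uz hL.le
  have h2 := mul_le_mul_of_nonneg_right hp.MM hL.le
  have h3 := mul_le_mul_of_nonneg_right hp.G1 hL.le
  have h4 : (P.zeta : ℝ) * P.La u ≤ P.M * (P.zeta * P.La u) :=
    le_mul_of_one_le_left (by linarith) hp.M1
  have h5 : (P.M : ℝ) * (P.zeta * P.La u) ≤ P.M * (P.M * (P.zeta * P.La u)) :=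
    le_mul_of_one_le_left (by linarith) hp.M1
  exact ⟨hL, h0, by linarith, h4, h5, by linarith, by linarith⟩

theorem PreI_off (u m : ℕ) : (P.off u m : ℝ) = ((P.M - m : ℕ) : ℝ) * (P.zeta * P.La u) := by
  simp only [off, La]
  push_cast
  ring

theorem PreI_off_ge (hP : P.OK) (u : ℕ) {m : ℕ} (hm : m < P.M) :
    (P.zeta : ℝ) * P.La u ≤ P.off u m := by
  obtain ⟨s0, s1, s2, -⟩ := PreI_scaled hP u
  rw [PreI_off]
  exact le_mul_of_one_le_left (by linarith) (by exact_mod_cast (by omega : 1 ≤ P.M - m))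

theorem PreI_off_le (hP : P.OK) (u m : ℕ) : (P.off u m : ℝ) ≤ P.M * (P.zeta * P.La u) := by
  obtain ⟨s0, s1, s2, -⟩ := PreI_scaled hP u
  rw [PreI_off]
  exact mul_le_mul_of_nonneg_right (by exact_mod_cast Nat.sub_le _ _) (by linarith)

theorem PreI_off_succ (u : ℕ) {m : ℕ} (hm : m < P.M) :
    (P.off u m : ℝ) = P.off u (m + 1) + P.zeta * P.La u := by
  rw [PreI_off, PreI_off, show P.M - m = P.M - (m + 1) + 1 by omega]
  push_cast
  ring

theorem PreI_theta (u : ℕ) : (0 : ℝ) < P.theta / P.La u := by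
  have := La_pos (P := P) u
  simp only [theta]
  push_cast
  positivity

/-- The numerical error of the soft clipping. -/
theorem PreI_err (hP : P.OK) (u : ℕ) (x : St) (f : ℕ × St → ℚ) :
    |(sminQ P.s (P.theta / P.Lam u) (P.trmA u x) f : ℝ) -
      smin (P.theta / P.La u) (P.trmA u x) fun a => f a| ≤ P.ups * P.La u / 2 := by
  have h1 := length_trmA_le hP u x
  have hL := La_pos (P := P) u
  have h2 : (P.trmA u x).length + 1 ≤ 2 ^ (2 * P.kap + 9) := by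
    rw [show 2 * P.kap + 12 = 2 * P.kap + 9 + 3 by ring, pow_add] at h1
    omega
  have h3 : 12 * P.Lx ≤ P.kap := Nat.le_add_left _ _
  have h4 := Wf_Lx hP
  have h5 : 4 * P.kap + 20 * P.Lx ≤ P.s := by unfold s; omega
  have h6 : (P.trmA u x).length ≤ 2 ^ P.s :=
    ((Nat.le_succ _).trans h2).trans (Nat.pow_le_pow_right two_pos (by omega))
  have h7 := abs_sminQ_sub_le (s := P.s) (η := P.theta / P.Lam u) (A := P.trmA u x) (x := f)
    (div_pos (by unfold theta; positivity) (Lam_pos u)) (by simp [trmA]) h6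
  have e : ((P.theta / P.Lam u : ℚ) : ℝ) = P.theta / P.La u := by
    rw [Rat.cast_div]
    rfl
  rw [e] at h7
  refine h7.trans ?_
  have h8 : ((P.trmA u x).length + 1 : ℝ) ≤ 2 ^ (2 * P.kap + 9) := by exact_mod_cast h2
  have h9 : (2 : ℝ) ^ (2 * P.kap + 9) / 2 ^ (P.s + 16 * P.p) ≤ 2 ^ 0 / 2 ^ (8 * P.Lx + 1) :=
    PreI_pp (by omega)
  simp only [theta, ups]
  push_cast
  calc ((P.trmA u x).length + 1 : ℝ) / 2 ^ P.s / (2 ^ (16 * P.p) / P.La u) ≤
        2 ^ (2 * P.kap + 9) / 2 ^ P.s / (2 ^ (16 * P.p) / P.La u) := by gcongr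
    _ = 2 ^ (2 * P.kap + 9) / 2 ^ (P.s + 16 * P.p) * P.La u := by
        rw [pow_add _ P.s]
        field_simp
    _ ≤ 2 ^ 0 / 2 ^ (8 * P.Lx + 1) * P.La u := by gcongr
    _ = _ := by rw [pow_succ]; ring

/-- The handicapped terms hardly matter. -/
theorem PreI_tail (hP : P.OK) (u : ℕ) {n : ℕ} (hn : 8 * n ≤ 2 ^ (2 * P.kap + 12)) :
    n * Real.exp (-(P.theta / P.La u) * (P.Gq * P.La u)) / (P.theta / P.La u) ≤
      P.ups * P.La u / 2 := by
  have hL := La_pos (P := P) u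
  have h2 : n ≤ 2 ^ (2 * P.kap + 9) := by
    rw [show 2 * P.kap + 12 = 2 * P.kap + 9 + 3 by ring, pow_add] at hn
    omega
  have h3 : 12 * P.Lx ≤ P.kap := Nat.le_add_left _ _
  have h4 := hP.kap_le
  have h5 : 2 ^ (2 * P.p) ≤ 2 ^ (3 * P.p) := Nat.pow_le_pow_right two_pos (by omega)
  have e : -(P.theta / P.La u) * (P.Gq * P.La u) = -((2 ^ (3 * P.p) : ℕ) : ℝ) := by
    simp only [theta, Gq]
    push_cast
    rw [show 16 * P.p = 3 * P.p + 13 * P.p by ring, pow_add]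
    field_simp
  have h6 : Real.exp (-((2 ^ (3 * P.p) : ℕ) : ℝ)) ≤ 1 / 2 ^ (2 ^ (3 * P.p)) := by
    rw [Real.exp_neg, one_div]
    refine inv_anti₀ (by positivity) ?_
    rw [← mul_one ((2 ^ (3 * P.p) : ℕ) : ℝ), Real.exp_nat_mul]
    refine pow_le_pow_left₀ zero_le_two ?_ _
    linarith [Real.add_one_le_exp 1]
  have h8 : (n : ℝ) ≤ 2 ^ (2 * P.kap + 9) := by exact_mod_cast h2
  have h9 : (2 : ℝ) ^ (2 * P.kap + 9) / 2 ^ (2 ^ (3 * P.p) + 16 * P.p) ≤ 2 ^ 0 / 2 ^ (8 * P.Lx + 1) :=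
    PreI_pp (by omega)
  rw [e]
  simp only [theta, ups]
  push_cast at h6 ⊢
  calc (n : ℝ) * Real.exp (-2 ^ (3 * P.p)) / (2 ^ (16 * P.p) / P.La u) ≤
        2 ^ (2 * P.kap + 9) * (1 / 2 ^ (2 ^ (3 * P.p))) / (2 ^ (16 * P.p) / P.La u) := by gcongr
    _ = 2 ^ (2 * P.kap + 9) / 2 ^ (2 ^ (3 * P.p) + 16 * P.p) * P.La u := by
        rw [pow_add _ (2 ^ (3 * P.p))]
        field_simp
    _ ≤ 2 ^ 0 / 2 ^ (8 * P.Lx + 1) * P.La u := by gcongr
    _ = _ := by rw [pow_succ]; ring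

theorem PreI_cq_eq (k i : ℕ) : P.cqM Nt Pt β h j c x k i =
    sminQ P.s (P.theta / P.Lam (h + c)) (P.trmA (h + c) x)
      (P.trm (h + c) (fun y => P.SmM Nt Pt β h j c y k) (P.KnM Nt Pt β h j c x k) i x) := rfl

theorem PreI_env_le_kn (k : ℕ) : P.envM Nt Pt β h j c x k ≤ P.KnM Nt Pt β h j c x k :=
  minL_le_default _ _

theorem PreI_env_le_sm (k : ℕ) {y : St} (hy : y ∈ P.box (h + c) (P.rad (h + c) 2) x) :
    P.envM Nt Pt β h j c x k ≤ P.SmM Nt Pt β h j c y k + dst x y :=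
  minL_le_of_mem (List.mem_map.2 ⟨y, hy, rfl⟩)

theorem PreI_env_cases (k : ℕ) : P.envM Nt Pt β h j c x k = P.KnM Nt Pt β h j c x k ∨
    ∃ y ∈ P.box (h + c) (P.rad (h + c) 2) x,
      P.envM Nt Pt β h j c x k = P.SmM Nt Pt β h j c y k + dst x y := by
  rcases minL_mem ((P.box (h + c) (P.rad (h + c) 2) x).map
    fun y => P.SmM Nt Pt β h j c y k + dst x y) (P.KnM Nt Pt β h j c x k) with e | e
  · exact Or.inl e
  · obtain ⟨y, hy, e'⟩ := List.mem_map.1 e
    exact Or.inr ⟨y, hy, e'.symm⟩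

theorem PreI_self_mem {u r : ℕ} (hx : P.inW u x) : x ∈ P.box u r x :=
  mem_box.2 ⟨hx, by simp, by simp⟩

theorem PreI_min_lip (h j : ℕ) (z z' : St) (b : ℝ) :
    min (min (P.VV ms h j z) P.X) b ≤ min (min (P.VV ms h j z') P.X) b + dst z z' := by
  have h1 := VV_lip (P := P) (ms := ms) h j z z'
  have h2 : (0 : ℝ) ≤ dst z z' := Nat.cast_nonneg _
  have h3 := min_le_left (min (P.VV ms h j z) P.X) b
  have h4 := min_le_right (min (P.VV ms h j z) P.X) b
  have h5 := min_le_left (P.VV ms h j z) P.X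
  have h6 := min_le_right (P.VV ms h j z) P.X
  rw [← sub_le_iff_le_add]
  exact le_min (le_min (by linarith) (by linarith)) (by linarith)

theorem PreI_min_nonneg (h j : ℕ) (z : St) (u : ℕ) :
    0 ≤ min (min (P.VV ms h j z) P.X) (3 * P.La u) :=
  le_min (le_min (VV_nonneg h j z) (Nat.cast_nonneg _)) (by linarith [La_pos (P := P) u])

/-- The clipped cost is below each of its terms. -/
theorem PreI_cq_le (hP : P.OK) (k i : ℕ) {a : ℕ × St} (ha : a ∈ P.trmA (h + c) x) :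
    (P.cqM Nt Pt β h j c x k i : ℝ) ≤
      P.trm (h + c) (fun y => P.SmM Nt Pt β h j c y k) (P.KnM Nt Pt β h j c x k) i x a +
        P.ups * P.La (h + c) / 2 := by
  have h1 := (abs_le.1 (PreI_err hP (h + c) x
    (P.trm (h + c) (fun y => P.SmM Nt Pt β h j c y k) (P.KnM Nt Pt β h j c x k) i x))).2
  have h2 := smin_le (x := fun a => ((P.trm (h + c) (fun y => P.SmM Nt Pt β h j c y k)
    (P.KnM Nt Pt β h j c x k) i x a : ℚ) : ℝ)) (PreI_theta (P := P) (h + c)) ha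
  rw [PreI_cq_eq]
  linarith

theorem PreI_pre_eq (h0 : h ≠ 0) (m : ℕ) : P.Pre ms Nt Pt m β h j c x =
    Phi (P.eta / P.La (h + c)) [0, 1] (fun k i => P.cqM Nt Pt β h j c x k i) m
      (fun i => P.cqM Nt Pt β h j c x m i) + P.off (h + c) m := by
  rw [Pre, if_neg h0]

theorem PreI_pre_leaf (m : ℕ) : P.Pre ms Nt Pt m β 0 j c x =
    min (min (P.VV ms 0 j x) P.X) (3 * P.La (0 + c)) + P.off (0 + c) m := by
  rw [Pre, if_pos rfl, zero_add]

theorem Top.PreI_ne (hT : P.Top ms Nb Nt Pt K h j c x) : h ≠ 0 := by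
  have h1 := hT.ok.d_pos
  have h2 := hT.wd.dle
  omega

theorem PreI_eta (hP : P.OK) (u : ℕ) : (0 : ℝ) < P.eta / P.La u :=
  div_pos (PreI_par hP).e0 (La_pos u)

section
variable (hT : P.Top ms Nb Nt Pt K h j c x) (hβ : β ≤ P.M) {k : ℕ} (hk : k < P.M)
include hT hβ hk

theorem env_val : min (min (P.VV ms h j x) P.X) (3 * P.La (h + c)) - P.ups * P.La (h + c) ≤
    P.envM Nt Pt β h j c x k := by
  obtain ⟨s0, s1, -⟩ := PreI_scaled hT.ok (h + c)
  refine Up_le_minL (fun a ha => ?_) ?_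
  · obtain ⟨y, hy, rfl⟩ := List.mem_map.1 ha
    have h1 := sm_ge (hT.move (mem_box.1 hy).1) hβ hk
    have h2 := PreI_min_lip (P := P) (ms := ms) h j x y (3 * P.La (h + c))
    push_cast
    linarith
  · linarith [kn_val hT hβ hk]

/-- As `kn_lip`, with `Sm ≥ -ups Λ` and `env ≤ 3 Λ`. -/
theorem env_lip {x' : St} (hx' : P.inW (h + c) x') :
    P.envM Nt Pt β h j c x k ≤ P.envM Nt Pt β h j c x' k + dst x x' := by
  rcases PreI_env_cases (P := P) (Nt := Nt) (Pt := Pt) (β := β) (h := h) (j := j) (c := c) (x := x') k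
    with e | ⟨y, hy, e⟩
  · rw [e]
    exact (PreI_env_le_kn k).trans (kn_lip hT hβ hx' hk)
  · rw [e]
    have h1 : (dst x y : ℚ) ≤ dst x x' + dst x' y := by exact_mod_cast dst_tri x x' y
    by_cases hb : y ∈ P.box (h + c) (P.rad (h + c) 2) x
    · linarith [PreI_env_le_sm (Nt := Nt) (Pt := Pt) (β := β) (j := j) k hb]
    · have hy' := (mem_box.1 hy).1
      have h2 : ¬ dst x y ≤ P.rad (h + c) 2 := fun h2 => hb (mem_box.2 ⟨hy', by
        simp only [dst, Nat.dist] at h2 ⊢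
        omega⟩)
      rw [le_rad_iff, not_le] at h2
      have h3 := (PreI_env_le_kn k).trans (kn_le_cap hT hβ k)
      have h4 := sm_ge (hT.move hy') hβ hk
      have h5 := PreI_min_nonneg (P := P) (ms := ms) h j y (h + c)
      obtain ⟨s0, s1, s2, s3, s4, s5, s6⟩ := PreI_scaled hT.ok (h + c)
      have h6 : (-P.Lam (h + c) : ℚ) ≤ P.SmM Nt Pt β h j c y k := by
        have : (-P.La (h + c) : ℝ) ≤ P.SmM Nt Pt β h j c y k := by linarith
        unfold La at this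
        exact_mod_cast this
      linarith

/-- `le_smin_cons` with handicap `G Λ`: `|A| exp (-ϑ G) / ϑ ≤ ups / 2` since `ϑ G = 2^(3p)`;
`abs_sminQ_sub_le`, `eps_mul_le`. -/
theorem cq_ge (i : ℕ) : (P.envM Nt Pt β h j c x k : ℝ) - P.ups * P.La (h + c) ≤
    P.cqM Nt Pt β h j c x k i := by
  have _ := hβ
  have _ := hk
  have h1 := (abs_le.1 (PreI_err hT.ok (h + c) x
    (P.trm (h + c) (fun y => P.SmM Nt Pt β h j c y k) (P.KnM Nt Pt β h j c x k) i x))).1
  have h0 : (P.envM Nt Pt β h j c x k : ℝ) ≤ P.KnM Nt Pt β h j c x k := by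
    exact_mod_cast PreI_env_le_kn k
  have h2 := le_smin_cons (x := fun a => ((P.trm (h + c) (fun y => P.SmM Nt Pt β h j c y k)
    (P.KnM Nt Pt β h j c x k) i x a : ℚ) : ℝ)) (PreI_theta (P := P) (h + c))
    (A := (1, x) :: (P.box (h + c) (P.rad (h + c) 2) x).map fun y => (2, y)) (a₀ := (0, x))
    (lo := P.envM Nt Pt β h j c x k) (G := P.Gq * P.La (h + c)) ?_ ?_
  · have h3 := PreI_tail hT.ok (h + c)
      (n := ((1, x) :: (P.box (h + c) (P.rad (h + c) 2) x).map fun y => (2, y)).length) (by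
        have := length_trmA_le hT.ok (h + c) x
        rw [trmA, List.length_cons] at this
        omega)
    rw [PreI_cq_eq]
    rw [← trmA] at h2
    linarith
  · simp only [trm, if_true]
    split_ifs
    · have := PreI_env_le_sm (Nt := Nt) (Pt := Pt) (β := β) (j := j) k (PreI_self_mem hT.hy)
      rw [dst_self, Nat.cast_zero, add_zero] at this
      exact_mod_cast this
    · exact h0
  · intro a ha
    rcases List.mem_cons.1 ha with rfl | ha
    · simp only [trm, one_ne_zero, if_false, if_true, La]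
      push_cast
      linarith
    · obtain ⟨y, hy, rfl⟩ := List.mem_map.1 ha
      have h4 : (P.envM Nt Pt β h j c x k : ℝ) ≤ P.SmM Nt Pt β h j c y k + dst x y := by
        exact_mod_cast PreI_env_le_sm k hy
      simp only [trm, OfNat.ofNat_ne_zero, OfNat.ofNat_ne_one, if_false, La]
      push_cast
      linarith

theorem cq_le_env (i : ℕ) : (P.cqM Nt Pt β h j c x k i : ℝ) ≤
    P.envM Nt Pt β h j c x k + (P.Gq + P.ups) * P.La (h + c) := by
  have _ := hβ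
  have _ := hk
  obtain ⟨s0, s1, -⟩ := PreI_scaled hT.ok (h + c)
  rcases PreI_env_cases (P := P) (Nt := Nt) (Pt := Pt) (β := β) (h := h) (j := j) (c := c) (x := x) k
    with e | ⟨y, hy, e⟩
  · have h1 := PreI_cq_le (Nt := Nt) (Pt := Pt) (β := β) (h := h) (j := j) (c := c) (x := x) hT.ok k i
      (a := (1, x)) (by simp [trmA])
    simp only [trm, one_ne_zero, if_false, if_true] at h1
    rw [e]
    push_cast at h1
    unfold La at *
    linarith
  · have h1 := PreI_cq_le (Nt := Nt) (Pt := Pt) (β := β) (h := h) (j := j) (c := c) (x := x) hT.ok k i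
      (a := (2, y)) (by simp [trmA, hy])
    simp only [trm, OfNat.ofNat_ne_zero, OfNat.ofNat_ne_one, if_false] at h1
    rw [e]
    push_cast at h1 ⊢
    unfold La at *
    linarith

theorem cq_le_sm : (P.cqM Nt Pt β h j c x k 0 : ℝ) ≤
    P.SmM Nt Pt β h j c x k + P.ups * P.La (h + c) := by
  have _ := hβ
  have _ := hk
  obtain ⟨s0, s1, -⟩ := PreI_scaled hT.ok (h + c)
  have h1 := PreI_cq_le (Nt := Nt) (Pt := Pt) (β := β) (h := h) (j := j) (c := c) (x := x) hT.ok k 0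
    (a := (0, x)) (by simp [trmA])
  simp only [trm, if_true] at h1
  linarith

theorem cq_le_kn : (P.cqM Nt Pt β h j c x k 1 : ℝ) ≤
    P.KnM Nt Pt β h j c x k + P.ups * P.La (h + c) := by
  have _ := hβ
  have _ := hk
  obtain ⟨s0, s1, -⟩ := PreI_scaled hT.ok (h + c)
  have h1 := PreI_cq_le (Nt := Nt) (Pt := Pt) (β := β) (h := h) (j := j) (c := c) (x := x) hT.ok k 1
    (a := (0, x)) (by simp [trmA])
  simp only [trm, one_ne_zero, if_false, if_true] at h1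
  linarith

theorem cq_rng (i : ℕ) : -(2 * P.ups * P.La (h + c)) ≤ P.cqM Nt Pt β h j c x k i ∧
    (P.cqM Nt Pt β h j c x k i : ℝ) ≤ 13 / 4 * P.La (h + c) := by
  obtain ⟨s0, s1, s2, s3, s4, s5, s6⟩ := PreI_scaled hT.ok (h + c)
  have h1 := cq_ge hT hβ hk i
  have h2 := cq_le_env hT hβ hk i
  have h3 := env_val hT hβ hk
  have h4 := PreI_min_nonneg (P := P) (ms := ms) h j x (h + c)
  have h5 : (P.envM Nt Pt β h j c x k : ℝ) ≤ 3 * P.La (h + c) := by
    unfold La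
    exact_mod_cast (PreI_env_le_kn k).trans (kn_le_cap hT hβ k)
  constructor <;> linarith

theorem PreI_cq_osc (a b : ℕ) : (P.cqM Nt Pt β h j c x k a : ℝ) ≤
    P.cqM Nt Pt β h j c x k b + 2 * (P.Gq * P.La (h + c)) := by
  obtain ⟨s0, s1, s2, s3, s4, s5, s6⟩ := PreI_scaled hT.ok (h + c)
  linarith [cq_ge hT hβ hk b, cq_le_env hT hβ hk a]

/-- `le_Phi`, `Phi_le` with `g = 2 G Λ`, `η₀ (2 G)² ≤ G / 4`. -/
theorem pre_env : (P.envM Nt Pt β h j c x k : ℝ) - P.ups * P.La (h + c) + P.off (h + c) k ≤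
      P.Pre ms Nt Pt k β h j c x ∧
    P.Pre ms Nt Pt k β h j c x ≤
      P.envM Nt Pt β h j c x k + 3 / 2 * P.Gq * P.La (h + c) := by
  obtain ⟨s0, s1, s2, s3, s4, s5, s6⟩ := PreI_scaled hT.ok (h + c)
  have hp := PreI_par hT.ok
  have hη := PreI_eta hT.ok (h + c)
  rw [PreI_pre_eq hT.PreI_ne]
  constructor
  · exact add_le_add_left (le_Phi hη (by simp) k fun a _ => cq_ge hT hβ hk a) _
  · have e : P.eta / P.La (h + c) * (2 * (P.Gq * P.La (h + c))) = 2 * (P.eta * P.Gq) := by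
      field_simp
    have h1 := Phi_le (q := fun k i => (P.cqM Nt Pt β h j c x k i : ℝ)) (A := [0, 1]) hη (by simp) k
      (fun a _ => cq_le_env hT hβ hk a) (g := 2 * (P.Gq * P.La (h + c)))
      (fun k' hk' a _ b _ => PreI_cq_osc hT hβ (hk'.trans hk) a b) (by rw [e]; linarith [hp.eG])
    rw [sq, ← mul_assoc, e] at h1
    have h2 := mul_le_mul_of_nonneg_right hp.eG (show 0 ≤ P.Gq * P.La (h + c) by linarith)
    linarith [PreI_off_le hT.ok (h + c) k]

theorem pre_rng : P.zeta / 2 * P.La (h + c) ≤ P.Pre ms Nt Pt k β h j c x ∧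
    P.Pre ms Nt Pt k β h j c x ≤ 7 / 2 * P.La (h + c) := by
  obtain ⟨s0, s1, s2, s3, s4, s5, s6⟩ := PreI_scaled hT.ok (h + c)
  obtain ⟨h1, h2⟩ := pre_env hT hβ hk
  have h3 := env_val hT hβ hk
  have h4 := PreI_min_nonneg (P := P) (ms := ms) h j x (h + c)
  have h5 : (P.envM Nt Pt β h j c x k : ℝ) ≤ 3 * P.La (h + c) := by
    unfold La
    exact_mod_cast (PreI_env_le_kn k).trans (kn_le_cap hT hβ k)
  have h6 := PreI_off_ge hT.ok (h + c) hk
  constructor <;> linarith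

end

theorem cq_mono (hT : P.Top ms Nb Nt Pt K h j c x) (hβ : β ≤ P.M) {k : ℕ} (hk : k + 1 < P.M)
    (i : ℕ) : (P.cqM Nt Pt β h j c x (k + 1) i : ℝ) ≤
      P.cqM Nt Pt β h j c x k i + 3 * P.ups * P.La (h + c) := by
  obtain ⟨s0, s1, -⟩ := PreI_scaled hT.ok (h + c)
  have h1 := (abs_le.1 (PreI_err hT.ok (h + c) x
    (P.trm (h + c) (fun y => P.SmM Nt Pt β h j c y k) (P.KnM Nt Pt β h j c x k) i x))).1
  have h2 := (abs_le.1 (PreI_err hT.ok (h + c) x
    (P.trm (h + c) (fun y => P.SmM Nt Pt β h j c y (k + 1)) (P.KnM Nt Pt β h j c x (k + 1)) i x))).2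
  have h3 : (P.KnM Nt Pt β h j c x (k + 1) : ℝ) ≤ P.KnM Nt Pt β h j c x k := by
    exact_mod_cast kn_mono hT hβ k
  have h4 := smin_mono (x := fun a => ((P.trm (h + c) (fun y => P.SmM Nt Pt β h j c y (k + 1))
    (P.KnM Nt Pt β h j c x (k + 1)) i x a : ℚ) : ℝ))
    (y := fun a => ((P.trm (h + c) (fun y => P.SmM Nt Pt β h j c y k)
    (P.KnM Nt Pt β h j c x k) i x a : ℚ) : ℝ)) (PreI_theta (P := P) (h + c)) (A := P.trmA (h + c) x)
    (by simp [trmA]) (ξ := P.ups * P.La (h + c)) ?_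
  · rw [PreI_cq_eq, PreI_cq_eq]
    linarith
  · intro a ha
    rcases List.mem_cons.1 ha with rfl | ha
    · simp only [trm, if_true]
      split_ifs
      · exact sm_mono hT hβ hk
      · linarith
    rcases List.mem_cons.1 ha with rfl | ha
    · simp only [trm, one_ne_zero, if_false, if_true]
      push_cast
      linarith
    · obtain ⟨y, hy, rfl⟩ := List.mem_map.1 ha
      have h5 := sm_mono (hT.move (mem_box.1 hy).1) hβ hk
      simp only [trm, OfNat.ofNat_ne_zero, OfNat.ofNat_ne_one, if_false]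
      push_cast
      linarith

theorem pre_rng_leaf (hP : P.OK) {m : ℕ} (hm : m < P.M) (β j c : ℕ) (x : St) :
    P.zeta / 2 * P.La (0 + c) ≤ P.Pre ms Nt Pt m β 0 j c x ∧
      P.Pre ms Nt Pt m β 0 j c x ≤ 7 / 2 * P.La (0 + c) := by
  obtain ⟨s0, s1, s2, s3, s4, s5, s6⟩ := PreI_scaled hP (0 + c)
  have h1 := PreI_min_nonneg (P := P) (ms := ms) 0 j x (0 + c)
  have h2 := min_le_right (min (P.VV ms 0 j x) P.X) (3 * P.La (0 + c))
  have h3 := PreI_off_ge hP (0 + c) hm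
  have h4 := PreI_off_le hP (0 + c) m
  rw [PreI_pre_leaf]
  constructor <;> linarith

/-- The offsets absorb the errors: `off m ≥ ζ Λ`, `off m - off (m+1) = ζ Λ`, `off m ≤ M ζ Λ ≤ G Λ / 8`. -/
theorem inv_zero (hP : P.OK) (hA : P.StageA ms Nb Nt K) (hR : P.TabRelAt ms Nt Pt 0) :
    P.InvP ms Nt Pt 0 := by
  refine ⟨hR.out, hR.rng, fun m hm β hβ j c z hn hc hz => ?_, fun m hm β hβ j c z hn hc hz => ?_,
    fun m hm β hβ j c z z' hn hc hz hz' => ?_, fun m hm β hβ j c z hn hc hz => ?_⟩ <;>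
    obtain ⟨s0, s1, s2, s3, s4, s5, s6⟩ := PreI_scaled hP (0 + c)
  · have h1 := (abs_le.1 (hR.close m hm β hβ j c z hn hc hz)).1
    rw [PreI_pre_leaf] at h1
    linarith [PreI_off_ge hP (0 + c) hm]
  · have h1 := (abs_le.1 (hR.close m (by omega) β hβ j c z hn hc hz)).1
    have h2 := (abs_le.1 (hR.close (m + 1) hm β hβ j c z hn hc hz)).2
    rw [PreI_pre_leaf] at h1 h2
    have h3 := PreI_off_succ (P := P) (0 + c) (m := m) (by omega)
    have h4 : (Pt (m + 1) β 0 j c z : ℝ) ≤ Pt m β 0 j c z := by linarith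
    exact_mod_cast h4
  · have h1 := (abs_le.1 (hR.close m hm β hβ j c z hn hc hz)).2
    have h2 := (abs_le.1 (hR.close m hm β hβ j c z' hn hc hz')).1
    rw [PreI_pre_leaf] at h1 h2
    linarith [PreI_min_lip (P := P) (ms := ms) 0 j z z' (3 * P.La (0 + c))]
  · have h1 := (abs_le.1 (hR.close m hm β hβ j c z hn hc hz)).2
    rw [PreI_pre_leaf] at h1
    have h2 := hA.tval 0 j c z hn hc hz
    have h3 : (3 : ℝ) ≤ P.cap := by
      simp only [cap]
      push_cast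
      calc (3 : ℝ) ≤ 2 ^ 2 := by norm_num
        _ ≤ 2 ^ P.cp := pow_le_pow_right₀ one_le_two (by unfold cp; omega)
    have h4 := min_le_min_left (min (P.VV ms 0 j z) P.X) (mul_le_mul_of_nonneg_right h3 s0.le)
    linarith [PreI_off_le hP (0 + c) m]

/-- `val`, `lip`, `le_nt` from `pre_env`, `env_val`, `env_lip`, `kn_le_nt`; `mono` from `Phi_mono`,
`cq_mono`, `Phi_succ_le`. -/
theorem inv_succ (hP : P.OK) (hA : P.StageA ms Nb Nt K) (hd : P.d ≤ h)
    (hI : P.InvP ms Nt Pt (h - P.d)) (hR : P.TabRelAt ms Nt Pt h) : P.InvP ms Nt Pt h := by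
  have hT : ∀ {j c : ℕ} {z : St}, P.Nd h j → ¬ P.triv h c → P.inW (h + c) z →
      P.Top ms Nb Nt Pt K h j c z := fun hn hc hz => ⟨hP, hA, ⟨hn, hc, hd⟩, hI, hz⟩
  refine ⟨hR.out, hR.rng, fun m hm β hβ j c z hn hc hz => ?_, fun m hm β hβ j c z hn hc hz => ?_,
    fun m hm β hβ j c z z' hn hc hz hz' => ?_, fun m hm β hβ j c z hn hc hz => ?_⟩ <;>
    obtain ⟨s0, s1, s2, s3, s4, s5, s6⟩ := PreI_scaled hP (h + c)
  · have h1 := (abs_le.1 (hR.close m hm β hβ j c z hn hc hz)).1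
    linarith [PreI_off_ge hP (h + c) hm, (pre_env (hT hn hc hz) hβ hm).1, env_val (hT hn hc hz) hβ hm]
  · have h1 := (abs_le.1 (hR.close m (by omega) β hβ j c z hn hc hz)).1
    have h2 := (abs_le.1 (hR.close (m + 1) hm β hβ j c z hn hc hz)).2
    rw [PreI_pre_eq (hT hn hc hz).PreI_ne] at h1 h2
    have h3 := PreI_off_succ (P := P) (h + c) (m := m) (by omega)
    have h5 := Phi_succ_le (q := fun k i => (P.cqM Nt Pt β h j c z k i : ℝ)) (A := [0, 1])
      (PreI_eta hP (h + c)) (by simp) m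
    have h6 := Phi_mono (η := P.eta / P.La (h + c))
      (q := fun k i => (P.cqM Nt Pt β h j c z k i : ℝ)) (A := [0, 1]) (by simp) (m + 1)
      (fun a _ => cq_mono (hT hn hc hz) hβ hm a)
    have h4 : (Pt (m + 1) β h j c z : ℝ) ≤ Pt m β h j c z := by linarith
    exact_mod_cast h4
  · have h1 := (abs_le.1 (hR.close m hm β hβ j c z hn hc hz)).2
    have h2 := (abs_le.1 (hR.close m hm β hβ j c z' hn hc hz')).1
    have h3 : (P.envM Nt Pt β h j c z m : ℝ) ≤ P.envM Nt Pt β h j c z' m + dst z z' := by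
      exact_mod_cast env_lip (hT hn hc hz) hβ hm hz'
    linarith [PreI_off_ge hP (h + c) hm, (pre_env (hT hn hc hz) hβ hm).2,
      (pre_env (hT hn hc hz') hβ hm).1]
  · have h1 := (abs_le.1 (hR.close m hm β hβ j c z hn hc hz)).2
    have h2 : (P.envM Nt Pt β h j c z m : ℝ) ≤ Nt h j c z := by
      exact_mod_cast (PreI_env_le_kn m).trans (kn_le_nt (hT hn hc hz) hβ m)
    linarith [(pre_env (hT hn hc hz) hβ hm).2]

theorem PreI_regret (hT : P.Top ms Nb Nt Pt K h j c x) (hβ : β ≤ P.M) (hR : P.TabRelAt ms Nt Pt h)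
    {a : ℕ} (ha : a ∈ [0, 1]) {E : ℕ → ℝ}
    (hE : ∀ m < P.M, (P.cqM Nt Pt β h j c x m a : ℝ) ≤ E m + P.ups * P.La (h + c)) :
    ∑ m ∈ range P.M, (Pt m β h j c x : ℝ) ≤ ∑ m ∈ range P.M, E m + P.rho * P.La (h + c) := by
  obtain ⟨s0, s1, s2, s3, s4, s5, s6⟩ := PreI_scaled hT.ok (h + c)
  have hp := PreI_par hT.ok
  have hη := PreI_eta hT.ok (h + c)
  have e : 2 * (P.eta / P.La (h + c)) * (2 * (P.Gq * P.La (h + c))) = 4 * (P.eta * P.Gq) := by
    field_simp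
    ring
  have h1 := Phi_regret (q := fun k i => (P.cqM Nt Pt β h j c x k i : ℝ)) (A := [0, 1]) hη P.M ha
    (g := 2 * (P.Gq * P.La (h + c))) (ξ := 3 * P.ups * P.La (h + c))
    (lo := -(2 * P.ups * P.La (h + c))) (hi := 13 / 4 * P.La (h + c)) (by linarith) (by linarith)
    (by linarith) (fun k hk a _ b _ => PreI_cq_osc hT hβ hk a b) (by rw [e]; linarith [hp.eG])
    (fun k hk a _ => cq_mono hT hβ hk a) (fun k hk a _ => (cq_rng hT hβ hk a).1)
    (fun k hk a _ => (cq_rng hT hβ hk a).2)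
  rw [e] at h1
  have h2 : ∑ m ∈ range P.M, (Pt m β h j c x : ℝ) ≤ ∑ m ∈ range P.M,
      (Phi (P.eta / P.La (h + c)) [0, 1] (fun k i => P.cqM Nt Pt β h j c x k i) m
        (fun i => P.cqM Nt Pt β h j c x m i) +
        (P.M * (P.zeta * P.La (h + c)) + P.zeta * P.La (h + c) / 4)) := by
    refine sum_le_sum fun m hm => ?_
    have h3 := (abs_le.1 (hR.close m (mem_range.1 hm) β hβ j c x hT.wd.nd hT.wd.nt hT.hy)).2
    rw [PreI_pre_eq hT.PreI_ne] at h3
    linarith [PreI_off_le hT.ok (h + c) m]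
  have h3 : ∑ m ∈ range P.M, (P.cqM Nt Pt β h j c x m a : ℝ) ≤
      ∑ m ∈ range P.M, (E m + P.ups * P.La (h + c)) := sum_le_sum fun m hm => hE m (mem_range.1 hm)
  rw [sum_add_distrib, sum_const, card_range, nsmul_eq_mul] at h2 h3
  have h4 : Real.log (([0, 1] : List ℕ).length : ℝ) / (P.eta / P.La (h + c)) ≤
      1 / P.eta * P.La (h + c) := by
    have h5 : Real.log (([0, 1] : List ℕ).length : ℝ) ≤ 1 := by
      have := Real.log_two_lt_d9
      simp only [List.length_cons, List.length_nil]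
      norm_num
      linarith
    calc _ ≤ 1 / (P.eta / P.La (h + c)) := by gcongr
      _ = _ := by field_simp
  have h5 : 8 * ((P.M : ℝ) * (P.ups * P.La (h + c))) ≤ P.M * (P.zeta * P.La (h + c)) := by
    have := mul_le_mul_of_nonneg_left s2 (show (0 : ℝ) ≤ P.M from Nat.cast_nonneg _)
    linarith
  have h6 : 4 * ((P.eta : ℝ) * P.Gq) * (P.M * (3 * P.ups * P.La (h + c)) +
      (13 / 4 * P.La (h + c) - -(2 * P.ups * P.La (h + c)))) ≤
      4 * (P.eta * P.Gq) * (5 * P.La (h + c)) := by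
    refine mul_le_mul_of_nonneg_left (by linarith) ?_
    have : (0 : ℝ) < P.Gq := pos_of_mul_pos_left (b := P.La (h + c)) (by linarith) s0.le
    have := hp.e0
    positivity
  have h7 := mul_le_mul_of_nonneg_right hp.r1 s0.le
  have h8 := mul_le_mul_of_nonneg_right hp.r2 s0.le
  have h9 := mul_le_mul_of_nonneg_right hp.r3 s0.le
  have h10 : 8 / (P.eta : ℝ) * P.La (h + c) = 8 * (1 / P.eta * P.La (h + c)) := by ring
  linarith

/-- Regret against both experts: `Phi_regret` with `η = η₀ / Λ`, `g = 2 G Λ`, `ξ = 3 ups Λ`,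
`hi - lo ≤ 4 Λ`; `∑ off ≤ M² ζ Λ`. -/
theorem pt_regret (hT : P.Top ms Nb Nt Pt K h j c x) (hβ : β ≤ P.M) (hR : P.TabRelAt ms Nt Pt h) :
    (∑ m ∈ range P.M, (Pt m β h j c x : ℝ)) ≤
        ∑ m ∈ range P.M, (P.SmM Nt Pt β h j c x m : ℝ) + P.rho * P.La (h + c) ∧
      (∑ m ∈ range P.M, (Pt m β h j c x : ℝ)) ≤
        ∑ m ∈ range P.M, (P.KnM Nt Pt β h j c x m : ℝ) + P.rho * P.La (h + c) := by
  exact ⟨PreI_regret hT hβ hR (a := 0) (by simp) fun m hm => cq_le_sm hT hβ hm,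
    PreI_regret hT hβ hR (a := 1) (by simp) fun m hm => cq_le_kn hT hβ hm⟩

end Pa

end Crest.Agent.R288
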