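/-
R288/Bern: a Bernstein inequality for independent blocks of bits.
-/
import Crest.Agent.R288.Prob

set_option autoImplicit false

namespace Crest.Agent.R288

open Finset

theorem bern_one (n : ℕ) {Y : (ℕ → Bool) → ℝ} {R lam : ℝ} (hR : ∀ ρ, |Y ρ| ≤ R) (h0 : 0 ≤ lam)
    (h1 : 2 * lam * R ≤ 1) :
    Ex n (fun ρ => Real.exp (lam * (Y ρ - Ex n Y))) ≤
      Real.exp (lam ^ 2 * Ex n fun ρ => Y ρ ^ 2) := by
  have hm : |Ex n Y| ≤ R := abs_Ex_le.trans (Ex_le_const hR)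
  have e : ∀ m : ℝ, Ex n (fun ρ => (1 - lam * m + lam ^ 2 * m ^ 2) +
      ((lam - 2 * lam ^ 2 * m) * Y ρ + lam ^ 2 * Y ρ ^ 2)) =
      (1 - lam * m + lam ^ 2 * m ^ 2) +
        ((lam - 2 * lam ^ 2 * m) * Ex n Y + lam ^ 2 * Ex n fun ρ => Y ρ ^ 2) := by
    intro m
    rw [Ex_add, Ex_const, Ex_add, Ex_const_mul, Ex_const_mul]
  refine le_trans (Ex_mono fun ρ => ?_) ((e (Ex n Y)).le.trans ?_)
  · have h2 : |lam * (Y ρ - Ex n Y)| ≤ 1 := by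
      rw [abs_mul, abs_of_nonneg h0]
      have h3 : |Y ρ - Ex n Y| ≤ R + R := (abs_sub _ _).trans (add_le_add (hR ρ) hm)
      have h4 := mul_le_mul_of_nonneg_left h3 h0
      linarith
    have h3 := (abs_le.1 (Real.abs_exp_sub_one_sub_id_le h2)).2
    nlinarith
  · have h2 := Real.add_one_le_exp (lam ^ 2 * Ex n fun ρ => Y ρ ^ 2)
    nlinarith [sq_nonneg (lam * Ex n Y)]

/-- Recipe: `|λ (Y - E Y)| ≤ 1`, so `exp u ≤ 1 + u + u ^ 2` gives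
`E exp (λ (Y - E Y)) ≤ 1 + λ² Var Y ≤ exp (λ² E Y²)`; multiply with `Ex_prod_indep`; Markov. -/
theorem bern_up {ι : Type} (n : ℕ) (s : Finset ι) (Y : ι → (ℕ → Bool) → ℝ) (S : ι → Set ℕ)
    (hY : ∀ i ∈ s, Dep (Y i) (S i)) (hd : ∀ i ∈ s, ∀ j ∈ s, i ≠ j → Disjoint (S i) (S j))
    {R v lam : ℝ} (hR : ∀ i ∈ s, ∀ ρ, |Y i ρ| ≤ R) (hv : ∑ i ∈ s, Ex n (fun ρ => Y i ρ ^ 2) ≤ v)
    (h0 : 0 ≤ lam) (h1 : 2 * lam * R ≤ 1) (t : ℝ) :
    Pr n (fun ρ => t ≤ ∑ i ∈ s, Y i ρ - ∑ i ∈ s, Ex n (Y i)) ≤ Real.exp (-lam * t + lam ^ 2 * v) := by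
  have h2 : Pr n (fun ρ => t ≤ ∑ i ∈ s, Y i ρ - ∑ i ∈ s, Ex n (Y i)) ≤
      Ex n fun ρ => Real.exp (-lam * t) * ∏ i ∈ s, Real.exp (lam * (Y i ρ - Ex n (Y i))) := by
    refine Ex_mono fun ρ => ?_
    rw [← Real.exp_sum, ← Real.exp_add, ← Finset.mul_sum, Finset.sum_sub_distrib]
    split_ifs with h
    · refine Real.one_le_exp ?_
      have := mul_le_mul_of_nonneg_left h h0
      linarith
    · exact (Real.exp_pos _).le
  refine h2.trans ?_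
  rw [Ex_const_mul, Ex_prod_indep s (fun i ρ => Real.exp (lam * (Y i ρ - Ex n (Y i)))) S
    (fun i hi => (hY i hi).comp fun y => Real.exp (lam * (y - Ex n (Y i)))) hd, Real.exp_add]
  refine mul_le_mul_of_nonneg_left ?_ (Real.exp_pos _).le
  calc ∏ i ∈ s, Ex n (fun ρ => Real.exp (lam * (Y i ρ - Ex n (Y i))))
      ≤ ∏ i ∈ s, Real.exp (lam ^ 2 * Ex n fun ρ => Y i ρ ^ 2) :=
        Finset.prod_le_prod (fun i _ => Ex_nonneg fun ρ => (Real.exp_pos _).le)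
          fun i hi => bern_one n (hR i hi) h0 h1
    _ = Real.exp (lam ^ 2 * ∑ i ∈ s, Ex n fun ρ => Y i ρ ^ 2) := by
        rw [← Real.exp_sum, Finset.mul_sum]
    _ ≤ Real.exp (lam ^ 2 * v) :=
        Real.exp_le_exp.2 (mul_le_mul_of_nonneg_left hv (sq_nonneg _))

/-- Two-sided form (apply `bern_up` to `Y` and `-Y`). -/
theorem bern_abs {ι : Type} (n : ℕ) (s : Finset ι) (Y : ι → (ℕ → Bool) → ℝ) (S : ι → Set ℕ)
    (hY : ∀ i ∈ s, Dep (Y i) (S i)) (hd : ∀ i ∈ s, ∀ j ∈ s, i ≠ j → Disjoint (S i) (S j))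
    {R v lam : ℝ} (hR : ∀ i ∈ s, ∀ ρ, |Y i ρ| ≤ R) (hv : ∑ i ∈ s, Ex n (fun ρ => Y i ρ ^ 2) ≤ v)
    (h0 : 0 ≤ lam) (h1 : 2 * lam * R ≤ 1) (t : ℝ) :
    Pr n (fun ρ => t ≤ |∑ i ∈ s, Y i ρ - ∑ i ∈ s, Ex n (Y i)|) ≤
      2 * Real.exp (-lam * t + lam ^ 2 * v) := by
  have h2 := bern_up n s Y S hY hd hR hv h0 h1 t
  have h3 := bern_up n s (fun i ρ => -1 * Y i ρ) S (fun i hi => (hY i hi).comp fun y => -1 * y) hd
    (R := R) (v := v) (fun i hi ρ => by simpa using hR i hi ρ) (by simpa using hv) h0 h1 t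
  refine le_trans (Pr_mono fun ρ h => ?_) (Pr_or_le.trans ((add_le_add h2 h3).trans (by linarith)))
  simp only [Ex_const_mul, ← Finset.mul_sum]
  rcases le_abs.1 h with h | h
  · exact Or.inl h
  · exact Or.inr (by linarith)

end Crest.Agent.R288
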