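/-
R288/SmAff: the recursion `lsv` is affine in the bottom values of the last round.
-/
import Crest.Agent.R288.SmA

set_option autoImplicit false

namespace Crest.Agent.R288

open Finset

namespace Pa

/-- The linear part of `lsv … m` (the weights only depend on the rounds `< m` of `leaf`). -/
noncomputable def linv (P : Pa) (h c : ℕ) (nt : ℕ → ℕ → ℕ → St → ℚ) (y : St)
    (leaf : ℕ → ℕ → St → ℚ) (m : ℕ) (Δ : ℕ → St → ℝ) : ℕ → ℕ → St → ℝ
  | 0, j, z => Δ j z
  | e + 1, j, z =>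
    if P.termAt h c nt y (P.d - (e + 1)) j then 0 else
      ((P.acts (h + c) (P.midAt h c nt y (P.d - (e + 1)) j)).map fun a =>
        (lsW P.s (P.eta / P.mass h c nt y (e + 1) j)
          (P.acts (h + c) (P.midAt h c nt y (P.d - (e + 1)) j))
          (fun k' a => P.lsv h c nt y leaf e (2 * j) (z.1, a) k' +
            P.lsv h c nt y leaf e (2 * j + 1) (a, z.2) k') m a : ℝ) *
        (linv P h c nt y leaf m Δ e (2 * j) (z.1, a) +
          linv P h c nt y leaf m Δ e (2 * j + 1) (a, z.2))).sum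

variable {P : Pa} {h c m : ℕ} {nt : ℕ → ℕ → ℕ → St → ℚ} {y : St} {leaf leaf' : ℕ → ℕ → St → ℚ}

theorem linv_sub (Δ Δ' : ℕ → St → ℝ) (e j : ℕ) (z : St) :
    P.linv h c nt y leaf m (fun j z => Δ j z - Δ' j z) e j z =
      P.linv h c nt y leaf m Δ e j z - P.linv h c nt y leaf m Δ' e j z := by
  induction e generalizing j z with
  | zero => rfl
  | succ e ih =>
    simp only [linv]
    split_ifs
    · simp
    · rw [← ns_sum_sub]
      congr 1
      refine List.map_congr_left fun a _ => ?_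
      rw [ih, ih]
      ring

theorem aff_sum_comm {ι κ : Type} (s : Finset ι) (A : List κ) (f : ι → κ → ℝ) :
    (A.map fun a => ∑ i ∈ s, f i a).sum = ∑ i ∈ s, (A.map (f i)).sum := by
  induction A with
  | nil => simp
  | cons a A ih => simp only [List.map_cons, List.sum_cons, ih, sum_add_distrib]

theorem aff_linv_div (Δ : ℕ → St → ℝ) (t : ℝ) (e j : ℕ) (z : St) :
    P.linv h c nt y leaf m (fun j z => Δ j z / t) e j z = P.linv h c nt y leaf m Δ e j z / t := by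
  induction e generalizing j z with
  | zero => rfl
  | succ e ih =>
    simp only [linv]
    split_ifs
    · simp
    · rw [← ns_sum_div]
      congr 1
      refine List.map_congr_left fun a _ => ?_
      rw [ih, ih]
      ring

theorem linv_sum {ι : Type} (s : Finset ι) (Δ : ι → ℕ → St → ℝ) (e j : ℕ) (z : St) :
    P.linv h c nt y leaf m (fun j z => ∑ i ∈ s, Δ i j z) e j z =
      ∑ i ∈ s, P.linv h c nt y leaf m (Δ i) e j z := by
  induction e generalizing j z with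
  | zero => rfl
  | succ e ih =>
    simp only [linv]
    split_ifs
    · simp
    · rw [← aff_sum_comm]
      congr 1
      refine List.map_congr_left fun a _ => ?_
      rw [ih, ih, ← sum_add_distrib, mul_sum]

theorem Ex_linv (n : ℕ) (Δ : (ℕ → Bool) → ℕ → St → ℝ) (e j : ℕ) (z : St) :
    Ex n (fun ρ => P.linv h c nt y leaf m (Δ ρ) e j z) =
      P.linv h c nt y leaf m (fun j z => Ex n fun ρ => Δ ρ j z) e j z := by
  unfold Ex
  rw [aff_linv_div, linv_sum]

theorem aff_eta_pos (e j : ℕ) : 0 < P.eta / P.mass h c nt y e j :=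
  div_pos (by unfold eta; positivity) (mass_pos e j)

theorem aff_wsum_le {ι : Type} {s : ℕ} {η : ℚ} (hη : 0 < η) {A : List ι} {b : ι} (hb : b ∈ A)
    {q : ℕ → ι → ℚ} {m : ℕ} {v : ι → ℝ} {R : ℝ} (hv : ∀ a ∈ A, |v a| ≤ R) :
    |(A.map fun a => (lsW s η A q m a : ℝ) * v a).sum| ≤ R := by
  have h1 : (A.map fun a => (lsW s η A q m a : ℝ)).sum = 1 := by
    rw [← ns_cast_sum, sum_lsW hη (List.ne_nil_of_mem hb)]
    exact Rat.cast_one
  refine (ns_abs_sum_le _).trans ((ns_sum_le (g := fun a => (lsW s η A q m a : ℝ) * R)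
    fun a ha => ?_).trans ?_)
  · have h2 : (0 : ℝ) ≤ lsW s η A q m a := by exact_mod_cast lsW_nonneg hη m ha
    rw [abs_mul, abs_of_nonneg h2]
    exact mul_le_mul_of_nonneg_left (hv a ha) h2
  · rw [ns_sum_mul, h1, one_mul]

/-- The weights are probability vectors (`lsW_nonneg`, `sum_lsW`, `midAt_mem_acts`, `mass_pos`), and
`cen_left`, `cen_right` propagate `InA`. -/
theorem abs_linv_le (hy : P.inW (h + c) y) {Δ : ℕ → St → ℝ} {B : ℕ → ℝ} (hB0 : ∀ j', 0 ≤ B j')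
    (hB : ∀ j' < 2 ^ P.d, (P.cen h c nt y P.d j').2 = true →
      ∀ z, P.InA (h + c) (P.cen h c nt y P.d j').1 z → |Δ j' z| ≤ B j')
    {e j : ℕ} (he : e ≤ P.d) (hj : j < 2 ^ (P.d - e)) (ha : (P.cen h c nt y (P.d - e) j).2 = true)
    {z : St} (hz : P.InA (h + c) (P.cen h c nt y (P.d - e) j).1 z) :
    |P.linv h c nt y leaf m Δ e j z| ≤ ∑ j' ∈ range (2 ^ e), B (j * 2 ^ e + j') := by
  induction e generalizing j z with
  | zero => simpa [linv] using hB j (by simpa using hj) (by simpa using ha) z (by simpa using hz)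
  | succ e ih =>
    simp only [linv]
    split_ifs with ht
    · rw [abs_zero]
      exact sum_nonneg fun _ _ => hB0 _
    · refine aff_wsum_le (aff_eta_pos _ _) (midAt_mem_acts hy (by omega) j) fun a haa => ?_
      obtain ⟨⟨a1, a2, a3⟩, b1, b2, b3⟩ := SmA_child (by omega) hj ha ht hz haa
      have e1 : ∀ x, j * (2 ^ e + 2 ^ e) + x = 2 * j * 2 ^ e + x := fun x => by ring
      have e2 : ∀ x, 2 * j * 2 ^ e + (2 ^ e + x) = (2 * j + 1) * 2 ^ e + x := fun x => by ring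
      rw [show 2 ^ (e + 1) = 2 ^ e + 2 ^ e by ring, Finset.sum_range_add]
      simp only [e1, e2]
      exact (abs_add_le _ _).trans
        (add_le_add (ih (by omega) a1 a2 a3) (ih (by omega) b1 b2 b3))

theorem abs_linv_top (hy : P.inW (h + c) y) {Δ : ℕ → St → ℝ} {B : ℕ → ℝ} (hB0 : ∀ j', 0 ≤ B j')
    (hB : ∀ j' < 2 ^ P.d, (P.cen h c nt y P.d j').2 = true →
      ∀ z, P.InA (h + c) (P.cen h c nt y P.d j').1 z → |Δ j' z| ≤ B j') :
    |P.linv h c nt y leaf m Δ P.d 0 y| ≤ ∑ j' ∈ range (2 ^ P.d), B j' := by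
  have h1 := abs_linv_le (leaf := leaf) (m := m) hy hB0 hB (e := P.d) (j := 0) le_rfl (by simp)
    (by rw [Nat.sub_self]; rfl) (z := y)
    (by rw [Nat.sub_self]; exact cen_inA (nt := nt) hy (Nat.zero_le _) 0)
  simpa using h1

theorem linv_congr_top (hy : P.inW (h + c) y) {Δ Δ' : ℕ → St → ℝ}
    (hB : ∀ j' < 2 ^ P.d, (P.cen h c nt y P.d j').2 = true →
      ∀ z, P.InA (h + c) (P.cen h c nt y P.d j').1 z → Δ j' z = Δ' j' z) :
    P.linv h c nt y leaf m Δ P.d 0 y = P.linv h c nt y leaf m Δ' P.d 0 y := by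
  have h1 := abs_linv_top (nt := nt) (leaf := leaf) (m := m) hy (Δ := fun j z => Δ j z - Δ' j z)
    (B := fun _ => 0) (fun _ => le_rfl) fun j hj ha z hz => by simp [hB j hj ha z hz]
  rw [linv_sub, sum_const_zero, abs_nonpos_iff] at h1
  exact sub_eq_zero.1 h1

theorem aff_step {ι : Type} {s : ℕ} {η : ℚ} (hη : 0 < η) {A : List ι} {b : ι} (hb : b ∈ A)
    {q q' : ℕ → ι → ℚ} {m : ℕ} {v : ι → ℝ} {R : ℝ} (h1 : |lsQ s η A q m (q m)| ≤ 2 ^ s)
    (h2 : |lsQ s η A q' m (q' m)| ≤ 2 ^ s) (hq : ∀ k < m, ∀ a ∈ A, q' k a = q k a)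
    (hv : ∀ a ∈ A, |(q' m a : ℝ) - q m a - v a| ≤ R) :
    |(rup s (lsQ s η A q' m (q' m)) : ℝ) - rup s (lsQ s η A q m (q m)) -
      (A.map fun a => (lsW s η A q m a : ℝ) * v a).sum| ≤ R + 1 / 2 ^ s := by
  have h3 := aff_wsum_le (s := s) (q := q) (m := m) hη hb hv
  have e1 : (lsQ s η A q' m (q' m) : ℝ) - lsQ s η A q m (q m) -
      (A.map fun a => (lsW s η A q m a : ℝ) * v a).sum =
      (A.map fun a => (lsW s η A q m a : ℝ) * ((q' m a : ℝ) - q m a - v a)).sum := by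
    rw [lsQ_congr m hq fun _ _ => rfl]
    simp only [lsQ, mul_sub, ns_sum_sub, Rat.cast_add, ns_cast_sum, Rat.cast_mul]
    ring
  rw [← e1] at h3
  have c1 := (Rat.cast_le (K := ℝ)).2 (le_rup (abs_le.1 h1).2)
  have c2 := (Rat.cast_le (K := ℝ)).2 (le_rup (abs_le.1 h2).2)
  have c3 := (Rat.cast_le (K := ℝ)).2 (rup_le (abs_le.1 h1).1)
  have c4 := (Rat.cast_le (K := ℝ)).2 (rup_le (abs_le.1 h2).1)
  push_cast at c3 c4
  rw [abs_le] at h3 ⊢
  constructor <;> linarith [h3.1, h3.2]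

theorem aff_lsQ_le (hP : P.OK) (hc : ¬ P.triv h c) (hy : P.inW (h + c) y)
    (hen : P.enab h c nt y) {k : ℕ} (hn : ∀ i j z, |nt i j c z| ≤ P.X)
    (hl : ∀ k' ≤ k, ∀ j < 2 ^ P.d, (P.cen h c nt y P.d j).2 = true →
      ∀ z, P.InA (h + c) (P.cen h c nt y P.d j).1 z → |(leaf k' j z : ℝ)| ≤ P.X * 2 ^ P.kap)
    {e j : ℕ} (he : e < P.d) (hj : j < 2 ^ (P.d - (e + 1)))
    (ha : (P.cen h c nt y (P.d - (e + 1)) j).2 = true) (ht : ¬ P.termAt h c nt y (P.d - (e + 1)) j)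
    {z : St} (hz : P.InA (h + c) (P.cen h c nt y (P.d - (e + 1)) j).1 z) :
    |lsQ P.s (P.eta / P.mass h c nt y (e + 1) j)
      (P.acts (h + c) (P.midAt h c nt y (P.d - (e + 1)) j))
      (fun k' a => P.lsv h c nt y leaf e (2 * j) (z.1, a) k' +
        P.lsv h c nt y leaf e (2 * j + 1) (a, z.2) k') k
      fun a => P.lsv h c nt y leaf e (2 * j) (z.1, a) k +
        P.lsv h c nt y leaf e (2 * j + 1) (a, z.2) k| ≤ 2 ^ P.s := by
  obtain ⟨n1, n2, n3, n4⟩ := SmA_num (P := P)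
  have k1 : (64 : ℝ) ≤ 2 ^ P.kap := by linarith
  have h7 : (1 : ℝ) ≤ 7 ^ e := one_le_pow₀ (by norm_num)
  have h8 : (64 : ℝ) * 7 ^ e ≤ 2 ^ P.kap := by
    have h1 : P.d * 3 ≤ P.d * P.l2 :=
      Nat.mul_le_mul_left _ (by have := hP.Par_l3_ge; have := hP.Par_l32; omega)
    calc (64 : ℝ) * 7 ^ e ≤ 2 ^ 6 * (2 ^ 3) ^ e := by gcongr <;> norm_num
      _ = 2 ^ (6 + 3 * e) := by rw [← pow_mul, ← pow_add]
      _ ≤ _ := pow_le_pow_right₀ one_le_two (by unfold kap D Lx; omega)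
  obtain ⟨e1, e2⟩ := SmA_err hP hc hen (e := e + 1) he hj (midAt_mem_acts (nt := nt) hy
    (i := P.d - (e + 1)) (by omega) j) (k := k) (R := 2 * (7 ^ e * (P.X * 2 ^ P.kap)))
    (q := fun k' a => P.lsv h c nt y leaf e (2 * j) (z.1, a) k' +
      P.lsv h c nt y leaf e (2 * j + 1) (a, z.2) k') fun k'' hk'' a haa => by
      obtain ⟨⟨a1, a2, a3⟩, b1, b2, b3⟩ := SmA_child he hj ha ht hz haa
      have i1 := abs_lsv_le hP hc hy hen (R := P.X * 2 ^ P.kap) (by nlinarith) hn hl he.le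
        a1 a2 a3 hk''
      have i2 := abs_lsv_le hP hc hy hen (R := P.X * 2 ^ P.kap) (by nlinarith) hn hl he.le
        b1 b2 b3 hk''
      push_cast
      exact (abs_add_le _ _).trans (by linarith)
  set w : ℚ := lsQ P.s (P.eta / P.mass h c nt y (e + 1) j)
    (P.acts (h + c) (P.midAt h c nt y (P.d - (e + 1)) j))
    (fun k' a => P.lsv h c nt y leaf e (2 * j) (z.1, a) k' +
      P.lsv h c nt y leaf e (2 * j + 1) (a, z.2) k') k
    fun a => P.lsv h c nt y leaf e (2 * j) (z.1, a) k +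
      P.lsv h c nt y leaf e (2 * j + 1) (a, z.2) k
  set F : ℝ := Phi (P.eta / P.mass h c nt y (e + 1) j : ℚ)
    (P.acts (h + c) (P.midAt h c nt y (P.d - (e + 1)) j))
    (fun k' a => (P.lsv h c nt y leaf e (2 * j) (z.1, a) k' +
      P.lsv h c nt y leaf e (2 * j + 1) (a, z.2) k' : ℚ)) k
    fun a => (P.lsv h c nt y leaf e (2 * j) (z.1, a) k +
      P.lsv h c nt y leaf e (2 * j + 1) (a, z.2) k : ℚ)
  set K : ℝ := 2 ^ P.kap
  set B : ℝ := 2 ^ (3 * P.Lx)
  set T : ℝ := 7 ^ e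
  set S : ℝ := 2 ^ P.s with hS
  have hS0 : 0 < S := by positivity
  have hK0 : 0 < K := by linarith
  have k2 : K ≤ K ^ 2 := by nlinarith
  have k3 : K ^ 2 ≤ K ^ 3 := by nlinarith
  have k4 : 64 * B * K ≤ K ^ 2 := by nlinarith
  have k5 : 64 * T * K ≤ K ^ 2 := by nlinarith
  have k6 : 64 * T * K ^ 2 ≤ K ^ 3 := by nlinarith [sq_nonneg K]
  have k7 : 2 * K * (2 * (P.X * B) + 4 * (2 * (T * (P.X * K)))) ≤ P.X * K ^ 3 / 2 := by
    have : 4 * K * B + 16 * T * K ^ 2 ≤ K ^ 3 / 2 := by nlinarith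
    have := mul_le_mul_of_nonneg_left this (by linarith : (0 : ℝ) ≤ P.X)
    nlinarith
  have k8 : (2 : ℝ) ≤ P.X * K ^ 3 := by nlinarith
  have e3 : |(w : ℝ) - F| ≤ P.X * K ^ 3 / 2 / S := by
    refine e1.trans ?_
    rw [div_mul_eq_mul_div]
    gcongr
  have e4 : (P.X : ℝ) * K ^ 3 / 2 / S ≤ 1 / 2 := by
    rw [div_le_iff₀ hS0]
    linarith
  have e5 : |(w : ℝ)| ≤ S := by
    have a1 := abs_sub_abs_le_abs_sub (w : ℝ) F
    have a2 : 64 * T * K * P.X ≤ K ^ 3 * P.X := by gcongr; linarith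
    nlinarith
  rw [hS] at e5
  exact_mod_cast e5

/-- Induction on `e`.  The histories agree (`lsv_congr`), so `lsC` and `lsW` agree (`lsC_congr`,
`lsW_congr`); both arguments of `rup` have absolute value at most `2 ^ s` (`abs_lsv_le`,
`abs_lsQ_sub_Phi_le`, `abs_Phi_le`, `X_mul_le`), and both are rounded up by at most `2^{-s}`. -/
theorem lsv_sub_linv (hP : P.OK) (hc : ¬ P.triv h c) (hy : P.inW (h + c) y)
    (hen : P.enab h c nt y) (hn : ∀ i j z, |nt i j c z| ≤ P.X)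
    (hl : ∀ k' ≤ m, ∀ j < 2 ^ P.d, (P.cen h c nt y P.d j).2 = true →
      ∀ z, P.InA (h + c) (P.cen h c nt y P.d j).1 z → |(leaf k' j z : ℝ)| ≤ P.X * 2 ^ P.kap)
    (hl' : ∀ j < 2 ^ P.d, (P.cen h c nt y P.d j).2 = true →
      ∀ z, P.InA (h + c) (P.cen h c nt y P.d j).1 z → |(leaf' m j z : ℝ)| ≤ P.X * 2 ^ P.kap)
    (heq : ∀ k' < m, leaf' k' = leaf k')
    {e j : ℕ} (he : e ≤ P.d) (hj : j < 2 ^ (P.d - e)) (ha : (P.cen h c nt y (P.d - e) j).2 = true)
    {z : St} (hz : P.InA (h + c) (P.cen h c nt y (P.d - e) j).1 z) :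
    |(P.lsv h c nt y leaf' e j z m : ℝ) - P.lsv h c nt y leaf e j z m -
      P.linv h c nt y leaf m (fun j z => (leaf' m j z : ℝ) - leaf m j z) e j z| ≤
      (2 ^ e - 1) / 2 ^ P.s := by
  have hl'' : ∀ k' ≤ m, ∀ j < 2 ^ P.d, (P.cen h c nt y P.d j).2 = true →
      ∀ z, P.InA (h + c) (P.cen h c nt y P.d j).1 z → |(leaf' k' j z : ℝ)| ≤ P.X * 2 ^ P.kap := by
    intro k' hk'
    rcases hk'.lt_or_eq with h1 | rfl
    · rw [heq k' h1]
      exact hl k' hk'
    · exact hl'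
  induction e generalizing j z with
  | zero => simp [lsv, linv]
  | succ e ih =>
    rw [SmA_lsv_succ, SmA_lsv_succ]
    simp only [linv]
    split_ifs with ht
    · rw [sub_self, sub_zero, abs_zero]
      have : (1 : ℝ) ≤ 2 ^ (e + 1) := one_le_pow₀ one_le_two
      exact div_nonneg (by linarith) (by positivity)
    · have h1 := aff_lsQ_le hP hc hy hen hn hl he hj ha ht hz
      have h2 := aff_lsQ_le hP hc hy hen hn hl'' he hj ha ht hz
      refine (aff_step (R := 2 * ((2 ^ e - 1) / 2 ^ P.s)) (aff_eta_pos _ _)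
        (midAt_mem_acts hy (by omega) j) h1 h2 (fun k hk a _ => ?_) fun a haa => ?_).trans_eq ?_
      · have h3 : ∀ k' ≤ k, leaf' k' = leaf k' := fun k' hk' => heq k' (by omega)
        rw [lsv_congr h3, lsv_congr h3]
      · obtain ⟨⟨a1, a2, a3⟩, b1, b2, b3⟩ := SmA_child (by omega) hj ha ht hz haa
        have i1 := ih (by omega) a1 a2 a3
        have i2 := ih (by omega) b1 b2 b3
        push_cast
        rw [abs_le] at i1 i2 ⊢
        constructor <;> linarith [i1.1, i1.2, i2.1, i2.2]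
      · ring

end Pa

end Crest.Agent.R288
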