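/-
R288/SmEst: the linearised value computed from sampled bottom tables.
-/
import Crest.Agent.R288.SmAff
import Crest.Agent.R288.Cls
import Crest.Agent.R288.Bern

set_option autoImplicit false

namespace Crest.Agent.R288

open Finset

namespace Pa

/-- One family of samples for the tables `Pm` below node `j` of the world `(h, c)`. -/
structure Samp (P : Pa) (n : ℕ) (Pm : Fam) (h j c : ℕ) (Ix : (ℕ → Bool) → ℕ → ℕ → ℕ)
    (Rw : (ℕ → Bool) → ℕ → ℕ → St → ℚ) (S : ℕ → ℕ → Set ℕ) : Prop where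
  dep : ∀ i < P.I, ∀ r < 2 ^ (i + P.rx), Dep (fun ρ => (Ix ρ i r, Rw ρ i r)) (S i r)
  disj : ∀ i < P.I, ∀ r < 2 ^ (i + P.rx), ∀ i' < P.I, ∀ r' < 2 ^ (i' + P.rx), (i, r) ≠ (i', r') →
    Disjoint (S i r) (S i' r')
  unif : ∀ i < P.I, ∀ r < 2 ^ (i + P.rx), ¬ P.triv (h - P.d) (c - 1 + i) → ∀ j' < 2 ^ P.d,
    Pr n (fun ρ => Ix ρ i r = j') ≤ 1 / 2 ^ P.d
  mean : ∀ i < P.I, ∀ r < 2 ^ (i + P.rx), ¬ P.triv (h - P.d) (c - 1 + i) → ∀ j' < 2 ^ P.d,
    ∀ z : St, z.1 ≤ P.X → P.inW (h - P.d + (c - 1 + i)) (P.rd (h - P.d + (c - 1 + i)) z) →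
    |2 ^ P.d * Ex n (fun ρ => if Ix ρ i r = j' then (Rw ρ i r z : ℝ) else 0) -
      Pm (h - P.d) (j * 2 ^ P.d + j') (c - 1 + i) (P.rd (h - P.d + (c - 1 + i)) z)| ≤
      2 * P.tau * P.La (h - P.d + (c - 1 + i))
  bnd : ∀ i < P.I, ∀ r < 2 ^ (i + P.rx), ¬ P.triv (h - P.d) (c - 1 + i) →
    ∀ z : St, z.1 ≤ P.X → P.inW (h - P.d + (c - 1 + i)) (P.rd (h - P.d + (c - 1 + i)) z) →
    ∀ ρ, |(Rw ρ i r z : ℝ)| ≤ 6 * P.La (h - P.d + (c - 1 + i))

/-- All bits of one family. -/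
def segU (P : Pa) (S : ℕ → ℕ → Set ℕ) : Set ℕ := {b | ∃ i < P.I, ∃ r < 2 ^ (i + P.rx), b ∈ S i r}

/-- The linearised value of round `m` with the bottom tables of round `m` replaced by `E`. -/
def SmE (P : Pa) (Nt : Fam) (Pt : ℕ → ℕ → Fam) (β h j c m : ℕ) (E : ℕ → ℕ → St → ℚ) (y : St) : ℚ :=
  P.Sm h c (P.ntM Nt h j c) (pbE (P.pbM (fun k => Pt k β) h j c) m E) y m

/-- Contribution of one sample of step `i` with index `ix` and table `rw`. -/
noncomputable def smpD (P : Pa) (h c : ℕ) (nt : ℕ → ℕ → ℕ → St → ℚ) (y : St) (i ix : ℕ)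
    (rw : St → ℚ) : ℕ → St → ℝ := fun j' z =>
  if P.clc h c nt y j' = c - 1 + i ∧ ¬ P.triv (h - P.d) (c - 1 + i) ∧ ix = j' then
    2 ^ P.d / 2 ^ (i + P.rx) * rw z else 0

/-- The quantity estimated by the samples. -/
noncomputable def tgtD (P : Pa) (Pm : Fam) (h j c : ℕ) (nt : ℕ → ℕ → ℕ → St → ℚ) (y : St) :
    ℕ → St → ℝ := fun j' z =>
  if P.triv (h - P.d) (P.clc h c nt y j') then 0 else
    Pm (h - P.d) (j * 2 ^ P.d + j') (P.clc h c nt y j') (P.rd (h - P.d + P.clc h c nt y j') z)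

variable {P : Pa} {ms : ℕ → ℕ → Bool} {Nb Nt : Fam} {Pt : ℕ → ℕ → Fam} {K : ℝ}
  {n m β h j c : ℕ} {y : St} {Ix : (ℕ → Bool) → ℕ → ℕ → ℕ} {Rw : (ℕ → Bool) → ℕ → ℕ → St → ℚ}
  {S : ℕ → ℕ → Set ℕ}

theorem Samp.dep_estF {Pm : Fam} (hS : P.Samp n Pm h j c Ix Rw S) :
    Dep (fun ρ => P.estF c (Ix ρ) (Rw ρ)) (P.segU S) := by
  intro ρ ρ' hρ
  funext j' c' z
  show P.estF c (Ix ρ) (Rw ρ) j' c' z = P.estF c (Ix ρ') (Rw ρ') j' c' z
  unfold estF
  split_ifs with hi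
  · refine congrArg₂ (· * ·) rfl (sum_congr rfl fun r hr => ?_)
    have := hS.dep _ hi r (mem_range.1 hr) ρ ρ' fun b hb => hρ b ⟨_, hi, r, mem_range.1 hr, hb⟩
    have e1 : Ix ρ (c' - (c - 1)) r = Ix ρ' (c' - (c - 1)) r := (Prod.ext_iff.1 this).1
    have e2 : Rw ρ (c' - (c - 1)) r = Rw ρ' (c' - (c - 1)) r := (Prod.ext_iff.1 this).2
    rw [e1, e2]
  · rfl

theorem SmE_of_not_enab (hen : ¬ P.enab h c (P.ntG Nt h j c y) y) (E : ℕ → ℕ → St → ℚ) :
    P.SmE Nt Pt β h j c m E y = P.SmM Nt Pt β h j c y m := by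
  exact (if_neg hen).trans (if_neg hen).symm

theorem se_La_pos (u : ℕ) : 0 < P.La u := by
  unfold La
  exact_mod_cast Lam_pos u

/-- An alive bottom node with a nontrivial class. -/
theorem se_pt (hT : P.Top ms Nb Nt Pt K h j c y) (hen : P.enab h c (P.ntG Nt h j c y) y) {j' : ℕ}
    (hj : j' < 2 ^ P.d) (ha : (P.cen h c (P.ntG Nt h j c y) y P.d j').2 = true) {z : St}
    (hz : P.InA (h + c) (P.cen h c (P.ntG Nt h j c y) y P.d j').1 z)
    (ht : ¬ P.triv (h - P.d) (P.clc h c (P.ntG Nt h j c y) y j')) :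
    ∃ i < P.I, P.clc h c (P.ntG Nt h j c y) y j' = c - 1 + i ∧ ¬ P.triv (h - P.d) (c - 1 + i) ∧
      z.1 ≤ P.X ∧ P.inW (h - P.d + (c - 1 + i)) (P.rd (h - P.d + (c - 1 + i)) z) ∧
      Nat.dist z.1 y.1 ≤ P.rad (h + c) 3 := by
  have hc : c ≤ P.cmax := by
    have := hT.wd.nt
    unfold triv at this
    omega
  have hge : c - 1 ≤ P.clc h c (P.ntG Nt h j c y) y j' := cls_ge hc
  obtain ⟨h1, -, h2, -⟩ := bot_eq hT (Nat.zero_le _) hen hj ha hz ht
  have e : P.clc h c (P.ntG Nt h j c y) y j' = c - 1 + (P.clc h c (P.ntG Nt h j c y) y j' - (c - 1)) := by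
    omega
  exact ⟨_, clc_lt hen hT.wd.dle hj ha, e, e ▸ ht, (mem_acts.1 hz.1).2.1, e ▸ h1, h2⟩

theorem se_sigma {I' i₀ : ℕ} (hi : i₀ < I') (t : ℕ → Finset ℕ) (F : ℕ → ℕ → ℝ)
    (h0 : ∀ i r, i ≠ i₀ → F i r = 0) :
    ∑ q ∈ (range I').sigma t, F q.1 q.2 = ∑ r ∈ t i₀, F i₀ r := by
  rw [sum_sigma (range I') t fun q => F q.1 q.2]
  exact sum_eq_single i₀ (fun i _ hne => sum_eq_zero fun r _ => h0 i r hne)
    fun hn => absurd (mem_range.2 hi) hn

theorem se_smp_ne {nt : ℕ → ℕ → ℕ → St → ℚ} {j' i₀ i : ℕ} (h0 : P.clc h c nt y j' = c - 1 + i₀)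
    (hi : i ≠ i₀) (ix : ℕ) (rw : St → ℚ) (z : St) : P.smpD h c nt y i ix rw j' z = 0 :=
  if_neg fun hc => hi (by omega)

theorem se_smp_eq {nt : ℕ → ℕ → ℕ → St → ℚ} {j' i : ℕ} (h0 : P.clc h c nt y j' = c - 1 + i)
    (ht : ¬ P.triv (h - P.d) (c - 1 + i)) (ix : ℕ) (rw : St → ℚ) (z : St) :
    P.smpD h c nt y i ix rw j' z = 2 ^ P.d / 2 ^ (i + P.rx) * if ix = j' then (rw z : ℝ) else 0 := by
  unfold smpD
  by_cases hx : ix = j'
  · rw [if_pos ⟨h0, ht, hx⟩, if_pos hx]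
  · rw [if_neg fun hc => hx hc.2.2, if_neg hx, mul_zero]

theorem se_smp_triv {nt : ℕ → ℕ → ℕ → St → ℚ} {j' : ℕ} (ht : P.triv (h - P.d) (P.clc h c nt y j'))
    (i ix : ℕ) (rw : St → ℚ) (z : St) : P.smpD h c nt y i ix rw j' z = 0 :=
  if_neg fun hc => hc.2.1 (hc.1 ▸ ht)

theorem se_estF {i : ℕ} (hi : i < P.I) (Ix : ℕ → ℕ → ℕ) (Rw : ℕ → ℕ → St → ℚ) (j' : ℕ) (z : St) :
    (P.estF c Ix Rw j' (c - 1 + i) z : ℝ) = ∑ r ∈ range (2 ^ (i + P.rx)),
      2 ^ P.d / 2 ^ (i + P.rx) * if Ix i r = j' then (Rw i r z : ℝ) else 0 := by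
  unfold estF
  rw [Nat.add_sub_cancel_left, if_pos hi, ← mul_sum]
  push_cast
  refine congrArg₂ (· * ·) rfl (sum_congr rfl fun r _ => ?_)
  split_ifs <;> simp

theorem se_num (hP : P.OK) : (0 : ℝ) < P.mu * P.tau ∧ (P.ups : ℝ) ^ 2 ≤ 2 * P.mu * P.tau ∧
    64 * (P.mu : ℝ) * P.tau * P.theta ≤ 1 ∧ (1 : ℝ) ≤ P.theta := by
  have h1 := hP.poly_p_le
  have h2 := hP.p_ge
  have h3 : P.p ≤ P.p ^ 4 := Nat.le_self_pow (by norm_num) _
  unfold mu tau ups theta
  push_cast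
  refine ⟨by positivity, ?_, ?_, one_le_pow₀ (by norm_num)⟩
  · have a1 : (1 : ℝ) ≤ 2 ^ (4 * P.p) := one_le_pow₀ (by norm_num)
    have a2 : ((1 : ℝ) / 2 ^ (8 * P.Lx)) ^ 2 ≤ 1 / 2 ^ (5 * P.Lx) := by
      rw [div_pow, one_pow, ← pow_mul]
      exact one_div_le_one_div_of_le (by positivity) (pow_le_pow_right₀ (by norm_num) (by omega))
    have a3 : (0 : ℝ) < 1 / 2 ^ (5 * P.Lx) := by positivity
    generalize ((1 : ℝ) / 2 ^ (8 * P.Lx)) ^ 2 = u at *
    generalize (1 : ℝ) / 2 ^ (5 * P.Lx) = v at *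
    generalize (2 : ℝ) ^ (4 * P.p) = w at *
    nlinarith
  · have e : (64 : ℝ) * 2 ^ (4 * P.p) * (1 / 2 ^ (5 * P.Lx)) * 2 ^ (16 * P.p) =
        2 ^ (6 + 4 * P.p + 16 * P.p) / 2 ^ (5 * P.Lx) := by
      rw [pow_add, pow_add]
      generalize (2 : ℝ) ^ (4 * P.p) = u
      generalize (2 : ℝ) ^ (16 * P.p) = v
      generalize (2 : ℝ) ^ (5 * P.Lx) = w
      ring
    rw [e, div_le_one (by positivity)]
    exact pow_le_pow_right₀ (by norm_num) (by omega)

/-- `lsv_sub_linv` with `leaf = leafG`, `leaf' k = bot … (grd … (pbE … m E) k)`; on an alive bottom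
node with nontrivial class (`bot_eq`, `clc_lt`, `cls_ge`) the difference of the leaves is
`estF … - Pt m β …`, and `|estF| ≤ 6 · 2^d Λ' ≤ X 2^kap / 2` (`Lam_le_of_not_triv`); then `linv_congr_top`,
`linv_sub`, `linv_sum`; `2^d / 2^s ≤ ups² Λ` (`eps_le`). -/
theorem sm_decomp (hT : P.Top ms Nb Nt Pt K h j c y) (hβ : β ≤ P.M) (hm : m < P.M)
    (hS : P.Samp n (Pt m β) h j c Ix Rw S) (hen : P.enab h c (P.ntG Nt h j c y) y)
    (ρ : ℕ → Bool) :
    |(P.SmE Nt Pt β h j c m (P.estF c (Ix ρ) (Rw ρ)) y : ℝ) - P.SmM Nt Pt β h j c y m -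
      ((∑ q ∈ (range P.I).sigma fun i => range (2 ^ (i + P.rx)),
        P.linv h c (P.ntG Nt h j c y) y (P.leafG Nt Pt β h j c y) m
          (P.smpD h c (P.ntG Nt h j c y) y q.1 (Ix ρ q.1 q.2) (Rw ρ q.1 q.2)) P.d 0 y) -
        P.linv h c (P.ntG Nt h j c y) y (P.leafG Nt Pt β h j c y) m
          (P.tgtD (Pt m β) h j c (P.ntG Nt h j c y) y) P.d 0 y)| ≤
      P.ups ^ 2 * P.La (h + c) := by
  set E := P.estF c (Ix ρ) (Rw ρ) with hE
  let leaf' : ℕ → ℕ → St → ℚ := fun k => P.bot h c (P.ntG Nt h j c y) y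
    (P.grd (h + c) y (pbE (P.pbM (fun k => Pt k β) h j c) m E) k)
  have e1 : P.SmE Nt Pt β h j c m E y = P.lsv h c (P.ntG Nt h j c y) y leaf' P.d 0 y m := if_pos hen
  have e2 : P.SmM Nt Pt β h j c y m =
      P.lsv h c (P.ntG Nt h j c y) y (P.leafG Nt Pt β h j c y) P.d 0 y m := if_pos hen
  have l1 : ∀ j' z, P.triv (h - P.d) (P.clc h c (P.ntG Nt h j c y) y j') →
      leaf' m j' z = P.trivV (h - P.d) z := fun j' z ht => if_pos ht
  have l2 : ∀ j' z, ¬ P.triv (h - P.d) (P.clc h c (P.ntG Nt h j c y) y j') →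
      Nat.dist z.1 y.1 ≤ P.rad (h + c) 3 → leaf' m j' z = E j' (P.clc h c (P.ntG Nt h j c y) y j') z +
        dst z (P.rd (h - P.d + P.clc h c (P.ntG Nt h j c y) y j') z) := fun j' z ht hd => by
    refine (if_neg ht).trans ?_
    unfold grd pbE
    rw [if_pos hd, if_neg (lt_irrefl m)]
  have key := lsv_sub_linv (leaf := P.leafG Nt Pt β h j c y) (leaf' := leaf') (m := m) hT.ok hT.wd.nt
    hT.hy hen
    (fun i j' z => abs_le.2 ⟨le_trans (neg_nonpos.2 (Nat.cast_nonneg _)) (ntG_mem hT.sa hT.wd i j' c z).1,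
      (ntG_mem hT.sa hT.wd i j' c z).2⟩)
    (fun k' hk' j' hj ha z hz => bot_abs hT hβ hen hj ha hz (hk'.trans_lt hm))
    (fun j' hj ha z hz => ?_) (fun k' hk' => ?_) le_rfl (Nat.two_pow_pos _) (j := 0) (z := y)
    (by rw [Nat.sub_self]; rfl)
    (by rw [Nat.sub_self]; exact cen_inA (nt := P.ntG Nt h j c y) hT.hy (Nat.zero_le _) 0)
  · rw [e1, e2, ← linv_sum, ← linv_sub]
    rw [linv_congr_top hT.hy (Δ' := fun j' z => (leaf' m j' z : ℝ) - P.leafG Nt Pt β h j c y m j' z)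
      fun j' hj ha z hz => ?_]
    · refine key.trans ?_
      have a1 : ((2 : ℝ) ^ (3 * P.kap) / 2 ^ P.s) ≤ P.ups * P.ups * P.La (h + c) := by
        have := (Rat.cast_le (K := ℝ)).2 (eps_le (P := P) (h + c))
        push_cast at this
        exact this
      have a2 : (2 : ℝ) ^ P.d ≤ 2 ^ (3 * P.kap) := by
        have := Nat.le_of_dvd hT.ok.D_pos hT.ok.d_dvd_D
        exact pow_le_pow_right₀ (by norm_num) (by unfold kap; omega)
      rw [sq]
      refine le_trans ?_ a1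
      gcongr
      linarith
    · by_cases ht : P.triv (h - P.d) (P.clc h c (P.ntG Nt h j c y) y j')
      · rw [l1 j' z ht, cls_leaf_triv ht, sub_self, sum_eq_zero fun q _ => se_smp_triv ht _ _ _ _, tgtD,
          if_pos ht, sub_self]
      · obtain ⟨i, hi, hc, ht', -, -, hd⟩ := se_pt hT hen hj ha hz ht
        rw [l2 j' z ht hd, (bot_eq hT hβ hen hj ha hz ht).2.2.2 m, tgtD, if_neg ht,
          se_sigma hi _ (fun i r => P.smpD h c (P.ntG Nt h j c y) y i (Ix ρ i r) (Rw ρ i r) j' z)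
            fun i' r hne => se_smp_ne hc hne _ _ _]
        simp only [se_smp_eq hc ht']
        rw [← se_estF hi, ← hc]
        push_cast
        ring
  · by_cases ht : P.triv (h - P.d) (P.clc h c (P.ntG Nt h j c y) y j')
    · rw [l1 j' z ht, ← cls_leaf_triv (Pt := Pt) (β := β) ht m z]
      exact bot_abs hT hβ hen hj ha hz hm
    · obtain ⟨i, hi, hc, ht', hx, hw, hd⟩ := se_pt hT hen hj ha hz ht
      rw [l2 j' z ht hd, hc]
      have hL := se_La_pos (P := P) (h - P.d + (c - 1 + i))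
      have a1 : |(E j' (c - 1 + i) z : ℝ)| ≤ 2 ^ P.d * (6 * P.La (h - P.d + (c - 1 + i))) := by
        rw [hE, se_estF hi]
        refine (abs_sum_le_sum_abs _ _).trans ((sum_le_card_nsmul _ _
          (2 ^ P.d / 2 ^ (i + P.rx) * (6 * P.La (h - P.d + (c - 1 + i)))) fun r hr => ?_).trans (le_of_eq ?_))
        · rw [abs_mul, abs_of_nonneg (by positivity)]
          refine mul_le_mul_of_nonneg_left ?_ (by positivity)
          split_ifs
          · exact hS.bnd i hi r (mem_range.1 hr) ht' z hx hw ρ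
          · rw [abs_zero]
            positivity
        · rw [card_range, nsmul_eq_mul]
          push_cast
          field_simp
      have a2 : (dst z (P.rd (h - P.d + (c - 1 + i)) z) : ℝ) ≤ P.La (h - P.d + (c - 1 + i)) := by
        have b1 := cls_dst_rd hT.ok (h - P.d + (c - 1 + i)) z
        have b2 := mul_le_mul_of_nonneg_right (cls_G_le hT.ok).2 (Lam_pos (P := P) (h - P.d + (c - 1 + i))).le
        have b3 := Lam_pos (P := P) (h - P.d + (c - 1 + i))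
        have b4 : (dst z (P.rd (h - P.d + (c - 1 + i)) z) : ℚ) ≤ P.Lam (h - P.d + (c - 1 + i)) := by linarith
        unfold La
        exact_mod_cast b4
      have a3 : P.La (h - P.d + (c - 1 + i)) ≤ P.X * 2 ^ (3 * P.Lx) := by
        unfold La
        exact_mod_cast Lam_le_of_not_triv ht'
      have a4 : (2 : ℝ) ^ (3 + P.d + 3 * P.Lx) ≤ 2 ^ P.kap := by
        have := Nat.le_of_dvd hT.ok.D_pos hT.ok.d_dvd_D
        exact pow_le_pow_right₀ (by norm_num) (by unfold kap Lx; omega)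
      have a5 : (1 : ℝ) ≤ 2 ^ P.d := one_le_pow₀ (by norm_num)
      push_cast
      refine (abs_add_le _ _).trans ?_
      rw [abs_of_nonneg (Nat.cast_nonneg (α := ℝ) _)]
      calc _ ≤ 2 ^ 3 * 2 ^ P.d * P.La (h - P.d + (c - 1 + i)) := by nlinarith
        _ ≤ 2 ^ 3 * 2 ^ P.d * (P.X * 2 ^ (3 * P.Lx)) := by gcongr
        _ = P.X * 2 ^ (3 + P.d + 3 * P.Lx) := by
          rw [pow_add, pow_add]
          ring
        _ ≤ _ := by gcongr
  · funext j' z
    simp only [leaf', leafG, pbG]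
    congr 1
    funext a b w
    unfold grd pbE
    rw [if_pos hk']

theorem se_smp_B (hT : P.Top ms Nb Nt Pt K h j c y) (hS : P.Samp n (Pt m β) h j c Ix Rw S)
    (hen : P.enab h c (P.ntG Nt h j c y) y) {i r : ℕ} (hi : i < P.I) (hr : r < 2 ^ (i + P.rx))
    (ρ : ℕ → Bool) :
    |P.linv h c (P.ntG Nt h j c y) y (P.leafG Nt Pt β h j c y) m
      (P.smpD h c (P.ntG Nt h j c y) y i (Ix ρ i r) (Rw ρ i r)) P.d 0 y| ≤
      ∑ j' ∈ range (2 ^ P.d),
        (if P.clc h c (P.ntG Nt h j c y) y j' = c - 1 + i ∧ ¬ P.triv (h - P.d) (c - 1 + i) then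
          2 ^ P.d / 2 ^ (i + P.rx) * (6 * (P.mb h c (P.ntG Nt h j c y) y j' : ℝ)) else 0) *
        if Ix ρ i r = j' then 1 else 0 := by
  refine abs_linv_top hT.hy (fun j' => ?_) fun j' hj ha z hz => ?_
  · have : (0 : ℝ) ≤ P.mb h c (P.ntG Nt h j c y) y j' := by exact_mod_cast mb_nonneg j'
    split_ifs <;> positivity
  · by_cases hc : P.clc h c (P.ntG Nt h j c y) y j' = c - 1 + i ∧ ¬ P.triv (h - P.d) (c - 1 + i)
    · obtain ⟨i', -, hc', -, hx, hw, -⟩ := se_pt hT hen hj ha hz (hc.1 ▸ hc.2)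
      obtain rfl : i = i' := by omega
      rw [se_smp_eq hc.1 hc.2, if_pos hc, abs_mul, abs_of_nonneg (by positivity), mul_assoc]
      refine mul_le_mul_of_nonneg_left ?_ (by positivity)
      split_ifs
      · rw [mul_one, mb, if_pos ha, hc.1]
        exact hS.bnd i hi r hr hc.2 z hx hw ρ
      · simp
    · rw [if_neg hc, zero_mul, smpD, if_neg fun h' => hc ⟨h'.1, h'.2.1⟩, abs_zero]

/-- One sample: `abs_linv_top` with `B j' = [ix = j'] 2^d / 2^(i + rx) · 6 Λ'`, and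
`2^d Λ(h - d + (c - 1 + i)) ≤ 2^i Λ(h + c)`. -/
theorem abs_smp_le (hT : P.Top ms Nb Nt Pt K h j c y) (hS : P.Samp n (Pt m β) h j c Ix Rw S)
    (hen : P.enab h c (P.ntG Nt h j c y) y) {i r : ℕ} (hi : i < P.I) (hr : r < 2 ^ (i + P.rx))
    (ρ : ℕ → Bool) :
    |P.linv h c (P.ntG Nt h j c y) y (P.leafG Nt Pt β h j c y) m
      (P.smpD h c (P.ntG Nt h j c y) y i (Ix ρ i r) (Rw ρ i r)) P.d 0 y| ≤
      6 * P.La (h + c) / 2 ^ P.rx := by
  have hL := se_La_pos (P := P) (h + c)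
  refine (se_smp_B hT hS hen hi hr ρ).trans ?_
  refine le_trans (sum_le_sum (g := fun j' => if Ix ρ i r = j' then 6 * P.La (h + c) / 2 ^ P.rx else 0)
    fun j' _ => ?_) ?_
  · by_cases hx : Ix ρ i r = j'
    · simp only [if_pos hx, mul_one]
      split_ifs with hc
      · have a1 : (P.mb h c (P.ntG Nt h j c y) y j' : ℝ) ≤ P.La (h - P.d + (c - 1 + i)) := by
          unfold mb
          split_ifs
          · rw [hc.1]
            rfl
          · exact_mod_cast (se_La_pos _).le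
        have a2 : 2 ^ P.d * P.La (h - P.d + (c - 1 + i)) ≤ 2 ^ i * P.La (h + c) := by
          have b1 : P.Lam (h - P.d + (c - 1 + i) + P.d) ≤ P.Lam (h + c + i) :=
            Lam_mono (by have := hT.wd.dle; omega)
          rw [Lam_add (h - P.d + (c - 1 + i)) P.d, Lam_add (h + c) i] at b1
          unfold La
          exact_mod_cast b1
        calc _ ≤ 2 ^ P.d / 2 ^ (i + P.rx) * (6 * P.La (h - P.d + (c - 1 + i))) := by gcongr
          _ = 6 * (2 ^ P.d * P.La (h - P.d + (c - 1 + i))) / 2 ^ (i + P.rx) := by ring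
          _ ≤ 6 * (2 ^ i * P.La (h + c)) / 2 ^ (i + P.rx) := by gcongr
          _ = _ := by
            rw [pow_add]
            field_simp
      · positivity
    · simp only [if_neg hx, mul_zero, le_refl]
  · rw [sum_ite_eq]
    split_ifs
    · exact le_rfl
    · positivity

theorem se_mb_sum (hen : P.enab h c (P.ntG Nt h j c y) y) :
    ∑ j' ∈ range (2 ^ P.d), (P.mb h c (P.ntG Nt h j c y) y j' : ℝ) ≤ P.mu * P.La (h + c) := by
  unfold La
  exact_mod_cast hen.1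

/-- `E Y² ≤ (6 Λ / 2^rx) E |Y|`, `E |Y| ≤ ∑_{j', clc j' = c - 1 + i} 6 mb j' / 2^(i + rx)` (`unif`),
and `∑ mb ≤ μ Λ`. -/
theorem sum_sq_smp_le (hT : P.Top ms Nb Nt Pt K h j c y) (hS : P.Samp n (Pt m β) h j c Ix Rw S)
    (hen : P.enab h c (P.ntG Nt h j c y) y) :
    (∑ q ∈ (range P.I).sigma fun i => range (2 ^ (i + P.rx)), Ex n fun ρ =>
      P.linv h c (P.ntG Nt h j c y) y (P.leafG Nt Pt β h j c y) m
        (P.smpD h c (P.ntG Nt h j c y) y q.1 (Ix ρ q.1 q.2) (Rw ρ q.1 q.2)) P.d 0 y ^ 2) ≤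
      36 * P.mu * P.La (h + c) ^ 2 / 2 ^ P.rx := by
  have hL := se_La_pos (P := P) (h + c)
  have hmb : ∀ j', (0 : ℝ) ≤ P.mb h c (P.ntG Nt h j c y) y j' := fun j' => by exact_mod_cast mb_nonneg j'
  have h1 : ∀ i < P.I, ∀ r < 2 ^ (i + P.rx), (Ex n fun ρ =>
      P.linv h c (P.ntG Nt h j c y) y (P.leafG Nt Pt β h j c y) m
        (P.smpD h c (P.ntG Nt h j c y) y i (Ix ρ i r) (Rw ρ i r)) P.d 0 y ^ 2) ≤
      6 * P.La (h + c) / 2 ^ P.rx * ((∑ j' ∈ range (2 ^ P.d),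
        if i = P.clc h c (P.ntG Nt h j c y) y j' - (c - 1) then
          6 * (P.mb h c (P.ntG Nt h j c y) y j' : ℝ) else 0) / 2 ^ (i + P.rx)) := by
    intro i hi r hr
    refine (Ex_mono fun ρ => ?_).trans ((Ex_const_mul _).trans_le (mul_le_mul_of_nonneg_left
      ((Ex_mono fun ρ => se_smp_B hT hS hen hi hr ρ).trans ?_) (by positivity)))
    · rw [← sq_abs, sq]
      exact mul_le_mul_of_nonneg_right (abs_smp_le hT hS hen hi hr ρ) (abs_nonneg _)
    · rw [Ex_sum, sum_div]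
      refine sum_le_sum fun j' hj => ?_
      rw [Ex_const_mul]
      have := hmb j'
      by_cases hc : P.clc h c (P.ntG Nt h j c y) y j' = c - 1 + i ∧ ¬ P.triv (h - P.d) (c - 1 + i)
      · have a1 : (Ex n fun ρ => if Ix ρ i r = j' then (1 : ℝ) else 0) ≤ 1 / 2 ^ P.d := by
          refine le_trans (le_of_eq ?_) (hS.unif i hi r hr hc.2 j' (mem_range.1 hj))
          unfold Pr
          refine congrArg (Ex n) (funext fun ρ => ?_)
          by_cases hx : Ix ρ i r = j' <;> simp [hx]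
        rw [if_pos hc, if_pos (by omega)]
        refine (mul_le_mul_of_nonneg_left a1 (by positivity)).trans (le_of_eq ?_)
        field_simp
      · rw [if_neg hc, zero_mul]
        split_ifs <;> positivity
  rw [sum_sigma (range P.I) (fun i => range (2 ^ (i + P.rx))) fun q => Ex n fun ρ =>
      P.linv h c (P.ntG Nt h j c y) y (P.leafG Nt Pt β h j c y) m
        (P.smpD h c (P.ntG Nt h j c y) y q.1 (Ix ρ q.1 q.2) (Rw ρ q.1 q.2)) P.d 0 y ^ 2]
  calc _ ≤ ∑ i ∈ range P.I, 6 * P.La (h + c) / 2 ^ P.rx * ∑ j' ∈ range (2 ^ P.d),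
        if i = P.clc h c (P.ntG Nt h j c y) y j' - (c - 1) then
          6 * (P.mb h c (P.ntG Nt h j c y) y j' : ℝ) else 0 := by
        refine sum_le_sum fun i hi => (sum_le_card_nsmul _ _ _ fun r hr =>
          h1 i (mem_range.1 hi) r (mem_range.1 hr)).trans (le_of_eq ?_)
        rw [card_range, nsmul_eq_mul]
        push_cast
        field_simp
    _ ≤ 6 * P.La (h + c) / 2 ^ P.rx * ∑ j' ∈ range (2 ^ P.d), 6 * (P.mb h c (P.ntG Nt h j c y) y j' : ℝ) := by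
        rw [← mul_sum, sum_comm]
        refine mul_le_mul_of_nonneg_left (sum_le_sum fun j' _ => ?_) (by positivity)
        rw [sum_ite_eq']
        have := hmb j'
        split_ifs
        · exact le_rfl
        · positivity
    _ ≤ 6 * P.La (h + c) / 2 ^ P.rx * (6 * (P.mu * P.La (h + c))) := by
        rw [← mul_sum]
        have := se_mb_sum hen
        gcongr
    _ = _ := by ring

/-- `Ex_linv`, `linv_sum`, `linv_sub`, `abs_linv_top` with `B j' = 2 τ mb j'` (`mean`, `clc_lt`). -/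
theorem sum_Ex_smp (hT : P.Top ms Nb Nt Pt K h j c y) (hS : P.Samp n (Pt m β) h j c Ix Rw S)
    (hen : P.enab h c (P.ntG Nt h j c y) y) :
    |(∑ q ∈ (range P.I).sigma fun i => range (2 ^ (i + P.rx)), Ex n fun ρ =>
      P.linv h c (P.ntG Nt h j c y) y (P.leafG Nt Pt β h j c y) m
        (P.smpD h c (P.ntG Nt h j c y) y q.1 (Ix ρ q.1 q.2) (Rw ρ q.1 q.2)) P.d 0 y) -
      P.linv h c (P.ntG Nt h j c y) y (P.leafG Nt Pt β h j c y) m
        (P.tgtD (Pt m β) h j c (P.ntG Nt h j c y) y) P.d 0 y| ≤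
      2 * P.mu * P.tau * P.La (h + c) := by
  have hτ : (0 : ℝ) ≤ 2 * P.tau := by
    unfold tau
    positivity
  simp only [Ex_linv]
  rw [← linv_sum, ← linv_sub]
  refine (abs_linv_top hT.hy (B := fun j' => 2 * P.tau * (P.mb h c (P.ntG Nt h j c y) y j' : ℝ))
    (fun j' => mul_nonneg hτ (by exact_mod_cast mb_nonneg j')) fun j' hj ha z hz => ?_).trans ?_
  · by_cases ht : P.triv (h - P.d) (P.clc h c (P.ntG Nt h j c y) y j')
    · simp only [se_smp_triv ht, Ex_const, sum_const_zero, tgtD, if_pos ht, sub_self, abs_zero]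
      exact mul_nonneg hτ (by exact_mod_cast mb_nonneg j')
    · obtain ⟨i, hi, hc, ht', hx, hw, -⟩ := se_pt hT hen hj ha hz ht
      rw [se_sigma hi _ (fun i r => Ex n fun ρ =>
          P.smpD h c (P.ntG Nt h j c y) y i (Ix ρ i r) (Rw ρ i r) j' z)
        fun i' r hne => by simp only [se_smp_ne hc hne, Ex_const], tgtD, if_neg ht, mb, if_pos ha, hc]
      simp only [se_smp_eq hc ht', Ex_const_mul]
      have e : ∀ (f : ℕ → ℝ) (t : ℝ), ∑ r ∈ range (2 ^ (i + P.rx)), 2 ^ P.d / 2 ^ (i + P.rx) * f r - t =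
          (∑ r ∈ range (2 ^ (i + P.rx)), (2 ^ P.d * f r - t)) / 2 ^ (i + P.rx) := fun f t => by
        rw [sum_sub_distrib, ← mul_sum, ← mul_sum, sum_const, card_range, nsmul_eq_mul]
        push_cast
        field_simp
      rw [e, abs_div, abs_of_pos (by positivity : (0 : ℝ) < 2 ^ (i + P.rx)), div_le_iff₀ (by positivity)]
      refine (abs_sum_le_sum_abs _ _).trans ((sum_le_card_nsmul _ _ _ fun r hr =>
        hS.mean i hi r (mem_range.1 hr) ht' j' hj z hx hw).trans (le_of_eq ?_))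
      rw [card_range, nsmul_eq_mul]
      push_cast
      unfold La
      ring
  · rw [← mul_sum]
    refine (mul_le_mul_of_nonneg_left (se_mb_sum hen) hτ).trans (le_of_eq ?_)
    ring

theorem sm_mean (hT : P.Top ms Nb Nt Pt K h j c y) (hβ : β ≤ P.M) (hm : m < P.M)
    (hS : P.Samp n (Pt m β) h j c Ix Rw S) :
    |Ex n (fun ρ => P.SmE Nt Pt β h j c m (P.estF c (Ix ρ) (Rw ρ)) y) - P.SmM Nt Pt β h j c y m| ≤
      4 * P.mu * P.tau * P.La (h + c) := by
  have hL := se_La_pos (P := P) (h + c)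
  obtain ⟨n1, n2, -⟩ := se_num hT.ok
  by_cases hen : P.enab h c (P.ntG Nt h j c y) y
  · have h1 := abs_Ex_le.trans (Ex_le_const (n := n) fun ρ => sm_decomp hT hβ hm hS hen ρ)
    rw [Ex_sub, Ex_sub, Ex_sub, Ex_const, Ex_const, Ex_sum] at h1
    have h2 := sum_Ex_smp hT hS hen
    have h3 := mul_le_mul_of_nonneg_right n2 hL.le
    rw [abs_le] at h1 h2 ⊢
    constructor <;> linarith [h1.1, h1.2, h2.1, h2.2]
  · simp only [SmE_of_not_enab hen, Ex_const, sub_self, abs_zero]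
    have := mul_pos n1 hL
    linarith

/-- `bern_abs` with `R = 6 Λ / 2^rx`, `v = 36 μ Λ² / 2^rx`, `t = Λ / (16 ϑ)`, `λ = t / (2 v)`:
the exponent is `-t² / (4 v) = -2^(4p) / (144 · 256) ≤ -2^(3p)`. -/
theorem sm_tail (hT : P.Top ms Nb Nt Pt K h j c y) (hβ : β ≤ P.M) (hm : m < P.M)
    (hS : P.Samp n (Pt m β) h j c Ix Rw S) :
    Pr n (fun ρ => 1 / 8 < (P.theta : ℝ) / P.La (h + c) *
      |(P.SmE Nt Pt β h j c m (P.estF c (Ix ρ) (Rw ρ)) y : ℝ) - P.SmM Nt Pt β h j c y m|) ≤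
      2 * Real.exp (-2 ^ (3 * P.p)) := by
  have hL := se_La_pos (P := P) (h + c)
  obtain ⟨n1, n2, n3, n4⟩ := se_num hT.ok
  by_cases hen : P.enab h c (P.ntG Nt h j c y) y
  · set a : ℝ := 2 ^ P.p with ha
    have ha1 : (36864 : ℝ) ≤ a := by
      have := hT.ok.p_ge
      refine le_trans (by norm_num) (pow_le_pow_right₀ (by norm_num) (show 16 ≤ P.p by omega))
    have ha0 : 0 < a := by positivity
    have eθ : (P.theta : ℝ) = a ^ 16 := by
      unfold theta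
      push_cast
      rw [ha, ← pow_mul, mul_comm]
    have eμ : (P.mu : ℝ) = a ^ 4 := by
      unfold mu
      push_cast
      rw [ha, ← pow_mul, mul_comm]
    have er : (2 : ℝ) ^ P.rx = a ^ 40 := by
      unfold rx
      rw [ha, ← pow_mul, mul_comm]
    have hb := bern_abs n ((range P.I).sigma fun i => range (2 ^ (i + P.rx)))
      (fun q ρ => P.linv h c (P.ntG Nt h j c y) y (P.leafG Nt Pt β h j c y) m
        (P.smpD h c (P.ntG Nt h j c y) y q.1 (Ix ρ q.1 q.2) (Rw ρ q.1 q.2)) P.d 0 y)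
      (fun q => S q.1 q.2)
      (fun q hq => (hS.dep q.1 (mem_range.1 (mem_sigma.1 hq).1) q.2 (mem_range.1 (mem_sigma.1 hq).2)).comp
        fun w => P.linv h c (P.ntG Nt h j c y) y (P.leafG Nt Pt β h j c y) m
          (P.smpD h c (P.ntG Nt h j c y) y q.1 w.1 w.2) P.d 0 y)
      (fun q hq q' hq' hne => hS.disj q.1 (mem_range.1 (mem_sigma.1 hq).1) q.2
        (mem_range.1 (mem_sigma.1 hq).2) q'.1 (mem_range.1 (mem_sigma.1 hq').1) q'.2
        (mem_range.1 (mem_sigma.1 hq').2) fun e =>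
          hne (Sigma.ext (Prod.ext_iff.1 e).1 (heq_of_eq (Prod.ext_iff.1 e).2)))
      (fun q hq ρ => abs_smp_le hT hS hen (mem_range.1 (mem_sigma.1 hq).1)
        (mem_range.1 (mem_sigma.1 hq).2) ρ)
      (sum_sq_smp_le hT hS hen) (lam := a ^ 20 / (1152 * P.La (h + c))) (by positivity)
      (by
        have e : 2 * (a ^ 20 / (1152 * P.La (h + c))) * (6 * P.La (h + c) / 2 ^ P.rx) =
            1 / (96 * a ^ 20) := by
          rw [er]
          field_simp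
          norm_num
        rw [e, div_le_one (by positivity)]
        have : (1 : ℝ) ≤ a ^ 20 := one_le_pow₀ (by linarith)
        linarith)
      (P.La (h + c) / (16 * P.theta))
    refine (Pr_mono fun ρ hρ => ?_).trans (hb.trans ?_)
    · have h1 := sm_decomp hT hβ hm hS hen ρ
      have h2 := sum_Ex_smp hT hS hen
      have h3 := mul_le_mul_of_nonneg_right n2 hL.le
      have hθ : (0 : ℝ) < P.theta := by linarith
      have h4 : 4 * P.mu * P.tau * P.La (h + c) ≤ P.La (h + c) / (16 * P.theta) := by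
        rw [le_div_iff₀ (by positivity)]
        nlinarith
      have h5 : 2 * (P.La (h + c) / (16 * P.theta)) <
          |(P.SmE Nt Pt β h j c m (P.estF c (Ix ρ) (Rw ρ)) y : ℝ) - P.SmM Nt Pt β h j c y m| := by
        rw [div_mul_eq_mul_div, lt_div_iff₀ hL] at hρ
        rw [← mul_div_assoc, div_lt_iff₀ (by positivity)]
        linarith
      by_contra h6
      rw [not_le, abs_lt] at h6
      rw [abs_le] at h1 h2
      refine absurd h5 (not_lt.2 (abs_le.2 ⟨?_, ?_⟩)) <;> linarith [h1.1, h1.2, h2.1, h2.2, h6.1, h6.2]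
    · have e : -(a ^ 20 / (1152 * P.La (h + c))) * (P.La (h + c) / (16 * P.theta)) +
          (a ^ 20 / (1152 * P.La (h + c))) ^ 2 * (36 * P.mu * P.La (h + c) ^ 2 / 2 ^ P.rx) =
          -(a ^ 4 / 36864) := by
        rw [eθ, eμ, er]
        field_simp
        norm_num
      have e3 : (2 : ℝ) ^ (3 * P.p) = a ^ 3 := by rw [ha, ← pow_mul, mul_comm]
      rw [e, e3]
      gcongr
      rw [le_div_iff₀ (by norm_num), pow_succ a 3]
      gcongr
  · refine Ex_le_const fun ρ => ?_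
    rw [if_neg (by beta_reduce; rw [SmE_of_not_enab hen, sub_self, abs_zero, mul_zero]; norm_num)]
    positivity

/-- `∑_i 2^(i + rx) · 6 Λ / 2^rx ≤ 6 · 2^I Λ`; the target is within `2 μ τ Λ` of the mean of this
sum (or directly at most `4 μ Λ`). -/
theorem sm_sure (hT : P.Top ms Nb Nt Pt K h j c y) (hβ : β ≤ P.M) (hm : m < P.M)
    (hS : P.Samp n (Pt m β) h j c Ix Rw S) (ρ : ℕ → Bool) :
    |(P.SmE Nt Pt β h j c m (P.estF c (Ix ρ) (Rw ρ)) y : ℝ) - P.SmM Nt Pt β h j c y m| ≤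
      2 ^ (P.I + 5) * P.La (h + c) := by
  have hL := se_La_pos (P := P) (h + c)
  obtain ⟨n1, n2, n3, n4⟩ := se_num hT.ok
  by_cases hen : P.enab h c (P.ntG Nt h j c y) y
  · have hb : ∀ F : (Σ _ : ℕ, ℕ) → ℝ, (∀ q ∈ (range P.I).sigma fun i => range (2 ^ (i + P.rx)),
        |F q| ≤ 6 * P.La (h + c) / 2 ^ P.rx) →
        |∑ q ∈ (range P.I).sigma fun i => range (2 ^ (i + P.rx)), F q| ≤ 6 * (2 ^ P.I * P.La (h + c)) := by
      intro F hF
      refine (abs_sum_le_sum_abs _ _).trans ((sum_le_sum hF).trans ?_)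
      rw [sum_sigma (range P.I) (fun i => range (2 ^ (i + P.rx))) fun _ => 6 * P.La (h + c) / 2 ^ P.rx]
      have e : ∀ i, ∑ _r ∈ range (2 ^ (i + P.rx)), 6 * P.La (h + c) / 2 ^ P.rx =
          6 * P.La (h + c) * 2 ^ i := fun i => by
        rw [sum_const, card_range, nsmul_eq_mul]
        push_cast
        rw [pow_add]
        field_simp
      simp only [e]
      rw [← mul_sum, geom_sum_eq (by norm_num)]
      nlinarith
    have h1 := sm_decomp hT hβ hm hS hen ρ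
    have h2 := sum_Ex_smp hT hS hen
    have h3 := mul_le_mul_of_nonneg_right n2 hL.le
    have h4 := hb _ fun q hq => abs_smp_le hT hS hen (mem_range.1 (mem_sigma.1 hq).1)
      (mem_range.1 (mem_sigma.1 hq).2) ρ
    have h5 := hb _ fun q hq => abs_Ex_le.trans (Ex_le_const (n := n) fun ρ =>
      abs_smp_le hT hS hen (mem_range.1 (mem_sigma.1 hq).1) (mem_range.1 (mem_sigma.1 hq).2) ρ)
    have h6 : 64 * (P.mu : ℝ) * P.tau ≤ 1 := by nlinarith
    have h7 := mul_le_mul_of_nonneg_right h6 hL.le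
    have h8 : P.La (h + c) ≤ 2 ^ P.I * P.La (h + c) := le_mul_of_one_le_left hL.le (one_le_pow₀ (by norm_num))
    rw [pow_add]
    rw [abs_le] at h1 h2 h4 h5 ⊢
    constructor <;> linarith [h1.1, h1.2, h2.1, h2.2, h4.1, h4.2, h5.1, h5.2]
  · rw [SmE_of_not_enab hen, sub_self, abs_zero]
    positivity

end Pa

end Crest.Agent.R288
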