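/-
R288/RawMean: the raw estimate is almost unbiased.
-/
import Crest.Agent.R288.SmEst
import Crest.Agent.R288.PreI
import Crest.Agent.R288.Est

set_option autoImplicit false

namespace Crest.Agent.R288

open Finset

namespace Pa

variable {P : Pa} {ms : ℕ → ℕ → Bool} {Nb Nt : Fam} {Pt : ℕ → ℕ → Fam} {K : ℝ}
  {n m β h j c : ℕ} {x : St} {Ix : ℕ → (ℕ → Bool) → ℕ → ℕ → ℕ}
  {Rw : ℕ → (ℕ → Bool) → ℕ → ℕ → St → ℚ} {S : ℕ → ℕ → ℕ → Set ℕ}

theorem RM_exp (a : ℕ) : Real.exp (-2 ^ a) ≤ 1 / 2 ^ (2 ^ a) := by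
  have h6 : Real.exp (-((2 ^ a : ℕ) : ℝ)) ≤ 1 / 2 ^ (2 ^ a) := by
    rw [Real.exp_neg, one_div]
    refine inv_anti₀ (by positivity) ?_
    rw [← mul_one ((2 ^ a : ℕ) : ℝ), Real.exp_nat_mul]
    refine pow_le_pow_left₀ zero_le_two ?_ _
    linarith [Real.add_one_le_exp 1]
  push_cast at h6
  exact h6

/-- The tail is negligible: `2^(3p)` exceeds `2 kap + 12 + 20 p + d + 4 Lx + 40` (`OK.kap_le`). -/
theorem tail_small (hP : P.OK) :
    2 ^ (2 * P.kap + 12) * 2 ^ (P.I + 16 * P.p + 16) * Real.exp (-2 ^ (3 * P.p)) ≤ (P.zeta : ℝ) / 64 := by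
  have h3 : 12 * P.Lx ≤ P.kap := Nat.le_add_left _ _
  have h4 := hP.kap_le
  have h5 : 2 ^ (2 * P.p) ≤ 2 ^ (3 * P.p) := Nat.pow_le_pow_right two_pos (by omega)
  have h6 := hP.wx_le
  have h7 : P.I = P.d + 4 * P.p + 2 := rfl
  have h9 : (2 : ℝ) ^ (2 * P.kap + 12 + (P.I + 16 * P.p + 16)) / 2 ^ (2 ^ (3 * P.p)) ≤
      2 ^ 0 / 2 ^ (4 * P.Lx + 6) := PreI_pp (by omega)
  simp only [zeta]
  push_cast
  calc (2 : ℝ) ^ (2 * P.kap + 12) * 2 ^ (P.I + 16 * P.p + 16) * Real.exp (-2 ^ (3 * P.p)) ≤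
        2 ^ (2 * P.kap + 12) * 2 ^ (P.I + 16 * P.p + 16) * (1 / 2 ^ (2 ^ (3 * P.p))) := by
        gcongr
        exact RM_exp _
    _ = 2 ^ (2 * P.kap + 12 + (P.I + 16 * P.p + 16)) / 2 ^ (2 ^ (3 * P.p)) := by
        rw [pow_add _ (2 * P.kap + 12)]
        ring
    _ ≤ 2 ^ 0 / 2 ^ (4 * P.Lx + 6) := h9
    _ = _ := by rw [pow_add]; ring

/-- The pilot copy is good at all tops. -/
def Pil (P : Pa) (Nt : Fam) (Pt : ℕ → ℕ → Fam) (β h j c m : ℕ) (x : St) (E : ℕ → ℕ → St → ℚ) :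
    Prop :=
  ∀ y ∈ x :: P.box (h + c) (P.rad (h + c) 2) x, (P.theta : ℝ) / P.La (h + c) *
    |(P.SmE Nt Pt β h j c m E y : ℝ) - P.SmM Nt Pt β h j c y m| ≤ 1 / 8

theorem RM_top (hT : P.Top ms Nb Nt Pt K h j c x) {y : St}
    (hy : y ∈ x :: P.box (h + c) (P.rad (h + c) 2) x) : P.Top ms Nb Nt Pt K h j c y := by
  rcases List.mem_cons.1 hy with rfl | hy
  · exact hT
  · exact hT.move (mem_box.1 hy).1

/-- Union bound (`sm_tail` at every top, `Top.move`, `length_trmA_le`). -/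
theorem pr_not_pil (hT : P.Top ms Nb Nt Pt K h j c x) (hβ : β ≤ P.M) (hm : m < P.M)
    {Ix : (ℕ → Bool) → ℕ → ℕ → ℕ} {Rw : (ℕ → Bool) → ℕ → ℕ → St → ℚ} {S : ℕ → ℕ → Set ℕ}
    (hS : P.Samp n (Pt m β) h j c Ix Rw S) :
    Pr n (fun ρ => ¬ P.Pil Nt Pt β h j c m x (P.estF c (Ix ρ) (Rw ρ))) ≤
      2 ^ (2 * P.kap + 12) * Real.exp (-2 ^ (3 * P.p)) := by
  have h1 := Pr_exists_le_card (n := n) (x :: P.box (h + c) (P.rad (h + c) 2) x).toFinset
    (fun y ρ => 1 / 8 < (P.theta : ℝ) / P.La (h + c) *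
      |(P.SmE Nt Pt β h j c m (P.estF c (Ix ρ) (Rw ρ)) y : ℝ) - P.SmM Nt Pt β h j c y m|)
    (p := 2 * Real.exp (-2 ^ (3 * P.p)))
    (fun y hy => sm_tail (RM_top hT (List.mem_toFinset.1 hy)) hβ hm hS)
  refine (Pr_mono fun ρ hρ => ?_).trans (h1.trans ?_)
  · unfold Pil at hρ
    push Not at hρ
    obtain ⟨y, hy, h2⟩ := hρ
    exact ⟨y, List.mem_toFinset.2 hy, h2⟩
  · have h2 := List.toFinset_card_le (x :: P.box (h + c) (P.rad (h + c) 2) x)
    have h3 := length_trmA_le hT.ok (h + c) x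
    simp only [trmA, List.length_cons, List.length_map] at h2 h3
    have h4 : (x :: P.box (h + c) (P.rad (h + c) 2) x).toFinset.card * 2 ≤ 2 ^ (2 * P.kap + 12) := by
      omega
    have h5 : ((x :: P.box (h + c) (P.rad (h + c) 2) x).toFinset.card : ℝ) * 2 ≤
        2 ^ (2 * P.kap + 12) := by exact_mod_cast h4
    rw [← mul_assoc]
    exact mul_le_mul_of_nonneg_right h5 (Real.exp_pos _).le

/-- Every term of `trm` either ignores the function or reads it at one top. -/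
theorem RM_trm (u : ℕ) (Kv : ℚ) (i : ℕ) (x : St) {a : ℕ × St} (ha : a ∈ P.trmA u x) :
    (∀ F F' : St → ℚ, (P.trm u F Kv i x a : ℝ) - P.trm u F' Kv i x a = 0) ∨
      ∃ y ∈ x :: P.box u (P.rad u 2) x,
        ∀ F F' : St → ℚ, (P.trm u F Kv i x a : ℝ) - P.trm u F' Kv i x a = F y - F' y := by
  rcases List.mem_cons.1 ha with rfl | ha
  · by_cases hi : i = 0
    · exact Or.inr ⟨x, List.mem_cons_self, fun F F' => by simp [trm, hi]⟩
    · exact Or.inl fun F F' => by simp [trm, hi]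
  rcases List.mem_cons.1 ha with rfl | ha
  · exact Or.inl fun F F' => by simp [trm]
  · obtain ⟨y, hy, rfl⟩ := List.mem_map.1 ha
    exact Or.inr ⟨y, List.mem_cons_of_mem _ hy, fun F F' => by simp [trm]⟩

theorem RM_cast (a : ℚ) (u : ℕ) : ((a / P.Lam u : ℚ) : ℝ) = a / P.La u := by
  rw [Rat.cast_div]
  rfl

theorem RM_theta (u : ℕ) : 0 < P.theta / P.Lam u :=
  div_pos (by unfold theta; positivity) (Lam_pos u)

theorem RM_len (hP : P.OK) (u : ℕ) (x : St) : 8 * ((P.trmA u x).length + 1) ≤ 2 ^ P.s := by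
  have h4 := Wf_Lx hP
  have h5 : 4 * P.kap + 20 * P.Lx ≤ P.s := by unfold s; omega
  exact (length_trmA_le hP u x).trans (Nat.pow_le_pow_right two_pos (by omega))

theorem RM_idx {k a b : ℕ} (ha : a < k) (hb : b < k) : 1 + a * k + b ≤ k ^ 2 := by
  have : (a + 1) * k ≤ k * k := Nat.mul_le_mul_right _ ha
  nlinarith

theorem RM_inj {k a b a' b' : ℕ} (hb : b < k) (hb' : b' < k) (e : (a, b) ≠ (a', b')) :
    1 + a * k + b ≠ 1 + a' * k + b' := by
  intro h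
  apply e
  have h1 : b + k * a = b' + k * a' := by nlinarith
  have h2 := congrArg (· % k) h1
  have h3 := congrArg (· / k) h1
  simp only [Nat.add_mul_mod_self_left, Nat.mod_eq_of_lt hb, Nat.mod_eq_of_lt hb'] at h2
  simp only [Nat.add_mul_div_left _ _ (Nat.zero_lt_of_lt hb), Nat.div_eq_of_lt hb,
    Nat.div_eq_of_lt hb', zero_add] at h3
  rw [h2, h3]

/-- On a good pilot all terms are close to the true ones. -/
theorem RM_good {E : ℕ → ℕ → St → ℚ} (hG : P.Pil Nt Pt β h j c m x E) (Kv : ℚ) (i : ℕ)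
    {a : ℕ × St} (ha : a ∈ P.trmA (h + c) x) :
    ((P.theta / P.Lam (h + c) : ℚ) : ℝ) *
      |(P.trm (h + c) (P.SmE Nt Pt β h j c m E) Kv i x a : ℝ) -
        P.trm (h + c) (fun y => P.SmM Nt Pt β h j c y m) Kv i x a| ≤ 1 / 8 := by
  rcases RM_trm (h + c) Kv i x ha with e | ⟨y, hy, e⟩
  · rw [e, abs_zero, mul_zero]
    norm_num
  · rw [e, RM_cast]
    exact hG y hy

/-- The small quantities. -/
theorem RM_num (hP : P.OK) : 16 * ((P.mu : ℝ) * P.tau) ≤ P.zeta / 64 ∧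
    (256 : ℝ) * P.ups ≤ P.zeta ∧ (4 : ℝ) ≤ P.theta ∧ (1 / 2 : ℝ) ^ P.kT = P.ups ∧
    (2 : ℝ) ^ (2 * P.kap + 12) / 2 ^ P.s ≤ P.ups ∧ (128 : ℝ) / 2 ^ P.s ≤ P.ups ∧
    (1 : ℝ) ≤ P.eta := by
  have h1 := hP.wx_le
  have h2 := hP.p_ge
  have h3 : 12 * P.Lx ≤ P.kap := Nat.le_add_left _ _
  have h5 : 4 * P.kap + 20 * P.Lx ≤ P.s := by unfold s; omega
  refine ⟨?_, ?_, ?_, ?_, ?_, ?_, ?_⟩ <;>
    simp only [ups, zeta, mu, tau, theta, eta, kT] <;> push_cast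
  · calc (16 : ℝ) * (2 ^ (4 * P.p) * (1 / 2 ^ (5 * P.Lx))) = 2 ^ (4 + 4 * P.p) / 2 ^ (5 * P.Lx) := by
          rw [pow_add]; ring
      _ ≤ 2 ^ 0 / 2 ^ (4 * P.Lx + 6) := PreI_pp (by omega)
      _ = _ := by rw [pow_add]; ring
  · calc (256 : ℝ) * (1 / 2 ^ (8 * P.Lx)) = 2 ^ 8 / 2 ^ (8 * P.Lx) := by ring
      _ ≤ 2 ^ 0 / 2 ^ (4 * P.Lx) := PreI_pp (by omega)
      _ = _ := by rw [pow_zero]
  · calc (4 : ℝ) = 2 ^ 2 := by norm_num
      _ ≤ _ := pow_le_pow_right₀ one_le_two (by omega)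
  · rw [one_div_pow]
  · calc (2 : ℝ) ^ (2 * P.kap + 12) / 2 ^ P.s ≤ 2 ^ 0 / 2 ^ (8 * P.Lx) := PreI_pp (by omega)
      _ = _ := by rw [pow_zero]
  · calc (128 : ℝ) / 2 ^ P.s = 2 ^ 7 / 2 ^ P.s := by norm_num
      _ ≤ 2 ^ 0 / 2 ^ (8 * P.Lx) := PreI_pp (by omega)
      _ = _ := by rw [pow_zero]
  · exact one_le_pow₀ one_le_two

theorem RM_pow (P : Pa) : (2 : ℝ) ^ (P.I + 9) + 8 * 2 ^ (2 * P.kap + 12) ≤
    2 ^ (2 * P.kap + 12) * 2 ^ (P.I + 16 * P.p + 16) := by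
  have a1 : (2 : ℝ) ^ (P.I + 9 + 1) ≤ 2 ^ (2 * P.kap + 12 + (P.I + 16 * P.p + 16)) :=
    pow_le_pow_right₀ one_le_two (by omega)
  have a2 : (2 : ℝ) ^ (2 * P.kap + 12 + 4) ≤ 2 ^ (2 * P.kap + 12 + (P.I + 16 * P.p + 16)) :=
    pow_le_pow_right₀ one_le_two (by omega)
  rw [← pow_add]
  rw [pow_succ] at a1
  rw [pow_add _ _ 4] at a2
  linarith

/-- The estimate of the clipped cost of expert `i`. -/
def estM (P : Pa) (Nt : Fam) (Pt : ℕ → ℕ → Fam) (β h j c m : ℕ) (x : St)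
    (E : ℕ → ℕ → ℕ → St → ℚ) (i : ℕ) : ℚ :=
  estQ P.s (P.theta / P.Lam (h + c)) P.kT (P.trmA (h + c) x)
    (P.trm (h + c) (P.SmE Nt Pt β h j c m (E 0)) (P.KnM Nt Pt β h j c x m) i x)
    fun a b => P.trm (h + c) (P.SmE Nt Pt β h j c m (E (1 + a * P.kT + b)))
      (P.KnM Nt Pt β h j c x m) i x

/-- The exact clipped cost of expert `i`. -/
noncomputable def sigM (P : Pa) (Nt : Fam) (Pt : ℕ → ℕ → Fam) (β h j c m : ℕ) (x : St) (i : ℕ) : ℝ :=
  smin ((P.theta / P.Lam (h + c) : ℚ) : ℝ) (P.trmA (h + c) x) fun a =>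
    (P.trm (h + c) (fun y => P.SmM Nt Pt β h j c y m) (P.KnM Nt Pt β h j c x m) i x a : ℝ)

theorem RM_rawF (E : ℕ → ℕ → ℕ → St → ℚ) :
    P.rawF h c (P.ntM Nt h j c) (P.pbM (fun k => Pt k β) h j c)
        (P.pbM (fun k => Pt k (β - 1)) h j c) E m β x =
      clampQ (-P.Lam (h + c)) (5 * P.Lam (h + c))
        (lsQ P.s (P.eta / P.Lam (h + c)) [0, 1] (P.cqM Nt Pt β h j c x) m
          (P.estM Nt Pt β h j c m x E) + P.off (h + c) m) := rfl

open Classical in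
theorem RM_bias (hT : P.Top ms Nb Nt Pt K h j c x) (hβ : β ≤ P.M) (hm : m < P.M)
    (hS : ∀ a ≤ P.kT ^ 2, P.Samp n (Pt m β) h j c (Ix a) (Rw a) (S a))
    (hd : ∀ a ≤ P.kT ^ 2, ∀ a' ≤ P.kT ^ 2, a ≠ a' → Disjoint (P.segU (S a)) (P.segU (S a')))
    (i : ℕ) :
    |Ex n fun ρ => if P.Pil Nt Pt β h j c m x (P.estF c (Ix 0 ρ) (Rw 0 ρ)) then
        (P.estM Nt Pt β h j c m x (fun a => P.estF c (Ix a ρ) (Rw a ρ)) i : ℝ) -
          P.sigM Nt Pt β h j c m x i else 0| ≤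
      (P.zeta / 64 + 2 * P.ups + 2 ^ (P.I + 9) * Real.exp (-2 ^ (3 * P.p))) * P.La (h + c) := by
  obtain ⟨n1, n2, n3, n4, n5, n6, n7⟩ := RM_num hT.ok
  have hL := La_pos (P := P) (h + c)
  have hu := (PreI_par hT.ok).u0
  have hμ : (0 : ℝ) ≤ P.mu * P.tau := by
    simp only [mu, tau]
    positivity
  have he := Real.exp_pos (-2 ^ (3 * P.p))
  have hε : (0 : ℝ) ≤ 4 * P.mu * P.tau * P.La (h + c) := by
    rw [mul_assoc 4]
    exact mul_nonneg (by linarith) hL.le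
  have l3 : (1 : ℝ) ≤ 2 ^ (P.I + 5) := one_le_pow₀ one_le_two
  have hRm : (0 : ℝ) ≤ P.theta * 2 ^ (P.I + 5) := mul_nonneg (by linarith) (by linarith)
  have hb := est_bias (s := P.s) (k := P.kT) (n := n) (RM_theta (P := P) (h + c))
    (A := P.trmA (h + c) x) (by simp [trmA]) (RM_len hT.ok (h + c) x)
    (fun a => (P.trm (h + c) (fun y => P.SmM Nt Pt β h j c y m) (P.KnM Nt Pt β h j c x m) i x a : ℝ))
    (fun ρ => P.trm (h + c) (P.SmE Nt Pt β h j c m (P.estF c (Ix 0 ρ) (Rw 0 ρ)))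
      (P.KnM Nt Pt β h j c x m) i x)
    (fun a b ρ => P.trm (h + c) (P.SmE Nt Pt β h j c m
      (P.estF c (Ix (1 + a * P.kT + b) ρ) (Rw (1 + a * P.kT + b) ρ))) (P.KnM Nt Pt β h j c x m) i x)
    (fun ρ => P.Pil Nt Pt β h j c m x (P.estF c (Ix 0 ρ) (Rw 0 ρ))) (P.segU (S 0))
    (fun a b => P.segU (S (1 + a * P.kT + b)))
    ((hS 0 (Nat.zero_le _)).dep_estF.comp fun E =>
      P.trm (h + c) (P.SmE Nt Pt β h j c m E) (P.KnM Nt Pt β h j c x m) i x)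
    ((hS 0 (Nat.zero_le _)).dep_estF.comp fun E => P.Pil Nt Pt β h j c m x E)
    (fun a ha b hb => (hS _ (RM_idx ha hb)).dep_estF.comp fun E =>
      P.trm (h + c) (P.SmE Nt Pt β h j c m E) (P.KnM Nt Pt β h j c x m) i x)
    (fun a ha b hb => hd 0 (Nat.zero_le _) _ (RM_idx ha hb) (by omega))
    (fun a ha b hb a' ha' b' hb' e => hd _ (RM_idx ha hb) _ (RM_idx ha' hb') (RM_inj hb hb' e))
    (fun ρ hρ a ha => RM_good hρ _ i ha)
    (ε := 4 * P.mu * P.tau * P.La (h + c)) (p := 2 * Real.exp (-2 ^ (3 * P.p)))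
    (Rm := P.theta * 2 ^ (P.I + 5))
    hε (by linarith) hRm ?_ ?_ ?_
  · refine hb.trans ?_
    have l1 : ((P.trmA (h + c) x).length + 1 : ℝ) * 8 ≤ 2 ^ (2 * P.kap + 12) := by
      have := length_trmA_le hT.ok (h + c) x
      rw [mul_comm] at this
      exact_mod_cast this
    have l2 : 6 * ((P.trmA (h + c) x).length + 1 : ℝ) / 2 ^ P.s ≤ P.ups := by
      have : (0 : ℝ) ≤ (P.trmA (h + c) x).length := Nat.cast_nonneg _
      exact (div_le_div_of_nonneg_right (by linarith) (pow_pos two_pos _).le).trans n5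
    have l4 : (2 : ℝ) ^ (P.I + 9) = 16 * 2 ^ (P.I + 5) := by ring
    rw [RM_cast, n4, div_le_iff₀ (PreI_theta _), l4]
    generalize Real.exp (-2 ^ (3 * P.p)) = ε at *
    generalize (2 : ℝ) ^ (P.I + 5) = B at *
    generalize 6 * ((P.trmA (h + c) x).length + 1 : ℝ) / 2 ^ P.s = r at *
    have e1 : (P.theta : ℝ) / P.La (h + c) * (4 * P.mu * P.tau * P.La (h + c)) =
        4 * (P.mu * P.tau) * P.theta := by field_simp
    have e2 : ((P.zeta : ℝ) / 64 + 2 * P.ups + 16 * B * ε) * P.La (h + c) *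
        (P.theta / P.La (h + c)) = (P.zeta / 64 + 2 * P.ups + 16 * B * ε) * P.theta := by
      field_simp
    rw [e1, e2]
    have a1 : 16 * ((P.mu : ℝ) * P.tau) * P.theta ≤ P.zeta / 64 * P.theta :=
      mul_le_mul_of_nonneg_right n1 (by linarith)
    have a2 : (P.ups : ℝ) * 4 ≤ P.ups * P.theta := mul_le_mul_of_nonneg_left n3 hu.le
    have a3 : (1 : ℝ) ≤ P.theta * B := by nlinarith
    have a4 : ε * 1 ≤ ε * (P.theta * B) := mul_le_mul_of_nonneg_left a3 he.le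
    nlinarith
  · intro a ha b hb t ht
    rcases RM_trm (h + c) (P.KnM Nt Pt β h j c x m) i x ht with e | ⟨y, hy, e⟩
    · rw [← Ex_const n (P.trm (h + c) (fun y => P.SmM Nt Pt β h j c y m) _ i x t : ℝ), ← Ex_sub]
      simp only [e, Ex_const, abs_zero]
      exact hε
    · rw [← Ex_const n (P.trm (h + c) (fun y => P.SmM Nt Pt β h j c y m) _ i x t : ℝ), ← Ex_sub]
      simp only [e]
      rw [Ex_sub, Ex_const]
      exact sm_mean (RM_top hT hy) hβ hm (hS _ (RM_idx ha hb))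
  · intro a ha b hb t ht
    rcases RM_trm (h + c) (P.KnM Nt Pt β h j c x m) i x ht with e | ⟨y, hy, e⟩
    · simp only [e, abs_zero, mul_zero]
      refine (Pr_mono (E' := fun _ => False) fun ρ hρ => by norm_num at hρ).trans ?_
      simp only [Pr, if_false, Ex_const]
      linarith
    · simp only [e, RM_cast]
      exact sm_tail (RM_top hT hy) hβ hm (hS _ (RM_idx ha hb))
  · intro a ha b hb t ht ρ
    rcases RM_trm (h + c) (P.KnM Nt Pt β h j c x m) i x ht with e | ⟨y, hy, e⟩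
    · rw [e, abs_zero, mul_zero]
      exact hRm
    · rw [e, RM_cast]
      refine (mul_le_mul_of_nonneg_left (sm_sure (RM_top hT hy) hβ hm (hS _ (RM_idx ha hb)) ρ)
        (PreI_theta _).le).trans (le_of_eq ?_)
      field_simp

/-- Let `q i = trm (SmM · m) (KnM x m) i x`, `W i = lsW …  m i`,
`T = lsC … m + ∑ W i · smin (ϑ/Λ) trmA (q i) + off`.  Then `|T - Pre| ≤ 2 ups Λ` (`PreI_err`,
`abs_ls_sub_Phi_le` with `R = 4 Λ`, `cq_rng`, `PreI_pre_eq`).  If the pilot is good, `abs_estQ_sub_le`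
and `pre_rng` show that the clamp is inactive, so `rawF - T = ∑ W i (estQ i - smin (q i))`; apply
`est_bias` for `i = 0, 1` with `G = Pil`, `S0 = segU (S 0)`, `S a b = segU (S (1 + a kT + b))`,
`ε = 4 μ τ Λ`, `p = 2 exp (-2^(3p))`, `Rm = ϑ 2^(I+5)` (`sm_mean`, `sm_tail`, `sm_sure`; every term
of `trm` differs from the true one by `0` or by `SmE y - SmM y` for a top `y`).  Otherwise
`|rawF - T| ≤ 10 Λ` (`abs_Ex_ite_le`, `pr_not_pil`).  Budget: `16 μ τ ≤ ζ / 64`, `tail_small`,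
`kT = 8 Lx`, `eps_le`. -/
theorem rawF_mean (hT : P.Top ms Nb Nt Pt K h j c x) (hβ : β ≤ P.M) (hm : m < P.M)
    (hS : ∀ a ≤ P.kT ^ 2, P.Samp n (Pt m β) h j c (Ix a) (Rw a) (S a))
    (hd : ∀ a ≤ P.kT ^ 2, ∀ a' ≤ P.kT ^ 2, a ≠ a' → Disjoint (P.segU (S a)) (P.segU (S a'))) :
    |Ex n (fun ρ => P.rawF h c (P.ntM Nt h j c) (P.pbM (fun k => Pt k β) h j c)
        (P.pbM (fun k => Pt k (β - 1)) h j c) (fun a => P.estF c (Ix a ρ) (Rw a ρ)) m β x) -
      P.Pre ms Nt Pt m β h j c x| ≤ P.zeta / 16 * P.La (h + c) := by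
  classical
  obtain ⟨n1, n2, n3, n4, n5, n6, n7⟩ := RM_num hT.ok
  obtain ⟨s0, s1, s2, s3, s4, s5, s6⟩ := PreI_scaled hT.ok (h + c)
  have hη : 0 < P.eta / P.Lam (h + c) := div_pos (by unfold eta; positivity) (Lam_pos _)
  have hA : ([0, 1] : List ℕ) ≠ [] := by simp
  have w0 : (0 : ℝ) ≤ lsW P.s (P.eta / P.Lam (h + c)) [0, 1] (P.cqM Nt Pt β h j c x) m 0 := by
    exact_mod_cast lsW_nonneg hη m (by simp)
  have w1 : (0 : ℝ) ≤ lsW P.s (P.eta / P.Lam (h + c)) [0, 1] (P.cqM Nt Pt β h j c x) m 1 := by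
    exact_mod_cast lsW_nonneg hη m (by simp)
  have ws : (lsW P.s (P.eta / P.Lam (h + c)) [0, 1] (P.cqM Nt Pt β h j c x) m 0 : ℝ) +
      lsW P.s (P.eta / P.Lam (h + c)) [0, 1] (P.cqM Nt Pt β h j c x) m 1 = 1 := by
    have := sum_lsW (s := P.s) (q := P.cqM Nt Pt β h j c x) hη hA m
    simp only [List.map_cons, List.map_nil, List.sum_cons, List.sum_nil, add_zero] at this
    exact_mod_cast this
  have hq : ∀ k ≤ m, ∀ i, |(P.cqM Nt Pt β h j c x k i : ℝ)| ≤ 4 * P.La (h + c) := fun k hk i => by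
    obtain ⟨a1, a2⟩ := cq_rng hT hβ (k := k) (by omega) i
    rw [abs_le]
    constructor <;> linarith
  have hs2 : ([0, 1] : List ℕ).length ≤ 2 ^ P.s := by
    have := RM_len hT.ok (h + c) x
    simp only [List.length_cons, List.length_nil]
    omega
  have p1 := abs_ls_sub_Phi_le (s := P.s) (q := P.cqM Nt Pt β h j c x) hη hA hs2 m
    (v := fun i => (P.cqM Nt Pt β h j c x m i : ℝ)) (R := 4 * P.La (h + c))
    (fun i _ => hq m le_rfl i) (fun k hk i _ => hq k hk.le i)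
  have p2 : ((([0, 1] : List ℕ).length : ℝ) + 1) / 2 ^ P.s *
      (2 / ((P.eta / P.Lam (h + c) : ℚ) : ℝ) + 4 * (4 * P.La (h + c))) ≤
      P.ups * P.La (h + c) / 2 := by
    have a1 : 2 / ((P.eta / P.Lam (h + c) : ℚ) : ℝ) ≤ 2 * P.La (h + c) := by
      rw [RM_cast, div_div_eq_mul_div]
      exact div_le_self (by linarith) n7
    have a2 : (128 : ℝ) / 2 ^ P.s * P.La (h + c) ≤ P.ups * P.La (h + c) :=
      mul_le_mul_of_nonneg_right n6 s0.le
    have a3 : (0 : ℝ) < 1 / 2 ^ P.s * P.La (h + c) := mul_pos (one_div_pos.2 (pow_pos two_pos _)) s0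
    calc ((([0, 1] : List ℕ).length : ℝ) + 1) / 2 ^ P.s *
          (2 / ((P.eta / P.Lam (h + c) : ℚ) : ℝ) + 4 * (4 * P.La (h + c))) ≤
        ((([0, 1] : List ℕ).length : ℝ) + 1) / 2 ^ P.s *
          (2 * P.La (h + c) + 4 * (4 * P.La (h + c))) :=
        mul_le_mul_of_nonneg_left (by linarith)
          (div_nonneg (add_nonneg (Nat.cast_nonneg _) zero_le_one) (pow_pos two_pos _).le)
      _ = 54 * (1 / 2 ^ P.s * P.La (h + c)) := by
        simp only [List.length_cons, List.length_nil]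
        push_cast
        ring
      _ ≤ 64 * (1 / 2 ^ P.s * P.La (h + c)) := by linarith
      _ = 128 / 2 ^ P.s * P.La (h + c) / 2 := by ring
      _ ≤ _ := by linarith
  have p3 : ∀ i, |(P.cqM Nt Pt β h j c x m i : ℝ) - P.sigM Nt Pt β h j c m x i| ≤
      P.ups * P.La (h + c) / 2 := fun i => by
    rw [sigM, RM_cast]
    exact PreI_err hT.ok (h + c) x _
  have p4 := PreI_pre_eq (P := P) (ms := ms) (Nt := Nt) (Pt := Pt) (β := β) (j := j) (c := c)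
    (x := x) hT.PreI_ne m
  obtain ⟨p5, p6⟩ := pre_rng hT hβ hm
  have p7 := pr_not_pil hT hβ hm (hS 0 (Nat.zero_le _))
  have p8 := tail_small hT.ok
  have b0 := RM_bias hT hβ hm hS hd 0
  have b1 := RM_bias hT hβ hm hS hd 1
  replace p1 := p1.trans p2
  rw [RM_cast] at p1
  simp only [List.map_cons, List.map_nil, List.sum_cons, List.sum_nil, add_zero] at p1
  simp only [RM_rawF, lsQ, List.map_cons, List.map_nil, List.sum_cons, List.sum_nil, add_zero]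
  have hest : ∀ ρ, P.Pil Nt Pt β h j c m x (P.estF c (Ix 0 ρ) (Rw 0 ρ)) → ∀ i,
      |(P.estM Nt Pt β h j c m x (fun a => P.estF c (Ix a ρ) (Rw a ρ)) i : ℝ) -
        P.sigM Nt Pt β h j c m x i| ≤ P.La (h + c) / 4 := fun ρ hρ i => by
    refine (abs_estQ_sub_le (RM_theta (P := P) (h + c)) (by simp [trmA]) (RM_len hT.ok (h + c) x) _
      (fun a ha => RM_good hρ _ i ha)).trans ?_
    rw [RM_cast, one_div_div]
    exact div_le_div_of_nonneg_left s0.le (by norm_num) n3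
  generalize lsW P.s (P.eta / P.Lam (h + c)) [0, 1] (P.cqM Nt Pt β h j c x) m 0 = W0 at *
  generalize lsW P.s (P.eta / P.Lam (h + c)) [0, 1] (P.cqM Nt Pt β h j c x) m 1 = W1 at *
  generalize lsC P.s (P.eta / P.Lam (h + c)) [0, 1] (P.cqM Nt Pt β h j c x) m = C at *
  have avg : ∀ {a b r : ℝ}, |a| ≤ r → |b| ≤ r → |W0 * a + W1 * b| ≤ r := fun {a b r} ha hb => by
    refine (abs_add_le _ _).trans ?_
    rw [abs_mul, abs_mul, abs_of_nonneg w0, abs_of_nonneg w1]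
    calc (W0 : ℝ) * |a| + W1 * |b| ≤ W0 * r + W1 * r :=
          add_le_add (mul_le_mul_of_nonneg_left ha w0) (mul_le_mul_of_nonneg_left hb w1)
      _ = r := by rw [← add_mul, ws, one_mul]
  obtain ⟨T, hTd⟩ : ∃ T : ℝ, T = C + (W0 * P.sigM Nt Pt β h j c m x 0 +
    W1 * P.sigM Nt Pt β h j c m x 1) + P.off (h + c) m := ⟨_, rfl⟩
  have t1 : |T - P.Pre ms Nt Pt m β h j c x| ≤ P.ups * P.La (h + c) := by
    obtain ⟨a1, a2⟩ := abs_le.1 (avg (p3 0) (p3 1))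
    obtain ⟨a3, a4⟩ := abs_le.1 p1
    rw [p4, hTd, abs_le]
    constructor <;> linarith
  obtain ⟨t2, t3⟩ := abs_le.1 t1
  obtain ⟨F, hF⟩ : ∃ F : (ℕ → Bool) → ℝ, F = fun ρ => ((clampQ (-P.Lam (h + c)) (5 * P.Lam (h + c))
      (C + (W0 * P.estM Nt Pt β h j c m x (fun a => P.estF c (Ix a ρ) (Rw a ρ)) 0 +
        W1 * P.estM Nt Pt β h j c m x (fun a => P.estF c (Ix a ρ) (Rw a ρ)) 1) +
        P.off (h + c) m) : ℚ) : ℝ) := ⟨_, rfl⟩
  rw [← hF]
  have f1 : ∀ ρ, |F ρ - T| ≤ 8 * P.La (h + c) := fun ρ => by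
    obtain ⟨a1, a2⟩ := clampQ_mem (lo := -P.Lam (h + c)) (hi := 5 * P.Lam (h + c))
      (by linarith [Lam_pos (P := P) (h + c)])
      (C + (W0 * P.estM Nt Pt β h j c m x (fun a => P.estF c (Ix a ρ) (Rw a ρ)) 0 +
        W1 * P.estM Nt Pt β h j c m x (fun a => P.estF c (Ix a ρ) (Rw a ρ)) 1) + P.off (h + c) m)
    have a3 : -P.La (h + c) ≤ F ρ := by
      rw [hF, La]
      dsimp only
      exact_mod_cast a1
    have a4 : F ρ ≤ 5 * P.La (h + c) := by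
      rw [hF, La]
      dsimp only
      exact_mod_cast a2
    rw [abs_le]
    constructor <;> linarith
  have f2 : F = fun ρ => T + (W0 * (if P.Pil Nt Pt β h j c m x (P.estF c (Ix 0 ρ) (Rw 0 ρ)) then
        (P.estM Nt Pt β h j c m x (fun a => P.estF c (Ix a ρ) (Rw a ρ)) 0 : ℝ) -
          P.sigM Nt Pt β h j c m x 0 else 0) +
      W1 * (if P.Pil Nt Pt β h j c m x (P.estF c (Ix 0 ρ) (Rw 0 ρ)) then
        (P.estM Nt Pt β h j c m x (fun a => P.estF c (Ix a ρ) (Rw a ρ)) 1 : ℝ) -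
          P.sigM Nt Pt β h j c m x 1 else 0)) +
      (if ¬ P.Pil Nt Pt β h j c m x (P.estF c (Ix 0 ρ) (Rw 0 ρ)) then F ρ - T else 0) := by
    funext ρ
    by_cases hρ : P.Pil Nt Pt β h j c m x (P.estF c (Ix 0 ρ) (Rw 0 ρ))
    · simp only [hρ, if_true, not_true, if_false, add_zero]
      obtain ⟨a1, a2⟩ := abs_le.1 (avg (hest ρ hρ 0) (hest ρ hρ 1))
      rw [hF]
      dsimp only
      rw [clampQ_eq_self]
      · push_cast
        linarith
      · refine (Rat.cast_le (K := ℝ)).1 ?_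
        push_cast
        change -P.La (h + c) ≤ _
        linarith
      · refine (Rat.cast_le (K := ℝ)).1 ?_
        push_cast
        change _ ≤ 5 * P.La (h + c)
        linarith
    · simp only [hρ, if_false, not_false_iff, if_true]
      ring
  have f3 := abs_Ex_ite_le (n := n)
    (E := fun ρ => ¬ P.Pil Nt Pt β h j c m x (P.estF c (Ix 0 ρ) (Rw 0 ρ))) f1
  rw [f2, Ex_add, Ex_add, Ex_add, Ex_const, Ex_const_mul, Ex_const_mul]
  obtain ⟨f4, f5⟩ := abs_le.1 (avg b0 b1)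
  obtain ⟨f6, f7⟩ := abs_le.1 (f3.trans (mul_le_mul_of_nonneg_left p7 (by linarith)))
  have g2 := mul_le_mul_of_nonneg_right
    ((mul_le_mul_of_nonneg_right (RM_pow P) (Real.exp_pos (-2 ^ (3 * P.p))).le).trans p8) s0.le
  have g3 := mul_le_mul_of_nonneg_right n2 s0.le
  rw [abs_le]
  constructor <;> linarith

end Pa

end Crest.Agent.R288
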