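/-
R288/UnfR: unfolding the raw estimates; the samples of the engine.
-/
import Crest.Agent.R288.Unf
import Crest.Agent.R288.SmEst

set_option autoImplicit false

namespace Crest.Agent.R288

open Finset

namespace Pa

/-- The request of sample `r` of step `i` in copy `a`. -/
abbrev kF (P : Pa) (t m β h c a i r : ℕ) : Key De :=
  qF (dR t m β (h - P.d) (c - 1 + i)) P.d (a * 2 ^ (i + P.rx) + r)

variable (P : Pa) (ms tapes : ℕ → ℕ → Bool)

/-- Index of a sample. -/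
def ixM (t m β h c a : ℕ) (ρ : ℕ → Bool) (i r : ℕ) : ℕ :=
  eng.idx P (dR t m β h c) ρ (P.kF t m β h c a i r)

/-- Table of a sample. -/
def rwM (t m β h j c a : ℕ) (ρ : ℕ → Bool) (i r : ℕ) (z : St) : ℚ :=
  if ¬ P.triv (h - P.d) (c - 1 + i) ∧ z.1 ≤ P.X then
    eng.sub P ms tapes (dR t m β h c) j ρ (P.kF t m β h c a i r) (P.rd (h - P.d + (c - 1 + i)) z)
  else P.X

/-- Bits of a sample. -/
def sgM (t m β h c a i r : ℕ) : Set ℕ :=
  if P.triv (h - P.d) (c - 1 + i) then ∅ else eng.segSet P (dR t m β h c) (P.kF t m β h c a i r)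

/-- The averaged tables of height `h` are close to the means of the raw estimates. -/
def MeanAt (t h : ℕ) : Prop :=
  ∀ m < P.M, ∀ β ≤ P.M, ∀ j c z, P.Nd h j → ¬ P.triv h c → P.inW (h + c) z →
    |Ex (P.pot (dR t m β h c)) (fun ρ => P.raw ms tapes t m β h j c ρ z) -
      P.tP ms tapes t m β h j c z| ≤ 2 * P.tau * P.La (h + c)

variable {P} {t m β h j c : ℕ}

theorem unfR_plan (h0 : h ≠ 0) : P.plan (dR t m β h c) =
    ((List.range P.d).flatMap fun i => (List.range (2 ^ i)).map fun j => qT (dT t (h - i) c) i j) ++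
    P.botKeys h c (fun c' => dT t (h - P.d) c') ++
    ((List.range m).flatMap fun k => P.botKeys h c fun c' => dP t k β (h - P.d) c') ++
    (if β = 0 then [] else
      (List.range (m + 1)).flatMap fun k => P.botKeys h c fun c' => dP t k (β - 1) (h - P.d) c') ++
    ((List.range P.I).filter fun i => ¬ P.triv (h - P.d) (c - 1 + i)).flatMap fun i =>
      (List.range ((P.kT ^ 2 + 1) * 2 ^ (i + P.rx))).map
        fun n => qF (dR t m β (h - P.d) (c - 1 + i)) P.d n := by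
  simp only [plan, planR, if_neg h0, OfNat.ofNat_ne_zero, OfNat.ofNat_ne_one, if_false, if_true,
    show (3 : ℕ) ≠ 2 by norm_num]

theorem unfR_mem_bot {mk : ℕ → De} {κ : Key De} : κ ∈ P.botKeys h c mk ↔
    ∃ c', (c - 1 ≤ c' ∧ ¬ P.triv (h - P.d) c') ∧ ∃ j' < 2 ^ P.d, qT (mk c') P.d j' = κ := by
  simp only [botKeys, List.mem_flatMap, List.mem_map, List.mem_range, mem_clsList]

/-- Membership in the plan of a raw estimate. -/
theorem unfR_mem (h0 : h ≠ 0) {κ : Key De} : κ ∈ P.plan (dR t m β h c) ↔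
    (∃ i < P.d, ∃ j' < 2 ^ i, qT (dT t (h - i) c) i j' = κ) ∨
    (∃ c', (c - 1 ≤ c' ∧ ¬ P.triv (h - P.d) c') ∧
      ∃ j' < 2 ^ P.d, qT (dT t (h - P.d) c') P.d j' = κ) ∨
    (∃ k < m, ∃ c', (c - 1 ≤ c' ∧ ¬ P.triv (h - P.d) c') ∧
      ∃ j' < 2 ^ P.d, qT (dP t k β (h - P.d) c') P.d j' = κ) ∨
    (β ≠ 0 ∧ ∃ k < m + 1, ∃ c', (c - 1 ≤ c' ∧ ¬ P.triv (h - P.d) c') ∧
      ∃ j' < 2 ^ P.d, qT (dP t k (β - 1) (h - P.d) c') P.d j' = κ) ∨
    ∃ i, (i < P.I ∧ ¬ P.triv (h - P.d) (c - 1 + i)) ∧ ∃ n < (P.kT ^ 2 + 1) * 2 ^ (i + P.rx),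
      qF (dR t m β (h - P.d) (c - 1 + i)) P.d n = κ := by
  rw [unfR_plan h0]
  by_cases hβ : β = 0
  · simp only [hβ, if_true, List.mem_append, List.mem_flatMap, List.mem_map, List.mem_range,
      unfR_mem_bot, List.mem_filter, List.not_mem_nil, decide_eq_true_eq, or_false, ne_eq,
      not_true, false_and, false_or, or_assoc]
  · simp only [hβ, if_false, List.mem_append, List.mem_flatMap, List.mem_map, List.mem_range,
      unfR_mem_bot, List.mem_filter, decide_eq_true_eq, ne_eq, not_false_eq_true, true_and,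
      or_assoc]

theorem unfR_memT (h0 : h ≠ 0) {i j' c' : ℕ} :
    qT (dT t (h - i) c') i j' ∈ P.plan (dR t m β h c) ↔ j' < 2 ^ i ∧
      ((i < P.d ∧ c' = c) ∨ (i = P.d ∧ c - 1 ≤ c' ∧ ¬ P.triv (h - P.d) c')) := by
  rw [unfR_mem h0]
  constructor
  · rintro (⟨i1, h1, j1, h2, e⟩ | ⟨c1, h1, j1, h2, e⟩ | ⟨k, -, c1, -, j1, -, e⟩ |
      ⟨-, k, -, c1, -, j1, -, e⟩ | ⟨i1, -, n, -, e⟩)
    · simp only [Prod.mk.injEq] at e
      obtain ⟨⟨-, -, -, -, -, e1⟩, e2, e3, -⟩ := e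
      subst e1 e2 e3
      exact ⟨h2, Or.inl ⟨h1, rfl⟩⟩
    · simp only [Prod.mk.injEq] at e
      obtain ⟨⟨-, -, -, -, -, e1⟩, e2, e3, -⟩ := e
      subst e1 e2 e3
      exact ⟨h2, Or.inr ⟨rfl, h1⟩⟩
    · simp at e
    · simp at e
    · simp at e
  · rintro ⟨h1, ⟨h2, rfl⟩ | ⟨rfl, h2⟩⟩
    · exact Or.inl ⟨i, h2, j', h1, rfl⟩
    · exact Or.inr (Or.inl ⟨c', h2, j', h1, rfl⟩)

theorem unfR_memP (h0 : h ≠ 0) {k β' j' c' : ℕ}
    (hk : (k < m ∧ β' = β) ∨ (β ≠ 0 ∧ k ≤ m ∧ β' = β - 1)) :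
    qT (dP t k β' (h - P.d) c') P.d j' ∈ P.plan (dR t m β h c) ↔
      j' < 2 ^ P.d ∧ c - 1 ≤ c' ∧ ¬ P.triv (h - P.d) c' := by
  rw [unfR_mem h0]
  constructor
  · rintro (⟨i1, h1, j1, h2, e⟩ | ⟨c1, h1, j1, h2, e⟩ | ⟨k, -, c1, h1, j1, h2, e⟩ |
      ⟨-, k, -, c1, h1, j1, h2, e⟩ | ⟨i1, -, n, -, e⟩)
    · simp at e
    · simp at e
    · simp only [Prod.mk.injEq] at e
      obtain ⟨⟨-, -, -, -, -, e1⟩, -, e3, -⟩ := e
      subst e1 e3
      exact ⟨h2, h1⟩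
    · simp only [Prod.mk.injEq] at e
      obtain ⟨⟨-, -, -, -, -, e1⟩, -, e3, -⟩ := e
      subst e1 e3
      exact ⟨h2, h1⟩
    · simp at e
  · rintro ⟨h1, h2⟩
    rcases hk with ⟨hk, rfl⟩ | ⟨hβ, hk, rfl⟩
    · exact Or.inr (Or.inr (Or.inl ⟨k, hk, c', h2, j', h1, rfl⟩))
    · exact Or.inr (Or.inr (Or.inr (Or.inl ⟨hβ, k, Nat.lt_succ_of_le hk, c', h2, j', h1, rfl⟩)))

theorem kF_mem (h0 : h ≠ 0) {a i r : ℕ} (ha : a ≤ P.kT ^ 2) (hi : i < P.I)
    (hr : r < 2 ^ (i + P.rx)) :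
    P.kF t m β h c a i r ∈ P.plan (dR t m β h c) ↔ ¬ P.triv (h - P.d) (c - 1 + i) := by
  rw [unfR_mem h0]
  constructor
  · rintro (⟨i1, h1, j1, h2, e⟩ | ⟨c1, h1, j1, h2, e⟩ | ⟨k, -, c1, h1, j1, h2, e⟩ |
      ⟨-, k, -, c1, h1, j1, h2, e⟩ | ⟨i1, h1, n, -, e⟩)
    · simp at e
    · simp at e
    · simp at e
    · simp at e
    · simp only [Prod.mk.injEq] at e
      obtain ⟨⟨-, -, -, -, -, e1⟩, -⟩ := e
      rw [← e1]
      exact h1.2
  · intro ht
    refine Or.inr (Or.inr (Or.inr (Or.inr ⟨i, ⟨hi, ht⟩, _, ?_, rfl⟩)))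
    calc a * 2 ^ (i + P.rx) + r < (a + 1) * 2 ^ (i + P.rx) := by rw [add_mul, one_mul]; omega
      _ ≤ _ := Nat.mul_le_mul_right _ (by omega)

theorem kF_inj {a i r a' i' r' : ℕ} (hr : r < 2 ^ (i + P.rx)) (hr' : r' < 2 ^ (i' + P.rx))
    (e : P.kF t m β h c a i r = P.kF t m β h c a' i' r') : a = a' ∧ i = i' ∧ r = r' := by
  simp only [Prod.mk.injEq] at e
  obtain ⟨⟨-, -, -, -, -, e1⟩, -, e2, -⟩ := e
  obtain rfl : i = i' := by omega
  have hpos : 0 < 2 ^ (i + P.rx) := Nat.two_pow_pos _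
  have h1 : (a * 2 ^ (i + P.rx) + r) / 2 ^ (i + P.rx) = a := by
    rw [add_comm, Nat.add_mul_div_right _ _ hpos, Nat.div_eq_of_lt hr, zero_add]
  have h2 : (a' * 2 ^ (i + P.rx) + r') / 2 ^ (i + P.rx) = a' := by
    rw [add_comm, Nat.add_mul_div_right _ _ hpos, Nat.div_eq_of_lt hr', zero_add]
  obtain rfl : a = a' := by rw [← h1, e2, h2]
  exact ⟨rfl, rfl, by omega⟩

theorem estQ_congr {ι : Type} {s k : ℕ} {η : ℚ} {A : List ι} {q0 q0' : ι → ℚ}
    {qq qq' : ℕ → ℕ → ι → ℚ} (h0 : ∀ a ∈ A, q0 a = q0' a)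
    (h : ∀ i < k, ∀ l < k, ∀ a ∈ A, qq i l a = qq' i l a) :
    estQ s η k A q0 qq = estQ s η k A q0' qq' := by
  unfold estQ
  rw [ns_sminQ_congr h0]
  congr 2
  unfold tayL
  refine Finset.sum_congr rfl fun r hr => ?_
  congr 1
  refine Finset.prod_congr rfl fun i hi => ?_
  have hik : i < k := by
    have := Finset.mem_range.1 hr
    have := Finset.mem_range.1 hi
    omega
  refine congrArg List.sum (List.map_congr_left fun a ha => ?_)
  rw [ns_gibbsQ_congr h0 ha]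
  congr 1
  unfold tayE
  refine Finset.sum_congr rfl fun r' hr' => ?_
  congr 1
  refine Finset.prod_congr rfl fun l hl => ?_
  have hlk : l < k := by
    have := Finset.mem_range.1 hr'
    have := Finset.mem_range.1 hl
    omega
  beta_reduce
  rw [h i hik l hlk a ha, h0 a ha]

theorem unfR_ite {p : Prop} {i1 i2 : Decidable p} {a b : ℝ} :
    @ite ℝ p i1 a b = @ite ℝ p i2 a b := by
  rw [Subsingleton.elim i1 i2]

theorem unfR_rad (u : ℕ) : P.rad u 3 + P.rad u 2 ≤ 2 ^ P.om u := by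
  refine le_trans (le_rad_iff.2 ?_) (rad_le_om (x := 4) (by unfold omx; omega))
  have h3 := (le_rad_iff (P := P) (u := u) (x := 3)).1 le_rfl
  have h2 := (le_rad_iff (P := P) (u := u) (x := 2)).1 le_rfl
  have h4 := Lam_pos (P := P) u
  push_cast
  linarith

theorem unfR_grd {u : ℕ} {x y : St} (hy : Nat.dist y.1 x.1 ≤ P.rad u 2)
    {f g : ℕ → ℕ → ℕ → St → ℚ} {a : ℕ}
    (H : ∀ b c' z, Nat.dist z.1 x.1 ≤ 2 ^ P.om u → f a b c' z = g a b c' z) :
    P.grd u y f a = P.grd u y g a := by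
  funext b c' z
  unfold grd
  split_ifs with hz
  · refine H b c' z ?_
    have h1 := Nat.dist.triangle_inequality z.1 y.1 x.1
    have h2 := unfR_rad (P := P) u
    omega
  · rfl

theorem unfR_trm {u : ℕ} {x : St} {S S' : St → ℚ} {Kv : ℚ} {i : ℕ}
    (H : ∀ y : St, Nat.dist y.1 x.1 ≤ P.rad u 2 → S y = S' y) :
    ∀ a ∈ P.trmA u x, P.trm u S Kv i x a = P.trm u S' Kv i x a := by
  intro a ha
  have hx : S x = S' x := H x (unf_dist_self_le _ _)
  unfold trm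
  simp only [trmA, List.mem_cons, List.mem_map] at ha
  rcases ha with rfl | rfl | ⟨y, hy, rfl⟩
  · simp only [hx, if_true]
  · simp
  · rw [H y (mem_box.1 hy).2.1]
    simp

theorem unfR_Kn {x : St} {nt nt' pm pm' : ℕ → ℕ → ℕ → St → ℚ} {k : ℕ}
    (hn : ∀ i b c' z, Nat.dist z.1 x.1 ≤ 2 ^ P.om (h + c) → nt i b c' z = nt' i b c' z)
    (hm : β ≠ 0 → ∀ k' ≤ k, ∀ b c' z, Nat.dist z.1 x.1 ≤ 2 ^ P.om (h + c) →
      pm k' b c' z = pm' k' b c' z) :
    P.Kn h c nt pm β x k = P.Kn h c nt' pm' β x k := by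
  unfold Kn
  rw [hn 0 0 c x (unf_dist_self_le _ _)]
  congr 1
  split_ifs with hβ
  · rfl
  · refine List.map_congr_left fun q hq => ?_
    obtain ⟨y, k'⟩ := q
    obtain ⟨hy, hk'⟩ := List.pair_mem_product.1 hq
    have hy' := (mem_box.1 hy).2.1
    have hk'' : k' ≤ k := Nat.le_of_lt_succ (List.mem_range.1 hk')
    unfold Big
    rw [show P.grd (h + c) y nt = P.grd (h + c) y nt' from funext fun i => unfR_grd hy' (hn i),
      unfR_grd hy' (hm hβ k' hk'')]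

/-- The raw estimate only looks at the columns near the top, the earlier rounds and the copies
`a ≤ kT²`. -/
theorem unfR_rawF {x : St} {nt nt' pb pb' pm pm' E E' : ℕ → ℕ → ℕ → St → ℚ}
    (hn : ∀ i b c' z, Nat.dist z.1 x.1 ≤ 2 ^ P.om (h + c) → nt i b c' z = nt' i b c' z)
    (hb : ∀ k < m, ∀ b c' z, Nat.dist z.1 x.1 ≤ 2 ^ P.om (h + c) → pb k b c' z = pb' k b c' z)
    (hm : β ≠ 0 → ∀ k ≤ m, ∀ b c' z, Nat.dist z.1 x.1 ≤ 2 ^ P.om (h + c) →
      pm k b c' z = pm' k b c' z)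
    (hE : ∀ a ≤ P.kT ^ 2, ∀ b c' z, Nat.dist z.1 x.1 ≤ 2 ^ P.om (h + c) →
      E a b c' z = E' a b c' z) :
    P.rawF h c nt pb pm E m β x = P.rawF h c nt' pb' pm' E' m β x := by
  have hK : ∀ k ≤ m, P.Kn h c nt pm β x k = P.Kn h c nt' pm' β x k := fun k hk =>
    unfR_Kn hn fun hβ k' hk' => hm hβ k' (hk'.trans hk)
  have hS : ∀ a ≤ P.kT ^ 2, ∀ y : St, Nat.dist y.1 x.1 ≤ P.rad (h + c) 2 →
      P.Sm h c nt (pbE pb m (E a)) y m = P.Sm h c nt' (pbE pb' m (E' a)) y m := fun a ha y hy => by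
    refine Sm_congr_grd (funext fun i => unfR_grd hy (hn i)) fun k' _ =>
      unfR_grd hy fun b c' z hz => ?_
    unfold pbE
    split_ifs with hk
    · exact hb k' hk b c' z hz
    · exact hE a ha b c' z hz
  unfold rawF
  rw [hK m le_rfl]
  refine congrArg (fun v => clampQ (-P.Lam (h + c)) (5 * P.Lam (h + c)) (v + P.off (h + c) m))
    (lsQ_congr m (fun k hk i _ => ?_) fun i _ => ?_)
  · unfold cq
    rw [hK k hk.le]
    refine ns_sminQ_congr (unfR_trm fun y hy => ?_)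
    exact Sm_congr_grd (funext fun i => unfR_grd hy (hn i)) fun k' hk' =>
      unfR_grd hy (hb k' (lt_of_le_of_lt hk' hk))
  · refine estQ_congr (unfR_trm (hS 0 (Nat.zero_le _))) fun a ha b hb' => unfR_trm (hS _ ?_)
    calc 1 + a * P.kT + b ≤ (a + 1) * P.kT := by rw [add_mul, one_mul]; omega
      _ ≤ P.kT * P.kT := Nat.mul_le_mul_right _ ha
      _ = P.kT ^ 2 := (sq _).symm

/-- `unf_ev`; all tops `y` are within `rad 2` of `x`, the guard `grd` keeps the columns within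
`rad 3` of `y`, and `rad 2 + rad 3 ≤ rad 4 ≤ 2 ^ om`.  So for every top `y` the guarded lookups agree
with the guarded `ntM`, `pbM … k` (`k < m`, resp. `k ≤ m` and `β ≠ 0` for the tables `β - 1`) and
`estF` (copies `a ≤ kT²`): `Sm_congr_grd`, `lsQ_congr`, `estQ_congr`, `ns_sminQ_congr`. -/
theorem raw_eq (hg : Good P (dR t m β h c)) (h0 : h ≠ 0) {x : St} (hx : P.inW (h + c) x)
    (ρ : ℕ → Bool) :
    P.raw ms tapes t m β h j c ρ x = rup P.s (P.rawF h c (P.ntM (P.tT ms tapes t) h j c)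
      (P.pbM (fun k => P.tP ms tapes t k β) h j c)
      (P.pbM (fun k => P.tP ms tapes t k (β - 1)) h j c)
      (fun a => P.estF c (P.ixM t m β h c a ρ) (P.rwM ms tapes t m β h j c a ρ)) m β x) := by
  have hout : ∀ {κ : Key De} {z : St}, ¬ (κ ∈ P.plan (dR t m β h c) ∧ z.1 ≤ P.X) →
      eng.look P ms tapes (dR t m β h c) j ρ x κ z = P.X := fun hκ =>
    if_neg fun hc => hκ ⟨hc.1, hc.2.1⟩
  have hP : ∀ {k β' : ℕ}, ((k < m ∧ β' = β) ∨ (β ≠ 0 ∧ k ≤ m ∧ β' = β - 1)) → ∀ b c' z,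
      Nat.dist z.1 x.1 ≤ 2 ^ P.om (h + c) →
      eng.look P ms tapes (dR t m β h c) j ρ x (qT (dP t k β' (h - P.d) c') P.d b) z =
        P.pbM (fun k => P.tP ms tapes t k β') h j c k b c' z := fun hk b c' z hz => by
    unfold pbM
    split_ifs with hc
    · rw [unf_lookT ms tapes ((unfR_memP h0 hk).2 ⟨hc.1, hc.2.2⟩) hc.2.1 hz]
      rfl
    · exact hout fun hh => hc ⟨((unfR_memP h0 hk).1 hh.1).1, hh.2, ((unfR_memP h0 hk).1 hh.1).2⟩
  have hF : ∀ {a i r : ℕ} {z : St}, a ≤ P.kT ^ 2 → i < P.I → r < 2 ^ (i + P.rx) →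
      Nat.dist z.1 x.1 ≤ 2 ^ P.om (h + c) →
      eng.look P ms tapes (dR t m β h c) j ρ x (P.kF t m β h c a i r) z =
        P.rwM ms tapes t m β h j c a ρ i r z := fun ha hi hr hz => by
    have hmem := kF_mem (P := P) (t := t) (m := m) (β := β) (c := c) h0 ha hi hr
    unfold rwM
    split_ifs with hc
    · exact unf_look ms tapes (hmem.2 hc.1) hc.2 hz
    · exact hout fun hh => hc ⟨hmem.1 hh.1, hh.2⟩
  unfold raw
  rw [unf_ev ms tapes hg ((unf_inW (by norm_num)).mpr hx)]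
  simp only [rule, hx, not_true, if_false, if_true, OfNat.ofNat_ne_zero, OfNat.ofNat_ne_one,
    show (3 : ℕ) ≠ 2 by norm_num, ruleR, h0]
  refine congrArg (rup P.s) (unfR_rawF (fun i b c' z hz => ?_) (fun k hk => hP (Or.inl ⟨hk, rfl⟩))
    (fun hβ k hk => hP (Or.inr ⟨hβ, hk, rfl⟩)) fun a ha b c' z hz => ?_)
  · unfold ntM
    split_ifs with hc
    · rw [unf_lookT ms tapes ((unfR_memT h0).2 ⟨hc.1, hc.2.2⟩) hc.2.1 hz]
      rfl
    · exact hout fun hh => hc ⟨((unfR_memT h0).1 hh.1).1, hh.2, ((unfR_memT h0).1 hh.1).2⟩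
  · unfold estF
    split_ifs with hi
    · refine congrArg (fun v : ℚ => 2 ^ P.d / 2 ^ (c' - (c - 1) + P.rx) * v)
        (Finset.sum_congr rfl fun r hr => ?_)
      rw [← hF ha hi (Finset.mem_range.1 hr) hz]
      rfl
    · rfl

/-- `Eng.dep_sub`, `Eng.idx_of_not_mem`, `Eng.segSet_disjoint`, `Eng.law_fresh`, `abs_raw_le`. -/
theorem samp_eng (hg : Good P (dR t m β h c)) (h0 : h ≠ 0) (hn : P.Nd h j)
    (hM : P.MeanAt ms tapes t (h - P.d)) {a : ℕ} (ha : a ≤ P.kT ^ 2) :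
    P.Samp (P.pot (dR t m β h c)) (P.tP ms tapes t m β) h j c (P.ixM t m β h c a)
      (P.rwM ms tapes t m β h j c a) (P.sgM t m β h c a) := by
  obtain ⟨hm, hβ, hd⟩ : m < P.M ∧ β ≤ P.M ∧ P.d ≤ h := by
    obtain ⟨-, -, -, hc⟩ := hg
    rcases hc with hc | hc | hc | hc
    · exact absurd hc.1 (by norm_num)
    · exact absurd hc.1 (by norm_num)
    · exact absurd hc.1 (by norm_num)
    · exact ⟨hc.2.2.1, hc.2.2.2.1, Nat.le_of_dvd (Nat.pos_of_ne_zero h0) hc.2.2.2.2⟩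
  have hmem : ∀ {i r : ℕ}, i < P.I → r < 2 ^ (i + P.rx) →
      (P.kF t m β h c a i r ∈ eng.plan P (dR t m β h c) ↔ ¬ P.triv (h - P.d) (c - 1 + i)) :=
    fun hi hr => kF_mem h0 ha hi hr
  have h2d : (0 : ℝ) < 2 ^ P.d := by positivity
  refine ⟨fun i hi r hr => ?_, fun i hi r hr i' hi' r' hr' hne => ?_,
    fun i hi r hr ht j' hj' => ?_, fun i hi r hr ht j' hj' z hz hw => ?_,
    fun i hi r hr ht z hz hw ρ => ?_⟩
  · unfold sgM
    split_ifs with ht
    · intro ρ ρ' _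
      have hκ : P.kF t m β h c a i r ∉ eng.plan P (dR t m β h c) := fun hκ =>
        (hmem hi hr).1 hκ ht
      refine Prod.ext ?_ (funext fun z => ?_)
      · simp only [ixM, Eng.idx_of_not_mem eng _ hκ]
      · simp only [rwM, ht, not_true, false_and, if_false]
    · exact (Eng.dep_sub eng_wf hg ((hmem hi hr).2 ht) ms tapes j).comp fun q =>
        (q.1, fun z : St => if ¬ P.triv (h - P.d) (c - 1 + i) ∧ z.1 ≤ P.X then
          q.2 (P.rd (h - P.d + (c - 1 + i)) z) else (P.X : ℚ))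
  · unfold sgM
    split_ifs with ht ht'
    · exact Set.empty_disjoint _
    · exact Set.empty_disjoint _
    · exact Set.disjoint_empty _
    · rename_i ht'
      refine Eng.segSet_disjoint ((hmem hi hr).2 ht) ((hmem hi' hr').2 ht') fun e => hne ?_
      obtain ⟨-, e1, e2⟩ := kF_inj hr hr' e
      rw [e1, e2]
  · have hl := Eng.law_fresh eng_wf hg ((hmem hi hr).2 ht) ms tapes j
      fun i' _ => if i' = j' then 1 else 0
    simp only [Ex_const, Finset.sum_ite_eq', Finset.mem_range, hj', if_true] at hl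
    refine le_of_eq (Eq.trans ?_ hl)
    unfold Pr
    refine congrArg (Ex _) (funext fun ρ => ?_)
    exact unfR_ite
  · have hl := Eng.law_fresh eng_wf hg ((hmem hi hr).2 ht) ms tapes j
      fun i' T => if i' = j' then (T (P.rd (h - P.d + (c - 1 + i)) z) : ℝ) else 0
    rw [Finset.sum_eq_single j' (fun b _ hb => by simp only [if_neg hb, Ex_const])
      (fun hb => absurd (Finset.mem_range.2 hj') hb)] at hl
    simp only [if_true] at hl
    have e1 : Ex (P.pot (dR t m β h c)) (fun ρ => if P.ixM t m β h c a ρ i r = j' then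
        (P.rwM ms tapes t m β h j c a ρ i r z : ℝ) else 0) =
        Ex (P.pot (dR t m β (h - P.d) (c - 1 + i))) (fun ρ => (P.raw ms tapes t m β (h - P.d)
          (j * 2 ^ P.d + j') (c - 1 + i) ρ (P.rd (h - P.d + (c - 1 + i)) z) : ℝ)) / 2 ^ P.d := by
      refine Eq.trans (congrArg (Ex _) (funext fun ρ => ?_)) hl
      refine if_congr Iff.rfl ?_ rfl
      unfold rwM
      rw [if_pos ⟨ht, hz⟩]
    rw [e1, mul_div_cancel₀ _ h2d.ne']
    exact hM m hm β hβ _ _ _ (cls_Nd hn hd hj') ht hw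
  · unfold rwM
    rw [if_pos ⟨ht, hz⟩]
    exact abs_raw_le ms tapes (eng_wf.sub P _ _ hg ((hmem hi hr).2 ht)) hw _

theorem segU_disj (h0 : h ≠ 0) {a a' : ℕ} (ha : a ≤ P.kT ^ 2) (ha' : a' ≤ P.kT ^ 2) (hne : a ≠ a') :
    Disjoint (P.segU (P.sgM t m β h c a)) (P.segU (P.sgM t m β h c a')) := by
  refine Set.disjoint_left.2 ?_
  rintro b ⟨i, hi, r, hr, hb⟩ ⟨i', hi', r', hr', hb'⟩
  unfold sgM at hb hb'
  split_ifs at hb with ht
  · exact hb
  split_ifs at hb' with ht'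
  · exact hb'
  exact Set.disjoint_left.1 (Eng.segSet_disjoint (E := eng) ((kF_mem h0 ha hi hr).2 ht)
    ((kF_mem h0 ha' hi' hr').2 ht') fun e => hne (kF_inj hr hr' e).1) hb hb'

end Pa

end Crest.Agent.R288
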