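/-
R288/TabAcc: the accuracy events and their deterministic consequences.
-/
import Crest.Agent.R288.UnfR
import Crest.Agent.R288.RawMean

set_option autoImplicit false

namespace Crest.Agent.R288

open Finset

namespace Pa

variable (P : Pa) (ms : ℕ → ℕ → Bool)

/-- The sampled zone sum is inaccurate. -/
def BadA (h j c a i : ℕ) (tapes : ℕ → ℕ → Bool) (ρ : ℕ → Bool) : Prop :=
  P.del * P.aSum (fun j' => P.tA ms tapes (h - P.D) (j * 2 ^ P.D + j')) h c a i +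
      P.del ^ 3 * P.Lam (h + c) <
    |P.aTerm (fun i r => P.tA ms tapes (h - P.D)
        (j * 2 ^ P.D + eng.idx P (dA h c) ρ (qR (dA (h - P.D) (c + i)) P.D r)) (c + i)) h c a i -
      P.aSum (fun j' => P.tA ms tapes (h - P.D) (j * 2 ^ P.D + j')) h c a i|

/-- The average of the raw estimates is inaccurate. -/
def BadP (t m β h j c : ℕ) (z : St) (tapes : ℕ → ℕ → Bool) (ρ : ℕ → Bool) : Prop :=
  P.tau * P.La (h + c) <
    |(P.tabAvg (fun r => eng.sub P ms tapes (dP t m β h c) j ρ (qF (dR t m β h c) 0 r)) z : ℝ) -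
      Ex (P.pot (dR t m β h c)) fun ρ' => P.raw ms tapes t m β h j c ρ' z|

variable (tapes : ℕ → ℕ → Bool)

/-- All zone sums are accurate. -/
def AccA : Prop :=
  ∀ h j c a i, P.Nd h j → P.D ∣ h → h ≠ 0 → ¬ P.triv h c → P.inW (h + c) (a, a) → i ≤ P.D →
    ¬ P.BadA ms h j c a i tapes (tapes (P.rk (dA h c)))

/-- All averages of phase `t` are accurate. -/
def AccP (t : ℕ) : Prop :=
  ∀ m < P.M, ∀ β ≤ P.M, ∀ h j c z, P.Nd h j → P.d ∣ h → ¬ P.triv h c → P.inW (h + c) z →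
    ¬ P.BadP ms t m β h j c z tapes (tapes (P.rk (dP t m β h c)))

/-- Everything is accurate. -/
def Acc : Prop := P.AccA ms tapes ∧ ∀ t < P.T, P.AccP ms tapes t

variable {P ms tapes}

theorem TabAcc_big {h c : ℕ} (hc : ¬ P.triv h c) : 8 * P.Lam (h + c) ≤ 2 ^ P.s := by
  have h1 := Par_pp (a := h + c + 3) (b := P.c0) (c := P.s) (d := 0)
    (by unfold triv umax at hc; unfold s kap Lx at *; omega)
  rw [pow_zero, div_one, pow_add] at h1
  unfold Lam
  linarith [show (2 : ℚ) ^ (h + c) * 2 ^ 3 / 2 ^ P.c0 = 8 * (2 ^ (h + c) / 2 ^ P.c0) by ring]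

theorem TabAcc_eps (u : ℕ) : (1 : ℚ) / 2 ^ P.s ≤ P.tau * P.Lam u := by
  have h1 := Par_pp (a := 0) (b := P.s) (c := u) (d := 5 * P.Lx + P.c0) (by unfold s; omega)
  rw [pow_zero, pow_add] at h1
  unfold tau Lam
  rwa [div_mul_div_comm, one_mul]

theorem TabAcc_tau (hP : P.OK) : 16 * (P.tau : ℝ) ≤ P.zeta ∧ (P.zeta : ℝ) ≤ 1 := by
  have h0 := Wf_Lx hP
  have h1 := Par_pp (a := 4) (b := 5 * P.Lx) (c := 0) (d := 4 * P.Lx) (by omega)
  have h2 := Par_pp (a := 0) (b := 4 * P.Lx) (c := 0) (d := 0) (by omega)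
  have h3 : 16 * P.tau ≤ P.zeta := by
    unfold tau zeta
    rw [mul_one_div]
    norm_num at h1 ⊢
    exact h1
  have h4 : P.zeta ≤ 1 := by
    unfold zeta
    simpa using h2
  exact ⟨by exact_mod_cast h3, by exact_mod_cast h4⟩

theorem TabAcc_rup {h c : ℕ} (hc : ¬ P.triv h c) {x : ℚ} (h1 : -P.Lam (h + c) ≤ x)
    (h2 : x ≤ 5 * P.Lam (h + c)) : |(rup P.s x : ℝ) - x| ≤ P.tau * P.La (h + c) := by
  have h3 := TabAcc_big hc
  have h4 := Lam_pos (P := P) (h + c)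
  have h5 := (abs_rup_sub_le (s := P.s) (x := x) (abs_le.2 ⟨by linarith, by linarith⟩)).trans
    (TabAcc_eps (h + c))
  unfold La
  exact_mod_cast h5

theorem TabAcc_clamp {h c : ℕ} (hc : ¬ P.triv h c) {x : ℚ} {E : ℝ} (h1 : 0 ≤ E)
    (h2 : E ≤ 4 * P.La (h + c)) (h3 : |(x : ℝ) - E| ≤ P.tau * P.La (h + c)) :
    |(rup P.s (clampQ 0 (4 * P.Lam (h + c)) x) : ℝ) - E| ≤ 2 * P.tau * P.La (h + c) := by
  have hΛ := Lam_pos (P := P) (h + c)
  have h4 := clampQ_mem (lo := 0) (hi := 4 * P.Lam (h + c)) (by linarith) x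
  have h5 := TabAcc_rup (x := clampQ 0 (4 * P.Lam (h + c)) x) hc (by linarith [h4.1])
    (by linarith [h4.2])
  have h6 := abs_clampQ_sub_le (lo := 0) (hi := 4 * P.Lam (h + c)) (t := E)
    (by exact_mod_cast h1) (by push_cast; exact h2) x
  refine (abs_sub_le _ _ _).trans ((add_le_add h5 (h6.trans h3)).trans_eq (by ring))

/-- `tA_out`, `tA_leaf`, `evA_eq`. -/
theorem AccA.arel (hP : P.OK) (hA : P.AccA ms tapes) : P.ARel ms (P.tA ms tapes) :=
  ⟨fun _ _ _ _ hz => tA_out ms tapes hz, fun _ _ _ _ hc hz => tA_leaf ms tapes hP hc hz,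
    fun h j c a hn hD h0 hc hz => ⟨_, evA_eq ms tapes hP hn.1 hD h0 hc hz _,
      fun i hi => not_lt.1 (hA h j c a i hn hD h0 hc hz hi)⟩⟩

/-- `raw_eq`, `rawF_mean`, `samp_eng`, `segU_disj`; the rounding costs `2^{-s}` (`clampQ_mem`). -/
theorem raw_mean {Nb : Fam} {K : ℝ} {t m β h j c : ℕ} {x : St} (ht : t < P.T) (hd : P.d ∣ h)
    (hT : P.Top ms Nb (P.tT ms tapes t) (P.tP ms tapes t) K h j c x) (hβ : β ≤ P.M) (hm : m < P.M)
    (hM : P.MeanAt ms tapes t (h - P.d)) :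
    |Ex (P.pot (dR t m β h c)) (fun ρ => P.raw ms tapes t m β h j c ρ x) -
      P.Pre ms (P.tT ms tapes t) (P.tP ms tapes t) m β h j c x| ≤ P.zeta / 8 * P.La (h + c) := by
  have hg : Good P (dR t m β h c) := ⟨hT.ok, hT.wd.nd.1, hT.wd.nt,
    Or.inr (Or.inr (Or.inr ⟨Or.inl rfl, ht, hm, hβ, hd⟩))⟩
  have h0 := hT.PreI_ne
  have h1 := rawF_mean hT hβ hm (fun a ha => samp_eng ms tapes hg h0 hT.wd.nd hM ha)
    fun a ha a' ha' hne => segU_disj h0 ha ha' hne
  have hΛ := Lam_pos (P := P) (h + c)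
  have h2 := abs_Ex_sub_le (n := P.pot (dR t m β h c))
    (f := fun ρ => P.raw ms tapes t m β h j c ρ x)
    (g := fun ρ => P.rawF h c (P.ntM (P.tT ms tapes t) h j c)
      (P.pbM (fun k => P.tP ms tapes t k β) h j c)
      (P.pbM (fun k => P.tP ms tapes t k (β - 1)) h j c)
      (fun a => P.estF c (P.ixM t m β h c a ρ) (P.rwM ms tapes t m β h j c a ρ)) m β x)
    (c := P.tau * P.La (h + c)) fun ρ => by
      rw [raw_eq ms tapes hg h0 hT.hy ρ]
      exact TabAcc_rup hT.wd.nt (clampQ_mem (by linarith) _).1 (clampQ_mem (by linarith) _).2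
  have h3 := mul_le_mul_of_nonneg_right (TabAcc_tau hT.ok).1 (SmI_La_pos (P := P) (h + c)).le
  refine (abs_sub_le _ _ _).trans ((add_le_add h2 h1).trans ?_)
  linarith

/-- `raw_leaf`, `PreI_pre_leaf`. -/
theorem raw_mean_leaf (hP : P.OK) {t m β j c : ℕ} {x : St} (ht : t < P.T) (hβ : β ≤ P.M)
    (hm : m < P.M) (hc : ¬ P.triv 0 c) (hx : P.inW (0 + c) x) :
    |Ex (P.pot (dR t m β 0 c)) (fun ρ => P.raw ms tapes t m β 0 j c ρ x) -
      P.Pre ms (P.tT ms tapes t) (P.tP ms tapes t) m β 0 j c x| ≤ P.zeta / 8 * P.La (0 + c) := by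
  have hg : Good P (dR t m β 0 c) := ⟨hP, Nat.zero_le _, hc,
    Or.inr (Or.inr (Or.inr ⟨Or.inl rfl, ht, hm, hβ, Nat.dvd_zero _⟩))⟩
  have hΛ := Lam_pos (P := P) c
  have h1 := unf_off_mem hP c m
  have h2 : (P.rawLeaf (ms j) c m x : ℝ) =
      P.Pre ms (P.tT ms tapes t) (P.tP ms tapes t) m β 0 j c x := by
    rw [PreI_pre_leaf, Nat.zero_add]
    unfold rawLeaf La VV V
    push_cast
    rw [min_comm (P.X : ℝ)]
  have h3 := TabAcc_rup (x := P.rawLeaf (ms j) c m x) hc (by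
    rw [Nat.zero_add]
    unfold rawLeaf
    have : (0 : ℚ) ≤ min ((min P.X (vleaf (ms j) x) : ℕ) : ℚ) (3 * P.Lam c) :=
      le_min (Nat.cast_nonneg _) (by linarith)
    linarith) (by
    rw [Nat.zero_add]
    unfold rawLeaf
    linarith [min_le_right ((min P.X (vleaf (ms j) x) : ℕ) : ℚ) (3 * P.Lam c)])
  simp only [raw_leaf ms tapes hg hx]
  rw [Ex_const, ← h2]
  have h4 := SmI_La_pos (P := P) (0 + c)
  have h5 := mul_le_mul_of_nonneg_right (TabAcc_tau hP).1 h4.le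
  have h6 := (abs_nonneg _).trans h3
  linarith

/-- The mean lies in `[0, 4 Λ]`, so clamping does not hurt (`evP_eq`, `abs_clampQ_sub_le`,
`rup_le_of_onG`, `onG_Lam`, `tP_out`); `2^{-s} ≤ τ Λ`, `2 τ ≤ ζ / 8`. -/
theorem AccP.level (hP : P.OK) {t h : ℕ} (ht : t < P.T) (hA : P.AccP ms tapes t) (hd : P.d ∣ h)
    (hM : ∀ m < P.M, ∀ β ≤ P.M, ∀ j c x, P.Nd h j → ¬ P.triv h c → P.inW (h + c) x →
      |Ex (P.pot (dR t m β h c)) (fun ρ => P.raw ms tapes t m β h j c ρ x) -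
        P.Pre ms (P.tT ms tapes t) (P.tP ms tapes t) m β h j c x| ≤ P.zeta / 8 * P.La (h + c) ∧
      P.zeta / 2 * P.La (h + c) ≤ P.Pre ms (P.tT ms tapes t) (P.tP ms tapes t) m β h j c x ∧
      P.Pre ms (P.tT ms tapes t) (P.tP ms tapes t) m β h j c x ≤ 7 / 2 * P.La (h + c)) :
    P.TabRelAt ms (P.tT ms tapes t) (P.tP ms tapes t) h ∧ P.MeanAt ms tapes t h := by
  have hg : ∀ {m β j c : ℕ}, m < P.M → β ≤ P.M → P.Nd h j → ¬ P.triv h c →
      Good P (dP t m β h c) := fun hm hβ hn hc => ⟨hP, hn.1, hc,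
    Or.inr (Or.inr (Or.inr ⟨Or.inr rfl, ht, hm, hβ, hd⟩))⟩
  have he : ∀ {m β j c : ℕ} {z : St}, m < P.M → β ≤ P.M → P.Nd h j → ¬ P.triv h c →
      P.inW (h + c) z → P.tP ms tapes t m β h j c z = rup P.s (clampQ 0 (4 * P.Lam (h + c))
        (P.tabAvg (fun r => eng.sub P ms tapes (dP t m β h c) j (tapes (P.rk (dP t m β h c)))
          (qF (dR t m β h c) 0 r)) z)) := fun hm hβ hn hc hz =>
    evP_eq ms tapes (hg hm hβ hn hc) hz _
  have hmean : P.MeanAt ms tapes t h := by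
    intro m hm β hβ j c z hn hc hz
    obtain ⟨h1, h2, h3⟩ := hM m hm β hβ j c z hn hc hz
    have h4 := not_lt.1 (hA m hm β hβ h j c z hn hd hc hz)
    have hL := SmI_La_pos (P := P) (h + c)
    have h5 := mul_le_mul_of_nonneg_right (TabAcc_tau hP).2 hL.le
    rw [abs_le] at h1
    have h6 : (0 : ℝ) ≤ P.zeta * P.La (h + c) := by
      have := PreI_scaled hP (h + c)
      linarith [this.2.1, this.2.2.1]
    rw [he hm hβ hn hc hz, abs_sub_comm]
    exact TabAcc_clamp hc (by linarith) (by linarith) h4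
  refine ⟨⟨fun m β j c z hz => tP_out ms tapes hz, fun m hm β hβ j c z hn hc hz => ?_,
    fun m hm β hβ j c z hn hc => ?_, fun m hm β hβ j c z hn hc hz => ?_⟩, hmean⟩
  · have hΛ := Lam_pos (P := P) (h + c)
    rw [he hm hβ hn hc hz]
    refine ⟨rup_nonneg (clampQ_mem (by linarith) _).1, ?_⟩
    have h1 := rup_le_of_onG (clampQ_mem (lo := 0) (hi := 4 * P.Lam (h + c)) (by linarith)
      (P.tabAvg (fun r => eng.sub P ms tapes (dP t m β h c) j (tapes (P.rk (dP t m β h c)))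
        (qF (dR t m β h c) 0 r)) z)).2 (by simpa using onG_Lam (P := P) (h + c) 4)
      (by linarith [show (0 : ℚ) < 2 ^ P.s by positivity])
    unfold La
    exact_mod_cast h1
  · by_cases hz : P.inW (h + c) z
    · rw [he hm hβ hn hc hz]
      exact onG_rup _ _
    · rw [tP_out ms tapes hz]
      exact onG_nat _ _
  · have h1 := hmean m hm β hβ j c z hn hc hz
    have h2 := (hM m hm β hβ j c z hn hc hz).1
    have h3 := mul_le_mul_of_nonneg_right (TabAcc_tau hP).1 (SmI_La_pos (P := P) (h + c)).le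
    rw [abs_sub_comm] at h1
    refine (abs_sub_le _ _ _).trans ((add_le_add h1 h2).trans ?_)
    linarith

/-- Induction over the super-levels `h = n d` of `TabRelAt ∧ MeanAt ∧ InvP` (`AccP.level`,
`raw_mean`, `pre_rng`, `inv_zero`, `inv_succ`). -/
theorem AccP.tabRel (hP : P.OK) {Nb : Fam} {K : ℝ} {t : ℕ} (ht : t < P.T) (hA : P.AccP ms tapes t)
    (hS : P.StageA ms Nb (P.tT ms tapes t) K) :
    ∀ h ≤ P.L, P.d ∣ h → P.TabRelAt ms (P.tT ms tapes t) (P.tP ms tapes t) h := by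
  have key : ∀ n, P.TabRelAt ms (P.tT ms tapes t) (P.tP ms tapes t) (P.d * n) ∧
      P.MeanAt ms tapes t (P.d * n) ∧ P.InvP ms (P.tT ms tapes t) (P.tP ms tapes t) (P.d * n) := by
    intro n
    induction n with
    | zero =>
      have h1 := hA.level hP ht (Nat.dvd_zero _) fun m hm β hβ j c x _ hc hx =>
        ⟨raw_mean_leaf hP ht hβ hm hc hx, pre_rng_leaf hP hm β j c x⟩
      exact ⟨h1.1, h1.2, inv_zero hP hS h1.1⟩
    | succ n ih =>
      have hd : P.d ≤ P.d * (n + 1) := Nat.le_mul_of_pos_right _ n.succ_pos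
      have e : P.d * (n + 1) - P.d = P.d * n := by rw [Nat.mul_succ, Nat.add_sub_cancel]
      rw [← e] at ih
      have h1 := hA.level hP ht (Nat.dvd_mul_right P.d (n + 1)) fun m hm β hβ j c x hn hc hx =>
        have hT : P.Top ms Nb (P.tT ms tapes t) (P.tP ms tapes t) K _ j c x :=
          ⟨hP, hS, ⟨hn, hc, hd⟩, ih.2.2, hx⟩
        ⟨raw_mean ht (Nat.dvd_mul_right _ _) hT hβ hm ih.2.1, pre_rng hT hβ hm⟩
      exact ⟨h1.1, h1.2, inv_succ hP hS hd ih.2.2 h1.1⟩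
  rintro _ - ⟨n, rfl⟩
  exact (key n).1

end Pa

end Crest.Agent.R288
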