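/-
R288/AccPr: everything is accurate with overwhelming probability.
-/
import Crest.Agent.R288.TabAcc
import Crest.Agent.R288.Ako1

set_option autoImplicit false

namespace Crest.Agent.R288

open Finset

theorem AccPr_false {n : ℕ} {E : (ℕ → Bool) → Prop} {p : ℝ} (hp : 0 ≤ p) (h : ∀ ρ, ¬ E ρ) :
    Pr n E ≤ p :=
  Ex_le_const fun ρ => by rw [if_neg (h ρ)]; exact hp

/-- Relative form of Bernstein's inequality for nonnegative variables. -/
theorem AccPr_rel {ι : Type} (n : ℕ) (s : Finset ι) (Y : ι → (ℕ → Bool) → ℝ) (S : ι → Set ℕ)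
    (hY : ∀ i ∈ s, Dep (Y i) (S i)) (hd : ∀ i ∈ s, ∀ j ∈ s, i ≠ j → Disjoint (S i) (S j))
    {R A δ ε : ℝ} (hR : ∀ i ∈ s, ∀ ρ, 0 ≤ Y i ρ ∧ Y i ρ ≤ R) (hA : ∑ i ∈ s, Ex n (Y i) = A)
    (hR0 : 0 < R) (h0 : 0 ≤ δ) (h1 : 2 * δ ≤ 1) :
    Pr n (fun ρ => δ * A + ε ≤ |∑ i ∈ s, Y i ρ - A|) ≤ 2 * Real.exp (-(δ * ε / R)) := by
  have h := bern_abs n s Y S hY hd (R := R) (v := R * A) (lam := δ / R)
    (fun i hi ρ => by rw [abs_of_nonneg (hR i hi ρ).1]; exact (hR i hi ρ).2)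
    (by
      rw [← hA, mul_sum]
      refine sum_le_sum fun i hi => ?_
      rw [← Ex_const_mul]
      refine Ex_mono fun ρ => ?_
      rw [sq]
      exact mul_le_mul_of_nonneg_right (hR i hi ρ).2 (hR i hi ρ).1)
    (by positivity) (by rwa [mul_assoc, div_mul_cancel₀ _ hR0.ne']) (δ * A + ε)
  rw [hA] at h
  refine h.trans_eq ?_
  congr 2
  field_simp
  ring

theorem AccPr_ex {U n k : ℕ} {F : ℕ → (ℕ → Bool) → Prop} {x : ℝ} (hn : n ≤ 2 ^ k)
    (h : ∀ i, Pr U (F i) ≤ Real.exp x) :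
    Pr U (fun ρ => ∃ i < n, F i ρ) ≤ Real.exp (k + x) := by
  refine (Pr_mono (E' := fun ρ => ∃ i ∈ range n, F i ρ) fun ρ ⟨i, hi, hF⟩ =>
    ⟨i, mem_range.2 hi, hF⟩).trans ((Pr_exists_le_card _ F fun i _ => h i).trans ?_)
  rw [card_range, Real.exp_add]
  refine mul_le_mul_of_nonneg_right ?_ (Real.exp_pos _).le
  have h2 : (2 : ℝ) ≤ Real.exp 1 := by linarith [Real.add_one_le_exp (1 : ℝ)]
  calc (n : ℝ) ≤ 2 ^ k := by exact_mod_cast hn
    _ ≤ Real.exp 1 ^ k := pow_le_pow_left₀ zero_le_two h2 k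
    _ = Real.exp k := by rw [← Real.exp_nat_mul, mul_one]

theorem AccPr_two (x : ℝ) : 2 * Real.exp x ≤ Real.exp (1 + x) := by
  rw [Real.exp_add]
  exact mul_le_mul_of_nonneg_right (by linarith [Real.add_one_le_exp (1 : ℝ)]) (Real.exp_pos _).le

/-- A requested table only reads the segment of the request and the lower tapes. -/
theorem AccPr_sub_congr {Pa De : Type} [DecidableEq De] {E : Eng Pa De} {Good : Pa → De → Prop}
    (hw : E.Wf Good) {P : Pa} {D : De} (h : Good P D) (ms : ℕ → ℕ → Bool)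
    {tapes tapes' : ℕ → ℕ → Bool} {ρ ρ' : ℕ → Bool} (j : ℕ)
    (ht : ∀ i < E.tp P D, ∀ b < E.pot P D, tapes i b = tapes' i b)
    (hρ : ∀ b < E.pot P D, ρ b = ρ' b) {κ : Key De} (hκ : κ ∈ E.plan P D) :
    E.sub P ms tapes D j ρ κ = E.sub P ms tapes' D j ρ' κ := by
  have hseg : ∀ i ∈ E.segSet P D κ, ρ i = ρ' i := fun i hi =>
    hρ i (lt_of_lt_of_le hi.2 (Eng.off_add_seg_le hw h hκ))
  have hlt := hw.pot_lt h hκ
  funext z
  unfold Eng.sub
  rw [Eng.engDep_idx_congr fun _ => hseg]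
  refine congrFun (Eng.ev_congr hw (hw.sub P D κ h hκ) ms _ (fun i hi b hb => ?_)
    (Eng.engDep_bits_congr hseg fun hf b hb => ?_)) _
  · refine ht i ?_ b (hb.trans hlt)
    cases hf : κ.2.2.2.2
    · exact hi.trans (hw.tp_tab P D κ h hκ hf)
    · exact lt_of_lt_of_le hi (hw.tp_fresh P D κ h hκ hf)
  · exact ht _ (hw.tp_tab P D κ h hκ hf) b (hb.trans hlt)

namespace Pa

/-- The root descriptor. -/
def root (P : Pa) : De := dN P.T P.D P.L 0

variable {P : Pa} (ms : ℕ → ℕ → Bool)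

theorem good_root (hP : P.OK) : Good P P.root :=
  ⟨hP, le_rfl, by unfold triv umax cmax c0; omega,
    Or.inr (Or.inl ⟨rfl, le_rfl, Nat.le_add_right _ _, rfl⟩)⟩

/-- Every good descriptor of kind `0` or `4` is below the root. -/
theorem le_root {D : De} (hg : Good P D) (hk : D.1 = 0 ∨ D.1 = 4) :
    P.rk D ≤ P.rk P.root ∧ P.pot D ≤ P.pot P.root := by
  obtain ⟨k, t, m, β, h, c⟩ := D
  obtain ⟨-, hL, -, hk'⟩ := hg
  have h1 : P.rk (k, t, m, β, h, c) ≤ P.rk P.root := by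
    have e : P.rk P.root = P.base P.T + P.D := by simp [rk, root]
    rw [e]
    rcases hk with hk | hk
    · obtain rfl : k = 0 := hk
      have : h / P.D ≤ P.L / P.D := Nat.div_le_div_right hL
      simp only [rk, if_true]
      unfold base
      omega
    · obtain rfl : k = 4 := hk
      have h2 : t < P.T ∧ m < P.M ∧ β ≤ P.M := by omega
      have h3 : P.base (t + 1) ≤ P.base P.T := by
        unfold base
        exact Nat.add_le_add_left (Nat.mul_le_mul_right _ h2.1) _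
      rw [Wf_base] at h3
      have e' : P.rk (4, t, m, β, h, c) = P.base t + P.D + P.M + 3 + 2 * (m + β) := by simp [rk]
      omega
  refine ⟨h1, Nat.pow_le_pow_right two_pos ?_⟩
  have h2 := Nat.mul_le_mul_left (14 * P.Lx) h1
  have h3 := Nat.mul_le_mul_left (44 * P.p) (Nat.div_le_div_right (c := P.d) hL)
  exact Nat.add_le_add (Nat.add_le_add (Nat.add_le_add_left h2 _) h3) (Nat.sub_le _ _)

theorem AccPr_memA {h c i r : ℕ} (h0 : h ≠ 0) (hi : i ≤ P.D) (ht : ¬ P.triv (h - P.D) (c + i))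
    (hr : r < 2 ^ (i + P.ra)) : qR (dA (h - P.D) (c + i)) P.D r ∈ eng.plan P (dA h c) := by
  have : eng.plan P (dA h c) = ((List.range (P.D + 1)).filter
      fun i => ¬ P.triv (h - P.D) (c + i)).flatMap
      fun i => (List.range (2 ^ (i + P.ra))).map fun r => qR (dA (h - P.D) (c + i)) P.D r := by
    simp [eng, plan, planA, h0]
  rw [this]
  exact List.mem_flatMap.mpr ⟨i, List.mem_filter.mpr
    ⟨List.mem_range.mpr (Nat.lt_succ_of_le hi), by simpa using ht⟩,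
    List.mem_map.mpr ⟨r, List.mem_range.mpr hr, rfl⟩⟩

theorem AccPr_memP {t m β h c r : ℕ} (hr : r < 2 ^ P.rf) :
    qF (dR t m β h c) 0 r ∈ eng.plan P (dP t m β h c) := by
  have : eng.plan P (dP t m β h c) =
      (List.range (2 ^ P.rf)).map fun r => qF (dR t m β h c) 0 r := by simp [eng, plan]
  rw [this]
  exact List.mem_map.mpr ⟨r, List.mem_range.mpr hr, rfl⟩

theorem AccPr_triv {h j c a i : ℕ} (ht : P.triv (h - P.D) (c + i)) (tapes : ℕ → ℕ → Bool)
    (ρ : ℕ → Bool) : ¬ P.BadA ms h j c a i tapes ρ := by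
  unfold BadA aTerm aSum aenv
  simp only [if_pos ht, sum_const, card_range, nsmul_eq_mul, Nat.cast_pow, Nat.cast_ofNat]
  have h1 := phiA_nonneg (P := P) (h - P.D) c i
    (min (P.hiA (h - P.D + (c + i))) (P.trivV (h - P.D) (a, a)))
  have h2 := Lam_pos (P := P) (h + c)
  have h3 : 0 < P.del := by unfold del; positivity
  rw [← mul_assoc (_ / _), div_mul_cancel₀ _ (by positivity), sub_self, abs_zero, not_lt]
  positivity

/-- If the class `c + i` is trivial at height `h - D`, both sides agree (`aenv` ignores the table).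
Otherwise `bern_abs` for `Y r = 2^D / 2^(i + ra) · phiA (aenv …)`, which only depends on the index
(`Eng.dep_sub`, `Eng.segSet_disjoint`), `0 ≤ Y r ≤ R = 2^(Lx+2) Λ / 2^ra`, `∑ E (Y r) = aSum`
(`Eng.law_tab`, only the index is used), `v = R · aSum`, `λ = δ / R`: the exponent is
`-δ⁴ Λ / R = -2^(Lx+3)`. -/
theorem pr_badA (hP : P.OK) {h c a i : ℕ} (j : ℕ) (hh : h ≤ P.L) (hD : P.D ∣ h) (h0 : h ≠ 0)
    (hc : ¬ P.triv h c) (hi : i ≤ P.D) (tapes : ℕ → ℕ → Bool) :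
    Pr (P.pot (dA h c)) (P.BadA ms h j c a i tapes) ≤ 2 * Real.exp (-7 * 2 ^ P.Lx) := by
  by_cases ht : P.triv (h - P.D) (c + i)
  · exact AccPr_false (by positivity) (AccPr_triv ms ht tapes)
  have hg : Good P (dA h c) := ⟨hP, hh, hc, Or.inl ⟨rfl, rfl, rfl, rfl, hD⟩⟩
  have hDh : P.D ≤ h := Nat.le_of_dvd (Nat.pos_of_ne_zero h0) hD
  have hΛ := SmI_La_pos (P := P) (h + c)
  obtain ⟨g, hgd⟩ : ∃ g : ℕ → ℚ, ∀ j', g j' = P.phiA (h - P.D) c i
      (P.aenv (P.tA ms tapes (h - P.D) (j * 2 ^ P.D + j') (c + i)) (h - P.D) (c + i) a) :=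
    ⟨_, fun _ => rfl⟩
  have hg0 : ∀ j', (0 : ℝ) ≤ g j' := fun j' => by
    rw [hgd]
    exact_mod_cast phiA_nonneg _ _ _ _
  have hg1 : ∀ j', (2 : ℝ) ^ P.D * g j' ≤ 2 ^ (P.Lx + 2) * (2 ^ i * P.La (h + c)) := fun j' => by
    have h1 : (2 : ℚ) ^ P.D * P.hiA (h - P.D + c + i) =
        2 ^ (P.Lx + 2) * (2 ^ i * P.Lam (h + c)) := by
      unfold hiA
      rw [mul_left_comm, ← Lam_add (h + c), ← Lam_add (h - P.D + c + i),
        show h - P.D + c + i + P.D = h + c + i by omega]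
    have h2 : (2 : ℚ) ^ P.D * g j' ≤ 2 ^ (P.Lx + 2) * (2 ^ i * P.Lam (h + c)) := by
      rw [← h1, hgd]
      exact mul_le_mul_of_nonneg_left (phiA_le _ _ _ _) (by positivity)
    unfold La
    exact_mod_cast h2
  have hδ : (P.del : ℝ) = 1 / 2 ^ P.Lx := by
    unfold del
    push_cast
    rfl
  have key := AccPr_rel (P.pot (dA h c)) (range (2 ^ (i + P.ra)))
    (fun r ρ => (2 : ℝ) ^ P.D / 2 ^ (i + P.ra) *
      g (eng.idx P (dA h c) ρ (qR (dA (h - P.D) (c + i)) P.D r)))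
    (fun r => eng.segSet P (dA h c) (qR (dA (h - P.D) (c + i)) P.D r))
    (fun r hr => (Eng.dep_sub eng_wf hg (AccPr_memA h0 hi ht (mem_range.1 hr)) ms tapes j).comp
      fun q => (2 : ℝ) ^ P.D / 2 ^ (i + P.ra) * g q.1)
    (fun r hr r' hr' hne => Eng.segSet_disjoint (AccPr_memA h0 hi ht (mem_range.1 hr))
      (AccPr_memA h0 hi ht (mem_range.1 hr')) (by simpa using hne))
    (R := 2 ^ (P.Lx + 2) * P.La (h + c) / 2 ^ P.ra) (A := ∑ j' ∈ range (2 ^ P.D), (g j' : ℝ))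
    (δ := P.del) (ε := P.del ^ 3 * P.La (h + c))
    (fun r _ ρ => ⟨mul_nonneg (by positivity) (hg0 _), by
      rw [div_mul_eq_mul_div]
      refine (div_le_div_of_nonneg_right (hg1 _) (by positivity)).trans_eq ?_
      rw [pow_add 2 i]
      field_simp⟩)
    (by
      refine (sum_congr rfl fun r hr => (Ex_const_mul _).trans (congrArg _
        (Eng.law_tab eng_wf hg (AccPr_memA h0 hi ht (mem_range.1 hr)) ms tapes j
          fun n _ => (g n : ℝ)))).trans ?_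
      rw [sum_const, card_range, nsmul_eq_mul]
      push_cast
      field_simp)
    (by positivity) (by rw [hδ]; positivity)
    (by
      have := Wf_Lx hP
      rw [hδ, mul_one_div, div_le_one (by positivity)]
      exact le_self_pow₀ one_le_two (by omega))
  refine (Pr_mono fun ρ hρ => ?_).trans (key.trans ?_)
  · unfold BadA aTerm aSum at hρ
    simp only [← hgd] at hρ
    have h1 := (Rat.cast_le (K := ℝ)).2 hρ.le
    push_cast at h1
    rw [← mul_sum]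
    exact h1
  · refine mul_le_mul_of_nonneg_left (Real.exp_le_exp.2 ?_) zero_le_two
    have e : (P.del : ℝ) * (P.del ^ 3 * P.La (h + c)) /
        (2 ^ (P.Lx + 2) * P.La (h + c) / 2 ^ P.ra) = 8 * 2 ^ P.Lx := by
      rw [hδ]
      unfold ra
      rw [pow_add, pow_add, pow_mul']
      field_simp
      norm_num
    rw [e]
    linarith [show (0 : ℝ) < 2 ^ P.Lx by positivity]

/-- `bern_abs` for `Y r = sub … r z / 2^rf`, `R = 6 Λ / 2^rf` (`abs_raw_le`), `E (Y r) = E raw / 2^rf`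
(`Eng.law_fresh` with `e = 0`), `v = 36 Λ² / 2^rf`, `λ = τ 2^rf / (72 Λ)`: the exponent is
`-τ² 2^rf / 144 = -2^(Lx+10) / 144`. -/
theorem pr_badP {t m β h c : ℕ} (hg : Good P (dP t m β h c)) (j : ℕ) {z : St}
    (hz : P.inW (h + c) z) (tapes : ℕ → ℕ → Bool) :
    Pr (P.pot (dP t m β h c)) (P.BadP ms t m β h j c z tapes) ≤ 2 * Real.exp (-7 * 2 ^ P.Lx) := by
  have hΛ := SmI_La_pos (P := P) (h + c)
  have hgR : Good P (dR t m β h c) := eng_wf.sub P _ _ hg (AccPr_memP (Nat.two_pow_pos _))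
  have hτ : (P.tau : ℝ) = 1 / 2 ^ (5 * P.Lx) := by
    unfold tau
    push_cast
    rfl
  have hb : ∀ r ρ, |(eng.sub P ms tapes (dP t m β h c) j ρ (qF (dR t m β h c) 0 r) z : ℝ) /
      2 ^ P.rf| ≤ 6 * P.La (h + c) / 2 ^ P.rf := fun r ρ => by
    rw [abs_div, abs_of_pos (show (0 : ℝ) < 2 ^ P.rf by positivity)]
    exact div_le_div_of_nonneg_right (abs_raw_le ms tapes hgR hz _) (by positivity)
  have key := bern_abs (P.pot (dP t m β h c)) (range (2 ^ P.rf))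
    (fun r ρ => (eng.sub P ms tapes (dP t m β h c) j ρ (qF (dR t m β h c) 0 r) z : ℝ) / 2 ^ P.rf)
    (fun r => eng.segSet P (dP t m β h c) (qF (dR t m β h c) 0 r))
    (fun r hr => (Eng.dep_sub eng_wf hg (AccPr_memP (mem_range.1 hr)) ms tapes j).comp
      fun q => (q.2 z : ℝ) / 2 ^ P.rf)
    (fun r hr r' hr' hne => Eng.segSet_disjoint (AccPr_memP (mem_range.1 hr))
      (AccPr_memP (mem_range.1 hr')) (by simpa using hne))
    (R := 6 * P.La (h + c) / 2 ^ P.rf) (v := 36 * P.La (h + c) ^ 2 / 2 ^ P.rf)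
    (lam := P.tau * 2 ^ P.rf / (72 * P.La (h + c))) (fun r _ => hb r)
    (by
      refine (sum_le_sum fun r _ => Ex_le_const fun ρ => (sq_abs _).ge.trans
        (pow_le_pow_left₀ (abs_nonneg _) (hb r ρ) 2)).trans_eq ?_
      rw [sum_const, card_range, nsmul_eq_mul]
      push_cast
      field_simp
      norm_num)
    (by rw [hτ]; positivity)
    (by
      have h1 : (P.tau : ℝ) ≤ 1 := by
        rw [hτ, div_le_one (by positivity)]
        exact one_le_pow₀ one_le_two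
      have e : 2 * (P.tau * 2 ^ P.rf / (72 * P.La (h + c))) * (6 * P.La (h + c) / 2 ^ P.rf) =
          (P.tau : ℝ) / 6 := by
        field_simp
        ring
      rw [e]
      linarith)
    (P.tau * P.La (h + c))
  have hE : ∀ r ∈ range (2 ^ P.rf), Ex (P.pot (dP t m β h c)) (fun ρ =>
      (eng.sub P ms tapes (dP t m β h c) j ρ (qF (dR t m β h c) 0 r) z : ℝ) / 2 ^ P.rf) =
      (Ex (P.pot (dR t m β h c)) fun ρ' => P.raw ms tapes t m β h j c ρ' z) / 2 ^ P.rf := by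
    intro r hr
    have h1 := Eng.law_fresh eng_wf hg (AccPr_memP (mem_range.1 hr)) ms tapes j
      fun _ f => (f z : ℝ)
    simp only [pow_zero, range_one, sum_singleton, mul_one, add_zero, div_one] at h1
    simp only [div_eq_mul_inv]
    rw [Ex_mul_const]
    exact congrArg (· * _) h1
  rw [sum_congr rfl hE, sum_const, card_range, nsmul_eq_mul, Nat.cast_pow, Nat.cast_ofNat,
    mul_div_cancel₀ _ (by positivity)] at key
  refine (Pr_mono fun ρ hρ => ?_).trans (key.trans ?_)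
  · unfold BadP tabAvg at hρ
    rw [← sum_div]
    push_cast at hρ
    exact hρ.le
  · refine mul_le_mul_of_nonneg_left (Real.exp_le_exp.2 ?_) zero_le_two
    have e : -(P.tau * 2 ^ P.rf / (72 * P.La (h + c))) * (P.tau * P.La (h + c)) +
        (P.tau * 2 ^ P.rf / (72 * P.La (h + c))) ^ 2 * (36 * P.La (h + c) ^ 2 / 2 ^ P.rf) =
        -(64 / 9 * (2 : ℝ) ^ P.Lx) := by
      rw [hτ]
      unfold rf
      rw [pow_add, pow_mul', pow_mul']
      field_simp
      norm_num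
    rw [e]
    linarith [show (0 : ℝ) < 2 ^ P.Lx by positivity]

/-- `Eng.ev_congr` for the good descriptors `dA (h - D) (c + i)`, `Eng.engDep_idx_congr`,
`unf_aTerm_congr`, `unf_aenv_congr`. -/
theorem badA_congr (hP : P.OK) {h j c a i len : ℕ} (hh : h ≤ P.L) (hD : P.D ∣ h) (h0 : h ≠ 0)
    (hc : ¬ P.triv h c) (hi : i ≤ P.D) (hlen : P.pot (dA h c) ≤ len)
    {tapes tapes' : ℕ → ℕ → Bool} {ρ ρ' : ℕ → Bool}
    (ht : ∀ i < P.rk (dA h c), ∀ b < len, tapes i b = tapes' i b)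
    (hρ : ∀ b < P.pot (dA h c), ρ b = ρ' b) (hB : P.BadA ms h j c a i tapes ρ) :
    P.BadA ms h j c a i tapes' ρ' := by
  by_cases htr : P.triv (h - P.D) (c + i)
  · exact absurd hB (AccPr_triv ms htr tapes ρ)
  have hg : Good P (dA h c) := ⟨hP, hh, hc, Or.inl ⟨rfl, rfl, rfl, rfl, hD⟩⟩
  have k0 := AccPr_memA h0 hi htr (Nat.two_pow_pos _)
  have h1 := eng_wf.tp_tab P _ _ hg k0 rfl
  have h2 := (eng_wf.pot_lt hg k0).trans_le hlen
  have e1 : ∀ j', P.tA ms tapes (h - P.D) j' (c + i) = P.tA ms tapes' (h - P.D) j' (c + i) :=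
    fun j' => Eng.ev_congr eng_wf (eng_wf.sub P _ _ hg k0) ms j'
      (fun n hn b hb => ht n (hn.trans h1) b (hb.trans h2)) fun b hb => ht _ h1 b (hb.trans h2)
  have e2 : eng.idx P (dA h c) ρ = eng.idx P (dA h c) ρ' := funext fun κ =>
    Eng.engDep_idx_congr fun hκ n hn => hρ n (lt_of_lt_of_le hn.2 (Eng.off_add_seg_le eng_wf hg hκ))
  unfold BadA aTerm aSum at hB ⊢
  simp only [← e1, ← e2]
  exact hB

theorem badP_congr {t m β h j c len : ℕ} {z : St} (hg : Good P (dP t m β h c))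
    (hlen : P.pot (dP t m β h c) ≤ len) {tapes tapes' : ℕ → ℕ → Bool} {ρ ρ' : ℕ → Bool}
    (ht : ∀ i < P.rk (dP t m β h c), ∀ b < len, tapes i b = tapes' i b)
    (hρ : ∀ b < P.pot (dP t m β h c), ρ b = ρ' b) (hB : P.BadP ms t m β h j c z tapes ρ) :
    P.BadP ms t m β h j c z tapes' ρ' := by
  have k0 := AccPr_memP (P := P) (t := t) (m := m) (β := β) (h := h) (c := c) (Nat.two_pow_pos _)
  have h1 := eng_wf.tp_fresh P _ _ hg k0 rfl
  have h2 := (eng_wf.pot_lt hg k0).trans_le hlen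
  have e1 : ∀ ρ'', P.raw ms tapes t m β h j c ρ'' = P.raw ms tapes' t m β h j c ρ'' :=
    fun ρ'' => Eng.ev_congr eng_wf (eng_wf.sub P _ _ hg k0) ms j
      (fun n hn b hb => ht n (hn.trans_le h1) b (hb.trans h2)) fun _ _ => rfl
  unfold BadP at hB ⊢
  simp only [← e1]
  rwa [← unf_tabAvg_congr fun r hr => congrFun (AccPr_sub_congr eng_wf hg ms j
    (fun n hn b hb => ht n hn b (hb.trans_le hlen)) hρ (AccPr_memP hr)) z]

/-- `Eng.pr_tape` for each event and `Pr_exists_le_card` over products of ranges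
(`h ≤ L`, `j < 2^L`, `c < cmax`, columns `≤ X = 2^(e+2) ≤ 2^(L+2)`, `i ≤ D`, `t < T`, `m < M`, `β ≤ M`):
each family has at most `2^(3 L + 5 Lx + 7) ≤ 2^(4 · 2^Lx) ≤ exp (3 · 2^Lx)` events. -/
theorem pr_not_acc (hP : P.OK) {U : ℕ} (hU : (P.rk P.root + 1) * P.pot P.root ≤ U) :
    Pr U (fun r => ¬ P.Acc ms (tapesOf (P.pot P.root) r)) ≤ Real.exp (-2 ^ P.Lx) := by
  have hU' : ∀ {D : De}, Good P D → D.1 = 0 ∨ D.1 = 4 → (eng.tp P D + 1) * P.pot P.root ≤ U :=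
    fun hg hk => (Nat.mul_le_mul_right _ (Nat.succ_le_succ (le_root hg hk).1)).trans hU
  have hA : ∀ h j c a i, Pr U (fun r => (h ≤ P.L ∧ P.D ∣ h ∧ h ≠ 0 ∧ ¬ P.triv h c ∧ i ≤ P.D) ∧
      P.BadA ms h j c a i (tapesOf (P.pot P.root) r)
        (tapesOf (P.pot P.root) r (P.rk (dA h c)))) ≤ Real.exp (1 + -7 * 2 ^ P.Lx) := by
    intro h j c a i
    by_cases H : h ≤ P.L ∧ P.D ∣ h ∧ h ≠ 0 ∧ ¬ P.triv h c ∧ i ≤ P.D
    · obtain ⟨hh, hD, h0, hc, hi⟩ := H
      have hg : Good P (dA h c) := ⟨hP, hh, hc, Or.inl ⟨rfl, rfl, rfl, rfl, hD⟩⟩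
      have hlen := (le_root hg (Or.inl rfl)).2
      exact (Pr_mono fun r hr => hr.2).trans ((Eng.pr_tape eng_wf hg hlen (hU' hg (Or.inl rfl))
        (P.BadA ms h j c a i)
        (fun _ _ _ _ ht hρ => badA_congr ms hP hh hD h0 hc hi hlen ht hρ)
        (pr_badA ms hP j hh hD h0 hc hi)).trans (AccPr_two _))
    · exact AccPr_false (Real.exp_pos _).le fun r hr => H hr.1
  have hB : ∀ t m β h j c z₁ z₂, Pr U (fun r => (Good P (dP t m β h c) ∧ P.inW (h + c) (z₁, z₂)) ∧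
      P.BadP ms t m β h j c (z₁, z₂) (tapesOf (P.pot P.root) r)
        (tapesOf (P.pot P.root) r (P.rk (dP t m β h c)))) ≤ Real.exp (1 + -7 * 2 ^ P.Lx) := by
    intro t m β h j c z₁ z₂
    by_cases H : Good P (dP t m β h c) ∧ P.inW (h + c) (z₁, z₂)
    · obtain ⟨hg, hz⟩ := H
      have hlen := (le_root hg (Or.inr rfl)).2
      exact (Pr_mono fun r hr => hr.2).trans ((Eng.pr_tape eng_wf hg hlen (hU' hg (Or.inr rfl))
        (P.BadP ms t m β h j c (z₁, z₂))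
        (fun _ _ _ _ ht hρ => badP_congr ms hg hlen ht hρ)
        (pr_badP ms hg j hz)).trans (AccPr_two _))
    · exact AccPr_false (Real.exp_pos _).le fun r hr => H hr.1
  have bL : P.L + 1 ≤ 2 ^ P.Lx := hP.L_lt
  have bD : P.D + 1 ≤ 2 ^ P.Lx := Wf_D hP
  have bM : P.M + 1 ≤ 2 ^ P.Lx := Wf_M hP
  have bc := hP.cmax_le
  have bx := hP.Lx_le_D
  have bx' := Wf_Lx hP
  have bX : P.X + 1 ≤ 2 ^ (P.L + 3) := by
    have h1 : P.X ≤ 2 ^ (P.L + 2) := Nat.pow_le_pow_right two_pos (by have := hP.e_le; omega)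
    have h2 := Nat.two_pow_pos (P.L + 2)
    rw [pow_succ]
    omega
  have bT : P.T ≤ 2 ^ (P.Lx + 1) := by
    unfold T
    rw [pow_succ]
    omega
  have hA' := AccPr_ex bL fun h => AccPr_ex (le_refl (2 ^ P.L)) fun j => AccPr_ex bc fun c =>
    AccPr_ex bX fun a => AccPr_ex bD fun i => hA h j c a i
  have hB' := AccPr_ex bT fun t => AccPr_ex bM fun m => AccPr_ex bM fun β => AccPr_ex bL fun h =>
    AccPr_ex (le_refl (2 ^ P.L)) fun j => AccPr_ex bc fun c => AccPr_ex bX fun z₁ =>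
      AccPr_ex bX fun z₂ => hB t m β h j c z₁ z₂
  have hj : ∀ {h j : ℕ}, P.Nd h j → j < 2 ^ P.L := fun hn =>
    hn.2.trans_le (Nat.pow_le_pow_right two_pos (Nat.sub_le _ _))
  refine (Pr_mono fun r hr => ?_).trans (Pr_or_le.trans ((add_le_add hA' hB').trans ?_))
  · by_contra hn
    rw [not_or] at hn
    refine hr ⟨fun h j c a i hN hD h0 hc hz hi hb => hn.1 ⟨h, Nat.lt_succ_of_le hN.1, j, hj hN,
      c, Wf_c hc, a, Nat.lt_succ_of_le hz.1, i, Nat.lt_succ_of_le hi, ⟨hN.1, hD, h0, hc, hi⟩, hb⟩,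
      fun t ht m hm β hβ h j c z hN hd hc hz hb => hn.2 ⟨t, ht, m, Nat.lt_succ_of_lt hm, β,
        Nat.lt_succ_of_le hβ, h, Nat.lt_succ_of_le hN.1, j, hj hN, c, Wf_c hc, z.1,
        Nat.lt_succ_of_le hz.1, z.2, Nat.lt_succ_of_le hz.2.1,
        ⟨⟨hP, hN.1, hc, Or.inr (Or.inr (Or.inr ⟨Or.inr rfl, ht, hm, hβ, hd⟩))⟩, hz⟩, hb⟩⟩
  · have r1 : (P.L : ℝ) + 1 ≤ 2 ^ P.Lx := by exact_mod_cast bL
    have r2 : 100 * (P.Lx : ℝ) ≤ 2 ^ P.Lx := by exact_mod_cast (by omega : 100 * P.Lx ≤ 2 ^ P.Lx)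
    have r3 : (100 : ℝ) ≤ P.Lx := by exact_mod_cast bx'
    have r4 : (0 : ℝ) ≤ P.L := Nat.cast_nonneg _
    refine le_trans (le_trans (add_le_add (Real.exp_le_exp.2 ?_) (Real.exp_le_exp.2 ?_))
      (two_mul _).ge) ((AccPr_two (-1 + -2 ^ P.Lx)).trans_eq (by rw [add_neg_cancel_left])) <;>
    push_cast <;> linarith

end Pa

end Crest.Agent.R288
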