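/-
R288/Ako2: the diagonal tables of the start are a `2 ^ (D + Lx + 1)` approximation.
-/
import Crest.Agent.R288.Ako1

set_option autoImplicit false

namespace Crest.Agent.R288

open Finset

namespace Pa

variable {P : Pa} {ms : ℕ → ℕ → Bool}

theorem ako2_del_eq : (P.del : ℝ) = 1 / 2 ^ P.Lx := by
  unfold del
  push_cast
  rfl

theorem ako2_del_pos : (0 : ℝ) < P.del := by
  rw [ako2_del_eq]
  positivity

theorem ako2_del_mul : (P.del : ℝ) * 2 ^ P.Lx = 1 := by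
  rw [ako2_del_eq]
  field_simp

theorem ako2_del_le : (P.del : ℝ) ≤ 1 := by
  rw [ako2_del_eq]
  exact div_le_one_of_le₀ (one_le_pow₀ one_le_two) (by positivity)

theorem ako2_La_pos (u : ℕ) : 0 < P.La u := by
  unfold La
  exact_mod_cast Lam_pos u

theorem ako2_La_add (u i : ℕ) : P.La (u + i) = 2 ^ i * P.La u := by
  unfold La
  rw [Lam_add]
  push_cast
  rfl

theorem ako2_hiA_eq (u : ℕ) : (P.hiA u : ℝ) = 2 ^ (P.Lx + 2) * P.La u := by
  unfold hiA La
  push_cast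
  rfl

theorem ako2_hiA_pos (u : ℕ) : (0 : ℝ) < P.hiA u := by
  have := ako2_La_pos (P := P) u
  rw [ako2_hiA_eq]
  positivity

theorem ako2_hiA_mul (u : ℕ) : (P.del : ℝ) * P.hiA u = 4 * P.La u := by
  rw [ako2_hiA_eq, pow_add, ← mul_assoc, ← mul_assoc, ako2_del_mul]
  norm_num

/-- Errors `κ' Λ(h' + c + i)` in zone `i` only cost a relative `δ` and the error of zone `0`: for
`i ≥ 1` zone `i` is empty unless `y > hi_{i-1} / 2`, and then `κ' Λ_i ≤ κ' δ y`; geometric sum. -/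
theorem sum_phiA_le (h' c n : ℕ) {y κ' : ℝ} (hy : 0 ≤ y) (h0 : 0 ≤ κ') (h1 : κ' ≤ 1 / 2)
    (u : ℕ → ℚ) (hu : ∀ i ≤ n, (u i : ℝ) ≤ y + κ' * P.La (h' + c + i)) :
    (∑ i ∈ range (n + 1), (P.phiA h' c i (u i) : ℝ)) ≤
      (1 + P.del) * y + κ' * P.La (h' + c) := by
  have hd := ako2_del_pos (P := P)
  have hd1 := ako2_del_le (P := P)
  have key : ∀ m ≤ n, (∑ i ∈ range (m + 1), (P.phiA h' c i (u i) : ℝ)) ≤
      min y (P.hiA (h' + c + m) : ℝ) + κ' * P.La (h' + c) +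
        κ' * min (2 * P.del * y) (2 * P.La (h' + c + m)) := by
    intro m
    induction m with
    | zero =>
      intro _
      have h2 := hu 0 (Nat.zero_le _)
      have h3 := ako2_La_pos (P := P) (h' + c)
      have h4 := ako2_hiA_pos (P := P) (h' + c)
      have h5 : 0 ≤ κ' * min (2 * (P.del : ℝ) * y) (2 * P.La (h' + c)) :=
        mul_nonneg h0 (le_min (by positivity) (by positivity))
      have h6 : 0 ≤ κ' * P.La (h' + c) := by positivity
      simp only [zero_add, range_one, sum_singleton, phiA, if_true, sub_zero, add_zero] at h2 ⊢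
      push_cast
      refine max_le (add_nonneg (add_nonneg (le_min hy h4.le) h6) h5) ?_
      rcases le_total y (P.hiA (h' + c) : ℝ) with h7 | h7
      · rw [min_eq_left h7]
        linarith [min_le_left (u 0 : ℝ) (P.hiA (h' + c))]
      · rw [min_eq_right h7]
        linarith [min_le_right (u 0 : ℝ) (P.hiA (h' + c))]
    | succ m ih =>
      intro hm
      have h2 := ih (by omega)
      have h3 := hu (m + 1) hm
      have hL := ako2_La_pos (P := P) (h' + c + m)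
      have hL2 : P.La (h' + c + (m + 1)) = 2 * P.La (h' + c + m) := by
        rw [← add_assoc, ako2_La_add, pow_one]
      have hH := ako2_hiA_mul (P := P) (h' + c + m)
      have hH2 := ako2_hiA_mul (P := P) (h' + c + (m + 1))
      have hHH : (P.hiA (h' + c + m) : ℝ) ≤ P.hiA (h' + c + (m + 1)) := by
        refine le_of_mul_le_mul_left ?_ hd
        rw [hH, hH2, hL2]
        linarith
      rw [sum_range_succ]
      have e : (P.phiA h' c (m + 1) (u (m + 1)) : ℝ) =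
          max 0 (min (u (m + 1) : ℝ) (P.hiA (h' + c + (m + 1))) - P.hiA (h' + c + m)) := by
        simp only [phiA, if_neg (Nat.succ_ne_zero m)]
        push_cast
        rfl
      rw [e]
      rcases le_total (u (m + 1) : ℝ) (P.hiA (h' + c + m)) with h4 | h4
      · rw [max_eq_left (by linarith [min_le_left (u (m + 1) : ℝ) (P.hiA (h' + c + (m + 1)))])]
        have h5 : min y (P.hiA (h' + c + m) : ℝ) ≤ min y (P.hiA (h' + c + (m + 1))) :=
          min_le_min le_rfl hHH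
        have h6 : min (2 * (P.del : ℝ) * y) (2 * P.La (h' + c + m)) ≤
            min (2 * P.del * y) (2 * P.La (h' + c + (m + 1))) :=
          min_le_min le_rfl (by linarith)
        have h7 := mul_le_mul_of_nonneg_left h6 h0
        linarith
      · have h5 : κ' * P.La (h' + c + (m + 1)) ≤ P.La (h' + c + m) := by
          rw [hL2]
          nlinarith
        have h6 : P.La (h' + c + (m + 1)) ≤ P.del * y := by
          have h7 : (P.hiA (h' + c + m) : ℝ) - P.La (h' + c + m) ≤ y := by linarith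
          have h8 := mul_le_mul_of_nonneg_left h7 hd.le
          rw [mul_sub, hH] at h8
          nlinarith
        have h7 : min (2 * (P.del : ℝ) * y) (2 * P.La (h' + c + (m + 1))) =
            2 * P.La (h' + c + (m + 1)) := min_eq_right (by linarith)
        have h8 : κ' * min (2 * (P.del : ℝ) * y) (2 * P.La (h' + c + m)) ≤
            κ' * P.La (h' + c + (m + 1)) :=
          mul_le_mul_of_nonneg_left ((min_le_right _ _).trans hL2.ge) h0
        have h9 : min (u (m + 1) : ℝ) (P.hiA (h' + c + (m + 1))) ≤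
            min y (P.hiA (h' + c + (m + 1))) + κ' * P.La (h' + c + (m + 1)) := by
          have h10 : 0 ≤ κ' * P.La (h' + c + (m + 1)) := mul_nonneg h0 (by linarith)
          rcases le_total y (P.hiA (h' + c + (m + 1)) : ℝ) with h11 | h11
          · rw [min_eq_left h11]
            exact (min_le_left _ _).trans h3
          · rw [min_eq_right h11]
            linarith [min_le_right (u (m + 1) : ℝ) (P.hiA (h' + c + (m + 1)))]
        rw [max_eq_right (sub_nonneg.2 (le_min h4 hHH)), h7]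
        linarith [min_le_right y (P.hiA (h' + c + m) : ℝ)]
  have h2 := key n le_rfl
  have h3 : κ' * min (2 * (P.del : ℝ) * y) (2 * P.La (h' + c + n)) ≤ P.del * y := by
    have h4 := mul_le_mul_of_nonneg_left (min_le_left (2 * (P.del : ℝ) * y)
      (2 * P.La (h' + c + n))) h0
    have h5 : 0 ≤ (P.del : ℝ) * y := by positivity
    nlinarith
  linarith [min_le_left y (P.hiA (h' + c + n) : ℝ)]

theorem ako2_del_small (hP : P.OK) : (P.del : ℝ) ≤ 1 / 16 := by
  have h1 := hP.wx_le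
  have h2 := hP.p_ge
  rw [ako2_del_eq]
  refine one_div_le_one_div_of_le (by norm_num) ?_
  calc (16 : ℝ) = 2 ^ 4 := by norm_num
    _ ≤ 2 ^ P.Lx := pow_le_pow_right₀ one_le_two (by omega)

theorem ako2_D_del (hP : P.OK) : ((P.D : ℝ) + 1) * P.del ≤ 1 / 8 := by
  have h1 := hP.kap_le
  have h2 := hP.wx_le
  have h3 : 2 ^ (2 * P.p) ≤ 2 ^ P.Lx := Nat.pow_le_pow_right two_pos (by omega)
  have h4 : 8 * (P.D + 1) ≤ 2 ^ P.Lx := by unfold kap at h1; omega
  have h5 : (8 : ℝ) * (P.D + 1) ≤ 2 ^ P.Lx := by exact_mod_cast h4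
  have h6 := mul_le_mul_of_nonneg_left h5 (ako2_del_pos (P := P)).le
  rw [ako2_del_mul] at h6
  linarith

theorem ako2_D_ge (hP : P.OK) : 200 ≤ P.D := by
  have := hP.Lx_le_D
  unfold Lx at this
  omega

theorem ako2_J_del (hP : P.OK) {J : ℕ} (hJ : J * P.D ≤ P.L) : (J : ℝ) * P.del ≤ 1 / 200 := by
  have h1 := hP.L_lt
  have h2 : J * 200 ≤ J * P.D := Nat.mul_le_mul_left _ (ako2_D_ge hP)
  have h4 : J * 200 ≤ 2 ^ P.Lx := by omega
  have h5 : (J : ℝ) * 200 ≤ 2 ^ P.Lx := by exact_mod_cast h4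
  have h6 := mul_le_mul_of_nonneg_left h5 (ako2_del_pos (P := P)).le
  rw [ako2_del_mul] at h6
  linarith

theorem ako2_bern {x : ℝ} (hx : 0 ≤ x) (J : ℕ) : (1 + x) ^ J * (1 - J * x) ≤ 1 := by
  induction J with
  | zero => simp
  | succ J ih =>
    have h1 : 0 ≤ (1 + x) ^ J * ((J + 1) * x ^ 2) := by positivity
    rw [pow_succ]
    push_cast
    nlinarith

theorem ako2_pow_le (hP : P.OK) {J : ℕ} (hJ : J * P.D ≤ P.L) : (1 + 5 * (P.del : ℝ)) ^ J ≤ 2 := by
  have hd := ako2_del_pos (P := P)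
  have h1 := ako2_bern (x := 5 * (P.del : ℝ)) (by positivity) J
  have h2 := ako2_J_del hP hJ
  have h3 : (0 : ℝ) ≤ (1 + 5 * (P.del : ℝ)) ^ J := by positivity
  nlinarith

theorem ako2_kappa_le (hP : P.OK) {J : ℕ} (hJ : J * P.D ≤ P.L) :
    (1 + 5 * (P.del : ℝ)) ^ J * (P.del ^ 3 + 3 * J * P.del ^ 2) ≤ 1 / 64 := by
  have hd := ako2_del_pos (P := P)
  have hd1 := ako2_del_small hP
  have h1 := ako2_pow_le hP hJ
  have h2 := ako2_J_del hP hJ
  have h3 : (P.del : ℝ) ^ 3 ≤ (1 / 16) ^ 3 := pow_le_pow_left₀ hd.le hd1 3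
  have h4 : 3 * (J : ℝ) * P.del ^ 2 ≤ 3 / 200 * (1 / 16) := by
    have : (J : ℝ) * P.del * P.del ≤ 1 / 200 * (1 / 16) :=
      mul_le_mul h2 hd1 hd.le (by norm_num)
    nlinarith
  calc _ ≤ 2 * ((1 / 16) ^ 3 + 3 / 200 * (1 / 16) : ℝ) :=
        mul_le_mul h1 (add_le_add h3 h4) (by positivity) (by norm_num)
    _ ≤ 1 / 64 := by norm_num

theorem ako2_pow_small (hP : P.OK) (n : ℕ) : (P.del : ℝ) ^ (n + 3) ≤ P.del ^ 2 / 16 := by
  have hd := ako2_del_pos (P := P)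
  have hd1 := ako2_del_small hP
  have h1 : (P.del : ℝ) ^ (n + 3) ≤ P.del ^ 3 :=
    pow_le_pow_of_le_one hd.le (by linarith) (by omega)
  have h2 : (0 : ℝ) ≤ P.del ^ 2 := by positivity
  nlinarith

theorem ako2_rup_le (hP : P.OK) (x : ℚ) (u : ℕ) :
    (rup P.s x : ℝ) ≤ max (x : ℝ) 0 + P.del ^ 2 / 16 * P.La u := by
  have h1 : rup P.s x ≤ max x 0 + 1 / 2 ^ P.s :=
    (rup_mono (le_max_left x 0)).trans (rup_le (le_trans (by
      have : (0 : ℚ) < 2 ^ P.s := by positivity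
      linarith) (le_max_right x 0)))
  have h2 : (1 : ℚ) / 2 ^ P.s ≤ P.ups * P.ups * P.Lam u :=
    le_trans (div_le_div_of_nonneg_right (one_le_pow₀ one_le_two) (by positivity)) (eps_le u)
  have h3 : P.ups * P.ups = P.del ^ (13 + 3) := by
    unfold ups del
    rw [one_div_pow, ← pow_mul, div_mul_div_comm, ← pow_add, one_mul]
    congr 2
    ring
  rw [h3] at h2
  have h4 := (Rat.cast_le (K := ℝ)).2 (h1.trans (add_le_add_right h2 _))
  push_cast at h4
  have h5 := mul_le_mul_of_nonneg_right (ako2_pow_small hP 13) (ako2_La_pos (P := P) u).le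
  unfold La at h5 ⊢
  norm_num at h4 h5 ⊢
  linarith

theorem ako2_chain_dist {X : ℕ} (h : ℕ) (ι α : ℕ → ℕ) (i : ℕ) :
    Nat.dist (α 0) (α i) ≤ ∑ k ∈ range i, V X ms h (ι k) (α k, α (k + 1)) := by
  induction i with
  | zero => simp
  | succ i ih =>
    have h1 := dist_le_V (X := X) (ms := ms) h (ι i) (α i, α (i + 1))
    have h2 := Nat.dist.triangle_inequality (α 0) (α i) (α (i + 1))
    rw [sum_range_succ]
    dsimp only at h1
    omega

/-- The envelope at `a` sees the bound of the table near the column `α`. -/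
theorem ako2_aenv_le (hP : P.OK) {f : St → ℚ} {h' c' : ℕ} (a : ℕ) {α : ℕ} (hα : α ≤ P.X) {W κ : ℝ}
    (hW : 0 ≤ W) (hκ : (P.del : ℝ) ^ 3 ≤ κ)
    (hf : ¬ P.triv h' c' → ∀ a', P.inW (h' + c') (a', a') →
      (f (a', a') : ℝ) ≤ W + 3 * 2 ^ P.D * (Nat.dist a' α : ℝ) + κ * P.La (h' + c')) :
    (P.aenv f h' c' a : ℝ) ≤ W + 2 * (Nat.dist a α : ℝ) + (κ + P.del ^ 2 / 2) * P.La (h' + c') := by
  have hd := ako2_del_pos (P := P)
  have hΛ := ako2_La_pos (P := P) (h' + c')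
  have hκ0 : 0 ≤ κ := le_trans (by positivity) hκ
  have hdd : (0 : ℝ) ≤ Nat.dist a α := Nat.cast_nonneg _
  have hb : (1 : ℝ) ≤ 2 ^ P.D := one_le_pow₀ one_le_two
  have hδΛ : 0 ≤ (P.del : ℝ) ^ 2 / 2 * P.La (h' + c') := by positivity
  have hκΛ : 0 ≤ κ * P.La (h' + c') := by positivity
  unfold aenv
  split_ifs with ht
  · have h1 : min (P.hiA (h' + c')) (P.trivV h' (a, a)) ≤ P.del ^ 3 * P.Lam (h' + c') := by
      refine (min_le_right _ _).trans ?_
      unfold trivV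
      rw [Nat.dist_self, zero_add]
      exact min_le_of_triv ht
    have h2 := (Rat.cast_le (K := ℝ)).2 h1
    have h3 := mul_le_mul_of_nonneg_right hκ hΛ.le
    rw [Rat.cast_mul, Rat.cast_pow] at h2
    unfold La at *
    linarith
  · set a' := α / 2 ^ P.gm (h' + c') * 2 ^ P.gm (h' + c') with ha'
    have h1 : a' ≤ α := Nat.div_mul_le_self _ _
    have h2 : 2 ^ P.gm (h' + c') ∣ a' := Nat.dvd_mul_left _ _
    have h3 : (Nat.dist a' α : ℝ) * (5 * 2 ^ P.D) ≤ P.del ^ 2 / 2 * P.La (h' + c') := by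
      have h4 := (Rat.cast_le (K := ℝ)).2 (sub_rd_le (P := P) (h' + c') α)
      rw [← ha', ← Nat.dist_eq_sub_of_le h1, Rat.cast_natCast, Rat.cast_div, Rat.cast_pow,
        Rat.cast_ofNat, le_div_iff₀ (by positivity)] at h4
      have h5 : (2 : ℝ) ^ P.kap * P.del ^ (9 + 3) = 2 ^ P.D := by
        unfold kap
        rw [pow_add, pow_mul', mul_assoc, ← mul_pow, mul_comm _ (P.del : ℝ), ako2_del_mul, one_pow,
          mul_one]
      have h6 := mul_le_mul_of_nonneg_right h4 (pow_pos hd (9 + 3)).le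
      rw [mul_assoc, h5] at h6
      have h7 : (Nat.dist a' α : ℝ) * 2 ^ P.D ≤ P.La (h' + c') * (P.del ^ 2 / 16) :=
        h6.trans (mul_le_mul_of_nonneg_left (ako2_pow_small hP 9) hΛ.le)
      generalize (2 : ℝ) ^ P.D = b at h7 ⊢
      linarith
    have h4 : (Nat.dist a' a : ℝ) ≤ Nat.dist a' α + Nat.dist a α := by
      have := Nat.dist.triangle_inequality a' α a
      rw [Nat.dist_comm α a] at this
      exact_mod_cast this
    have h5 : (0 : ℝ) ≤ Nat.dist a' α := Nat.cast_nonneg _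
    have h6 : (Nat.dist a' α : ℝ) ≤ Nat.dist a' α * 2 ^ P.D := le_mul_of_one_le_right h5 hb
    by_cases hr : Nat.dist a' a ≤ P.rad (h' + c') (P.Lx + 1)
    · have h7 := hf ht a' ⟨h1.trans hα, h1.trans hα, h2, h2, by simp⟩
      have h8 := (Rat.cast_le (K := ℝ)).2 (minL_le_of_mem (d := P.hiA (h' + c'))
        (List.mem_map_of_mem (f := fun b => f (b, b) + 2 * (Nat.dist b a : ℚ))
          (mem_gball.2 ⟨h2, h1.trans hα, hr⟩)))
      refine h8.trans ?_
      push_cast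
      linarith
    · refine ((Rat.cast_le (K := ℝ)).2 (minL_le_default _ _)).trans ?_
      rw [le_rad_iff, not_le] at hr
      have h7 := (Rat.cast_lt (K := ℝ)).2 hr
      push_cast at h7
      rw [ako2_hiA_eq, show P.Lx + 2 = P.Lx + 1 + 1 from rfl, pow_succ]
      unfold La at *
      linarith

theorem ako2_final {δ D b q J V d Λ x : ℝ} (hd : 0 < δ) (hd1 : δ ≤ 1 / 16)
    (hD : (D + 1) * δ ≤ 1 / 8) (hD0 : 0 ≤ D) (hb : 1 ≤ b) (hq : 1 ≤ q) (hJ : 0 ≤ J) (hV : 0 ≤ V)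
    (hdd : 0 ≤ d) (hΛ : 0 ≤ Λ)
    (hx : x ≤ (1 + 2 * δ) * ((1 + δ) * ((1 + δ) * (q * (2 + 2 * b * J) * V + 2 * b * (d + V)) +
      (q * (δ ^ 3 + 3 * J * δ ^ 2) + δ ^ 2 / 2) * Λ) + (D + 1) * (δ ^ 3 * Λ)) + δ ^ 2 * Λ) :
    max x 0 + δ ^ 2 / 16 * Λ ≤ q * (1 + 5 * δ) * (2 + 2 * b * (J + 1)) * V + 3 * b * d +
      q * (1 + 5 * δ) * (δ ^ 3 + 3 * (J + 1) * δ ^ 2) * Λ := by
  have hb0 : 0 ≤ b := by linarith
  have hq0 : 0 ≤ q := by linarith
  set K := q * (2 + 2 * b * J) with hK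
  set κ := q * (δ ^ 3 + 3 * J * δ ^ 2) with hκ
  have hK0 : 0 ≤ K := by positivity
  have hκ0 : 0 ≤ κ := by positivity
  have e1 : (1 + 2 * δ) * (1 + δ) * (1 + δ) ≤ 1 + 5 * δ := by nlinarith
  have e2 : (1 + 2 * δ) * (1 + δ) ≤ 1 + 5 * δ := by nlinarith
  have eR : q * (1 + 5 * δ) * (2 + 2 * b * (J + 1)) * V + 3 * b * d +
      q * (1 + 5 * δ) * (δ ^ 3 + 3 * (J + 1) * δ ^ 2) * Λ =
      (1 + 5 * δ) * (K * V) + q * ((1 + 5 * δ) * (2 * b * V)) + 3 * (b * d) +
        (1 + 5 * δ) * (κ * Λ) + q * ((1 + 5 * δ) * (3 * (δ ^ 2 * Λ))) := by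
    rw [hK, hκ]
    ring
  have eL : (1 + 2 * δ) * ((1 + δ) * ((1 + δ) * (K * V + 2 * b * (d + V)) +
      (κ + δ ^ 2 / 2) * Λ) + (D + 1) * (δ ^ 3 * Λ)) + δ ^ 2 * Λ =
      (1 + 2 * δ) * (1 + δ) * (1 + δ) * (K * V + 2 * b * V + 2 * (b * d)) +
        (1 + 2 * δ) * (1 + δ) * (κ * Λ + δ ^ 2 * Λ / 2) +
        (1 + 2 * δ) * ((D + 1) * δ) * (δ ^ 2 * Λ) + δ ^ 2 * Λ := by ring
  have a1 : 0 ≤ K * V := by positivity
  have a2 : 0 ≤ 2 * b * V := by positivity
  have a3 : 0 ≤ b * d := by positivity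
  have a4 : 0 ≤ κ * Λ := by positivity
  have a5 : 0 ≤ δ ^ 2 * Λ := by positivity
  have b1 := mul_le_mul_of_nonneg_right e1 (by positivity : 0 ≤ K * V + 2 * b * V + 2 * (b * d))
  have b2 := mul_le_mul_of_nonneg_right e2 (by positivity : 0 ≤ κ * Λ + δ ^ 2 * Λ / 2)
  have b3 : (1 + 2 * δ) * ((D + 1) * δ) * (δ ^ 2 * Λ) ≤ 1 / 4 * (δ ^ 2 * Λ) := by
    refine mul_le_mul_of_nonneg_right ?_ a5
    calc (1 + 2 * δ) * ((D + 1) * δ) ≤ 2 * (1 / 8) :=
          mul_le_mul (by linarith) hD (by positivity) (by norm_num)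
      _ = 1 / 4 := by norm_num
  have b4 : (1 + 5 * δ) * (2 * b * V) ≤ q * ((1 + 5 * δ) * (2 * b * V)) :=
    le_mul_of_one_le_left (by positivity) hq
  have b5 : (1 + 5 * δ) * (3 * (δ ^ 2 * Λ)) ≤ q * ((1 + 5 * δ) * (3 * (δ ^ 2 * Λ))) :=
    le_mul_of_one_le_left (by positivity) hq
  have b6 : δ * (b * d) ≤ 1 / 16 * (b * d) := mul_le_mul_of_nonneg_right hd1 a3
  have b7 : 0 ≤ δ * (δ ^ 2 * Λ) := by positivity
  have b8 : 0 ≤ δ * (K * V) := by positivity
  have b9 : 0 ≤ δ * (2 * b * V) := by positivity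
  have b10 : 0 ≤ δ * (κ * Λ) := by positivity
  rw [eR]
  rw [eL] at hx
  rcases le_total x 0 with h0 | h0
  · rw [max_eq_right h0]
    linarith
  · rw [max_eq_left h0]
    linarith

/-- Recipe: induction on `J`.  `J = 0`: `vleaf (a,a) ≤ V z + dst ≤ 2 V z + 2 |a - z.1|`.  Step: take
the optimal chain `α` of `z` (`V_chain_eq`), `y_{j'} = K V_{j'} + 2 |a - α j'|`; in zone `i`
`aenv ≤ y_{j'} + κ' Λ_i` with `κ' = κ + (3 b + 2) / 2^kap ≤ κ + δ²/2` (use the grid point below `α j'`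
if it is in the ball, else `aenv ≤ hi_i ≤ y + 2 Λ_i / 2^kap`; trivial class: `min_le_of_triv`,
`δ³ ≤ κ`); `sum_phiA_le`; `|a - α j'| ≤ |a - z.1| + V z` (`dist_le_V`);
`(1+2δ)(1+δ)² ≤ 1 + 5 δ ≤ 3/2`; additive terms `(1+2δ)(D+1) δ³ Λ + δ² Λ + 2^{-s} ≤ 2 δ² Λ`. -/
theorem ARel.upper (hP : P.OK) {A : Fam} (hA : P.ARel ms A) (J : ℕ) {j c a : ℕ}
    (hn : P.Nd (J * P.D) j) (hc : ¬ P.triv (J * P.D) c) (ha : P.inW (J * P.D + c) (a, a)) {z : St}
    (h1 : z.1 ≤ P.X) (h2 : z.2 ≤ P.X) :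
    (A (J * P.D) j c (a, a) : ℝ) ≤
      (1 + 5 * P.del) ^ J * (2 + 2 * 2 ^ P.D * J) * P.VV ms (J * P.D) j z +
        3 * 2 ^ P.D * (Nat.dist a z.1 : ℝ) +
        (1 + 5 * P.del) ^ J * (P.del ^ 3 + 3 * J * P.del ^ 2) * P.La (J * P.D + c) := by
  have hd := ako2_del_pos (P := P)
  have hd1 := ako2_del_small hP
  have hb : (1 : ℝ) ≤ 2 ^ P.D := one_le_pow₀ one_le_two
  induction J generalizing j c a z with
  | zero =>
    simp only [zero_mul, pow_zero, Nat.cast_zero, mul_zero, add_zero, one_mul] at hn hc ha ⊢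
    rw [hA.leaf j c a hn hc ha]
    have h3 := vleaf_lip (ms j) (a, a) z
    have h4 : Nat.dist z.1 z.2 ≤ vleaf (ms j) z := Nat.le_add_right _ _
    have h5 : vleaf (ms j) (a, a) ≤ 2 * vleaf (ms j) z + 2 * Nat.dist a z.1 := by
      simp only [dst, Nat.dist] at h3 h4 ⊢
      omega
    have h6 : (vleaf (ms j) (a, a) : ℝ) ≤ 2 * vleaf (ms j) z + 2 * Nat.dist a z.1 := by
      exact_mod_cast h5
    have h7 : P.VV ms 0 j z = vleaf (ms j) z := rfl
    have h8 := ako2_La_pos (P := P) (0 + c)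
    have h9 : 0 ≤ (P.del : ℝ) ^ 3 * P.La (0 + c) := by positivity
    have h10 : (0 : ℝ) ≤ Nat.dist a z.1 := Nat.cast_nonneg _
    rw [h7]
    push_cast
    nlinarith
  | succ J ih =>
    have hD := hP.D_pos
    have eh : (J + 1) * P.D = J * P.D + P.D := by ring
    have eh' : (J + 1) * P.D - P.D = J * P.D := by omega
    obtain ⟨tm, hAe, htm⟩ := hA.node _ j c a hn (Nat.dvd_mul_left _ _) (by omega) hc ha
    have hJ : J * P.D ≤ P.L := by have := hn.1; omega
    have hq1 : (1 : ℝ) ≤ (1 + 5 * P.del) ^ J := one_le_pow₀ (by linarith)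
    have hq2 := ako2_pow_le hP hJ
    have hJd := ako2_J_del hP hJ
    have hJ0 : (0 : ℝ) ≤ J := Nat.cast_nonneg _
    set q : ℝ := (1 + 5 * P.del) ^ J with hq
    set K : ℝ := q * (2 + 2 * 2 ^ P.D * J) with hK
    set κ : ℝ := q * (P.del ^ 3 + 3 * J * P.del ^ 2) with hκ
    have hK0 : 0 ≤ K := by positivity
    have hκ1 : (P.del : ℝ) ^ 3 ≤ κ := by
      have : (0 : ℝ) ≤ 3 * J * P.del ^ 2 := by positivity
      have : (0 : ℝ) ≤ P.del ^ 3 := by positivity
      nlinarith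
    have hκ0 : 0 ≤ κ := le_trans (by positivity) hκ1
    have hκ2 : κ + P.del ^ 2 / 2 ≤ 1 / 2 := by
      have := ako2_kappa_le hP hJ
      nlinarith
    obtain ⟨α, hα, hα0, -, hαs⟩ := V_chain_eq (X := P.X) (ms := ms) (J * P.D) P.D j h1 h2
    rw [← eh] at hαs
    set Vz : ℝ := P.VV ms ((J + 1) * P.D) j z with hVz
    have hVs : ∑ i ∈ range (2 ^ P.D), P.VV ms (J * P.D) (j * 2 ^ P.D + i) (α i, α (i + 1)) = Vz := by
      rw [hVz]
      unfold VV
      rw [← hαs]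
      push_cast
      rfl
    have hV0 : 0 ≤ Vz := Nat.cast_nonneg _
    have hdist : ∀ i < 2 ^ P.D, (Nat.dist a (α i) : ℝ) ≤ Nat.dist a z.1 + Vz := by
      intro i hi
      have h3 := ako2_chain_dist (X := P.X) (ms := ms) (J * P.D) (fun i => j * 2 ^ P.D + i) α i
      have h4 : ∑ k ∈ range i, V P.X ms (J * P.D) (j * 2 ^ P.D + k) (α k, α (k + 1)) ≤
          ∑ k ∈ range (2 ^ P.D), V P.X ms (J * P.D) (j * 2 ^ P.D + k) (α k, α (k + 1)) :=
        sum_le_sum_of_subset (range_subset_range.2 hi.le)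
      have h5 := Nat.dist.triangle_inequality a z.1 (α i)
      rw [hαs] at h4
      rw [hα0] at h3
      have h6 : Nat.dist a (α i) ≤ Nat.dist a z.1 + V P.X ms ((J + 1) * P.D) j z := by omega
      rw [hVz]
      unfold VV
      exact_mod_cast h6
    have hΛ := ako2_La_pos (P := P) ((J + 1) * P.D + c)
    have hΛe : P.La ((J + 1) * P.D + c) = 2 ^ P.D * P.La (J * P.D + c) := by
      rw [← ako2_La_add]
      congr 1
      omega
    set Λ : ℝ := P.La ((J + 1) * P.D + c) with hΛd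
    -- one child
    have hchild : ∀ j' < 2 ^ P.D, (∑ i ∈ range (P.D + 1), (P.phiA (J * P.D) c i
        (P.aenv (A (J * P.D) (j * 2 ^ P.D + j') (c + i)) (J * P.D) (c + i) a) : ℝ)) ≤
        (1 + P.del) * (K * P.VV ms (J * P.D) (j * 2 ^ P.D + j') (α j', α (j' + 1)) +
          2 * (Nat.dist a z.1 + Vz)) + (κ + P.del ^ 2 / 2) * P.La (J * P.D + c) := by
      intro j' hj'
      have hW : 0 ≤ K * P.VV ms (J * P.D) (j * 2 ^ P.D + j') (α j', α (j' + 1)) :=
        mul_nonneg hK0 (Nat.cast_nonneg _)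
      have hn' : P.Nd (J * P.D) (j * 2 ^ P.D + j') := by
        have := hn.desc (i := P.D) (by omega) hj'
        rwa [eh'] at this
      refine sum_phiA_le _ _ _ (by positivity) (by positivity) hκ2 _ fun i _ => ?_
      have h3 := ako2_aenv_le hP (f := A (J * P.D) (j * 2 ^ P.D + j') (c + i)) (h' := J * P.D)
        (c' := c + i) a (hα j') hW hκ1 fun ht a' ha' =>
          ih hn' ht ha' (z := (α j', α (j' + 1))) (hα _) (hα _)
      have h4 := hdist j' hj'
      rw [← add_assoc] at h3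
      linarith
    -- all children
    have hsum : (∑ i ∈ range (P.D + 1), (P.aSum (fun j' => A ((J + 1) * P.D - P.D)
        (j * 2 ^ P.D + j')) ((J + 1) * P.D) c a i : ℝ)) ≤
        (1 + P.del) * (K * Vz + 2 * 2 ^ P.D * (Nat.dist a z.1 + Vz)) + (κ + P.del ^ 2 / 2) * Λ := by
      simp only [aSum, eh']
      push_cast
      rw [sum_comm]
      refine (sum_le_sum fun j' hj' => hchild j' (mem_range.1 hj')).trans (le_of_eq ?_)
      rw [sum_add_distrib, ← mul_sum, sum_add_distrib, ← mul_sum, hVs, sum_const, sum_const,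
        card_range, nsmul_eq_mul, nsmul_eq_mul, hΛe]
      push_cast
      ring
    have htm' : (∑ i ∈ range (P.D + 1), (tm i : ℝ)) ≤
        (1 + P.del) * (∑ i ∈ range (P.D + 1), (P.aSum (fun j' => A ((J + 1) * P.D - P.D)
          (j * 2 ^ P.D + j')) ((J + 1) * P.D) c a i : ℝ)) + (P.D + 1) * (P.del ^ 3 * Λ) := by
      rw [mul_sum]
      have e : ((P.D : ℝ) + 1) * (P.del ^ 3 * Λ) = ∑ _i ∈ range (P.D + 1), (P.del : ℝ) ^ 3 * Λ := by
        rw [sum_const, card_range, nsmul_eq_mul]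
        push_cast
        rfl
      rw [e, ← sum_add_distrib]
      refine sum_le_sum fun i hi => ?_
      have h3 := (abs_le.1 (htm i (Nat.lt_succ_iff.1 (mem_range.1 hi)))).2
      have h4 := (Rat.cast_le (K := ℝ)).2 h3
      push_cast at h4
      rw [hΛd]
      unfold La
      linarith
    have hcomb : (P.aComb tm ((J + 1) * P.D + c) : ℝ) ≤
        (1 + 2 * P.del) * (∑ i ∈ range (P.D + 1), (tm i : ℝ)) + P.del ^ 2 * Λ := by
      unfold aComb
      push_cast
      exact min_le_right _ _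
    have hrup := ako2_rup_le hP (P.aComb tm ((J + 1) * P.D + c)) ((J + 1) * P.D + c)
    rw [← hΛd] at hrup
    rw [hAe]
    refine hrup.trans ?_
    have hdd : (0 : ℝ) ≤ Nat.dist a z.1 := Nat.cast_nonneg _
    have hfin := ako2_final hd hd1 (ako2_D_del hP) (Nat.cast_nonneg P.D) hb hq1 hJ0 hV0 hdd hΛ.le
      (hcomb.trans (add_le_add_left (mul_le_mul_of_nonneg_left (htm'.trans (add_le_add_left
        (mul_le_mul_of_nonneg_left hsum (by linarith)) _)) (by linarith)) _))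
    rw [pow_succ (1 + 5 * (P.del : ℝ)), ← hq]
    push_cast
    exact hfin

/-- `(1 + 5δ)^J ≤ 2` as `J ≤ L / D`, `L δ < 1`, `D ≥ 10`. -/
theorem ARel.upper' (hP : P.OK) {A : Fam} (hA : P.ARel ms A) {h j c a : ℕ} (hn : P.Nd h j)
    (hD : P.D ∣ h) (hc : ¬ P.triv h c) (ha : P.inW (h + c) (a, a)) {z : St}
    (h1 : z.1 ≤ P.X) (h2 : z.2 ≤ P.X) :
    (A h j c (a, a) : ℝ) ≤ P.K0 / 8 * P.VV ms h j z + 3 * 2 ^ P.D * (Nat.dist a z.1 : ℝ) +
      P.La (h + c) / 64 := by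
  obtain ⟨J, rfl⟩ := hD
  rw [mul_comm P.D J] at *
  have h3 := hA.upper hP J hn hc ha h1 h2
  have h4 := ako2_pow_le hP hn.1
  have h5 := mul_le_mul_of_nonneg_right (ako2_kappa_le hP hn.1) (ako2_La_pos (P := P) (J * P.D + c)).le
  have h6 : 4 * (J + 1) ≤ 2 ^ P.Lx := by
    have h7 := hP.L_lt
    have h8 : J * 200 ≤ J * P.D := Nat.mul_le_mul_left _ (ako2_D_ge hP)
    have h9 := hn.1
    have h10 : 2 ^ 3 ≤ 2 ^ P.Lx := Nat.pow_le_pow_right two_pos (by
      have := hP.wx_le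
      have := hP.p_ge
      omega)
    omega
  have h7 : (4 : ℝ) * (J + 1) ≤ 2 ^ P.Lx := by exact_mod_cast h6
  have hb : (1 : ℝ) ≤ 2 ^ P.D := one_le_pow₀ one_le_two
  have h8 : (1 + 5 * (P.del : ℝ)) ^ J * (2 + 2 * 2 ^ P.D * J) ≤ P.K0 / 8 := by
    have e : (P.K0 : ℝ) / 8 = 2 ^ P.D * 2 ^ P.Lx := by
      unfold K0
      push_cast
      rw [pow_add, pow_add]
      ring
    rw [e]
    calc _ ≤ 2 * (2 + 2 * 2 ^ P.D * J : ℝ) := mul_le_mul_of_nonneg_right h4 (by positivity)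
      _ ≤ 2 ^ P.D * (4 * (J + 1)) := by linarith
      _ ≤ _ := mul_le_mul_of_nonneg_left h7 (by positivity)
  have h9 := mul_le_mul_of_nonneg_right h8 (Nat.cast_nonneg (α := ℝ) (V P.X ms (J * P.D) j z))
  unfold VV at *
  linarith

end Pa

end Crest.Agent.R288
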