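/-
R288/Ako3: the first closure table.
-/
import Crest.Agent.R288.Ako2

set_option autoImplicit false

namespace Crest.Agent.R288

open Finset

namespace Pa

variable {P : Pa} {ms : ℕ → ℕ → Bool}

theorem Ako3_X_le : (P.X : ℚ) ≤ 2 ^ P.s := by
  refine le_trans ?_ (X_mul_le (P := P))
  exact le_mul_of_one_le_right (Nat.cast_nonneg _) (one_le_pow₀ one_le_two)

theorem Ako3_inW_diag {u : ℕ} {z : St} (hz : P.inW u z) : P.inW u (z.1, z.1) :=
  ⟨hz.1, hz.1, hz.2.2.1, hz.2.2.1, by simp⟩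

theorem Ako3_vleaf_le (m : ℕ → Bool) (z : St) : vleaf m z ≤ Nat.dist z.1 z.2 + 2 ^ 0 := by
  unfold vleaf
  split_ifs <;> omega

theorem Ako3_nzero_valid (hP : P.OK) {A : Fam} (hA : P.ARel ms A) {h j c : ℕ} {z : St}
    (hn : P.Nd h j) (hc : ¬ P.triv h c) (hz : P.inW (h + c) z) :
    min (P.VV ms h j z) P.X ≤ P.nzero (A h j c) (ms j) h c z := by
  unfold nzero
  split_ifs with h0 hD hlt
  · subst h0
    simp only [VV, V]
    push_cast
    rw [min_comm]
  · rw [Rat.cast_min]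
    refine le_min (trivV_valid h j hz.1) ?_
    have h1 := hA.valid hP hn hD hc (Ako3_inW_diag hz)
    have h2 := VV_lip (P := P) (ms := ms) h j z (z.1, z.1)
    have h3 : dst z (z.1, z.1) = Nat.dist z.1 z.2 := by
      simp only [dst, Nat.dist]; omega
    have h4 : (A h j c (z.1, z.1) : ℝ) < P.hiA (h + c) := by exact_mod_cast hlt
    have h5 : min (P.VV ms h j (z.1, z.1)) P.X ≤ A h j c (z.1, z.1) := by
      rcases min_le_iff.1 h1 with h | h
      · exact h
      · linarith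
    have h6 : (0 : ℝ) ≤ Nat.dist z.1 z.2 := Nat.cast_nonneg _
    rw [h3] at h2
    push_cast
    rcases min_le_iff.1 h5 with h | h
    · exact (min_le_left _ _).trans (by linarith)
    · exact (min_le_right _ _).trans (by linarith)
  · rw [Rat.cast_min]
    exact le_min (trivV_valid h j hz.1) (by push_cast; exact min_le_right _ _)
  · exact trivV_valid h j hz.1

/-- `V z ≤ V (z.1, z.1) + |t|` and `ARel.valid`. -/
theorem ZRel.valN (hP : P.OK) {A N : Fam} (hA : P.ARel ms A) (hZ : P.ZRel ms A N) :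
    P.ValN ms N := by
  refine ⟨hZ.out, fun h j c z hn hc => ?_, fun h j c z hn hc hz => ?_,
    fun h j c z hn hc hz => ?_, fun j c z hn hc hz => ?_⟩
  · by_cases hz : P.inW (h + c) z
    · rw [hZ.eq h j c z hn hc hz]
      exact onG_rup _ _
    · rw [hZ.out h j c z hz]
      exact onG_nat _ _
  · rw [hZ.eq h j c z hn hc hz]
    have h1 := min_le_rup P.s (P.nzero (A h j c) (ms j) h c z)
    have h2 : ((min (P.nzero (A h j c) (ms j) h c z) (2 ^ P.s) : ℚ) : ℝ) ≤
        rup P.s (P.nzero (A h j c) (ms j) h c z) := by exact_mod_cast h1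
    refine le_trans ?_ h2
    rw [Rat.cast_min]
    refine le_min (Ako3_nzero_valid hP hA hn hc hz) ((min_le_right _ _).trans ?_)
    exact_mod_cast Ako3_X_le (P := P)
  · rw [hZ.eq h j c z hn hc hz]
    refine rup_le_of_onG ?_ (onG_trivV h z)
      (le_trans (neg_nonpos.2 (by positivity)) (trivV_nonneg h z))
    unfold nzero
    split_ifs with h0 hD hlt
    · subst h0
      unfold trivV
      exact Nat.cast_le.2 (min_le_min le_rfl (Ako3_vleaf_le _ _))
    · exact min_le_left _ _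
    · exact min_le_left _ _
    · exact le_rfl
  · rw [hZ.eq 0 j c z hn hc hz]
    have h1 : rup P.s (P.nzero (A 0 j c) (ms j) 0 c z) ≤ (vleaf (ms j) z : ℚ) := by
      refine rup_le_of_onG ?_ (onG_nat _ _)
        (le_trans (neg_nonpos.2 (by positivity)) (Nat.cast_nonneg _))
      unfold nzero
      rw [if_pos rfl]
      exact Nat.cast_le.2 (min_le_right _ _)
    simp only [VV, V]
    exact_mod_cast h1

theorem Ako3_pow_le {a b : ℕ} (h : a + 10 ≤ b) : (2 : ℝ) ^ a / 2 ^ b ≤ 1 / 1024 := by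
  rw [div_le_div_iff₀ (by positivity) (by positivity), one_mul,
    show (1024 : ℝ) = 2 ^ 10 by norm_num, ← pow_add]
  exact pow_le_pow_right₀ one_le_two h

/-- the value at the rounded state in a class where `K0 / 8 * V ≤ Λ` -/
theorem Ako3_entry (hP : P.OK) {A N : Fam} (hA : P.ARel ms A) (hZ : P.ZRel ms A N) {h j c : ℕ}
    (hD : P.D ∣ h) (hn : P.Nd h j) (hc : ¬ P.triv h c) {z : St} (h1 : z.1 ≤ P.X) (h2 : z.2 ≤ P.X)
    (hv : P.K0 / 8 * P.VV ms h j z ≤ P.La (h + c)) :
    (N h j c (P.rd (h + c) z) : ℝ) + dst z (P.rd (h + c) z) ≤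
      (P.K0 / 8 + 1) * P.VV ms h j z + P.La (h + c) / 32 := by
  have hL := La_pos (P := P) (h + c)
  have hV := VV_nonneg (P := P) (ms := ms) h j z
  have hLx : 2 ≤ P.Lx := Nat.le_add_left _ _
  have hK : (8 : ℝ) ≤ P.K0 := by
    have : (2 : ℚ) ^ 3 ≤ P.K0 := pow_le_pow_right₀ one_le_two (by omega)
    have h' : (8 : ℚ) ≤ P.K0 := by linarith
    exact_mod_cast h'
  have hvL : P.VV ms h j z ≤ P.La (h + c) := by nlinarith
  have hk0 : (2 : ℝ) ^ 0 / 2 ^ P.kap ≤ 1 / 1024 := Ako3_pow_le (by unfold kap; omega)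
  have hkD : (2 : ℝ) ^ P.D / 2 ^ P.kap ≤ 1 / 1024 := Ako3_pow_le (by unfold kap; omega)
  have hd : (dst z (P.rd (h + c) z) : ℝ) ≤ P.La (h + c) / 512 := by
    have h3 : (dst z (P.rd (h + c) z) : ℝ) ≤ 2 * P.La (h + c) / 2 ^ P.kap := by
      unfold La
      exact_mod_cast dst_rd_le (P := P) (h + c) z
    have e : 2 * P.La (h + c) / 2 ^ P.kap = 2 * P.La (h + c) * (2 ^ 0 / 2 ^ P.kap) := by ring
    nlinarith
  have hdist : (Nat.dist (P.rd (h + c) z).1 (P.rd (h + c) z).2 : ℝ) ≤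
      P.VV ms h j z + dst z (P.rd (h + c) z) := by
    have h3 := dist_le_dst (P.rd (h + c) z) z
    have h4 := dist_le_V (X := P.X) (ms := ms) h j z
    rw [dst_comm] at h3
    unfold VV
    exact_mod_cast h3.trans (Nat.add_le_add_right h4 _)
  have hz' : P.inW (h + c) (P.rd (h + c) z) := by
    refine ⟨(rdn_fst_le _ _).trans h1, (rdn_snd_le _ _).trans h2, (dvd_rdn _ _).1,
      (dvd_rdn _ _).2, le_rad_iff.2 ?_⟩
    have h3 : (2 : ℝ) ^ 1 ≤ 2 ^ P.tw := pow_le_pow_right₀ one_le_two (by unfold tw; omega)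
    have h4 : (Nat.dist (P.rd (h + c) z).1 (P.rd (h + c) z).2 : ℝ) ≤ 2 ^ P.tw * P.La (h + c) := by
      nlinarith
    unfold La at h4
    exact_mod_cast h4
  by_cases h0 : h = 0
  · subst h0
    have h3 := (hZ.valN hP hA).leaf j c _ hn hc hz'
    have h4 := VV_lip (P := P) (ms := ms) 0 j (P.rd (0 + c) z) z
    rw [dst_comm] at h4
    nlinarith
  · have hdiag := Ako3_inW_diag hz'
    have h3 := hA.upper' hP hn hD hc hdiag h1 h2
    have h4 : (Nat.dist (P.rd (h + c) z).1 z.1 : ℝ) ≤ P.La (h + c) / 2 ^ P.kap := by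
      have h5 := sub_rd_le (P := P) (h + c) z.1
      have e : Nat.dist (P.rd (h + c) z).1 z.1 =
          z.1 - z.1 / 2 ^ P.gm (h + c) * 2 ^ P.gm (h + c) :=
        Nat.dist_eq_sub_of_le (rdn_fst_le _ _)
      rw [e]
      unfold La
      exact_mod_cast h5
    have h5 : 3 * 2 ^ P.D * (Nat.dist (P.rd (h + c) z).1 z.1 : ℝ) ≤ 3 * P.La (h + c) / 1024 := by
      have h6 : (2 : ℝ) ^ P.D * (Nat.dist (P.rd (h + c) z).1 z.1 : ℝ) ≤
          2 ^ P.D * (P.La (h + c) / 2 ^ P.kap) := mul_le_mul_of_nonneg_left h4 (by positivity)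
      have e : (2 : ℝ) ^ P.D * (P.La (h + c) / 2 ^ P.kap) =
          P.La (h + c) * (2 ^ P.D / 2 ^ P.kap) := by ring
      nlinarith
    have h6 : (0 : ℝ) ≤ A h j c ((P.rd (h + c) z).1, (P.rd (h + c) z).1) := by
      refine le_trans (le_min (le_min (VV_nonneg _ _ _) (Nat.cast_nonneg _)) ?_)
        (hA.valid hP hn hD hc hdiag)
      have := Lam_pos (P := P) (h + c)
      unfold hiA
      positivity
    have hlt : A h j c ((P.rd (h + c) z).1, (P.rd (h + c) z).1) < P.hiA (h + c) := by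
      have h7 : (2 : ℝ) ^ 1 ≤ 2 ^ (P.Lx + 2) := pow_le_pow_right₀ one_le_two (by omega)
      have h8 : (A h j c ((P.rd (h + c) z).1, (P.rd (h + c) z).1) : ℝ) <
          2 ^ (P.Lx + 2) * P.La (h + c) := by nlinarith
      unfold La at h8
      unfold hiA
      exact_mod_cast h8
    have h7 : N h j c (P.rd (h + c) z) ≤ A h j c ((P.rd (h + c) z).1, (P.rd (h + c) z).1) +
        (Nat.dist (P.rd (h + c) z).1 (P.rd (h + c) z).2 : ℚ) + 1 / 2 ^ P.s := by
      rw [hZ.eq h j c _ hn hc hz']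
      refine le_trans (rup_mono ?_) (rup_le ?_)
      · unfold nzero
        rw [if_neg h0, if_pos hD, if_pos hlt]
        exact min_le_right _ _
      · have h8 : (0 : ℚ) ≤ A h j c ((P.rd (h + c) z).1, (P.rd (h + c) z).1) := by
          exact_mod_cast h6
        exact le_trans (neg_nonpos.2 (by positivity)) (add_nonneg h8 (Nat.cast_nonneg _))
    have h8 : (1 : ℝ) / 2 ^ P.s ≤ P.La (h + c) / 1024 := by
      have h9 : (2 : ℝ) ^ (3 * P.kap) / 2 ^ P.s ≤ P.ups * P.ups * P.La (h + c) := by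
        have h' := (Rat.cast_le (K := ℝ)).2 (eps_le (P := P) (h + c))
        push_cast at h'
        exact h'
      have h10 : (1 : ℝ) / 2 ^ P.s ≤ 2 ^ (3 * P.kap) / 2 ^ P.s :=
        div_le_div_of_nonneg_right (one_le_pow₀ one_le_two) (by positivity)
      have h11 : (P.ups : ℝ) = 2 ^ 0 / 2 ^ (8 * P.Lx) := by
        unfold ups
        push_cast
        ring
      have h12 : (P.ups : ℝ) ≤ 1 / 1024 := h11 ▸ Ako3_pow_le (by omega)
      have h13 : (0 : ℝ) ≤ P.ups := by rw [h11]; positivity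
      have h14 : (P.ups : ℝ) * P.ups ≤ 1 / 1024 := by nlinarith
      nlinarith
    have h9 : (N h j c (P.rd (h + c) z) : ℝ) ≤ A h j c ((P.rd (h + c) z).1, (P.rd (h + c) z).1) +
        (Nat.dist (P.rd (h + c) z).1 (P.rd (h + c) z).2 : ℝ) + 1 / 2 ^ P.s := by
      have h' := (Rat.cast_le (K := ℝ)).2 h7
      push_cast at h'
      exact h'
    linarith

/-- Given `(c, z)` let `c' ≥ c` be least with `triv h c'` or `K0 / 8 * V z ≤ Λ'`; then
`Λ' ≤ Λ + K0 / 4 * V z`.  Trivial: `trivV_le_of_triv`.  Otherwise `rd z` is a state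
(`|t| ≤ V ≤ Λ'`), `A < hiA` by `ARel.upper'` and the value is at most
`(K0 / 8 + 1) V + Λ' / 32`.  Height `0`: the table is `min X V`. -/
theorem ZRel.upH (hP : P.OK) {A N : Fam} (hA : P.ARel ms A) (hZ : P.ZRel ms A N) {h : ℕ}
    (hD : P.D ∣ h) : P.UpH ms N (P.K0 / 2) (1 / 32) h := by
  classical
  intro j c z hn h1 h2
  have hex : ∃ i, P.triv h (c + i) ∨ P.K0 / 8 * P.VV ms h j z ≤ P.La (h + (c + i)) :=
    ⟨P.cmax, Or.inl (Or.inl (Nat.le_add_left _ _))⟩
  have hL := La_pos (P := P) (h + c)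
  have hV := VV_nonneg (P := P) (ms := ms) h j z
  have hLx : 2 ≤ P.Lx := Nat.le_add_left _ _
  have hK : (8 : ℝ) ≤ P.K0 := by
    have : (2 : ℚ) ^ 3 ≤ P.K0 := pow_le_pow_right₀ one_le_two (by omega)
    have h' : (8 : ℚ) ≤ P.K0 := by linarith
    exact_mod_cast h'
  have hKV : 8 * P.VV ms h j z ≤ P.K0 * P.VV ms h j z := mul_le_mul_of_nonneg_right hK hV
  have hspec := Nat.find_spec hex
  have hmin := fun m => Nat.find_min hex (m := m)
  generalize Nat.find hex = i at hspec hmin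
  have hL' : P.La (h + (c + i)) ≤ P.La (h + c) + P.K0 / 4 * P.VV ms h j z := by
    rcases i with _ | i
    · simp only [Nat.add_zero]
      linarith
    · have h3 := not_le.1 (not_or.1 (hmin i (Nat.lt_succ_self i))).2
      have e : P.La (h + (c + (i + 1))) = 2 * P.La (h + (c + i)) := by
        unfold La
        rw [show h + (c + (i + 1)) = h + (c + i) + 1 by ring, Lam_add]
        push_cast
        ring
      rw [e]
      linarith
  by_cases ht : P.triv h (c + i)
  · have h3 : (P.upQ (P.lkF N h j) h c z : ℝ) ≤ P.trivV h z := by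
      exact_mod_cast upQ_le_trivV _ h c z
    have h4 := trivV_le_of_triv (ms := ms) ht j z
    have h5 : (P.del : ℝ) ≤ 1 / 4 := by
      unfold del
      push_cast
      refine one_div_le_one_div_of_le (by norm_num) ?_
      exact le_trans (by norm_num) (pow_le_pow_right₀ one_le_two hLx)
    have h6 : (0 : ℝ) ≤ P.del := by
      unfold del
      positivity
    have h7 : (P.del : ℝ) ^ 3 ≤ 1 / 32 := (pow_le_pow_left₀ h6 h5 3).trans (by norm_num)
    have h8 : (P.del : ℝ) ^ 3 * P.La (h + (c + i)) ≤ 1 / 32 * P.La (h + (c + i)) :=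
      mul_le_mul_of_nonneg_right h7 (La_pos _).le
    linarith
  · have h3 := Ako3_entry hP hA hZ hD hn ht h1 h2 (hspec.resolve_left ht)
    have h4 : (P.upQ (P.lkF N h j) h c z : ℝ) ≤
        N h j (c + i) (P.rd (h + (c + i)) z) + dst z (P.rd (h + (c + i)) z) := by
      exact_mod_cast upQ_le (f := P.lkF N h j) z (Nat.le_add_right c i) ht
    linarith

end Pa

end Crest.Agent.R288
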