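/-
R288/Cmp: the comparator path and the energy identity.
-/
import Crest.Agent.R288.StA

set_option autoImplicit false

namespace Crest.Agent.R288

open Finset

/-- The potential. -/
noncomputable def Pi2 (t N : ℝ) : ℝ := t ^ 2 / N + 2 * N

theorem Pi2_nonneg {t N : ℝ} (h : |t| ≤ N) : 0 ≤ Pi2 t N := by
  have hN : 0 ≤ N := (abs_nonneg t).trans h
  unfold Pi2
  positivity

theorem Cmp_zero {t : ℝ} (h : |t| ≤ 0) : t = 0 := abs_nonpos_iff.1 h

theorem Cmp_sq_le {t N : ℝ} (h : |t| ≤ N) : t ^ 2 ≤ N ^ 2 := by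
  rw [← sq_abs t]
  exact pow_le_pow_left₀ (abs_nonneg t) h 2

theorem Pi2_le {t N : ℝ} (h : |t| ≤ N) : Pi2 t N ≤ 3 * N := by
  have hN : 0 ≤ N := (abs_nonneg t).trans h
  have h1 : t ^ 2 / N ≤ N := div_le_of_le_mul₀ hN hN (by rw [← sq]; exact Cmp_sq_le h)
  unfold Pi2
  linarith

theorem Cmp_mono {t N N' : ℝ} (h : |t| ≤ N) (hN : N ≤ N') : Pi2 t N ≤ Pi2 t N' := by
  rcases ((abs_nonneg t).trans h).eq_or_lt with h0 | h0
  · subst h0
    have := Pi2_nonneg (h.trans hN)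
    simpa [Pi2] using this
  · have h1 := Cmp_sq_le h
    have h2 : 0 < N' := h0.trans_le hN
    have h3 : t ^ 2 / N - t ^ 2 / N' = t ^ 2 / (N * N') * (N' - N) := by
      field_simp
    have h4 : t ^ 2 / (N * N') ≤ 1 := (div_le_one (mul_pos h0 h2)).2 (by nlinarith)
    have h5 := mul_le_mul_of_nonneg_right h4 (sub_nonneg.2 hN)
    unfold Pi2
    linarith

theorem Cmp_lipN {t N N' : ℝ} (h : |t| ≤ N) (hN : N ≤ N') :
    Pi2 t N' ≤ Pi2 t N + 2 * (N' - N) := by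
  have h1 : t ^ 2 / N' ≤ t ^ 2 / N := by
    rcases ((abs_nonneg t).trans h).eq_or_lt with h0 | h0
    · subst h0
      simp [Cmp_zero h]
    · exact div_le_div_of_nonneg_left (sq_nonneg t) h0 hN
  unfold Pi2
  linarith

theorem Cmp_lipt {t t' N : ℝ} (h : |t| ≤ N) (h' : |t'| ≤ N) :
    Pi2 t N ≤ Pi2 t' N + 2 * |t - t'| := by
  have hN : 0 ≤ N := (abs_nonneg t).trans h
  have h1 : (t ^ 2 - t' ^ 2) / N ≤ 2 * |t - t'| := by
    refine div_le_of_le_mul₀ hN (by positivity) ?_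
    have h2 : t ^ 2 - t' ^ 2 ≤ |t - t'| * |t + t'| := by
      rw [← abs_mul]
      exact le_trans (le_of_eq (by ring)) (le_abs_self _)
    have h3 : |t + t'| ≤ 2 * N := by linarith [abs_add_le t t']
    have h4 := mul_le_mul_of_nonneg_left h3 (abs_nonneg (t - t'))
    linarith
  rw [sub_div] at h1
  unfold Pi2
  linarith

/-- Pass through `N'' = N' + |t - t'| + b`: `Pi2 t ·` is monotone and `2`-Lipschitz on `[|t|, ∞)`,
`Pi2 · N''` is `2`-Lipschitz on `[-N'', N'']`. -/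
theorem Pi2_link {t t' N N' b : ℝ} (h : |t| ≤ N) (h' : |t'| ≤ N') (hb : 0 ≤ b) (hN : N ≤ N' + b) :
    Pi2 t N ≤ Pi2 t' N' + 4 * |t - t'| + 2 * b := by
  have h0 := abs_nonneg (t - t')
  have h1 := Cmp_mono (N' := N' + |t - t'| + b) h (by linarith)
  have h2 := Cmp_lipt (N := N' + |t - t'| + b) (t := t) (t' := t') (by linarith) (by linarith)
  have h3 := Cmp_lipN (N' := N' + |t - t'| + b) h' (by linarith)
  linarith

theorem Cmp_sq {t N : ℝ} (h : |t| ≤ N) (r : ℝ) :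
    (t - r * N) ^ 2 / N = t ^ 2 / N - 2 * r * t + r ^ 2 * N ∧
      N * ((t - r * N) ^ 2 / N) = (t - r * N) ^ 2 := by
  rcases ((abs_nonneg t).trans h).eq_or_lt with h0 | h0
  · subst h0
    simp [Cmp_zero h]
  · constructor
    · field_simp
      ring
    · field_simp

/-- With `r = t / N`, `D = N₁ + N₂ - N ≥ -e`:
`Pi2 t₁ N₁ + Pi2 t₂ N₂ - Pi2 t N = N₁ (r₁ - r)² + N₂ (r₂ - r)² + (2 - r²) D`
(treat `N = 0`, `N₁ = 0`, `N₂ = 0` separately: then the corresponding `t` vanishes). -/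
theorem Pi2_split {t₁ t₂ N₁ N₂ N e : ℝ} (h1 : |t₁| ≤ N₁) (h2 : |t₂| ≤ N₂) (h : |t₁ + t₂| ≤ N)
    (he : 0 ≤ e) (hN : N ≤ N₁ + N₂ + e) :
    0 ≤ Pi2 t₁ N₁ + Pi2 t₂ N₂ - Pi2 (t₁ + t₂) N + 2 * e ∧
      N₁ ≤ N + (Pi2 t₁ N₁ + Pi2 t₂ N₂ - Pi2 (t₁ + t₂) N + 2 * e) ∧
      (t₁ - (t₁ + t₂) / N * N₁) ^ 2 ≤ N₁ * (Pi2 t₁ N₁ + Pi2 t₂ N₂ - Pi2 (t₁ + t₂) N + 2 * e) := by
  have hN0 : 0 ≤ N := (abs_nonneg _).trans h
  have hN1 : 0 ≤ N₁ := (abs_nonneg _).trans h1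
  have hN2 : 0 ≤ N₂ := (abs_nonneg _).trans h2
  have e0 : (t₁ + t₂) ^ 2 / N = (t₁ + t₂) / N * (t₁ + t₂) := by ring
  have e1 : (t₁ + t₂) / N * N = t₁ + t₂ := by
    rcases hN0.eq_or_lt with h0 | h0
    · subst h0
      simp [Cmp_zero h]
    · field_simp
  have e2 : ((t₁ + t₂) / N) ^ 2 ≤ 1 := by
    rw [div_pow]
    exact div_le_one_of_le₀ (Cmp_sq_le h) (sq_nonneg _)
  obtain ⟨a1, a2⟩ := Cmp_sq h1 ((t₁ + t₂) / N)
  obtain ⟨b1, -⟩ := Cmp_sq h2 ((t₁ + t₂) / N)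
  have a3 : 0 ≤ (t₁ - (t₁ + t₂) / N * N₁) ^ 2 / N₁ := by positivity
  have b3 : 0 ≤ (t₂ - (t₁ + t₂) / N * N₂) ^ 2 / N₂ := by positivity
  unfold Pi2
  rw [e0]
  generalize (t₁ + t₂) / N = r at *
  generalize (t₁ - r * N₁) ^ 2 / N₁ = Q₁ at *
  generalize (t₂ - r * N₂) ^ 2 / N₂ = Q₂ at *
  have e3 : t₁ ^ 2 / N₁ + 2 * N₁ + (t₂ ^ 2 / N₂ + 2 * N₂) - (r * (t₁ + t₂) + 2 * N) + 2 * e =
      Q₁ + Q₂ + (N₁ + N₂ + e - N) + (1 - r ^ 2) * (N₁ + N₂ + e - N) + r ^ 2 * e := by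
    rw [a1, b1]
    linear_combination (-r) * e1
  have c1 := mul_nonneg (sub_nonneg.2 e2) (sub_nonneg.2 hN)
  have c2 := mul_nonneg (sq_nonneg r) he
  rw [e3]
  refine ⟨by linarith, by linarith, ?_⟩
  rw [← a2]
  exact mul_le_mul_of_nonneg_left (by linarith) hN1

theorem Cmp_sum_two {M : Type} [AddCommMonoid M] (f : ℕ → M) (i : ℕ) :
    ∑ k ∈ range (2 ^ (i + 1)), f k = ∑ k ∈ range (2 ^ i), (f (2 * k) + f (2 * k + 1)) := by
  rw [pow_succ']
  generalize 2 ^ i = n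
  induction n with
  | zero => simp
  | succ n ih => rw [Nat.mul_succ, sum_range_succ, sum_range_succ, sum_range_succ, ih, add_assoc]

/-- An optimal midpoint. -/
noncomputable def Cmp_mp (X : ℕ) (ms : ℕ → ℕ → Bool) (h j : ℕ) (z : St) : ℕ :=
  Classical.choose (V_split_eq (X := X) (ms := ms) h j z)

theorem Cmp_mp_spec (X : ℕ) (ms : ℕ → ℕ → Bool) (h j : ℕ) (z : St) :
    Cmp_mp X ms h j z ≤ X ∧ V X ms (h + 1) j z =
      V X ms h (2 * j) (z.1, Cmp_mp X ms h j z) + V X ms h (2 * j + 1) (Cmp_mp X ms h j z, z.2) :=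
  Classical.choose_spec (V_split_eq (X := X) (ms := ms) h j z)

namespace Pa

variable {P : Pa} {ms : ℕ → ℕ → Bool} {Nb Nt : Fam} {K : ℝ} {h j c : ℕ} {y : St}

/-- Potential of a state. -/
noncomputable def PiU (Nb : Fam) (h j c : ℕ) (z : St) : ℝ := Pi2 ((z.2 : ℝ) - z.1) (Nb h j c z)

/-- A path of rounded optimal midpoints below the top `y`. -/
structure CPath (P : Pa) (ms : ℕ → ℕ → Bool) (h j c : ℕ) (y : St) (zo : ℕ → ℕ → St) : Prop where
  top : zo 0 0 = y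
  step : ∀ i < P.d, ∀ j' < 2 ^ i, ∃ a, zo (i + 1) (2 * j') = ((zo i j').1, a) ∧
    zo (i + 1) (2 * j' + 1) = (a, (zo i j').2)
  inW : ∀ i ≤ P.d, ∀ j' < 2 ^ i, P.inW (h - i + c) (zo i j')
  near : ∀ i ≤ P.d, ∀ j' < 2 ^ i, (Nat.dist (zo i j').1 y.1 : ℝ) ≤ 3 * P.La (h + c)
  sumV : ∀ i ≤ P.d, ∑ j' ∈ range (2 ^ i), P.VV ms (h - i) (j * 2 ^ i + j') (zo i j') ≤
    P.VV ms h j y + P.d * P.La (h + c) / 2 ^ P.kap

/-- The rounded optimal midpoint. -/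
noncomputable def Cmp_rm (P : Pa) (ms : ℕ → ℕ → Bool) (h j c : ℕ) (z : St) : ℕ :=
  Cmp_mp P.X ms h j z / 2 ^ P.gm (h + c) * 2 ^ P.gm (h + c)

theorem Cmp_rm_le (h j c : ℕ) (z : St) : P.Cmp_rm ms h j c z ≤ P.X :=
  (Nat.div_mul_le_self _ _).trans (Cmp_mp_spec P.X ms h j z).1

theorem Cmp_rm_dvd (h j c : ℕ) (z : St) : 2 ^ P.gm (h + c) ∣ P.Cmp_rm ms h j c z :=
  Nat.dvd_mul_left _ _

theorem Cmp_rm_V (h j c : ℕ) (z : St) :
    P.VV ms h (2 * j) (z.1, P.Cmp_rm ms h j c z) + P.VV ms h (2 * j + 1) (P.Cmp_rm ms h j c z, z.2) ≤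
      P.VV ms (h + 1) j z + 2 * (P.La (h + c) / 2 ^ P.kap) := by
  have h1 : P.VV ms (h + 1) j z = P.VV ms h (2 * j) (z.1, Cmp_mp P.X ms h j z) +
      P.VV ms h (2 * j + 1) (Cmp_mp P.X ms h j z, z.2) := by
    unfold VV
    exact_mod_cast (Cmp_mp_spec P.X ms h j z).2
  have h2 := VV_lip (P := P) (ms := ms) h (2 * j) (z.1, P.Cmp_rm ms h j c z)
    (z.1, Cmp_mp P.X ms h j z)
  have h3 := VV_lip (P := P) (ms := ms) h (2 * j + 1) (P.Cmp_rm ms h j c z, z.2)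
    (Cmp_mp P.X ms h j z, z.2)
  have h4 : ((Cmp_mp P.X ms h j z - P.Cmp_rm ms h j c z : ℕ) : ℝ) ≤ P.La (h + c) / 2 ^ P.kap := by
    unfold La
    exact_mod_cast sub_rd_le (P := P) (h + c) (Cmp_mp P.X ms h j z)
  have h5 : P.Cmp_rm ms h j c z ≤ Cmp_mp P.X ms h j z := Nat.div_mul_le_self _ _
  simp only [dst, Nat.dist_self, Nat.dist_eq_sub_of_le h5, Nat.zero_add, Nat.add_zero] at h2 h3
  linarith

/-- The comparator path. -/
noncomputable def Cmp_zo (P : Pa) (ms : ℕ → ℕ → Bool) (h j c : ℕ) (y : St) : ℕ → ℕ → St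
  | 0, _ => y
  | i + 1, j' =>
    if j' % 2 = 0 then ((Cmp_zo P ms h j c y i (j' / 2)).1,
      P.Cmp_rm ms (h - (i + 1)) (j * 2 ^ i + j' / 2) c (Cmp_zo P ms h j c y i (j' / 2)))
    else (P.Cmp_rm ms (h - (i + 1)) (j * 2 ^ i + j' / 2) c (Cmp_zo P ms h j c y i (j' / 2)),
      (Cmp_zo P ms h j c y i (j' / 2)).2)

theorem Cmp_zo_even (i j' : ℕ) : P.Cmp_zo ms h j c y (i + 1) (2 * j') =
    ((P.Cmp_zo ms h j c y i j').1,
      P.Cmp_rm ms (h - (i + 1)) (j * 2 ^ i + j') c (P.Cmp_zo ms h j c y i j')) := by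
  rw [Cmp_zo, if_pos (by omega), show 2 * j' / 2 = j' by omega]

theorem Cmp_zo_odd (i j' : ℕ) : P.Cmp_zo ms h j c y (i + 1) (2 * j' + 1) =
    (P.Cmp_rm ms (h - (i + 1)) (j * 2 ^ i + j') c (P.Cmp_zo ms h j c y i j'),
      (P.Cmp_zo ms h j c y i j').2) := by
  rw [Cmp_zo, if_neg (by omega), show (2 * j' + 1) / 2 = j' by omega]

theorem Cmp_zo_grid (hy : P.inW (h + c) y) (i j' : ℕ) :
    (P.Cmp_zo ms h j c y i j').1 ≤ P.X ∧ (P.Cmp_zo ms h j c y i j').2 ≤ P.X ∧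
      2 ^ P.gm (h - i + c) ∣ (P.Cmp_zo ms h j c y i j').1 ∧
      2 ^ P.gm (h - i + c) ∣ (P.Cmp_zo ms h j c y i j').2 := by
  induction i generalizing j' with
  | zero => exact ⟨hy.1, hy.2.1, hy.2.2.1, hy.2.2.2.1⟩
  | succ i ih =>
    have h1 : 2 ^ P.gm (h - (i + 1) + c) ∣ 2 ^ P.gm (h - i + c) :=
      pow_dvd_pow 2 (gm_mono (by omega))
    obtain ⟨k, rfl | rfl⟩ := Nat.even_or_odd' j'
    · rw [Cmp_zo_even]
      exact ⟨(ih k).1, Cmp_rm_le _ _ _ _, h1.trans (ih k).2.2.1, Cmp_rm_dvd _ _ _ _⟩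
    · rw [Cmp_zo_odd]
      exact ⟨Cmp_rm_le _ _ _ _, (ih k).2.1, Cmp_rm_dvd _ _ _ _, h1.trans (ih k).2.2.2⟩

theorem Cmp_La {i : ℕ} (hi : i ≤ h) (c : ℕ) : 2 ^ i * P.La (h - i + c) = P.La (h + c) := by
  unfold La
  rw [show h + c = h - i + c + i by omega, Lam_add _ i]
  push_cast
  rfl

theorem Cmp_idx (j i k : ℕ) : j * 2 ^ (i + 1) + 2 * k = 2 * (j * 2 ^ i + k) := by ring
theorem Cmp_idx' (j i k : ℕ) : j * 2 ^ (i + 1) + (2 * k + 1) = 2 * (j * 2 ^ i + k) + 1 := by ring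

theorem Cmp_zo_sum {i : ℕ} (hi : i ≤ h) :
    ∑ j' ∈ range (2 ^ i), P.VV ms (h - i) (j * 2 ^ i + j') (P.Cmp_zo ms h j c y i j') ≤
      P.VV ms h j y + i * P.La (h + c) / 2 ^ P.kap := by
  induction i with
  | zero => simp [Cmp_zo]
  | succ i ih =>
    have h1 := ih (by omega)
    have h2 := Cmp_La (P := P) hi c
    rw [Cmp_sum_two]
    have h3 : ∀ k ∈ range (2 ^ i),
        P.VV ms (h - (i + 1)) (j * 2 ^ (i + 1) + 2 * k) (P.Cmp_zo ms h j c y (i + 1) (2 * k)) +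
          P.VV ms (h - (i + 1)) (j * 2 ^ (i + 1) + (2 * k + 1))
            (P.Cmp_zo ms h j c y (i + 1) (2 * k + 1)) ≤
        P.VV ms (h - i) (j * 2 ^ i + k) (P.Cmp_zo ms h j c y i k) +
          2 * (P.La (h - (i + 1) + c) / 2 ^ P.kap) := fun k _ => by
      rw [Cmp_zo_even, Cmp_zo_odd, Cmp_idx, Cmp_idx', show h - i = h - (i + 1) + 1 by omega]
      exact Cmp_rm_V _ _ _ _
    refine (sum_le_sum h3).trans ?_
    rw [sum_add_distrib, sum_const, card_range, nsmul_eq_mul]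
    push_cast
    have h4 : (2 : ℝ) ^ i * (2 * (P.La (h - (i + 1) + c) / 2 ^ P.kap)) =
        P.La (h + c) / 2 ^ P.kap := by
      rw [← h2]
      ring
    rw [h4, add_mul, add_div, one_mul]
    linarith

theorem Cmp_zo_chain (i j' : ℕ) (hj : j' + 1 < 2 ^ i) :
    (P.Cmp_zo ms h j c y i (j' + 1)).1 = (P.Cmp_zo ms h j c y i j').2 := by
  induction i generalizing j' with
  | zero => simp at hj
  | succ i ih =>
    obtain ⟨k, rfl | rfl⟩ := Nat.even_or_odd' j'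
    · rw [Cmp_zo_even, Cmp_zo_odd]
    · rw [show 2 * k + 1 + 1 = 2 * (k + 1) by ring, Cmp_zo_even, Cmp_zo_odd]
      exact ih k (by rw [pow_succ] at hj; omega)

theorem Cmp_zo_first (i : ℕ) : (P.Cmp_zo ms h j c y i 0).1 = y.1 := by
  induction i with
  | zero => rfl
  | succ i ih =>
    have := Cmp_zo_even (P := P) (ms := ms) (h := h) (j := j) (c := c) (y := y) i 0
    rw [Nat.mul_zero] at this
    rw [this]
    exact ih

theorem Cmp_zo_near (i j' : ℕ) (hj : j' < 2 ^ i) :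
    Nat.dist (P.Cmp_zo ms h j c y i j').1 y.1 ≤
      ∑ k ∈ range j', V P.X ms (h - i) (j * 2 ^ i + k) (P.Cmp_zo ms h j c y i k) := by
  induction j' with
  | zero => rw [Cmp_zo_first, Nat.dist_self]; exact Nat.zero_le _
  | succ k ih =>
    have h1 := ih (by omega)
    have h2 := dist_le_V (X := P.X) (ms := ms) (h - i) (j * 2 ^ i + k) (P.Cmp_zo ms h j c y i k)
    rw [sum_range_succ, Cmp_zo_chain i k hj]
    simp only [Nat.dist] at h1 h2 ⊢
    omega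

theorem OK.Cmp_K0 (hP : P.OK) : (P.K0 : ℝ) * P.d ≤ 2 ^ P.kap := by
  have h1 := hP.wx_le
  have h2 : P.d ≤ 2 ^ P.Lx := le_trans (by omega) Nat.lt_two_pow_self.le
  have h3 : 2 ^ (P.D + P.Lx + 3) * P.d ≤ 2 ^ P.kap := by
    refine (Nat.mul_le_mul_left _ h2).trans ?_
    rw [← pow_add]
    exact Nat.pow_le_pow_right two_pos (by unfold kap Lx; omega)
  unfold K0
  exact_mod_cast h3

theorem OK.Cmp_d (hP : P.OK) : (P.d : ℝ) ≤ 2 ^ P.kap := by
  have h1 := hP.Cmp_K0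
  have h2 : (1 : ℝ) ≤ P.K0 := by
    unfold K0
    push_cast
    exact one_le_pow₀ one_le_two
  have h3 : (0 : ℝ) ≤ P.d := Nat.cast_nonneg _
  nlinarith

/-- Recursive construction: at `z = zo i j'` take an optimal midpoint (`V_split_eq`) and round it
down to the grid `gm (h - (i+1) + c)`; each split loses at most `2 Λ(h - (i+1) + c) / 2^kap`, each
depth `Λ / 2^kap`.  Widths and distances are at most the sum of the values of the depth
(`dist_le_V`; for `near`: induction, the first column of `zo i j'` is reached through the states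
`zo i j''`, `j'' < j'`, which form a chain) `≤ 3 Λ ≤ 2^tw Λ(h - d + c)`. -/
theorem exists_cpath (hP : P.OK) (hd : P.d ≤ h) (hy : P.inW (h + c) y)
    (hV : P.VV ms h j y ≤ 2 * P.La (h + c)) : ∃ zo, P.CPath ms h j c y zo := by
  have hL := La_pos (P := P) (h + c)
  have hk : (0 : ℝ) < 2 ^ P.kap := by positivity
  have hs : ∀ i ≤ P.d, ∑ j' ∈ range (2 ^ i), P.VV ms (h - i) (j * 2 ^ i + j')
      (P.Cmp_zo ms h j c y i j') ≤ P.VV ms h j y + P.d * P.La (h + c) / 2 ^ P.kap := fun i hi => by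
    refine (Cmp_zo_sum (hi.trans hd)).trans ?_
    gcongr
  have h3 : ∀ i ≤ P.d, ∑ j' ∈ range (2 ^ i), P.VV ms (h - i) (j * 2 ^ i + j')
      (P.Cmp_zo ms h j c y i j') ≤ 3 * P.La (h + c) := fun i hi => by
    have h1 : P.d * P.La (h + c) / 2 ^ P.kap ≤ P.La (h + c) := by
      rw [div_le_iff₀ hk, mul_comm]
      exact mul_le_mul_of_nonneg_left hP.Cmp_d hL.le
    linarith [hs i hi]
  refine ⟨P.Cmp_zo ms h j c y, rfl, fun i _ j' _ => ⟨_, Cmp_zo_even i j', Cmp_zo_odd i j'⟩,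
    fun i hi j' hj => ?_, fun i hi j' hj => ?_, hs⟩
  · obtain ⟨a1, a2, a3, a4⟩ := Cmp_zo_grid (ms := ms) (j := j) hy i j'
    refine ⟨a1, a2, a3, a4, le_rad_iff.2 ?_⟩
    have h1 : P.VV ms (h - i) (j * 2 ^ i + j') (P.Cmp_zo ms h j c y i j') ≤ _ :=
      single_le_sum (f := fun j' => P.VV ms (h - i) (j * 2 ^ i + j') (P.Cmp_zo ms h j c y i j'))
        (fun _ _ => VV_nonneg _ _ _) (mem_range.2 hj)
    have h2 : ((Nat.dist (P.Cmp_zo ms h j c y i j').1 (P.Cmp_zo ms h j c y i j').2 : ℕ) : ℝ) ≤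
        P.VV ms (h - i) (j * 2 ^ i + j') (P.Cmp_zo ms h j c y i j') :=
      Nat.cast_le.2 (dist_le_V _ _ _)
    have h4 := Cmp_La (P := P) (hi.trans hd) c
    have h5 := La_pos (P := P) (h - i + c)
    have h6 : (3 : ℝ) * 2 ^ i ≤ 2 ^ P.tw := by
      have h7 : (2 : ℝ) ^ i ≤ 2 ^ P.d := pow_le_pow_right₀ one_le_two hi
      have h8 : (0 : ℝ) < 2 ^ i := by positivity
      unfold tw
      rw [pow_add]
      linarith
    have h7 : ((Nat.dist (P.Cmp_zo ms h j c y i j').1 (P.Cmp_zo ms h j c y i j').2 : ℕ) : ℝ) ≤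
        2 ^ P.tw * P.La (h - i + c) := by
      have := mul_le_mul_of_nonneg_right h6 h5.le
      linarith [h3 i hi, mul_assoc (3 : ℝ) (2 ^ i) (P.La (h - i + c))]
    unfold La at h7
    exact_mod_cast h7
  · refine le_trans ?_ (h3 i hi)
    have h1 : ((Nat.dist (P.Cmp_zo ms h j c y i j').1 y.1 : ℕ) : ℝ) ≤
        ∑ k ∈ range j', P.VV ms (h - i) (j * 2 ^ i + k) (P.Cmp_zo ms h j c y i k) := by
      unfold VV
      exact_mod_cast Cmp_zo_near i j' hj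
    exact h1.trans (sum_le_sum_of_subset_of_nonneg (range_mono hj.le) fun _ _ _ => VV_nonneg _ _ _)

variable {zo : ℕ → ℕ → St}

theorem CPath.leV (hz : P.CPath ms h j c y zo) {i j' : ℕ} (hi : i ≤ P.d) (hj : j' < 2 ^ i) :
    P.VV ms (h - i) (j * 2 ^ i + j') (zo i j') ≤
      P.VV ms h j y + P.d * P.La (h + c) / 2 ^ P.kap :=
  le_trans (single_le_sum (f := fun j' => P.VV ms (h - i) (j * 2 ^ i + j') (zo i j'))
    (fun _ _ => VV_nonneg _ _ _) (mem_range.2 hj)) (hz.sumV i hi)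

theorem CPath.Cmp_split (hz : P.CPath ms h j c y zo) (hd : P.d ≤ h) {i j' : ℕ} (hi : i < P.d)
    (hj : j' < 2 ^ i) : P.VV ms (h - i) (j * 2 ^ i + j') (zo i j') ≤
      P.VV ms (h - (i + 1)) (j * 2 ^ (i + 1) + 2 * j') (zo (i + 1) (2 * j')) +
        P.VV ms (h - (i + 1)) (j * 2 ^ (i + 1) + (2 * j' + 1)) (zo (i + 1) (2 * j' + 1)) := by
  obtain ⟨a, h1, h2⟩ := hz.step i hi j' hj
  have h3 := (hz.inW (i + 1) hi (2 * j') (by rw [pow_succ]; omega)).2.1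
  rw [h1] at h3
  rw [h1, h2, Cmp_idx, Cmp_idx', show h - i = h - (i + 1) + 1 by omega]
  unfold VV
  exact_mod_cast V_split_le _ _ _ h3

/-- Subadditivity: a node costs at most the sum of the bottom nodes below it. -/
theorem CPath.le_sum (hz : P.CPath ms h j c y zo) (hd : P.d ≤ h) {e j' : ℕ} (he : e ≤ P.d)
    (hj : j' < 2 ^ (P.d - e)) :
    P.VV ms (h - (P.d - e)) (j * 2 ^ (P.d - e) + j') (zo (P.d - e) j') ≤
      ∑ r ∈ range (2 ^ e), P.VV ms (h - P.d) (j * 2 ^ P.d + (j' * 2 ^ e + r))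
        (zo P.d (j' * 2 ^ e + r)) := by
  induction e generalizing j' with
  | zero => simp
  | succ e ih =>
    have e0 : P.d - e = P.d - (e + 1) + 1 := by omega
    have h1 := hz.Cmp_split hd (i := P.d - (e + 1)) (by omega) hj
    have h2 := ih (j' := 2 * j') (by omega) (by rw [e0, pow_succ]; omega)
    have h3 := ih (j' := 2 * j' + 1) (by omega) (by rw [e0, pow_succ]; omega)
    rw [← e0] at h1
    have hp : 2 ^ (e + 1) = 2 ^ e + 2 ^ e := by rw [pow_succ]; ring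
    have e1 : ∀ r, j' * (2 ^ e + 2 ^ e) + r = 2 * j' * 2 ^ e + r := fun r => by ring
    have e2 : ∀ r, 2 * j' * 2 ^ e + (2 ^ e + r) = (2 * j' + 1) * 2 ^ e + r := fun r => by ring
    rw [hp, sum_range_add]
    simp only [e1, e2]
    linarith

/-- Energy of one split. -/
noncomputable def dl (P : Pa) (ms : ℕ → ℕ → Bool) (Nb : Fam) (K : ℝ) (h j c : ℕ)
    (zo : ℕ → ℕ → St) (i j' : ℕ) : ℝ :=
  PiU Nb (h - (i + 1)) (j * 2 ^ (i + 1) + 2 * j') c (zo (i + 1) (2 * j')) +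
    PiU Nb (h - (i + 1)) (j * 2 ^ (i + 1) + (2 * j' + 1)) c (zo (i + 1) (2 * j' + 1)) -
    PiU Nb (h - i) (j * 2 ^ i + j') c (zo i j') + 2 * P.elk ms K (h - i) (j * 2 ^ i + j') c (zo i j')

/-- Energy of the super-level. -/
noncomputable def Dl (P : Pa) (ms : ℕ → ℕ → Bool) (Nb : Fam) (K : ℝ) (h j c : ℕ)
    (zo : ℕ → ℕ → St) : ℝ :=
  ∑ i ∈ range P.d, ∑ j' ∈ range (2 ^ i), P.dl ms Nb K h j c zo i j'

section
variable (hA : P.StageA ms Nb Nt K) (hw : P.Wd h j c) (hz : P.CPath ms h j c y zo)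
include hA hw hz

/-- `Pi2_split` and `StageA.split`. -/
theorem dl_spec {i j' : ℕ} (hi : i < P.d) (hj : j' < 2 ^ i) :
    0 ≤ P.dl ms Nb K h j c zo i j' ∧
    (Nb (h - (i + 1)) (j * 2 ^ (i + 1) + 2 * j') c (zo (i + 1) (2 * j')) : ℝ) ≤
      Nb (h - i) (j * 2 ^ i + j') c (zo i j') + P.dl ms Nb K h j c zo i j' ∧
    ((((zo (i + 1) (2 * j')).2 : ℝ) - (zo i j').1) -
        (((zo i j').2 : ℝ) - (zo i j').1) / Nb (h - i) (j * 2 ^ i + j') c (zo i j') *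
          Nb (h - (i + 1)) (j * 2 ^ (i + 1) + 2 * j') c (zo (i + 1) (2 * j'))) ^ 2 ≤
      Nb (h - (i + 1)) (j * 2 ^ (i + 1) + 2 * j') c (zo (i + 1) (2 * j')) *
        P.dl ms Nb K h j c zo i j' := by
  have hd := hw.dle
  obtain ⟨a, h1, h2⟩ := hz.step i hi j' hj
  have j1 : 2 * j' < 2 ^ (i + 1) := by rw [pow_succ]; omega
  have j2 : 2 * j' + 1 < 2 ^ (i + 1) := by rw [pow_succ]; omega
  have nt : ∀ k, ¬ P.triv (h - k) c := fun k ht => hw.nt (triv_mono ht le_rfl (Nat.sub_le _ _))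
  have ab : ∀ k ≤ P.d, ∀ l < 2 ^ k, |((zo k l).2 : ℝ) - (zo k l).1| ≤
      Nb (h - k) (j * 2 ^ k + l) c (zo k l) := fun k hk l hl => by
    have := hA.dist_le_b (hw.nd.desc (hk.trans hd) hl) (nt k) (hz.inW k hk l hl)
    rw [abs_sub_comm, ← cast_dist]
    exact_mod_cast this
  have a1 := ab (i + 1) hi _ j1
  have a2 := ab (i + 1) hi _ j2
  have a0 := ab i hi.le _ hj
  have w1 := hz.inW (i + 1) hi _ j1
  have w2 := hz.inW (i + 1) hi _ j2
  have w0 := hz.inW i hi.le _ hj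
  have n0 := hw.nd.desc (hi.le.trans hd) hj
  have t0 := nt i
  have e0 : h - i = h - (i + 1) + 1 := by omega
  have he : 0 ≤ P.elk ms K (h - i) (j * 2 ^ i + j') c (zo i j') :=
    div_nonneg (add_nonneg (mul_nonneg (zero_le_one.trans hA.K1) (VV_nonneg _ _ _))
      (La_pos _).le) (Nat.cast_nonneg _)
  have hs : (Nb (h - i) (j * 2 ^ i + j') c (zo i j') : ℝ) ≤
      Nb (h - (i + 1)) (j * 2 ^ (i + 1) + 2 * j') c (zo (i + 1) (2 * j')) +
        Nb (h - (i + 1)) (j * 2 ^ (i + 1) + (2 * j' + 1)) c (zo (i + 1) (2 * j' + 1)) +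
        P.elk ms K (h - i) (j * 2 ^ i + j') c (zo i j') := by
    rw [h1] at w1
    rw [h2] at w2
    rw [e0] at w0 n0 t0
    rw [h1, h2, Cmp_idx, Cmp_idx', e0]
    exact hA.split _ _ _ _ a n0 t0 w0 w1 w2
  have et : ((zo i j').2 : ℝ) - (zo i j').1 =
      (((zo (i + 1) (2 * j')).2 : ℝ) - (zo (i + 1) (2 * j')).1) +
        (((zo (i + 1) (2 * j' + 1)).2 : ℝ) - (zo (i + 1) (2 * j' + 1)).1) := by
    rw [h1, h2]
    ring
  have ef : (zo i j').1 = (zo (i + 1) (2 * j')).1 := by rw [h1]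
  rw [et] at a0
  have := Pi2_split a1 a2 a0 he hs
  unfold dl PiU
  rw [et]
  rw [ef]
  exact this

theorem dl_le_Dl {i j' : ℕ} (hi : i < P.d) (hj : j' < 2 ^ i) :
    P.dl ms Nb K h j c zo i j' ≤ P.Dl ms Nb K h j c zo := by
  have h1 : ∀ i ∈ range P.d, ∀ j' ∈ range (2 ^ i), 0 ≤ P.dl ms Nb K h j c zo i j' :=
    fun i hi j' hj => (dl_spec hA hw hz (mem_range.1 hi) (mem_range.1 hj)).1
  exact (single_le_sum (h1 i (mem_range.2 hi)) (mem_range.2 hj)).trans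
    (single_le_sum (f := fun i => ∑ j' ∈ range (2 ^ i), P.dl ms Nb K h j c zo i j')
      (fun i hi => sum_nonneg (h1 i hi)) (mem_range.2 hi))

theorem Dl_nonneg : 0 ≤ P.Dl ms Nb K h j c zo :=
  sum_nonneg fun _ hi => sum_nonneg fun _ hj =>
    (dl_spec hA hw hz (mem_range.1 hi) (mem_range.1 hj)).1

/-- The link errors of one depth (`sumV`, `K d / 2^kap ≤ 1`). -/
theorem sum_elk_le (hP : P.OK) {i : ℕ} (hi : i ≤ P.d) :
    ∑ j' ∈ range (2 ^ i), P.elk ms K (h - i) (j * 2 ^ i + j') c (zo i j') ≤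
      (K * P.VV ms h j y + 2 * P.La (h + c)) / P.M := by
  have hL := La_pos (P := P) (h + c)
  have hK : 0 ≤ K := zero_le_one.trans hA.K1
  have h1 := mul_le_mul_of_nonneg_left (hz.sumV i hi) hK
  have h2 := Cmp_La (P := P) (hi.trans hw.dle) c
  have h3 : K * (P.d * P.La (h + c) / 2 ^ P.kap) ≤ P.La (h + c) := by
    have h4 : K * P.d ≤ 2 ^ P.kap :=
      (mul_le_mul_of_nonneg_right hA.K2 (Nat.cast_nonneg _)).trans hP.Cmp_K0
    rw [← mul_div_assoc, div_le_iff₀ (by positivity), ← mul_assoc, mul_comm]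
    exact mul_le_mul_of_nonneg_left h4 hL.le
  unfold elk
  rw [← sum_div, sum_add_distrib, ← mul_sum, sum_const, card_range, nsmul_eq_mul]
  refine div_le_div_of_nonneg_right ?_ (Nat.cast_nonneg _)
  push_cast
  rw [mul_add] at h1
  linarith

/-- Telescoping over the depths. -/
theorem Dl_tele (hP : P.OK) :
    PiU Nb h j c y + P.Dl ms Nb K h j c zo ≤
      ∑ j' ∈ range (2 ^ P.d), PiU Nb (h - P.d) (j * 2 ^ P.d + j') c (zo P.d j') +
        2 * P.d * (K * P.VV ms h j y + 2 * P.La (h + c)) / P.M := by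
  set A : ℕ → ℝ := fun i => ∑ j' ∈ range (2 ^ i), PiU Nb (h - i) (j * 2 ^ i + j') c (zo i j')
    with hAd
  have h0 : A 0 = PiU Nb h j c y := by simp [hAd, hz.top]
  have h1 : ∀ i ∈ range P.d, ∑ j' ∈ range (2 ^ i), P.dl ms Nb K h j c zo i j' ≤
      (A (i + 1) - A i) + 2 * ((K * P.VV ms h j y + 2 * P.La (h + c)) / P.M) := fun i hi => by
    have h2 := sum_elk_le hA hw hz hP (mem_range.1 hi).le
    simp only [hAd]
    rw [Cmp_sum_two]
    unfold dl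
    rw [sum_add_distrib, sum_sub_distrib, ← mul_sum]
    linarith
  have h3 := sum_le_sum h1
  rw [sum_add_distrib, sum_range_sub, sum_const, card_range, nsmul_eq_mul, h0] at h3
  have h4 : (P.d : ℝ) * (2 * ((K * P.VV ms h j y + 2 * P.La (h + c)) / P.M)) =
      2 * P.d * (K * P.VV ms h j y + 2 * P.La (h + c)) / P.M := by ring
  unfold Dl
  change _ ≤ A P.d + _
  linarith

end

end Pa

end Crest.Agent.R288
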