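/-
R288/EngADefs: data of the recursive algorithm for the table engine, and the calculus of
quantities that are polynomial in `Q`.  Author: helper49.
-/
import Crest.Agent.R288.Eng

set_option autoImplicit false
set_option linter.unusedSectionVars false

namespace Crest.Agent.R288

open Crest.Agent.Lib.PolyTime Crest.Agent.R326

/-! ### Polynomially bounded families -/

/-- `f` is bounded by a polynomial in `Q`. -/
def Pol {α : Type} (Q f : α → ℕ) : Prop := ∃ k : ℕ, ∀ a, f a ≤ (Q a + 2) ^ k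

/-- The square root of `qp`. -/
def q1 (Q : ℕ) : ℕ := 2 ^ (Q.size ^ 2 / 2)

theorem q1_pos (Q : ℕ) : 1 ≤ q1 Q := Nat.one_le_two_pow

theorem q1_mul_q1 (Q : ℕ) : q1 Q * q1 Q ≤ qp Q := by
  unfold q1 qp
  rw [← pow_add]
  exact Nat.pow_le_pow_right (by norm_num) (by omega)

theorem q1_le_qp (Q : ℕ) : q1 Q ≤ qp Q :=
  (Nat.le_mul_of_pos_right _ (q1_pos Q)).trans (q1_mul_q1 Q)

theorem pow_le_q1 (k : ℕ) : ∃ c : ℕ, ∀ Q : ℕ, (Q + 2) ^ k ≤ c * q1 Q := by
  refine ⟨2 ^ (2 * k ^ 2 + 2 * k + 1), fun Q => ?_⟩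
  have h1 : Q + 2 ≤ 2 ^ (Q.size + 2) := by
    have := Nat.lt_size_self Q
    have h2 : 1 ≤ 2 ^ Q.size := Nat.one_le_two_pow
    rw [pow_add]; omega
  refine (Nat.pow_le_pow_left h1 k).trans ?_
  unfold q1
  rw [← pow_mul, ← pow_add]
  refine Nat.pow_le_pow_right (by norm_num) ?_
  generalize Q.size = s
  have h3 : 2 * (s * k) ≤ s ^ 2 + k ^ 2 := by nlinarith [sq_nonneg ((s : ℤ) - k)]
  have h4 : s ^ 2 ≤ 2 * (s ^ 2 / 2) + 1 := by omega
  nlinarith [Nat.zero_le (k ^ 2)]

namespace Pol
variable {α β : Type} {Q f g : α → ℕ}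

theorem mono (h : Pol Q g) (hf : ∀ a, f a ≤ g a) : Pol Q f := by
  obtain ⟨k, h⟩ := h
  exact ⟨k, fun a => (hf a).trans (h a)⟩

theorem of_le (hf : ∀ a, f a ≤ Q a) : Pol Q f := ⟨1, fun a => by have := hf a; simp; omega⟩

theorem self (Q : α → ℕ) : Pol Q Q := of_le fun _ => le_rfl

theorem const (Q : α → ℕ) (c : ℕ) : Pol Q fun _ => c :=
  ⟨c, fun a => Nat.lt_two_pow_self.le.trans (Nat.pow_le_pow_left (by omega) c)⟩

theorem add (hf : Pol Q f) (hg : Pol Q g) : Pol Q fun a => f a + g a := by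
  obtain ⟨k, hf⟩ := hf
  obtain ⟨l, hg⟩ := hg
  refine ⟨max k l + 1, fun a => ?_⟩
  have h1 := (hf a).trans (Nat.pow_le_pow_right (n := Q a + 2) (by omega) (le_max_left k l))
  have h2 := (hg a).trans (Nat.pow_le_pow_right (n := Q a + 2) (by omega) (le_max_right k l))
  rw [pow_succ]
  nlinarith

theorem mul (hf : Pol Q f) (hg : Pol Q g) : Pol Q fun a => f a * g a := by
  obtain ⟨k, hf⟩ := hf
  obtain ⟨l, hg⟩ := hg
  exact ⟨k + l, fun a => by rw [pow_add]; exact Nat.mul_le_mul (hf a) (hg a)⟩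

theorem pow (hf : Pol Q f) (m : ℕ) : Pol Q fun a => f a ^ m := by
  obtain ⟨k, hf⟩ := hf
  exact ⟨k * m, fun a => by rw [pow_mul]; exact Nat.pow_le_pow_left (hf a) m⟩

theorem add_const (hf : Pol Q f) (c : ℕ) : Pol Q fun a => f a + c := hf.add (const Q c)

theorem const_mul (hf : Pol Q f) (c : ℕ) : Pol Q fun a => c * f a := (const Q c).mul hf

theorem comp (hf : Pol Q f) (φ : β → α) : Pol (fun b => Q (φ b)) fun b => f (φ b) := by
  obtain ⟨k, hf⟩ := hf
  exact ⟨k, fun b => hf (φ b)⟩

/-- Polynomials are `O(q1)`. -/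
theorem ole (hf : Pol Q f) : f ≼ fun a => q1 (Q a) := by
  obtain ⟨k, hf⟩ := hf
  obtain ⟨c, hc⟩ := pow_le_q1 k
  exact ⟨c, fun a => (hf a).trans (hc _)⟩

theorem ole' {V : α → ℕ} (hf : Pol Q f) (hV : ∀ a, q1 (Q a) ≤ V a) : f ≼ V := hf.ole.mono_right hV

variable {Y Z : Type} [Enc Y] [Enc Z]

theorem smIn {p : α → Y} {V : α → ℕ} (hp : Pol Q (sz p)) (hV : ∀ a, q1 (Q a) ≤ V a) : SmIn V p :=
  fun k => ((hp.add_const 1).pow k).ole' hV

theorem pb {p : α → Y} (hp : Pol Q (sz p)) {t : Y → ℕ} (ht : PB t) : Pol Q fun a => t (p a) := by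
  obtain ⟨k, ht⟩ := ht
  exact ((hp.add_const 1).pow k).mono fun a => ht _

theorem pt {p : α → Y} (hp : Pol Q (sz p)) {φ : Y → Z} (hφ : PT φ) :
    Pol Q (sz fun a => φ (p a)) := hp.pb (PB.esize hφ)

theorem pair {p : α → Y} {q : α → Z} (hp : Pol Q (sz p)) (hq : Pol Q (sz q)) :
    Pol Q (sz fun a => (p a, q a)) := ((hp.add hq).add_const 1).mono fun _ => le_rfl

theorem nat_le {m n : α → ℕ} (hn : Pol Q (sz n)) (h : ∀ a, m a ≤ n a) : Pol Q (sz m) :=
  hn.mono fun a => esize_nat_mono (h a)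

theorem nat {n : α → ℕ} (hn : Pol Q n) : Pol Q (sz n) :=
  ((hn.const_mul 6).add_const 1).mono fun a => esize_nat_le_self (n a)

theorem un {n : α → ℕ} (hn : Pol Q n) : Pol Q (sz fun a => R326.un (n a)) :=
  ((hn.const_mul 2).add_const 1).mono fun _ => le_of_eq (esize_un _)

theorem length {l : α → List Y} (hl : Pol Q (sz l)) : Pol Q fun a => (l a).length :=
  hl.mono fun a => (length_lt_esize (l a)).le

/-- A list of polynomial length whose items have polynomial size. -/
theorem list {l : α → List Y} {B : α → ℕ} (hl : Pol Q fun a => (l a).length) (hB : Pol Q B)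
    (h : ∀ a, ∀ y ∈ l a, esize y ≤ B a) : Pol Q (sz l) :=
  ((hl.mul (hB.add_const 1)).add_const 1).mono fun a => esize_list_le (h a)

/-- A uniform bound for a family with an extra index. -/
theorem unif {ι : α → Type} {u : (a : α) → ι a → ℕ}
    (h : Pol (fun p : (a : α) × ι a => Q p.1) fun p => u p.1 p.2) :
    ∃ B : α → ℕ, Pol Q B ∧ ∀ a i, u a i ≤ B a := by
  obtain ⟨k, h⟩ := h
  exact ⟨fun a => (Q a + 2) ^ k, ⟨k, fun _ => le_rfl⟩, fun a i => h ⟨a, i⟩⟩

end Pol

/-! ### Block combinatorics -/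

/-- Block `i` glued with its two neighbours (there are `nb` blocks). -/
def glueF {β : Type} (nb : ℕ) (f : ℕ → List β) (i : ℕ) : List β :=
  (if i = 0 then [] else f (i - 1)) ++ f i ++ (if i + 1 < nb then f (i + 1) else [])

/-- Regridding: `g` consecutive blocks are merged, every result is repeated `r` times. -/
def regF {β : Type} (g r : ℕ) (f : ℕ → List β) (t : ℕ) : List β :=
  ((List.range g).map fun s => f (t / r * g + s)).flatten

/-- Symbol of the second string at shifted position `n`. -/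
def ysym (y : List ℕ) (X n : ℕ) : Option ℕ := if X / 2 ≤ n then y[n - X / 2]? else none

/-- The mismatch bit of two optional symbols. -/
def misBit (s t : Option ℕ) : Bool := s.isSome && (t != s)

theorem mis_eq (x y : List ℕ) (X i a : ℕ) : mis x y X i a = misBit x[i]? (ysym y X (i + a)) := by
  unfold mis misBit ysym
  cases x[i]? with
  | none => rfl
  | some s => split_ifs <;> simp

/-- Association lists of table values. -/
abbrev Tb : Type := List (St × ℚ)

/-- What a block knows about one request: key, index, grid exponent, table values. -/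
abbrev Ent (De : Type) : Type := Key De × ℕ × ℕ × Tb

/-- Input of a recursive call. -/
abbrev Inp (Pa De : Type) : Type :=
  (Pa × De) × List (Option ℕ) × List (Option ℕ) × List Bool × List (List Bool)

/-- A call of the recursive algorithm, with its ghost data. -/
structure Call (Pa De : Type) where
  /-- parameters -/
  P : Pa
  /-- descriptor -/
  D : De
  /-- first string -/
  x : List ℕ
  /-- second string -/
  y : List ℕ
  /-- the tapes -/
  tapes : ℕ → ℕ → Bool
  /-- the node -/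
  j : ℕ
  /-- own random bits -/
  ρ : ℕ → Bool

namespace Eng

variable {Pa De : Type} [DecidableEq De] (E : Eng Pa De)

/-- Number of blocks. -/
def nb (P : Pa) (D : De) : ℕ := E.X P / 2 ^ E.om P D + 1

/-- The states of block `i`. -/
def sts (P : Pa) (D : De) (i : ℕ) : List St :=
  ((List.range (2 ^ (E.om P D - E.gam P D))).flatMap fun s =>
    (List.range (2 * (E.wid P D / 2 ^ E.gam P D) + 1)).map fun t =>
      (i * 2 ^ E.om P D + s * 2 ^ E.gam P D,
        i * 2 ^ E.om P D + s * 2 ^ E.gam P D + t * 2 ^ E.gam P D -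
          E.wid P D / 2 ^ E.gam P D * 2 ^ E.gam P D)).filter fun z => decide (E.inW P D z)

/-- Length of the unary pad that bounds all local loops of `D`. -/
def padM (P : Pa) (D : De) : ℕ :=
  E.om P D + 2 ^ (E.om P D - E.gam P D) + E.wid P D / 2 ^ E.gam P D

/-- Number of merged blocks when regridding the answer to `κ`. -/
def gR (P : Pa) (D : De) (κ : Key De) : ℕ := 2 ^ (E.om P D - E.om P κ.1)

/-- Number of repetitions when regridding the answer to `κ`. -/
def rR (P : Pa) (D : De) (κ : Key De) : ℕ := 2 ^ min (E.om P κ.1 - E.om P D) (E.X P).size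

/-- Number of merged groups when regridding the answer to `κ`. -/
def mR (P : Pa) (D : De) (κ : Key De) : ℕ := E.X P / 2 ^ max (E.om P D) (E.om P κ.1) + 1

/-- Indices read off the entries. -/
def bI (ents : List (Ent De)) (κ : Key De) : ℕ :=
  ((ents.lookup κ).map fun e => e.1).getD κ.2.2.1

/-- Guarded table lookup in the entries. -/
def bG (P : Pa) (D : De) (ents : List (Ent De)) (z : St) (κ : Key De) (z' : St) : ℚ :=
  ((ents.lookup κ).map fun e =>
    if z'.1 ≤ E.X P ∧ Nat.dist z'.1 z.1 ≤ 2 ^ E.om P D then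
      (e.2.2.lookup (rdn e.2.1 z')).getD (E.X P : ℚ) else (E.X P : ℚ)).getD (E.X P : ℚ)

/-- Guarded mismatch bits read off the window of block `i`. -/
def bM (P : Pa) (D : De) (i : ℕ) (mw : List Bool) (z : St) (b : ℕ) : Bool :=
  decide (E.hgt D = 0 ∧ b ≤ E.X P ∧ Nat.dist b z.1 ≤ 2 ^ E.om P D) &&
    mw.getD (b - (i - 1) * 2 ^ E.om P D) false

/-- The block function. -/
def bf (P : Pa) (D : De) (i : ℕ) (mw : List Bool) (ents : List (Ent De)) : Tb :=
  (E.sts P D i).map fun z => (z, E.rule P D (bI ents) (E.bG P D ents z) (E.bM P D i mw z) z)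

/-- The rows of the node. -/
def xs (c : Call Pa De) : List (Option ℕ) :=
  (List.range (2 ^ E.hgt c.D)).map fun i => c.x[c.j * 2 ^ E.hgt c.D + i]?

/-- The window of the second string. -/
def ys (c : Call Pa De) : List (Option ℕ) :=
  (List.range (2 ^ E.hgt c.D + E.X c.P + 1)).map fun t =>
    ysym c.y (E.X c.P) (c.j * 2 ^ E.hgt c.D + t)

/-- The own bits. -/
def own (c : Call Pa De) : List Bool := (List.range (E.pot c.P c.D)).map c.ρ

/-- The lower tapes. -/
def tps (c : Call Pa De) : List (List Bool) :=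
  (List.range (E.tp c.P c.D)).map fun i => (List.range (E.pot c.P c.D)).map (c.tapes i)

/-- The input of a call. -/
def inp (c : Call Pa De) : Inp Pa De := ((c.P, c.D), E.xs c, E.ys c, E.own c, E.tps c)

/-- The table computed by a call. -/
def val (c : Call Pa De) (z : St) : ℚ :=
  E.ev c.P (mis c.x c.y (E.X c.P)) c.tapes c.D c.j c.ρ z

/-- Block `i` of the table. -/
def blk (c : Call Pa De) (i : ℕ) : Tb := (E.sts c.P c.D i).map fun z => (z, E.val c z)

/-- The output of a call. -/
def out (c : Call Pa De) : List Tb := (List.range (E.nb c.P c.D)).map (E.blk c)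

/-- The call made for request `κ`. -/
def subCall (c : Call Pa De) (κ : Key De) : Call Pa De :=
  ⟨c.P, κ.1, c.x, c.y, c.tapes, c.j * 2 ^ κ.2.1 + E.idx c.P c.D c.ρ κ,
    E.bits c.P c.tapes c.D c.ρ κ⟩

/-- What block `i` learns from request `κ`. -/
def ent (c : Call Pa De) (κ : Key De) (i : ℕ) : Ent De :=
  (κ, E.idx c.P c.D c.ρ κ, E.gam c.P κ.1, glueF (E.nb c.P c.D)
    (regF (E.gR c.P c.D κ) (E.rR c.P c.D κ) (E.blk (E.subCall c κ))) i)

/-- All entries of block `i`. -/
def ents (c : Call Pa De) (i : ℕ) : List (Ent De) :=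
  ((E.plan c.P c.D).map fun κ => E.ent c κ i).reverse

/-- The padded row of mismatch bits. -/
def mrow (c : Call Pa De) : List Bool :=
  (List.range (2 ^ E.om c.P c.D * E.nb c.P c.D)).map fun b =>
    decide (b ≤ E.X c.P) && mis c.x c.y (E.X c.P) c.j b

/-- The window of mismatch bits of block `i`. -/
def mw (c : Call Pa De) (i : ℕ) : List Bool :=
  if E.hgt c.D = 0 then glueF (E.nb c.P c.D)
    (fun t => ((E.mrow c).drop (2 ^ E.om c.P c.D * t)).take (2 ^ E.om c.P c.D)) i else []

/-- The basic budget of a call. -/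
def W (Q : Pa → ℕ) (c : Call Pa De) : ℕ :=
  q1 (Q c.P) * ((symBits c.x c.y + 1) * ((E.X c.P + 1) * E.pot c.P c.D))

end Eng

/-- Good calls. -/
abbrev GC {Pa De : Type} (Good : Pa → De → Prop) : Type := {c : Call Pa De // Good c.P c.D}

/-- Good requests. -/
abbrev GK {Pa De : Type} (E : Eng Pa De) (Good : Pa → De → Prop) : Type :=
  {p : Call Pa De × Key De // Good p.1.P p.1.D ∧ p.2 ∈ E.plan p.1.P p.1.D}

/-- Good small data with a unary pad. -/
abbrev GS {Pa De : Type} (E : Eng Pa De) (Good : Pa → De → Prop) : Type :=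
  {p : (Pa × De) × List Unit // Good p.1.1 p.1.2 ∧ E.padM p.1.1 p.1.2 ≤ p.2.length}

/-- Good small data with a unary pad and a request. -/
abbrev GSK {Pa De : Type} (E : Eng Pa De) (Good : Pa → De → Prop) : Type :=
  {p : ((Pa × De) × List Unit) × Key De // (Good p.1.1.1 p.1.1.2 ∧
    E.padM p.1.1.1 p.1.1.2 ≤ p.1.2.length) ∧ p.2 ∈ E.plan p.1.1.1 p.1.1.2}

/-- `k` is an exponent for the comparison of symbols: a list of symbols of at most `b` bits is
compared with one symbol in time `O((length + 1) (b + 1) ^ k)`. -/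
def CmpOK (k : ℕ) : Prop :=
  ∀ (α X : Type) [Enc X] (𝔅 : Bud α) (x : α → X) (s : α → Option ℕ) (l : α → List (Option ℕ))
    (b : α → ℕ), L 𝔅 x s → L 𝔅 x l → (∀ a n, s a = some n → n.size ≤ b a) →
    (∀ a n, some n ∈ l a → n.size ≤ b a) →
    ((fun a => ((l a).length + 1) * (b a + 1) ^ k) ≼ 𝔅.V) →
    L 𝔅 x fun a => (l a).map (misBit (s a))

end Crest.Agent.R288
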