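/-
R288/EngALin: linear-time block operations.
-/
import Crest.Agent.R288.EngADefs

set_option autoImplicit false
set_option linter.unusedSectionVars false

namespace Crest.Agent.R288

open Crest.Agent.Lib.PolyTime Crest.Agent.R326

variable {α X Y Z P : Type} [Enc X] [Enc Y] [Enc Z] [Enc P] {𝔅 : Bud α} {x : α → X}

/-- Glue every block with its two neighbours: `zipWith append` of `[] :: B`, `B`, `B.tail ++ [[]]`. -/
theorem L_glue {n : α → ℕ} {f : α → ℕ → List Y}
    (hB : L 𝔅 x fun a => (List.range (n a)).map (f a)) :
    L 𝔅 x fun a => (List.range (n a)).map (glueF (n a) (f a)) := by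
  have ha : LT fun q : List Y × List Y => q.1 ++ q.2 := fun _ _ _ _ _ _ h => h.fst.append h.snd
  refine (L.zipWith ha (L.zipWith ha ((L.const []).cons hB) hB)
    (hB.tail.append (L.const [[]]))).congr fun a => ?_
  refine List.ext_getElem (by simp; omega) fun i h1 h2 => ?_
  have hi : i < n a := by simpa using h2
  simp only [List.getElem_zipWith, List.getElem_map, List.getElem_range, glueF]
  congr 2
  · cases i <;> simp
  · rw [List.getElem_append]
    by_cases h : i + 1 < n a
    · simp [h, show i < n a - 1 by omega]
    · simp [h, show ¬ i < n a - 1 by omega]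

theorem EngALin_esize_flatten {l : List (List Y)} {B : ℕ} (h : ∀ b ∈ l, esize b ≤ B) :
    esize l.flatten ≤ l.length * B + 1 := by
  induction l with
  | nil => simp
  | cons b l ih =>
    have h1 := ih fun c hc => h c (List.mem_cons_of_mem _ hc)
    have h2 := h b List.mem_cons_self
    have h3 := esize_append b l.flatten
    rw [List.flatten_cons, List.length_cons, add_mul]
    omega

theorem EngALin_flatten_replicate {β : Type} (m : ℕ) {r : ℕ} (c : ℕ → β) :
    ((List.range m).map fun j => List.replicate r (c j)).flatten =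
      (List.range (m * r)).map fun t => c (t / r) := by
  induction m with
  | zero => simp
  | succ m ih =>
    rw [List.range_succ, List.map_append, List.flatten_append, ih, add_mul, one_mul, List.range_add,
      List.map_append, List.map_map]
    congr 1
    refine List.ext_getElem (by simp) fun i h1 h2 => ?_
    have hi : i < r := by simpa using h2
    have : (m * r + i) / r = m := by
      rw [add_comm, Nat.add_mul_div_right _ _ (by omega), Nat.div_eq_of_lt hi, zero_add]
    simp [this]

/-- Regrid: pad with empty blocks to length `g m`, `chunks`, `flatten` every chunk, `replicate`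
each result `r` times (`Cp.map` with budget `r (g B + 1)` per item), `flatten`, `take n`. -/
theorem L_regrid {n' g m r n B : α → ℕ} {f : α → ℕ → List Y}
    (hB : L 𝔅 x fun a => (List.range (n' a)).map (f a))
    (hnil : ∀ a i, n' a ≤ i → f a i = [])
    (hg : L 𝔅 x fun a => un (g a)) (hgm : L 𝔅 x fun a => un (g a * m a))
    (hr : L 𝔅 x fun a => un (r a)) (hn : L 𝔅 x fun a => un (n a))
    (hg0 : ∀ a, 0 < g a) (hr0 : ∀ a, 0 < r a) (h1 : ∀ a, n' a ≤ g a * m a)
    (h2 : ∀ a, n a ≤ m a * r a) (hsz : ∀ a i, esize (f a i) ≤ B a)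
    (hV : (fun a => m a * r a * (g a * B a + 1)) ≼ 𝔅.V) :
    L 𝔅 x fun a => (List.range (n a)).map (regF (g a) (r a) (f a)) := by
  have a1 : L 𝔅 x fun a => (List.range (g a * m a)).map (f a) := by
    refine (L.take hgm (hB.append (hgm.replicate_const []))).congr fun a => ?_
    refine List.ext_getElem (by simp) fun i k1 k2 => ?_
    rw [List.getElem_take, List.getElem_append]
    by_cases h : i < n' a
    · simp [h]
    · simp [h, hnil a i (not_lt.1 h)]
  let c : α → ℕ → List Y := fun a j => ((List.range (g a)).map fun s => f a (j * g a + s)).flatten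
  have a2 : L 𝔅 x fun a => (List.range (m a)).map (c a) := by
    refine ((L.chunks (n := m) hg a1 hg0 fun a => by simp).map_lt (f := List.flatten)
      fun _ _ _ _ _ _ h => h.flatten).congr fun a => ?_
    rw [chunks, List.map_map]
    refine List.map_congr_left fun j hj => congrArg List.flatten ?_
    have := Nat.mul_le_mul_left (g a) (Nat.succ_le_of_lt (List.mem_range.1 hj))
    rw [Nat.mul_succ] at this
    refine List.ext_getElem (by simp; omega) fun i k1 k2 => ?_
    simp [mul_comm]
  have hc : ∀ a j, esize (c a j) ≤ g a * B a + 1 := fun a j => by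
    refine (EngALin_esize_flatten (B := B a) fun b hb => ?_).trans (by simp)
    obtain ⟨s, -, rfl⟩ := List.mem_map.1 hb
    exact hsz a _
  have hs : (fun a => ∑ _i ∈ Finset.range (m a), r a * (g a * B a + 1)) ≼ 𝔅.V :=
    hV.mono_left fun a => by simp [mul_assoc]
  have a3 := Cp.mapRange (𝔅 := 𝔅) m (fun a => un (r a)) c (fun a j => List.replicate (r a) (c a j))
    (fun a _ => r a * (g a * B a + 1)) (fun a _ => ((r a * (g a * B a + 1) : ℕ) : ℝ)) (fun _ _ => 0)
    (fun _ _ => le_rfl) ⟨5, fun q => ?_⟩
    (L.replicate (L.in1 _ _ _) (L.in2 _ _ _)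
      (OLe.of_le fun q => Nat.mul_le_mul_left _ (hc q.1 q.2)))
    ((Bud.toF hs).mono_left fun a => by simp) hs
  · have a4 : L 𝔅 x _ := (hr.pair a2).cp (a3.mono fun a => by simp)
    refine (L.take hn a4.flatten).congr fun a => ?_
    rw [EngALin_flatten_replicate, ← List.map_take, List.take_range, min_eq_left (h2 a)]
    rfl
  · have b1 := hc q.1 q.2
    have b2 := Nat.mul_le_mul_right (g q.1 * B q.1 + 1) (hr0 q.1)
    have b3 := Nat.le_mul_of_pos_right (r q.1) (Nat.succ_pos (g q.1 * B q.1))
    have b4 := hr0 q.1
    simp only [sz, esize_pair, esize_un, Nat.succ_eq_add_one] at b2 b3 ⊢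
    omega

/-- The step of the transposition. -/
def EngALin_step {β : Type} (s : List (List β)) (r : List β) : List (List β) × Unit :=
  (List.zipWith List.cons r s, ())

theorem EngALin_esize_step (s : List (List Y)) (r : List Y) :
    esize (List.zipWith List.cons r s) ≤ esize s + esize r := by
  induction r generalizing s with
  | nil => simp
  | cons b r ih =>
    cases s with
    | nil => simp
    | cons t s =>
      have := ih s
      simp only [List.zipWith_cons_cons, esize_cons]
      omega

theorem EngALin_esize_acc (s : List (List Y)) (l : List (List Y)) :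
    esize (mapAcc EngALin_step s l).1 ≤ esize s + esize l := by
  induction l generalizing s with
  | nil => simp
  | cons r l ih =>
    have h1 := ih (EngALin_step s r).1
    have h2 : esize (EngALin_step s r).1 ≤ _ := EngALin_esize_step s r
    simp only [mapAcc_cons, esize_cons]
    omega

theorem EngALin_acc {ι β : Type} (n : ℕ) (f : ι → ℕ → β) (l : List ι) (A : ℕ → List β) :
    (mapAcc EngALin_step ((List.range n).map A) (l.map fun k => (List.range n).map (f k))).1 =
      (List.range n).map fun i => (l.map fun k => f k i).reverse ++ A i := by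
  induction l generalizing A with
  | nil => simp
  | cons k l ih =>
    have e : (EngALin_step ((List.range n).map A) ((List.range n).map (f k))).1 =
        (List.range n).map fun i => f k i :: A i := by
      simp [EngALin_step, List.zipWith_map, List.zipWith_self]
    rw [List.map_cons, mapAcc_cons, e, ih]
    simp

/-- Transposition: `L.mapAcc` with the step `zipWith cons`, starting from `replicate n []`. -/
theorem L_transpose {ι : Type} {n : α → ℕ} {l : α → List ι} {f : α → ι → ℕ → Y} [Inhabited Y]
    (hl : L 𝔅 x fun a => (l a).map fun k => (List.range (n a)).map (f a k))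
    (hn : L 𝔅 x fun a => un (n a))
    (hV : (fun a => (l a).length *
      (esize ((l a).map fun k => (List.range (n a)).map (f a k)) + 2 * n a + 1)) ≼ 𝔅.V) :
    L 𝔅 x fun a => (List.range (n a)).map fun i => ((l a).map fun k => f a k i).reverse := by
  have hf : LT fun q : List (List Y) × List Y => EngALin_step q.1 q.2 := fun _ _ _ _ _ _ h =>
    (L.zipWith (fun _ _ _ _ _ _ h => h.fst.cons h.snd) h.snd h.fst).pair (L.const ())
  refine (L.mapAcc hf (hn.replicate_const []) hl (hV.mono_left fun a => ?_)).fst.congr fun a => ?_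
  · refine (Finset.sum_le_card_nsmul _ _ _ fun i _ => (EngALin_esize_acc _ _).trans
      (add_le_add (esize_list_le (B := 1) fun b hb => ?_)
        (esize_sublist (List.take_sublist i _)))).trans (le_of_eq ?_)
    · rw [List.eq_of_mem_replicate hb]
      rfl
    · simp only [Finset.card_range, List.length_map, List.length_replicate, smul_eq_mul]
      ring
  · have := EngALin_acc (n a) (f a) (l a) fun _ => []
    simpa using this

/-- Map a polynomial-time function of a small parameter, the index and a small item
(`Cp.mapIdxRange` with budget `g a` per item). -/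
theorem L_mapIdx_pt {n g : α → ℕ} {p : α → P} {b : α → ℕ → Y} {φ : (P × ℕ) × Y → Z} (hφ : PT φ)
    (hp : L 𝔅 x p) (hb : L 𝔅 x fun a => (List.range (n a)).map (b a))
    (sp : SmIn g p) (sn : SmIn g n) (sb : SmIn (fun q : α × ℕ => g q.1) fun q => b q.1 q.2)
    (hV : (fun a => n a * g a) ≼ 𝔅.V) :
    L 𝔅 x fun a => (List.range (n a)).map fun i => φ ((p a, i), b a i) := by
  let ψ : ((a : α) × Fin (n a)) → α × ℕ := fun q => (q.1, q.2)
  have sp' := sp.comp fun q : (a : α) × Fin (n a) => q.1
  have sn' := sn.comp fun q : (a : α) × Fin (n a) => q.1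
  have sb' := sb.comp ψ
  have hs : (fun a => ∑ _i ∈ Finset.range (n a), g a) ≼ 𝔅.V := hV.mono_left fun a => by simp
  exact (hp.pair hb).cp ((Cp.mapIdxRange n p b (fun a i => φ ((p a, i), b a i)) (fun a _ => g a)
    (fun a _ => g a) (fun _ _ => 0) (fun _ _ => le_rfl) (sp'.pair sb').size_le sn'
    ((L.refl _ _).pt ((sp'.pair (sn'.nat_le fun q => q.2.2.le)).pair sb') hφ)
    ((Bud.toF hs).mono_left fun a => by simp) hs).mono fun a => by simp)

/-- Take the exponent from the polynomial-time bound of `misBit` (`L.ofTC`). -/
theorem exists_cmp : ∃ k : ℕ, 1 ≤ k ∧ CmpOK k := by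
  have hφ : PT fun q : Option ℕ × Option ℕ => misBit q.1 q.2 := by
    unfold misBit
    fun_prop
  obtain ⟨t, ⟨k, ht⟩, hf⟩ := hφ
  refine ⟨k + 1, by omega, fun α X _ 𝔅 x s l b hs hl h1 h2 hV => ?_⟩
  have e : ∀ {o : Option ℕ} {B : ℕ}, (∀ n, o = some n → n.size ≤ B) → esize o ≤ 6 * B + 3 := by
    intro o B h
    cases o with
    | none => simp
    | some n =>
      have := h n rfl
      rw [esize_some, esize_nat]
      omega
  have hq : ∀ q : {q : α × Option ℕ // q.2 ∈ l q.1},
      esize (s q.1.1, q.1.2) + 1 ≤ 12 * (b q.1.1 + 1) := fun q => by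
    have a1 := e (h1 q.1.1)
    have a2 := e (o := q.1.2) fun n hn => h2 q.1.1 n (hn ▸ q.2)
    rw [esize_pair]
    omega
  have hS : (fun a => ((l a).map fun _ => (b a + 1) ^ (k + 1)).sum) ≼ 𝔅.V :=
    hV.mono_left fun a => by simp [add_mul]
  refine (hs.pair hl).cp ((Cp.map s l (fun a => misBit (s a)) (fun a _ => (b a + 1) ^ (k + 1))
    (fun a _ => (((b a + 1) ^ (k + 1) : ℕ) : ℝ)) (fun _ _ => 0) (fun _ _ => le_rfl)
    ⟨12, fun q => ?_⟩ (L.ofTC (hf.reindex _) fun _ => ⟨12 ^ k, fun q => ?_⟩)
    ((Bud.toF hS).mono_left fun a => by simp) hS).mono fun a => by simp)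
  · exact ((Nat.le_succ _).trans (hq q)).trans
      (Nat.mul_le_mul_left _ (Nat.le_self_pow (by omega) _))
  · refine ((ht _).trans (Nat.pow_le_pow_left (hq q) k)).trans ?_
    rw [mul_pow]
    exact Nat.mul_le_mul_left _ (Nat.pow_le_pow_right (by omega) (by omega))

end Crest.Agent.R288
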