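/-
R288/EngASem: correctness of the block function (pure list combinatorics).
-/
import Crest.Agent.R288.EngADefs

set_option autoImplicit false
set_option linter.unusedSectionVars false

namespace Crest.Agent.R288

open Crest.Agent.Lib.PolyTime Crest.Agent.R326

theorem sem_take_sum {α : Type} [DecidableEq α] (f : α → ℕ) {l : List α} {a : α} (h : a ∈ l) :
    ((l.takeWhile (· ≠ a)).map f).sum + f a ≤ (l.map f).sum := by
  induction l with
  | nil => simp at h
  | cons b l ih =>
    by_cases e : b = a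
    · subst e
      simp
    · have := ih ((List.mem_cons.1 h).resolve_left (Ne.symm e))
      rw [List.takeWhile_cons_of_pos (by simpa using e)]
      simp only [List.map_cons, List.sum_cons]
      omega

theorem sem_lookup {α β : Type} [BEq α] [LawfulBEq α] {v : α → β} {l : List (α × β)}
    (h : ∀ p ∈ l, p.2 = v p.1) (z : α) :
    ((z, v z) ∈ l → l.lookup z = some (v z)) ∧ ((z, v z) ∉ l → l.lookup z = none) := by
  induction l with
  | nil => simp
  | cons p l ih =>
    obtain ⟨a, b⟩ := p
    obtain rfl : b = v a := h _ List.mem_cons_self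
    have ih' := ih fun p hp => h p (List.mem_cons_of_mem _ hp)
    by_cases e : z = a
    · subst e
      simp
    · have e' : (z == a) = false := by simpa using e
      simpa [List.lookup_cons, e, e'] using ih'

theorem sem_lookup_getD {α β : Type} [BEq α] [LawfulBEq α] {v : α → β} {l : List (α × β)}
    (h : ∀ p ∈ l, p.2 = v p.1) {z : α} {d : β} (hz : (z, v z) ∈ l ∨ v z = d) :
    (l.lookup z).getD d = v z := by
  by_cases e : (z, v z) ∈ l
  · rw [(sem_lookup h z).1 e, Option.getD_some]
  · rw [(sem_lookup h z).2 e, Option.getD_none, hz.resolve_left e]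

theorem sem_near {B a b : ℕ} (hB : 0 < B) (h : Nat.dist b a ≤ B) :
    b / B + 1 = a / B ∨ b / B = a / B ∨ b / B = a / B + 1 := by
  have h1 : b / B ≤ a / B + 1 := by
    rw [← Nat.add_div_right a hB]
    exact Nat.div_le_div_right (by unfold Nat.dist at h; omega)
  have h2 : a / B ≤ b / B + 1 := by
    rw [← Nat.add_div_right b hB]
    exact Nat.div_le_div_right (by unfold Nat.dist at h; omega)
  omega

theorem sem_mem_glueF {β : Type} {nb i t : ℕ} {f : ℕ → List β} {x : β} (ht : t < nb)
    (h : t + 1 = i ∨ t = i ∨ t = i + 1) (hx : x ∈ f t) : x ∈ glueF nb f i := by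
  unfold glueF
  rcases h with rfl | rfl | rfl
  · simp [hx]
  · simp [hx]
  · simp [hx, ht]

theorem sem_of_mem_glueF {β : Type} {nb i : ℕ} {f : ℕ → List β} {x : β} (hx : x ∈ glueF nb f i) :
    ∃ t, x ∈ f t := by
  simp only [glueF, List.mem_append] at hx
  rcases hx with (hx | hx) | hx
  · split_ifs at hx
    · simp at hx
    · exact ⟨_, hx⟩
  · exact ⟨_, hx⟩
  · split_ifs at hx
    · exact ⟨_, hx⟩
    · simp at hx

theorem sem_glueF_getD {β : Type} {nb i t B r : ℕ} {f : ℕ → List β} (d : β)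
    (hl : ∀ t < nb, (f t).length = B) (hi : i < nb) (ht : t < nb) (h : t + 1 = i ∨ t = i ∨ t = i + 1)
    (hr : r < B) : (glueF nb f i).getD (t * B + r - (i - 1) * B) d = (f t).getD r d := by
  unfold glueF
  simp only [List.getD_eq_getElem?_getD]
  congr 1
  rcases h with rfl | rfl | rfl
  · have h1 := hl t ht
    rw [if_neg (by omega), Nat.add_sub_cancel, Nat.add_sub_cancel_left, List.append_assoc,
      List.getElem?_append_left (by omega)]
  · have h1 := hl t ht
    rcases t with _ | t
    · simp only [if_true, List.nil_append, Nat.zero_mul, Nat.zero_add, Nat.zero_sub, Nat.sub_zero]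
      rw [List.getElem?_append_left (by omega)]
    · have h2 := hl t (by omega)
      have e : (t + 1) * B + r - t * B = B + r := by rw [Nat.add_mul]; omega
      rw [if_neg (by omega), Nat.add_sub_cancel, e, List.getElem?_append_left (by simp; omega),
        List.getElem?_append_right (by omega), h2, Nat.add_sub_cancel_left]
  · have h1 := hl i hi
    rw [if_pos ht]
    rcases i with _ | i
    · simp only [if_true, List.nil_append, Nat.zero_mul, Nat.zero_add, Nat.zero_sub, Nat.sub_zero, Nat.one_mul]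
      rw [List.getElem?_append_right (by omega), h1, Nat.add_sub_cancel_left]
    · have h2 := hl i (by omega)
      have e : (i + 1 + 1) * B + r - i * B = B + B + r := by rw [Nat.add_mul, Nat.add_mul]; omega
      rw [if_neg (by omega), Nat.add_sub_cancel, e, List.getElem?_append_right (by simp; omega),
        List.length_append, h1, h2, Nat.add_sub_cancel_left]

theorem sem_regrid {X a o o' : ℕ} (ha : a ≤ X) :
    ∃ s < 2 ^ (o - o'), a / 2 ^ o / 2 ^ min (o' - o) X.size * 2 ^ (o - o') + s = a / 2 ^ o' := by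
  rcases le_total o' o with h | h
  · refine ⟨a / 2 ^ o' % 2 ^ (o - o'), Nat.mod_lt _ (by positivity), ?_⟩
    have e : a / 2 ^ o = a / 2 ^ o' / 2 ^ (o - o') := by
      rw [Nat.div_div_eq_div_mul, ← pow_add, Nat.add_sub_cancel' h]
    rw [Nat.sub_eq_zero_of_le h, Nat.zero_min, pow_zero, Nat.div_one, e, Nat.div_add_mod']
  · refine ⟨0, by positivity, ?_⟩
    rw [Nat.sub_eq_zero_of_le h, pow_zero, mul_one, add_zero]
    rcases le_total (o' - o) X.size with h' | h'
    · rw [min_eq_left h', Nat.div_div_eq_div_mul, ← pow_add, Nat.add_sub_cancel' h]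
    · have h1 := Nat.lt_size_self X
      have h2 : 2 ^ X.size ≤ 2 ^ o' := Nat.pow_le_pow_right (by norm_num) (by omega)
      rw [min_eq_right h', Nat.div_eq_of_lt ((Nat.div_le_self _ _).trans_lt (by omega)),
        Nat.div_eq_of_lt (by omega)]

theorem sem_rdn_div {g o : ℕ} (h : g ≤ o) (a : ℕ) : a / 2 ^ g * 2 ^ g / 2 ^ o = a / 2 ^ o := by
  have e : 2 ^ o = 2 ^ g * 2 ^ (o - g) := by rw [← pow_add, Nat.add_sub_cancel' h]
  rw [e, ← Nat.div_div_eq_div_mul, ← Nat.div_div_eq_div_mul, Nat.mul_div_cancel _ (by positivity)]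

namespace Eng

variable {Pa De : Type} [DecidableEq De] {E : Eng Pa De} {Good : Pa → De → Prop}

theorem pot_sub_lt (hw : E.Wf Good) {P : Pa} {D : De} {κ : Key De} (h : Good P D)
    (hκ : κ ∈ E.plan P D) : E.pot P κ.1 < E.pot P D := by
  have h1 := sem_take_sum (fun κ : Key De => E.pot P κ.1) hκ
  have h2 := hw.pot_sum P D h
  have h3 := hw.pot_pos P D h
  omega

/-- The bits reserved for a request lie within the first `pot` bits. -/
theorem off_seg_le (hw : E.Wf Good) {P : Pa} {D : De} {κ : Key De} (h : Good P D)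
    (hκ : κ ∈ E.plan P D) : E.off P D κ + κ.2.1 + E.pot P κ.1 ≤ E.pot P D := by
  have h1 := sem_take_sum (E.seg P) hκ
  have h2 := hw.pot_sum P D h
  have h3 : ((E.plan P D).map (E.seg P)).sum ≤ ((E.plan P D).map fun κ => 2 * E.pot P κ.1).sum :=
    List.sum_le_sum fun κ' hκ' => by
      have := hw.e_le P D κ' h hκ'
      unfold seg
      omega
  rw [List.sum_map_mul_left] at h3
  have h4 : E.seg P κ = κ.2.1 + E.pot P κ.1 := rfl
  unfold off
  omega

theorem idx_lt_two_pow (hw : E.Wf Good) {P : Pa} {D : De} {κ : Key De} (h : Good P D)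
    (hκ : κ ∈ E.plan P D) (ρ : ℕ → Bool) : E.idx P D ρ κ < 2 ^ κ.2.1 := by
  rw [E.idx_of_mem ρ hκ]
  split_ifs with h1
  · simpa [bitsVal] using ofBits_lt ((List.range κ.2.1).map (shift (E.off P D κ) ρ))
  · exact hw.idx_lt P D κ h hκ (by simpa using h1)

theorem inW_of_mem_sts {P : Pa} {D : De} {i : ℕ} {z : St} (h : z ∈ E.sts P D i) :
    E.inW P D z := by
  simpa using (List.mem_filter.1 h).2

theorem fst_of_mem_sts {P : Pa} {D : De} {i : ℕ} {z : St} (h : z ∈ E.sts P D i) :
    ∃ s < 2 ^ (E.om P D - E.gam P D), z.1 = i * 2 ^ E.om P D + s * 2 ^ E.gam P D := by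
  obtain ⟨s, hs, h⟩ := List.mem_flatMap.1 (List.mem_filter.1 h).1
  obtain ⟨t, -, rfl⟩ := List.mem_map.1 h
  exact ⟨s, List.mem_range.1 hs, rfl⟩

/-- The entry column of a state of block `i` lies in block `i`. -/
theorem div_of_mem_sts {P : Pa} {D : De} (hg : E.gam P D ≤ E.om P D) {i : ℕ} {z : St}
    (h : z ∈ E.sts P D i) : z.1 / 2 ^ E.om P D = i := by
  obtain ⟨s, hs, e⟩ := fst_of_mem_sts h
  have h1 : s * 2 ^ E.gam P D < 2 ^ E.om P D := by
    rw [← Nat.sub_add_cancel hg, pow_add]
    exact Nat.mul_lt_mul_of_pos_right hs (by positivity)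
  rw [e, Nat.add_comm, Nat.add_mul_div_right _ _ (by positivity), Nat.div_eq_of_lt h1, Nat.zero_add]

theorem mem_sts {P : Pa} {D : De} (hg : E.gam P D ≤ E.om P D) {z : St} (h : E.inW P D z) :
    z ∈ E.sts P D (z.1 / 2 ^ E.om P D) := by
  refine List.mem_filter.2 ⟨?_, by simpa using h⟩
  obtain ⟨-, -, ⟨a, ha⟩, ⟨b, hb⟩, hd⟩ := h
  obtain ⟨z1, z2⟩ := z
  simp only at ha hb hd ⊢
  subst ha hb
  have e : 2 ^ E.om P D = 2 ^ E.gam P D * 2 ^ (E.om P D - E.gam P D) := by
    rw [← pow_add, Nat.add_sub_cancel' hg]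
  have hG : 0 < 2 ^ E.gam P D := by positivity
  have hC : 0 < 2 ^ (E.om P D - E.gam P D) := by positivity
  rw [e]
  generalize 2 ^ E.gam P D = g at *
  generalize 2 ^ (E.om P D - E.gam P D) = C at *
  rw [Nat.dist_mul_left, Nat.mul_comm, ← Nat.le_div_iff_mul_le hG] at hd
  generalize E.wid P D / g = w at *
  have e1 : g * a / (g * C) * (g * C) + a % C * g = g * a := by
    rw [Nat.mul_div_mul_left _ _ hG]
    conv_rhs => rw [← Nat.div_add_mod' a C]
    ring
  unfold Nat.dist at hd
  refine List.mem_flatMap.2 ⟨a % C, List.mem_range.2 (Nat.mod_lt _ hC),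
    List.mem_map.2 ⟨b + w - a, List.mem_range.2 (by omega), ?_⟩⟩
  rw [e1, Nat.mul_comm g a, ← Nat.add_mul, ← Nat.sub_mul, show a + (b + w - a) - w = b by omega,
    Nat.mul_comm g b]

theorem blk_eq_nil (c : Call Pa De) {i : ℕ} (hi : E.nb c.P c.D ≤ i) : E.blk c i = [] := by
  rw [blk, List.map_eq_nil_iff, List.eq_nil_iff_forall_not_mem]
  intro z hz
  obtain ⟨s, -, e⟩ := fst_of_mem_sts hz
  have h1 := (inW_of_mem_sts hz).1
  have h2 : i ≤ E.X c.P / 2 ^ E.om c.P c.D := (Nat.le_div_iff_mul_le (by positivity)).2 (by omega)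
  unfold nb at hi
  omega

theorem blk_sound (c : Call Pa De) (i : ℕ) : ∀ p ∈ E.blk c i, p.2 = E.val c p.1 := by
  intro p hp
  obtain ⟨z, -, rfl⟩ := List.mem_map.1 hp
  rfl

theorem val_of_not_inW (c : Call Pa De) {z : St} (h : ¬ E.inW c.P c.D z) : E.val c z = E.X c.P := by
  rw [val, ev, if_neg h]

theorem mem_blk (c : Call Pa De) (hg : E.gam c.P c.D ≤ E.om c.P c.D) {z : St} (h : E.inW c.P c.D z) :
    (z, E.val c z) ∈ E.blk c (z.1 / 2 ^ E.om c.P c.D) :=
  List.mem_map.2 ⟨z, mem_sts hg h, rfl⟩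

theorem div_lt_nb {P : Pa} {D : De} {a : ℕ} (h : a ≤ E.X P) : a / 2 ^ E.om P D < E.nb P D :=
  Nat.lt_succ_of_le (Nat.div_le_div_right h)

theorem lookup_ents (c : Call Pa De) (i : ℕ) (κ : Key De) :
    (E.ents c i).lookup κ = if κ ∈ E.plan c.P c.D then some (E.ent c κ i).2 else none := by
  have h := sem_lookup (v := fun κ => (E.ent c κ i).2) (l := E.ents c i) (fun p hp => by
    obtain ⟨κ', -, rfl⟩ := List.mem_map.1 (List.mem_reverse.1 hp)
    rfl) κ
  split_ifs with hκ
  · exact h.1 (List.mem_reverse.2 (List.mem_map.2 ⟨κ, hκ, rfl⟩))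
  · refine h.2 fun hp => hκ ?_
    obtain ⟨κ', h1, h2⟩ := List.mem_map.1 (List.mem_reverse.1 hp)
    exact (show κ' = κ from congrArg Prod.fst h2) ▸ h1

/-- **The block function is correct.**  Unfold `ev` once.  All association lists in `ent c κ i`
are *sound* (`p.2 = val (subCall c κ) p.1`), so a lookup returns the value of the table if the
key is present; it is present if it is a state (`mem_sts`; its block `z'.1 / 2 ^ om'` is one of the
merged blocks of the regridded block `z'.1 / 2 ^ om ∈ {i - 1, i, i + 1}`), and otherwise the table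
has the default value `X`.  `hg` is used for `D` and for the requested descriptors. -/
theorem blk_eq_bf (hw : E.Wf Good) (hg : ∀ P D, Good P D → E.gam P D ≤ E.om P D)
    (c : Call Pa De) (h : Good c.P c.D) {i : ℕ} (hi : i < E.nb c.P c.D) :
    E.blk c i = E.bf c.P c.D i (E.mw c i) (E.ents c i) := by
  refine List.map_congr_left fun z hz => ?_
  have hzi := div_of_mem_sts (hg _ _ h) hz
  have hB : 0 < 2 ^ E.om c.P c.D := by positivity
  rw [val, ev, if_pos (inW_of_mem_sts hz)]
  congr 2
  · funext κ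
    rw [bI, lookup_ents]
    split_ifs with hκ
    · rfl
    · exact E.idx_of_not_mem _ hκ
  · funext κ z'
    rw [bG, lookup_ents]
    by_cases hκ : κ ∈ E.plan c.P c.D
    · rw [if_pos hκ, Option.map_some, Option.getD_some]
      by_cases hz' : z'.1 ≤ E.X c.P ∧ Nat.dist z'.1 z.1 ≤ 2 ^ E.om c.P c.D
      · rw [if_pos hz', dif_pos ⟨pot_sub_lt hw h hκ, hκ, hz'⟩]
        refine (sem_lookup_getD (v := E.val (E.subCall c κ)) (fun p hp => ?_) ?_).symm
        · obtain ⟨t, hp⟩ := sem_of_mem_glueF hp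
          obtain ⟨l, hl, hp⟩ := List.mem_flatten.1 hp
          obtain ⟨s, -, rfl⟩ := List.mem_map.1 hl
          exact blk_sound _ _ p hp
        · by_cases hW : E.inW c.P κ.1 (rdn (E.gam c.P κ.1) z')
          · have hg' := hg _ _ (hw.sub _ _ _ h hκ)
            have h1 := mem_blk (E.subCall c κ) hg' hW
            obtain ⟨s, hs, e⟩ := sem_regrid (o := E.om c.P c.D) (o' := E.om c.P κ.1) hz'.1
            refine Or.inl (sem_mem_glueF (div_lt_nb hz'.1) (hzi ▸ sem_near hB hz'.2)
              (List.mem_flatten.2 ⟨_, List.mem_map.2 ⟨s, List.mem_range.2 hs, rfl⟩, ?_⟩))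
            rw [gR, rR, e, ← sem_rdn_div hg']
            exact h1
          · exact Or.inr (val_of_not_inW (E.subCall c κ) hW)
      · rw [if_neg hz', dif_neg fun h' => hz' h'.2.2]
    · rw [if_neg hκ, dif_neg fun h' => hκ h'.2.1]
      rfl
  · funext b
    rw [bM]
    by_cases hb : E.hgt c.D = 0 ∧ b ≤ E.X c.P ∧ Nat.dist b z.1 ≤ 2 ^ E.om c.P c.D
    · congr 1
      have ht : b / 2 ^ E.om c.P c.D < E.nb c.P c.D := div_lt_nb hb.2.1
      have hr := Nat.mod_lt b hB
      have h1 := sem_glueF_getD (f := fun t => ((E.mrow c).drop (2 ^ E.om c.P c.D * t)).take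
        (2 ^ E.om c.P c.D)) false (fun t ht => by
          have := Nat.mul_le_mul_left (2 ^ E.om c.P c.D) (Nat.succ_le_of_lt ht)
          simp only [mrow, List.length_take, List.length_drop, List.length_map, List.length_range]
          rw [Nat.mul_succ] at this
          omega) hi ht (hzi ▸ sem_near hB hb.2.2) hr
      have h2 : b < 2 ^ E.om c.P c.D * E.nb c.P c.D := by
        rw [Nat.mul_comm]
        exact (Nat.div_lt_iff_lt_mul hB).1 ht
      rw [Nat.div_add_mod'] at h1
      rw [mw, if_pos hb.1, h1, List.getD_eq_getElem?_getD, List.getElem?_take_of_lt hr, List.getElem?_drop,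
        Nat.div_add_mod]
      simp [mrow, h2, hb.2.1]
    · simp only [hb, decide_false, Bool.false_and]

/-- Reading the answer off the output. -/
theorem lookup_out (c : Call Pa De) (hg : E.gam c.P c.D ≤ E.om c.P c.D) (z : St) :
    ((E.out c).flatten.lookup z).getD (E.X c.P : ℚ) = E.val c z := by
  refine sem_lookup_getD (v := E.val c) (fun p hp => ?_) ?_
  · obtain ⟨l, hl, hp⟩ := List.mem_flatten.1 hp
    obtain ⟨s, -, rfl⟩ := List.mem_map.1 hl
    exact blk_sound _ _ p hp
  · by_cases hW : E.inW c.P c.D z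
    · exact Or.inl (List.mem_flatten.2 ⟨_, List.mem_map.2 ⟨_, List.mem_range.2 (div_lt_nb hW.1), rfl⟩,
        mem_blk c hg hW⟩)
    · exact Or.inr (val_of_not_inW c hW)

end Eng

end Crest.Agent.R288
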