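/-
R288/EngASize: size bounds for the data of the recursive algorithm.
-/
import Crest.Agent.R288.EngASem

set_option autoImplicit false
set_option linter.unusedSectionVars false

namespace Crest.Agent.R288

open Crest.Agent.Lib.PolyTime Crest.Agent.R326

namespace Eng

variable {Pa De : Type} [DecidableEq De] [Enc Pa] [Enc De] {E : Eng Pa De}
  {Good : Pa → De → Prop} {Q : Pa → ℕ}

theorem EngASize_nb_le (P : Pa) (D : De) : E.nb P D ≤ E.X P + 1 :=
  Nat.add_le_add_right (Nat.div_le_self _ _) 1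

theorem EngASize_flatten {β : Type} [Enc β] (l : List (List β)) : esize l.flatten ≤ esize l := by
  induction l with
  | nil => exact le_rfl
  | cons a l ih =>
    have := esize_append_le a l.flatten
    rw [List.flatten_cons, esize_cons]
    omega

theorem EngASize_glue {β : Type} [Enc β] {f : ℕ → List β} {B : ℕ} (h : ∀ i, esize (f i) ≤ B)
    (n i : ℕ) : esize (glueF n f i) ≤ 3 * B := by
  have h0 : esize ([] : List β) ≤ B := (esize_pos (f 0)).trans_le (h 0)
  have h1 : esize (if i = 0 then [] else f (i - 1)) ≤ B := by split_ifs; exacts [h0, h _]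
  have h2 : esize (if i + 1 < n then f (i + 1) else []) ≤ B := by split_ifs; exacts [h _, h0]
  have h3 := h i
  have h4 := esize_append_le (if i = 0 then [] else f (i - 1)) (f i)
  refine (esize_append_le _ _).trans ?_
  omega

theorem EngASize_reg {β : Type} [Enc β] {f : ℕ → List β} {B : ℕ} (h : ∀ i, esize (f i) ≤ B)
    (g r t : ℕ) : esize (regF g r f t) ≤ g * (B + 1) + 1 := by
  refine (EngASize_flatten _).trans ((esize_list_le (B := B) fun a ha => ?_).trans (by simp))
  obtain ⟨s, -, rfl⟩ := List.mem_map.1 ha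
  exact h _

theorem EngASize_range {β : Type} [Enc β] {f : ℕ → β} {B : ℕ} (h : ∀ i, esize (f i) ≤ B)
    (n : ℕ) : esize ((List.range n).map f) ≤ n * (B + 1) + 1 := by
  refine (esize_list_le (B := B) fun a ha => ?_).trans (by simp)
  obtain ⟨s, -, rfl⟩ := List.mem_map.1 ha
  exact h _

theorem pol_PD (hs : E.Sm Good Q) :
    Pol (fun c : GC Good => Q c.1.P) (sz fun c => (c.1.P, c.1.D)) := by
  refine (((Pol.self _).const_mul 2).add_const 1).mono fun c => ?_
  have h1 := hs.esP _ _ c.2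
  have h2 := hs.esD _ _ c.2
  simp only [sz, esize_pair]
  omega

theorem pol_X (hs : E.Sm Good Q) :
    Pol (fun c : GC Good => Q c.1.P) (sz fun c => E.X c.1.P) := by
  exact Pol.pt (p := fun c : GC Good => (⟨(c.1.P, c.1.D), c.2⟩ : {a : Pa × De // Good a.1 a.2}))
    (pol_PD hs) hs.ptX

theorem pol_pot (hs : E.Sm Good Q) :
    Pol (fun c : GC Good => Q c.1.P) (sz fun c => E.pot c.1.P c.1.D) := by
  exact Pol.pt (p := fun c : GC Good => (⟨(c.1.P, c.1.D), c.2⟩ : {a : Pa × De // Good a.1 a.2}))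
    (pol_PD hs) hs.ptPot

theorem pol_plan (hs : E.Sm Good Q) :
    Pol (fun c : GC Good => Q c.1.P) (sz fun c => E.plan c.1.P c.1.D) := by
  exact Pol.pt (p := fun c : GC Good => (⟨(c.1.P, c.1.D), c.2⟩ : {a : Pa × De // Good a.1 a.2}))
    (pol_PD hs) hs.ptPlan

theorem pol_nb (hs : E.Sm Good Q) :
    Pol (fun c : GC Good => Q c.1.P) (sz fun c => E.nb c.1.P c.1.D) := by
  exact ((pol_X hs).add_const 6).mono fun c =>
    (esize_nat_mono (EngASize_nb_le _ _)).trans (esize_nat_succ_le _)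

theorem padM_le (hs : E.Sm Good Q) {P : Pa} {D : De} (h : Good P D) : E.padM P D ≤ 3 * Q P := by
  have h1 := hs.om_le _ _ h
  have h2 := hs.cols _ _ h
  have h3 := hs.wids _ _ h
  unfold padM
  omega

theorem pol_key (hs : E.Sm Good Q) :
    Pol (fun p : GK E Good => Q p.1.1.P) (sz fun p => p.1.2) := by
  exact ((pol_plan hs).comp fun p : GK E Good => ⟨p.1.1, p.2.1⟩).mono fun p =>
    (esize_lt_of_mem p.2.2).le

theorem pol_idx (hw : E.Wf Good) (hs : E.Sm Good Q) :
    Pol (fun p : GK E Good => Q p.1.1.P)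
      (sz fun p => E.idx p.1.1.P p.1.1.D p.1.1.ρ p.1.2) := by
  refine (((Pol.self _).const_mul 6).add_const 1).mono fun p => ?_
  have h1 := esize_nat_le_of_lt_two_pow (idx_lt_two_pow hw p.2.1 p.2.2 p.1.1.ρ)
  have h2 := hw.hgt_eq _ _ _ p.2.1 p.2.2
  have h3 := hs.hgt_le _ _ p.2.1
  simp only [sz]
  omega

theorem pol_blk (hs : E.Sm Good Q) :
    Pol (fun p : GC Good × ℕ => Q p.1.1.P) (sz fun p => E.blk p.1.1 p.2) := by
  refine Pol.list (B := fun p => 2 * esize (E.X p.1.1.P) + Q p.1.1.P + 2) ?_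
    (((((pol_X hs).comp fun p : GC Good × ℕ => p.1).const_mul 2).add (Pol.self _)).add_const 2) ?_
  · refine ((Pol.self _).mul (((Pol.self _).const_mul 2).add_const 1)).mono fun p => ?_
    have h1 := hs.cols _ _ p.1.2
    have h2 := hs.wids _ _ p.1.2
    rw [blk, List.length_map, sts]
    refine (List.length_filter_le _ _).trans ?_
    simp only [List.length_flatMap, List.length_map, List.length_range, List.map_const',
      List.sum_replicate, smul_eq_mul]
    exact Nat.mul_le_mul h1 (by omega)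
  · intro p y hy
    obtain ⟨z, hz, rfl⟩ := List.mem_map.1 hy
    have h1 := inW_of_mem_sts hz
    have h2 : esize (E.val p.1.1 z) ≤ Q p.1.1.P := by
      rw [val, ev, if_pos h1]
      exact hs.out _ _ _ _ _ _ p.1.2
    have h3 := esize_nat_mono h1.1
    have h4 := esize_nat_mono h1.2.1
    rw [esize_pair, esize_prod z]
    omega

theorem pol_ent (hw : E.Wf Good) (hs : E.Sm Good Q) :
    Pol (fun p : GK E Good × ℕ => Q p.1.1.1.P) (sz fun p => E.ent p.1.1.1 p.1.1.2 p.2) := by
  obtain ⟨k, hk⟩ := pol_blk hs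
  refine ((pol_key hs).comp fun p : GK E Good × ℕ => p.1).pair
    (((pol_idx hw hs).comp fun p : GK E Good × ℕ => p.1).pair (Pol.pair (Pol.nat (Pol.of_le
      fun p => ?_)) ?_))
  · have h := hw.sub _ _ _ p.1.2.1 p.1.2.2
    exact (hs.gam_le _ _ h).trans (hs.om_le _ _ h)
  · have hB : Pol (fun p : GK E Good × ℕ => Q p.1.1.1.P) fun p => (Q p.1.1.1.P + 2) ^ k :=
      ⟨k, fun _ => le_rfl⟩
    refine ((((Pol.self _).mul (hB.add_const 1)).add_const 1).const_mul 3).mono fun p => ?_
    refine EngASize_glue (fun i => (EngASize_reg (B := (Q p.1.1.1.P + 2) ^ k) (fun t => ?_)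
      _ _ _).trans ?_) _ _
    · exact hk (⟨E.subCall p.1.1.1 p.1.1.2, hw.sub _ _ _ p.1.2.1 p.1.2.2⟩, t)
    · exact Nat.add_le_add_right (Nat.mul_le_mul_right _ (hs.regrid _ _ _ p.1.2.1 p.1.2.2)) 1

theorem pol_ents (hw : E.Wf Good) (hs : E.Sm Good Q) :
    Pol (fun p : GC Good × ℕ => Q p.1.1.P) (sz fun p => E.ents p.1.1 p.2) := by
  obtain ⟨k, hk⟩ := pol_ent hw hs
  refine Pol.list (B := fun p => (Q p.1.1.P + 2) ^ k)
    (((pol_plan hs).length.comp fun p : GC Good × ℕ => p.1).mono fun p => by simp [ents])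
    ⟨k, fun _ => le_rfl⟩ fun p y hy => ?_
  rw [ents, List.mem_reverse] at hy
  obtain ⟨κ, hκ, rfl⟩ := List.mem_map.1 hy
  exact hk (⟨(p.1.1, κ), p.1.2, hκ⟩, p.2)

theorem pol_mw (hs : E.Sm Good Q) :
    Pol (fun p : GC Good × ℕ => Q p.1.1.P) (sz fun p => E.mw p.1.1 p.2) := by
  refine ((((Pol.self _).const_mul 4).add_const 1).const_mul 3).mono fun p => ?_
  simp only [sz, mw]
  split_ifs with h
  · refine EngASize_glue (fun t => (esize_boolList_le _).trans ?_) _ _
    have h1 := hs.leaf _ _ p.1.2 h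
    have h2 := List.length_take_le (2 ^ E.om p.1.1.P p.1.1.D)
      ((E.mrow p.1.1).drop (2 ^ E.om p.1.1.P p.1.1.D * t))
    omega
  · rw [esize_nil]
    omega

theorem nb_le (P : Pa) (D : De) : E.nb P D ≤ E.X P + 1 := by
  exact EngASize_nb_le P D

/-- The regridding parameters fit: the padded list has `gR * mR` blocks. -/
theorem nb_le_gR_mul_mR (P : Pa) (D : De) (κ : Key De) :
    E.nb P κ.1 ≤ E.gR P D κ * E.mR P D κ := by
  unfold nb gR mR
  rcases le_total (E.om P D) (E.om P κ.1) with h | h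
  · rw [max_eq_right h, Nat.sub_eq_zero_of_le h, pow_zero, one_mul]
  · obtain ⟨d, hd⟩ := Nat.exists_eq_add_of_le h
    rw [max_eq_left h, hd, Nat.add_sub_cancel_left, pow_add, ← Nat.div_div_eq_div_mul]
    exact Nat.lt_mul_div_succ _ (Nat.two_pow_pos d)

theorem nb_le_mR_mul_rR (P : Pa) (D : De) (κ : Key De) :
    E.nb P D ≤ E.mR P D κ * E.rR P D κ := by
  unfold nb rR mR
  rcases le_total (E.om P κ.1) (E.om P D) with h | h
  · rw [max_eq_left h, Nat.sub_eq_zero_of_le h, Nat.zero_min, pow_zero, mul_one]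
  · obtain ⟨d, hd⟩ := Nat.exists_eq_add_of_le h
    rw [max_eq_right h, hd, Nat.add_sub_cancel_left]
    rcases le_total d (E.X P).size with h1 | h1
    · rw [min_eq_left h1, pow_add, ← Nat.div_div_eq_div_mul, mul_comm]
      exact Nat.lt_mul_div_succ _ (Nat.two_pow_pos d)
    · rw [min_eq_right h1]
      exact ((Nat.div_le_self _ _).trans_lt (Nat.lt_size_self _)).trans_le
        (Nat.le_mul_of_pos_left _ (Nat.succ_pos _))

theorem mR_mul_rR_le (P : Pa) (D : De) (κ : Key De) :
    E.mR P D κ * E.rR P D κ ≤ 3 * (E.X P + 1) := by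
  unfold rR mR
  have h1 : 2 ^ min (E.om P κ.1 - E.om P D) (E.X P).size ≤ 2 * E.X P + 1 := by
    refine (Nat.pow_le_pow_right (by norm_num) (min_le_right _ _)).trans ?_
    rcases h : (E.X P).size with _ | s
    · simp
    · have := Nat.lt_size.1 (show s < (E.X P).size by omega)
      rw [pow_succ]
      omega
  have h2 : E.X P / 2 ^ max (E.om P D) (E.om P κ.1) * 2 ^ min (E.om P κ.1 - E.om P D) (E.X P).size
      ≤ E.X P := (Nat.mul_le_mul_left _ (Nat.pow_le_pow_right (by norm_num) (by omega))).trans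
        (Nat.div_mul_le_self _ _)
  rw [add_mul, one_mul]
  omega

/-- A polynomial times `X + 1` is within the basic budget. -/
theorem pol_mul_X_ole (hw : E.Wf Good) {α : Type} {c : α → Call Pa De}
    (h : ∀ a, Good (c a).P (c a).D) {f : α → ℕ} (hf : Pol (fun a => Q (c a).P) f) :
    (fun a => f a * (E.X (c a).P + 1)) ≼ fun a => E.W Q (c a) := by
  exact (hf.ole.mul (OLe.refl _)).mono_right fun a => Nat.mul_le_mul_left _
    ((Nat.le_mul_of_pos_right _ (hw.pot_pos _ _ (h a))).trans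
      (Nat.le_mul_of_pos_left _ (Nat.succ_pos _)))

/-- A polynomial times `pot` is within the basic budget. -/
theorem pol_mul_pot_ole {α : Type} {c : α → Call Pa De} {f : α → ℕ}
    (hf : Pol (fun a => Q (c a).P) f) :
    (fun a => f a * E.pot (c a).P (c a).D) ≼ fun a => E.W Q (c a) := by
  exact (hf.ole.mul (OLe.refl _)).mono_right fun a => Nat.mul_le_mul_left _
    ((Nat.le_mul_of_pos_left _ (Nat.succ_pos _)).trans
      (Nat.le_mul_of_pos_left _ (Nat.succ_pos _)))

theorem q1_le_W (hw : E.Wf Good) {c : Call Pa De} (h : Good c.P c.D) : q1 (Q c.P) ≤ E.W Q c := by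
  exact Nat.le_mul_of_pos_right _
    (Nat.mul_pos (Nat.succ_pos _) (Nat.mul_pos (Nat.succ_pos _) (hw.pot_pos _ _ h)))

theorem len_ole (hs : E.Sm Good Q) :
    (fun c : GC Good => 2 ^ E.hgt c.1.D) ≼ fun c => E.W Q c.1 := by
  exact (((Pol.self fun c : GC Good => Q c.1.P).ole.mul
    (OLe.refl fun c => (E.X c.1.P + 1) * E.pot c.1.P c.1.D)).mono_left fun c =>
      (hs.len_le _ _ c.2).trans_eq (mul_comm _ _)).mono_right fun c =>
    Nat.mul_le_mul_left _ (Nat.le_mul_of_pos_left _ (Nat.succ_pos _))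

theorem EngASize_foldr {l : List ℕ} {n : ℕ} (h : n ∈ l) : n ≤ l.foldr max 0 := by
  induction l with
  | nil => simp at h
  | cons a l ih =>
    rcases List.mem_cons.1 h with rfl | h
    · exact le_max_left _ _
    · exact (ih h).trans (le_max_right _ _)

theorem size_le_symBits_x {x y : List ℕ} {n : ℕ} (h : n ∈ x) : n.size ≤ symBits x y := by
  exact EngASize_foldr (List.mem_map_of_mem (List.mem_append_left _ h))

theorem size_le_symBits_y {x y : List ℕ} {n : ℕ} (h : n ∈ y) : n.size ≤ symBits x y := by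
  exact EngASize_foldr (List.mem_map_of_mem (List.mem_append_right _ h))

theorem EngASize_opt {l : List ℕ} {b : ℕ} (h : ∀ n ∈ l, n.size ≤ b) (i : ℕ) :
    esize l[i]? ≤ 6 * b + 3 := by
  rcases hi : l[i]? with _ | n
  · rw [esize_none]
    omega
  · have := h n (List.mem_of_getElem? hi)
    rw [esize_some, esize_nat]
    omega

theorem sz_inp (hw : E.Wf Good) (hs : E.Sm Good Q) :
    sz (fun c : GC Good => E.inp c.1) ≼ fun c => E.W Q c.1 := by
  have h1 : ∀ c : GC Good, 1 ≤ E.W Q c.1 := fun c => (q1_pos _).trans (q1_le_W hw c.2)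
  have h2 : (fun c : GC Good => (2 ^ E.hgt c.1.D + E.X c.1.P + 1) * (symBits c.1.x c.1.y + 1))
      ≼ fun c => E.W Q c.1 := by
    refine ((((Pol.self fun c : GC Good => Q c.1.P).add_const 1).ole.mul (OLe.refl fun c =>
      (symBits c.1.x c.1.y + 1) * ((E.X c.1.P + 1) * E.pot c.1.P c.1.D))).mono_left fun c => ?_)
    have a1 := hs.len_le _ _ c.2
    have a2 : E.X c.1.P + 1 ≤ (E.X c.1.P + 1) * E.pot c.1.P c.1.D :=
      Nat.le_mul_of_pos_right _ (hw.pot_pos _ _ c.2)
    rw [mul_left_comm, mul_comm]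
    refine Nat.mul_le_mul_left _ ?_
    rw [add_mul, one_mul, mul_comm (Q c.1.P)]
    omega
  refine sz_pair ((pol_PD hs).ole' fun c => q1_le_W hw c.2) (sz_pair ?_ (sz_pair ?_ (sz_pair ?_ ?_)))
  · refine ((h2.mul_const 6).add_const h1 1).mono_left fun c => ?_
    refine (EngASize_range (fun i => EngASize_opt (fun n hn => size_le_symBits_x (y := c.1.y) hn) _)
      _).trans (Nat.add_le_add_right ?_ 1)
    rw [mul_assoc]
    exact Nat.mul_le_mul (by omega) (by omega)
  · refine ((h2.mul_const 6).add_const h1 1).mono_left fun c => ?_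
    refine (EngASize_range (B := 6 * symBits c.1.x c.1.y + 3) (fun i => ?_) _).trans
      (Nat.add_le_add_right ?_ 1)
    · rw [ysym]
      split_ifs
      · exact EngASize_opt (fun n hn => size_le_symBits_y hn) _
      · rw [esize_none]
        omega
    · rw [mul_assoc]
      exact Nat.mul_le_mul le_rfl (by omega)
  · refine ((pol_mul_pot_ole (c := fun c : GC Good => c.1) (Pol.const _ 4)).add_const h1
      1).mono_left fun c => (esize_boolList_le _).trans (by simp [own])
  · refine ((pol_mul_pot_ole (c := fun c : GC Good => c.1) ((Pol.self _).const_mul 6)).add_const h1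
      1).mono_left fun c => ?_
    refine (EngASize_range (B := 4 * E.pot c.1.P c.1.D + 1)
      (fun i => (esize_boolList_le _).trans (by simp)) _).trans (Nat.add_le_add_right ?_ 1)
    have a1 := hw.pot_pos _ _ c.2
    rw [mul_comm 6, mul_assoc]
    exact Nat.mul_le_mul (hs.tp_le _ _ c.2) (by omega)

theorem sz_out (hw : E.Wf Good) (hs : E.Sm Good Q) :
    sz (fun c : GC Good => E.out c.1) ≼ fun c => E.W Q c.1 := by
  obtain ⟨k, hk⟩ := pol_blk hs
  have hB : Pol (fun c : GC Good => Q c.1.P) fun c => (Q c.1.P + 2) ^ k := ⟨k, fun _ => le_rfl⟩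
  refine (pol_mul_X_ole hw (c := fun c : GC Good => c.1) (fun c => c.2)
    (hB.add_const 2)).mono_left fun c => ?_
  refine (EngASize_range (B := (Q c.1.P + 2) ^ k) (fun i => hk (c, i)) _).trans ?_
  have h1 := Nat.mul_le_mul_right ((Q c.1.P + 2) ^ k + 1) (nb_le (E := E) c.1.P c.1.D)
  nlinarith

theorem W_subCall_le (hw : E.Wf Good) {c : Call Pa De} (h : Good c.P c.D) {κ : Key De}
    (hκ : κ ∈ E.plan c.P c.D) : E.W Q (E.subCall c κ) ≤ E.W Q c := by
  exact Nat.mul_le_mul_left _ (Nat.mul_le_mul_left _ (Nat.mul_le_mul_left _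
    (pot_sub_lt hw h hκ).le))

/-- The cost of the transposition. -/
theorem sz_allEnts (hw : E.Wf Good) (hs : E.Sm Good Q) :
    (fun c : GC Good => (E.plan c.1.P c.1.D).length *
      (esize ((E.plan c.1.P c.1.D).map fun κ =>
        (List.range (E.nb c.1.P c.1.D)).map (E.ent c.1 κ)) + 2 * E.nb c.1.P c.1.D + 1)) ≼
      fun c => E.W Q c.1 := by
  obtain ⟨k, hk⟩ := pol_ent hw hs
  have hB : Pol (fun c : GC Good => Q c.1.P) fun c => (Q c.1.P + 2) ^ k := ⟨k, fun _ => le_rfl⟩
  have hl := (pol_plan hs).length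
  refine (pol_mul_X_ole hw (c := fun c : GC Good => c.1) (fun c => c.2)
    (hl.mul ((hl.mul (hB.add_const 3)).add_const 4))).mono_left fun c => ?_
  rw [mul_assoc]
  refine Nat.mul_le_mul_left _ ?_
  have h0 := nb_le (E := E) c.1.P c.1.D
  have h1 : esize ((E.plan c.1.P c.1.D).map fun κ =>
      (List.range (E.nb c.1.P c.1.D)).map (E.ent c.1 κ)) ≤ (E.plan c.1.P c.1.D).length *
        (E.nb c.1.P c.1.D * ((Q c.1.P + 2) ^ k + 1) + 1 + 1) + 1 := by
    refine (esize_list_le fun a ha => ?_).trans (by rw [List.length_map])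
    obtain ⟨κ, hκ, rfl⟩ := List.mem_map.1 ha
    exact EngASize_range (fun i => hk (⟨(c.1, κ), c.2, hκ⟩, i)) _
  have h2 : E.nb c.1.P c.1.D * ((Q c.1.P + 2) ^ k + 1) + 1 + 1
      ≤ ((Q c.1.P + 2) ^ k + 3) * (E.X c.1.P + 1) := by
    have := Nat.mul_le_mul_right ((Q c.1.P + 2) ^ k + 1) h0
    nlinarith
  have h3 := Nat.mul_le_mul_left (E.plan c.1.P c.1.D).length h2
  rw [add_mul, mul_assoc]
  omega

end Eng

end Crest.Agent.R288
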