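/-
R288/EngAPT: polynomial-time computations on small data.
-/
import Crest.Agent.R288.EngASize

set_option autoImplicit false
set_option linter.unusedSectionVars false

namespace Crest.Agent.R288

open Crest.Agent.Lib.PolyTime Crest.Agent.R326

/-- `rdn γ z` with `γ` in binary: `a / 2 ^ γ * 2 ^ γ = (a >>> γ) <<< min γ a.size`. -/
theorem pt_rdn_pair : PT fun p : ℕ × St => rdn p.1 p.2 := by
  have key : ∀ g a : ℕ, (a >>> g) <<< min g a.size = a / 2 ^ g * 2 ^ g := by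
    intro g a
    rw [Nat.shiftLeft_eq, Nat.shiftRight_eq_div_pow]
    rcases le_total g a.size with h | h
    · rw [min_eq_left h]
    · rw [Nat.div_eq_of_lt ((Nat.lt_size_self a).trans_le (Nat.pow_le_pow_right (by norm_num) h)),
        zero_mul, zero_mul]
  have h1 : ∀ {f : ℕ × St → ℕ}, PT f → PT fun p : ℕ × St => f p / 2 ^ p.1 * 2 ^ p.1 :=
    fun {f} hf => ((hf.shiftRight PT.fst').shiftLeft (PT.nat_min PT.fst' hf.natSize)
      (PB.min_right (PB.natSize hf))).of_eq fun p => key _ _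
  exact (h1 PT.snd'.fst).prodMk (h1 PT.snd'.snd)

namespace Eng

variable {Pa De : Type} [DecidableEq De] [Enc Pa] [Enc De] {E : Eng Pa De}
  {Good : Pa → De → Prop} {Q : Pa → ℕ}

@[fun_prop] theorem EngAPT_dist {α : Type} [Enc α] {f g : α → ℕ} (hf : PT f) (hg : PT g) :
    PT fun a => Nat.dist (f a) (g a) := (hf.nat_sub hg).nat_add (hg.nat_sub hf)

theorem EngAPT_lift {β : Type} [Enc β] {f : {a : Pa × De // Good a.1 a.2} → β} (hf : PT f) :
    PT fun p : GS E Good => f ⟨p.1.1, p.2.1⟩ :=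
  hf.comp (PT.subtypeMk (PT.subtypeVal PT.id').fst _)

theorem EngAPT_pad : PB fun p : GS E Good => E.padM p.1.1.1 p.1.1.2 :=
  (PB.length (PT.subtypeVal PT.id').snd).mono fun p => p.2.2

theorem EngAPT_pbOm : PB fun p : GS E Good => E.om p.1.1.1 p.1.1.2 :=
  EngAPT_pad.mono fun _ => (Nat.le_add_right _ _).trans (Nat.le_add_right _ _)

theorem EngAPT_twoOm (hs : E.Sm Good Q) : PT fun p : GS E Good => 2 ^ E.om p.1.1.1 p.1.1.2 :=
  (PT.const 2).nat_pow (EngAPT_lift hs.ptOm) EngAPT_pbOm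

theorem EngAPT_twoGam (hs : E.Sm Good Q) : PT fun p : GS E Good => 2 ^ E.gam p.1.1.1 p.1.1.2 :=
  (PT.const 2).nat_pow (EngAPT_lift hs.ptGam) (EngAPT_pbOm.mono fun p => hs.gam_le _ _ p.2.1)

theorem EngAPT_toGS : PT fun p : GSK E Good => (⟨p.1.1, p.2.1⟩ : GS E Good) :=
  PT.subtypeMk (PT.subtypeVal PT.id').fst _

theorem pt_nb (hs : E.Sm Good Q) :
    PT fun a : {a : Pa × De // Good a.1 a.2} => E.nb a.1.1 a.1.2 := by
  exact ((hs.ptX.shiftRight hs.ptOm).nat_add (PT.const 1)).of_eq fun a => by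
    rw [Nat.shiftRight_eq_div_pow]; rfl

theorem pt_sts (hs : E.Sm Good Q) :
    PT fun p : GS E Good × ℕ => E.sts p.1.1.1.1 p.1.1.1.2 p.2 := by
  have hX := EngAPT_lift hs.ptX (E := E)
  have hO := EngAPT_twoOm hs
  have hG := EngAPT_twoGam hs
  have hW := EngAPT_lift hs.ptWid (E := E)
  have hC : PT fun p : GS E Good => 2 ^ (E.om p.1.1.1 p.1.1.2 - E.gam p.1.1.1 p.1.1.2) :=
    (PT.const 2).nat_pow ((EngAPT_lift hs.ptOm).nat_sub (EngAPT_lift hs.ptGam))
      (PB.sub EngAPT_pbOm)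
  have hC' : PB fun p : GS E Good => 2 ^ (E.om p.1.1.1 p.1.1.2 - E.gam p.1.1.1 p.1.1.2) :=
    EngAPT_pad.mono fun p => (Nat.le_add_left _ _).trans (Nat.le_add_right _ _)
  have hD' : PB fun p : GS E Good => E.wid p.1.1.1 p.1.1.2 / 2 ^ E.gam p.1.1.1 p.1.1.2 :=
    EngAPT_pad.mono fun p => Nat.le_add_left _ _
  have key : ∀ {β : Type} [Enc β] (Xf O G W C : β → ℕ), PT Xf → PT O → PT G → PT W → PT C →
      PB C → PB (fun b => W b / G b) → PT fun p : β × ℕ =>
        ((List.range (C p.1)).flatMap fun s =>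
          (List.range (2 * (W p.1 / G p.1) + 1)).map fun t =>
            (p.2 * O p.1 + s * G p.1, p.2 * O p.1 + s * G p.1 + t * G p.1 -
              W p.1 / G p.1 * G p.1)).filter fun z : St => decide
          (z.1 ≤ Xf p.1 ∧ z.2 ≤ Xf p.1 ∧ G p.1 ∣ z.1 ∧ G p.1 ∣ z.2 ∧
            Nat.dist z.1 z.2 ≤ W p.1) := by
    intro β _ Xf O G W C hX hO hG hW hC hC' hD'
    refine PT.filter (PT.flatMap (PT.range (hC.comp PT.fst') (hC'.comp PT.fst'))
      (PT.map (PT.range (by fun_prop) (((PB.const 2).mul (hD'.comp PT.fst'.fst)).add (PB.const 1)))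
        (by fun_prop))) (PT.decide (by fun_prop))
  exact (key _ _ _ _ _ hX hO hG hW hC hC' hD').of_eq fun p => by
    unfold sts
    congr 1

/-- The block function is polynomial-time (`ptRule` with `α = (small data) × St`). -/
theorem pt_bf (hs : E.Sm Good Q) :
    PT fun p : (GS E Good × ℕ) × List Bool × List (Ent De) =>
      E.bf p.1.1.1.1.1 p.1.1.1.1.2 p.1.2 p.2.1 p.2.2 := by
  have hs0 : PT fun p : (GS E Good × ℕ) × List Bool × List (Ent De) =>
      E.sts p.1.1.1.1.1 p.1.1.1.1.2 p.1.2 := (pt_sts hs).comp PT.fst'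
  unfold bf
  refine PT.map hs0 (PT.prodMk PT.snd' ?_)
  have hX := EngAPT_lift hs.ptX (E := E)
  have hH := EngAPT_lift hs.ptHgt (E := E)
  have hO := EngAPT_twoOm hs
  have hv : PT (Subtype.val : GS E Good → _) := PT.subtypeVal PT.id'
  refine hs.ptRule (((GS E Good × ℕ) × List Bool × List (Ent De)) × St)
    (fun a => a.1.1.1.1.1.1) (fun a => a.1.1.1.1.1.2) (fun a => bI a.1.2.2)
    (fun a => E.bG a.1.1.1.1.1.1 a.1.1.1.1.1.2 a.1.2.2 a.2)
    (fun a => E.bM a.1.1.1.1.1.1 a.1.1.1.1.1.2 a.1.1.2 a.1.2.1 a.2) (fun a => a.2)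
    (fun a => a.1.1.1.2.1) (hv.comp PT.fst'.fst.fst).fst.fst (hv.comp PT.fst'.fst.fst).fst.snd
    ?_ ?_ ?_ PT.snd'
  · unfold bI
    exact PT.option_getD (PT.option_map (PT.lookup PT.snd' PT.fst'.fst.snd.snd) PT.snd'.fst)
      PT.snd'.snd.snd.fst
  · have key : ∀ {β : Type} [Enc β] (Xf O : β → ℕ) (ents : β → List (Ent De)) (z : β → St),
        PT Xf → PT O → PT ents → PT z → PT fun p : β × Key De × St =>
          (((ents p.1).lookup p.2.1).map fun e =>
            if p.2.2.1 ≤ Xf p.1 ∧ Nat.dist p.2.2.1 (z p.1).1 ≤ O p.1 then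
              (e.2.2.lookup (rdn e.2.1 p.2.2)).getD (Xf p.1 : ℚ) else (Xf p.1 : ℚ)).getD
                (Xf p.1 : ℚ) := by
      intro β _ Xf O ents z hX hO hents hz
      have h0 := pt_rdn_pair.comp (g := fun q : (β × Key De × St) × ℕ × ℕ × Tb => (q.2.2.1, q.1.2.2))
        (PT.prodMk PT.snd'.snd.fst PT.fst'.snd.snd)
      refine PT.option_getD (PT.option_map (PT.lookup PT.snd'.fst (hents.comp PT.fst'))
        (PT.ite (by fun_prop) (PT.option_getD (PT.lookup h0 PT.snd'.snd.snd)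
          (hX.comp PT.fst'.fst).rat_natCast) (hX.comp PT.fst'.fst).rat_natCast))
        (hX.comp PT.fst').rat_natCast
    exact (key (β := ((GS E Good × ℕ) × List Bool × List (Ent De)) × St) _ _ _ _
      (hX.comp PT.fst'.fst.fst) (hO.comp PT.fst'.fst.fst) PT.fst'.snd.snd PT.snd').of_eq
      fun p => by simp only [bG]
  · have key : ∀ {β : Type} [Enc β] (Xf H O i : β → ℕ) (mw : β → List Bool) (z : β → St),
        PT Xf → PT H → PT O → PT i → PT mw → PT z → PT fun p : β × ℕ =>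
          (decide (H p.1 = 0 ∧ p.2 ≤ Xf p.1 ∧ Nat.dist p.2 (z p.1).1 ≤ O p.1) &&
            (mw p.1).getD (p.2 - (i p.1 - 1) * O p.1) false) := by
      intro β _ Xf H O i mw z hX hH hO hi hmw hz
      exact PT.band (PT.decide (by fun_prop)) (PT.getD (hmw.comp PT.fst') (by fun_prop)
        (PT.const _))
    exact (key (β := ((GS E Good × ℕ) × List Bool × List (Ent De)) × St) _ _ _ _ _ _
      (hX.comp PT.fst'.fst.fst) (hH.comp PT.fst'.fst.fst) (hO.comp PT.fst'.fst.fst)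
      PT.fst'.fst.snd PT.fst'.snd.fst PT.snd').of_eq fun p => by simp only [bM]

/-- The requested descriptor with its parameters, as good data. -/
def subPD (hw : E.Wf Good) (p : GSK E Good) : {a : Pa × De // Good a.1 a.2} :=
  ⟨(p.1.1.1.1, p.1.2.1), hw.sub _ _ _ p.2.1.1 p.2.2⟩

theorem pt_subPD (hw : E.Wf Good) : PT (subPD hw : GSK E Good → _) := by
  exact PT.subtypeMk ((PT.subtypeVal PT.id').fst.fst.fst.prodMk (PT.subtypeVal PT.id').snd.fst) _

theorem pt_gR (hw : E.Wf Good) (hs : E.Sm Good Q) :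
    PT fun p : GSK E Good => E.gR p.1.1.1.1 p.1.1.1.2 p.1.2 := by
  exact (PT.const 2).nat_pow
    (((EngAPT_lift hs.ptOm).comp EngAPT_toGS).nat_sub (hs.ptOm.comp (pt_subPD hw)))
    (PB.sub (EngAPT_pbOm.comp EngAPT_toGS))

theorem pt_rR (hw : E.Wf Good) (hs : E.Sm Good Q) :
    PT fun p : GSK E Good => E.rR p.1.1.1.1 p.1.1.1.2 p.1.2 := by
  have hX := (EngAPT_lift hs.ptX (E := E)).comp EngAPT_toGS
  exact (PT.const 2).nat_pow (PT.nat_min
    ((hs.ptOm.comp (pt_subPD hw)).nat_sub ((EngAPT_lift hs.ptOm).comp EngAPT_toGS)) hX.natSize)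
    (PB.min_right (PB.natSize hX))

theorem pt_mR (hw : E.Wf Good) (hs : E.Sm Good Q) :
    PT fun p : GSK E Good => E.mR p.1.1.1.1 p.1.1.1.2 p.1.2 := by
  have hX := (EngAPT_lift hs.ptX (E := E)).comp EngAPT_toGS
  exact ((hX.shiftRight (PT.nat_max ((EngAPT_lift hs.ptOm).comp EngAPT_toGS)
    (hs.ptOm.comp (pt_subPD hw)))).nat_add (PT.const 1)).of_eq fun a => by
      rw [Nat.shiftRight_eq_div_pow]; rfl

/-- Use `if h : κ' ∈ plan then seg κ' else 0` (`PT.dite`) inside the `map`. -/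
theorem pt_off (hw : E.Wf Good) (hs : E.Sm Good Q) :
    PT fun p : GSK E Good => E.off p.1.1.1.1 p.1.1.1.2 p.1.2 := by
  have hv : PT (Subtype.val : GSK E Good → _) := PT.subtypeVal PT.id'
  have hpl : PT fun p : GSK E Good => E.plan p.1.1.1.1 p.1.1.1.2 :=
    (EngAPT_lift hs.ptPlan).comp EngAPT_toGS
  have h1 : PT fun p : GSK E Good =>
      (E.plan p.1.1.1.1 p.1.1.1.2).takeWhile fun κ' => decide (κ' ≠ p.1.2) :=
    PT.takeWhile hpl (PT.decide (PT.ne PT.snd' (hv.comp PT.fst').snd))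
  have h2 : PT fun q : GSK E Good × Key De =>
      if _h : q.2 ∈ E.plan q.1.1.1.1.1 q.1.1.1.1.2 then E.seg q.1.1.1.1.1 q.2 else 0 := by
    refine PT.dite (PT.mem_list PT.snd' (hpl.comp PT.fst')) ?_ (PT.const 0)
    have hq : PT (Subtype.val : {q : GSK E Good × Key De //
        q.2 ∈ E.plan q.1.1.1.1.1 q.1.1.1.1.2} → _) := PT.subtypeVal PT.id'
    exact hq.snd.snd.fst.nat_add (hs.ptPot.comp (PT.subtypeMk
      ((hv.comp hq.fst).fst.fst.fst.prodMk hq.snd.fst)
      fun q => hw.sub _ _ _ q.1.1.2.1.1 q.2))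
  refine (PT.map (f := fun (p : GSK E Good) (κ' : Key De) =>
    if _h : κ' ∈ E.plan p.1.1.1.1 p.1.1.1.2 then E.seg p.1.1.1.1 κ' else 0) h1 h2).nat_sum.of_eq
    fun p => ?_
  unfold off
  congr 1
  exact List.map_congr_left fun κ' hκ' => dif_pos ((List.takeWhile_sublist _).subset hκ')

/-- The good small data of a good call. -/
def gsOf (E : Eng Pa De) (c : Call Pa De) (h : Good c.P c.D) : GS E Good :=
  ⟨((c.P, c.D), un (E.padM c.P c.D)), h, by simp⟩

/-- The good small data of a good request. -/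
def gskOf (E : Eng Pa De) (c : Call Pa De) (h : Good c.P c.D) (κ : Key De)
    (hκ : κ ∈ E.plan c.P c.D) : GSK E Good :=
  ⟨(((c.P, c.D), un (E.padM c.P c.D)), κ), ⟨h, by simp⟩, hκ⟩

variable {α X : Type} [Enc X] {𝔅 : Bud α} {x : α → X} {c : α → Call Pa De}

/-- The pad is computed in two stages: first `un om`, then `un padM`. -/
theorem S_gs (hs : E.Sm Good Q) (h : ∀ a, Good (c a).P (c a).D)
    (hV : (fun a => q1 (Q (c a).P)) ≼ 𝔅.V) (hPD : L 𝔅 x fun a => ((c a).P, (c a).D)) :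
    S 𝔅 x fun a => gsOf E (c a) (h a) := by
  have hsm : ∀ {Y : Type} [Enc Y] {p : α → Y}, Pol (fun a => Q (c a).P) (sz p) → SmIn 𝔅.V p :=
    fun hp => (hp.smIn fun _ => le_rfl).mono hV
  have hPol : Pol (fun a => Q (c a).P) (sz fun a => ((c a).P, (c a).D)) :=
    (pol_PD hs).comp fun a => (⟨c a, h a⟩ : GC Good)
  have h0 : S 𝔅 x fun a => (⟨((c a).P, (c a).D), h a⟩ : {a : Pa × De // Good a.1 a.2}) :=
    ⟨hPD.of_enc_eq fun _ => rfl, hsm hPol⟩
  have hom : Pol (fun a => Q (c a).P) fun a => E.om (c a).P (c a).D :=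
    Pol.of_le fun a => hs.om_le _ _ (h a)
  have h1 : S 𝔅 x fun a => un (E.om (c a).P (c a).D) :=
    ⟨(h0.pt hs.ptOm).un (hom.ole.trans hV), hsm hom.un⟩
  have hpad : Pol (fun a => Q (c a).P) fun a => E.padM (c a).P (c a).D :=
    ((Pol.self _).const_mul 3).mono fun a => padM_le hs (h a)
  have hf : PT fun q : {a : Pa × De // Good a.1 a.2} × List Unit =>
      q.2.length + 2 ^ (q.2.length - E.gam q.1.1.1 q.1.1.2) +
        E.wid q.1.1.1 q.1.1.2 >>> E.gam q.1.1.1 q.1.1.2 :=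
    (PT.snd'.length.nat_add ((PT.const 2).nat_pow
      (PT.snd'.length.nat_sub (hs.ptGam.comp PT.fst')) (PB.sub (PB.length PT.snd')))).nat_add
      ((hs.ptWid.comp PT.fst').shiftRight (hs.ptGam.comp PT.fst'))
  have h2 : S 𝔅 x fun a => E.padM (c a).P (c a).D :=
    ((h0.pair h1).pt hf).congr fun a => by
      simp only [List.length_replicate, Nat.shiftRight_eq_div_pow]; rfl
  exact ⟨(hPD.pair (h2.un (hpad.ole.trans hV))).of_enc_eq fun _ => rfl, hsm (hPol.pair hpad.un)⟩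

theorem S_gsk (hs : E.Sm Good Q) (h : ∀ a, Good (c a).P (c a).D) {κ : α → Key De}
    (hκ : ∀ a, κ a ∈ E.plan (c a).P (c a).D)
    (hV : (fun a => q1 (Q (c a).P)) ≼ 𝔅.V) (hPD : L 𝔅 x fun a => ((c a).P, (c a).D))
    (hk : L 𝔅 x κ) : S 𝔅 x fun a => gskOf E (c a) (h a) (κ a) (hκ a) := by
  have h1 := S_gs hs h hV hPD
  have hk' : Pol (fun a => Q (c a).P) (sz κ) :=
    (pol_key hs).comp fun a => (⟨(c a, κ a), h a, hκ a⟩ : GK E Good)
  have h2 := h1.pair (⟨hk, (hk'.smIn fun _ => le_rfl).mono hV⟩ : S 𝔅 x κ)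
  exact ⟨h2.1.of_enc_eq fun _ => rfl, h2.2.of_le fun _ => le_rfl⟩

end Eng

end Crest.Agent.R288
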