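/-
R288/EngASlice: the input of a sub-call is computed in linear time.
-/
import Crest.Agent.R288.EngAPT

set_option autoImplicit false
set_option linter.unusedSectionVars false

namespace Crest.Agent.R288

open Crest.Agent.Lib.PolyTime Crest.Agent.R326

namespace Eng

variable {Pa De : Type} [DecidableEq De] [Enc Pa] [Enc De] {E : Eng Pa De}
  {Good : Pa → De → Prop} {Q : Pa → ℕ}

variable {α X : Type} [Enc X] {𝔅 : Bud α} {x : α → X} {c : α → Call Pa De}

theorem slice_range {β : Type} (f : ℕ → β) {N n l : ℕ} (h : n + l ≤ N) :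
    (((List.range N).map f).drop n).take l = (List.range l).map fun i => f (n + i) := by
  refine List.ext_getElem (by simp; omega) fun i h1 h2 => by simp

theorem take_range_map {β : Type} (f : ℕ → β) {N l : ℕ} (h : l ≤ N) :
    ((List.range N).map f).take l = (List.range l).map f := by
  refine List.ext_getElem (by simp; omega) fun i h1 h2 => by simp

theorem slice_q1 (hw : E.Wf Good) (h : ∀ a, Good (c a).P (c a).D)
    (hV : (fun a => E.W Q (c a)) ≼ 𝔅.V) : (fun a => q1 (Q (c a).P)) ≼ 𝔅.V :=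
  hV.mono_left fun a => q1_le_W hw (h a)

theorem slice_pol (hw : E.Wf Good) (h : ∀ a, Good (c a).P (c a).D)
    (hV : (fun a => E.W Q (c a)) ≼ 𝔅.V) {f : α → ℕ} (hf : Pol (fun a => Q (c a).P) f) :
    f ≼ 𝔅.V := hf.ole.trans (slice_q1 hw h hV)

theorem slice_pot (hV : (fun a => E.W Q (c a)) ≼ 𝔅.V) :
    (fun a => E.pot (c a).P (c a).D) ≼ 𝔅.V :=
  ((pol_mul_pot_ole (Pol.const (fun a => Q (c a).P) 1)).trans hV).mono_left fun a => by simp

theorem slice_gsk (hw : E.Wf Good) (hs : E.Sm Good Q) (h : ∀ a, Good (c a).P (c a).D)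
    {κ : α → Key De} (hκ : ∀ a, κ a ∈ E.plan (c a).P (c a).D)
    (hV : (fun a => E.W Q (c a)) ≼ 𝔅.V) (hi : L 𝔅 x fun a => E.inp (c a)) (hk : L 𝔅 x κ) :
    S 𝔅 x fun a => gskOf E (c a) (h a) (κ a) (hκ a) :=
  S_gsk hs h hκ (slice_q1 hw h hV) hi.fst hk

theorem slice_e_le (hw : E.Wf Good) (hs : E.Sm Good Q) {P : Pa} {D : De} {κ : Key De}
    (h : Good P D) (hκ : κ ∈ E.plan P D) : κ.2.1 ≤ Q P := by
  have := hw.hgt_eq P D κ h hκ
  have := hs.hgt_le P D h
  omega

/-- The index: `ofBits ((own.drop off).take e)` or `n`. -/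
theorem S_idx (hw : E.Wf Good) (hs : E.Sm Good Q) (h : ∀ a, Good (c a).P (c a).D)
    {κ : α → Key De} (hκ : ∀ a, κ a ∈ E.plan (c a).P (c a).D)
    (hV : (fun a => E.W Q (c a)) ≼ 𝔅.V) (hi : L 𝔅 x fun a => E.inp (c a)) (hk : L 𝔅 x κ) :
    S 𝔅 x fun a => E.idx (c a).P (c a).D (c a).ρ (κ a) := by
  have hg := slice_gsk hw hs h hκ hV hi hk
  have hq := slice_q1 hw h hV
  have hpot := slice_pot (Q := Q) hV
  have hκS : S 𝔅 x κ := hg.pt (f := fun p : GSK E Good => p.1.2) (by fun_prop)
  have hoff : S 𝔅 x fun a => E.off (c a).P (c a).D (κ a) := hg.pt (pt_off hw hs)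
  have hoffu := hoff.un (hpot.mono_left fun a => by
    have := off_seg_le hw (h a) (hκ a); omega)
  have heu := hκS.snd.fst.un (hpot.mono_left fun a => by
    have := off_seg_le hw (h a) (hκ a); omega)
  have hown : L 𝔅 x fun a => E.own (c a) := hi.snd.snd.snd.fst
  have hb : L 𝔅 x fun a => (List.range (κ a).2.1).map
      (shift (E.off (c a).P (c a).D (κ a)) (c a).ρ) :=
    (L.take heu (L.drop hoffu hown)).congr fun a => by
      unfold own
      rw [slice_range _ (by have := off_seg_le hw (h a) (hκ a); omega)]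
      rfl
  have hbs : SmIn 𝔅.V fun a => (List.range (κ a).2.1).map
      (shift (E.off (c a).P (c a).D (κ a)) (c a).ρ) := by
    have h1 : Pol (fun a => Q (c a).P) (sz fun a => (List.range (κ a).2.1).map
        (shift (E.off (c a).P (c a).D (κ a)) (c a).ρ)) :=
      (((Pol.self _).const_mul 4).add_const 1).mono fun a => by
        have h2 := esize_boolList_le ((List.range (κ a).2.1).map
          (shift (E.off (c a).P (c a).D (κ a)) (c a).ρ))
        have h3 := slice_e_le hw hs (h a) (hκ a)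
        simp only [List.length_map, List.length_range] at h2
        simp only [sz]
        omega
    exact (h1.smIn fun _ => le_rfl).mono hq
  have hv : S 𝔅 x fun a => bitsVal (κ a).2.1 (shift (E.off (c a).P (c a).D (κ a)) (c a).ρ) :=
    S.pt ⟨hb, hbs⟩ (f := fun l : List Bool => ofBits l) (by fun_prop)
  refine (((hκS.snd.snd.snd.fst.pair hv).pair hκS.snd.snd.fst).pt
    (f := fun q : (Bool × ℕ) × ℕ => cond q.1.1 q.1.2 q.2) (by fun_prop)).congr fun a => ?_
  rw [E.idx_of_mem _ (hκ a)]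
  cases (κ a).2.2.2.1 <;> simp

/-- With `ℓ' = 2 ^ hgt κ.1` (a polynomial-time function of `un (hgt κ.1)`), `n = idx * ℓ'`:
`xs' = (xs.drop n).take ℓ'`, `ys' = (ys.drop n).take (ℓ' + X + 1)`,
`own' = (own.drop (off + e)).take pot'` or `((tps.drop tp').headD []).take pot'`,
`tps' = (tps.take tp').map (take pot')` (`L.map_par`). -/
theorem L_subInp (hw : E.Wf Good) (hs : E.Sm Good Q) (h : ∀ a, Good (c a).P (c a).D)
    {κ : α → Key De} (hκ : ∀ a, κ a ∈ E.plan (c a).P (c a).D)
    (hV : (fun a => E.W Q (c a)) ≼ 𝔅.V) (hi : L 𝔅 x fun a => E.inp (c a)) (hk : L 𝔅 x κ) :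
    L 𝔅 x fun a => E.inp (E.subCall (c a) (κ a)) := by
  have hg := slice_gsk hw hs h hκ hV hi hk
  have hq := slice_q1 hw h hV
  have hpot := slice_pot (Q := Q) hV
  have hidx := S_idx hw hs h hκ hV hi hk
  have hκS : S 𝔅 x κ := hg.pt (f := fun p : GSK E Good => p.1.2) (by fun_prop)
  have h1 : ∀ a, 1 ≤ 𝔅.V a := hκS.sm.one_le
  have hoff : S 𝔅 x fun a => E.off (c a).P (c a).D (κ a) := hg.pt (pt_off hw hs)
  have hsub := hg.pt (pt_subPD hw)
  have hX : S 𝔅 x fun a => E.X (c a).P := hsub.pt hs.ptX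
  have hh : S 𝔅 x fun a => E.hgt (κ a).1 := hsub.pt hs.ptHgt
  have htp : S 𝔅 x fun a => E.tp (c a).P (κ a).1 := hsub.pt hs.ptTp
  have hp' : S 𝔅 x fun a => E.pot (c a).P (κ a).1 := hsub.pt hs.ptPot
  have hseg := fun a => off_seg_le hw (h a) (hκ a)
  have hsubG := fun a => hw.sub _ _ _ (h a) (hκ a)
  -- bounds
  have hlen : (fun a => 2 ^ E.hgt (c a).D) ≼ 𝔅.V :=
    ((len_ole hs).comp fun a => (⟨c a, h a⟩ : GC Good)).trans hV
  have hX1 : (fun a => E.X (c a).P + 1) ≼ 𝔅.V :=
    ((pol_mul_X_ole hw h (Pol.const _ 1)).trans hV).mono_left fun a => by simp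
  have hpow : ∀ a, 2 ^ E.hgt (c a).D = 2 ^ (κ a).2.1 * 2 ^ E.hgt (κ a).1 := fun a => by
    rw [← hw.hgt_eq _ _ _ (h a) (hκ a), pow_add, mul_comm]
  have hn : ∀ a, E.idx (c a).P (c a).D (c a).ρ (κ a) * 2 ^ E.hgt (κ a).1 + 2 ^ E.hgt (κ a).1 ≤
      2 ^ E.hgt (c a).D := fun a => by
    rw [hpow a, ← Nat.succ_mul]
    exact Nat.mul_le_mul_right _ (idx_lt_two_pow hw (h a) (hκ a) _)
  have hpos : ∀ a i, ((c a).j * 2 ^ (κ a).2.1 + E.idx (c a).P (c a).D (c a).ρ (κ a)) *
      2 ^ E.hgt (κ a).1 + i = (c a).j * 2 ^ E.hgt (c a).D +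
        (E.idx (c a).P (c a).D (c a).ρ (κ a) * 2 ^ E.hgt (κ a).1 + i) := fun a i => by
    rw [hpow a]; ring
  -- the length of the sub-node
  have hhQ : Pol (fun a => Q (c a).P) fun a => E.hgt (κ a).1 :=
    Pol.of_le fun a => hs.hgt_le _ _ (hsubG a)
  have hhu : S 𝔅 x fun a => un (E.hgt (κ a).1) :=
    ⟨hh.un (slice_pol hw h hV hhQ), (hhQ.un.smIn fun _ => le_rfl).mono hq⟩
  have hl : S 𝔅 x fun a => 2 ^ E.hgt (κ a).1 :=
    (hhu.pt (f := fun l : List Unit => 2 ^ l.length) (by fun_prop)).congr fun a => by simp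
  have hlV : (fun a => 2 ^ E.hgt (κ a).1) ≼ 𝔅.V := hlen.mono_left fun a => by
    have := hn a; omega
  have hlu := hl.un hlV
  have hnu := (hidx.mul hl).un (hlen.mono_left fun a => (Nat.le_add_right _ _).trans (hn a))
  have hyu := ((hl.add hX).add (hl.const 1)).un ((hlV.add hX1).mono_left fun a => by omega)
  have hp'V : (fun a => E.pot (c a).P (κ a).1) ≼ 𝔅.V := hpot.mono_left fun a => by
    have := hseg a; omega
  have hp'u := hp'.un hp'V
  have hou := (hoff.add hκS.snd.fst).un (hpot.mono_left fun a => by have := hseg a; omega)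
  have htpQ : Pol (fun a => Q (c a).P) fun a => E.tp (c a).P (κ a).1 :=
    Pol.of_le fun a => hs.tp_le _ _ (hsubG a)
  have htpu := htp.un (slice_pol hw h hV htpQ)
  have hxs : L 𝔅 x fun a => E.xs (c a) := hi.snd.fst
  have hys : L 𝔅 x fun a => E.ys (c a) := hi.snd.snd.fst
  have hown : L 𝔅 x fun a => E.own (c a) := hi.snd.snd.snd.fst
  have htps : L 𝔅 x fun a => E.tps (c a) := hi.snd.snd.snd.snd
  have hP : L 𝔅 x fun a => (c a).P := hi.fst.fst
  have hxs' : L 𝔅 x fun a => E.xs (E.subCall (c a) (κ a)) :=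
    (L.take hlu (L.drop hnu hxs)).congr fun a => by
      unfold xs
      rw [slice_range _ (hn a)]
      simp only [subCall, hpos]
  have hys' : L 𝔅 x fun a => E.ys (E.subCall (c a) (κ a)) :=
    (L.take hyu (L.drop hnu hys)).congr fun a => by
      unfold ys
      rw [slice_range _ (by have := hn a; omega)]
      simp only [subCall, hpos]
  have hown' : L 𝔅 x fun a => E.own (E.subCall (c a) (κ a)) := by
    refine (L.take hp'u (hκS.snd.snd.snd.snd.l.cond (L.drop hou hown)
      ((L.drop htpu htps).headD (L.const [])))).congr fun a => ?_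
    cases hf : (κ a).2.2.2.2
    · have h2 := hw.tp_tab _ _ _ (h a) (hκ a) hf
      have h3 : ((E.tps (c a)).drop (E.tp (c a).P (κ a).1)).headD [] =
          (List.range (E.pot (c a).P (c a).D)).map ((c a).tapes (E.tp (c a).P (κ a).1)) := by
        simp [tps, List.headD_eq_head?_getD, List.head?_drop, h2]
      rw [cond_false, h3, take_range_map _ (by have := hseg a; omega)]
      simp [own, subCall, bits, hf]
    · rw [cond_true]
      unfold own
      rw [slice_range _ (hseg a)]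
      simp only [subCall, bits, hf, if_true]
      rfl
  have htle : ∀ a, E.tp (c a).P (κ a).1 ≤ E.tp (c a).P (c a).D := fun a => by
    cases hf : (κ a).2.2.2.2
    · exact (hw.tp_tab _ _ _ (h a) (hκ a) hf).le
    · exact hw.tp_fresh _ _ _ (h a) (hκ a) hf
  have htps' : L 𝔅 x fun a => E.tps (E.subCall (c a) (κ a)) := by
    have hlt : LT fun q : List Unit × List Bool => q.2.take q.1.length :=
      fun _ _ _ _ _ _ hq => L.take hq.fst.un_length hq.snd
    refine (L.map_par (f := fun (u : List Unit) (l : List Bool) => l.take u.length) hlt hp'u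
      (L.take htpu htps) ?_).congr fun a => ?_
    · refine ((((pol_mul_pot_ole htpQ).trans hV).const_mul 2).add
        (slice_pol hw h hV htpQ)).mono_left fun a => ?_
      have h2 : ((E.tps (c a)).take (E.tp (c a).P (κ a).1)).length ≤ E.tp (c a).P (κ a).1 := by
        simp
      have h3 : E.pot (c a).P (κ a).1 ≤ E.pot (c a).P (c a).D := by have := hseg a; omega
      rw [esize_un]
      calc _ ≤ E.tp (c a).P (κ a).1 * (2 * E.pot (c a).P (c a).D + 1) :=
            Nat.mul_le_mul h2 (by omega)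
        _ = _ := by ring
    · unfold tps
      rw [take_range_map _ (htle a), List.map_map]
      refine List.map_congr_left fun i _ => ?_
      simp only [Function.comp, List.length_replicate]
      rw [take_range_map _ (by have := hseg a; omega)]
      rfl
  exact (hP.pair hκS.fst.l).pair (hxs'.pair (hys'.pair (hown'.pair htps')))

end Eng

end Crest.Agent.R288
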