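/-
R288/EngAStep: the linear-time steps of the recursive body.
-/
import Crest.Agent.R288.EngASlice
import Crest.Agent.R288.EngALin

set_option autoImplicit false
set_option linter.unusedSectionVars false

namespace Crest.Agent.R288

open Crest.Agent.Lib.PolyTime Crest.Agent.R326

namespace Eng

variable {Pa De : Type} [DecidableEq De] [Enc Pa] [Enc De] {E : Eng Pa De}
  {Good : Pa → De → Prop} {Q : Pa → ℕ}

variable {α X : Type} [Enc X] {𝔅 : Bud α} {x : α → X} {c : α → Call Pa De}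

/-- The good parameters of a call are small data. -/
theorem S_pd (hw : E.Wf Good) (hs : E.Sm Good Q) (h : ∀ a, Good (c a).P (c a).D)
    (hV : (fun a => E.W Q (c a)) ≼ 𝔅.V) (hPD : L 𝔅 x fun a => ((c a).P, (c a).D)) :
    S 𝔅 x fun a => (⟨((c a).P, (c a).D), h a⟩ : {a : Pa × De // Good a.1 a.2}) := by
  have hq : (fun a => q1 (Q (c a).P)) ≼ 𝔅.V := hV.mono_left fun a => q1_le_W hw (h a)
  refine ⟨hPD.of_enc_eq fun _ => rfl, ?_⟩
  have h1 := (((pol_PD hs).comp fun a => (⟨c a, h a⟩ : GC Good)).smIn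
    (p := fun a => ((c a).P, (c a).D)) (V := fun a => q1 (Q (c a).P)) fun _ => le_rfl).mono hq
  exact h1.of_le fun _ => le_rfl

theorem X_ole (hw : E.Wf Good) (h : ∀ a, Good (c a).P (c a).D)
    (hV : (fun a => E.W Q (c a)) ≼ 𝔅.V) {f g : α → ℕ} (hf : Pol (fun a => Q (c a).P) f)
    (hg : ∀ a, g a ≤ f a * (E.X (c a).P + 1)) : g ≼ 𝔅.V :=
  ((pol_mul_X_ole hw h hf).trans hV).mono_left hg

theorem L_un_nb (hw : E.Wf Good) (hs : E.Sm Good Q) (h : ∀ a, Good (c a).P (c a).D)
    (hV : (fun a => E.W Q (c a)) ≼ 𝔅.V) (hPD : L 𝔅 x fun a => ((c a).P, (c a).D)) :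
    L 𝔅 x fun a => un (E.nb (c a).P (c a).D) :=
  ((S_pd hw hs h hV hPD).pt (pt_nb hs)).un
    (X_ole hw h hV (Pol.const _ 1) fun a => by rw [one_mul]; exact nb_le _ _)

theorem mrow_eq (c : Call Pa De) (h0 : E.hgt c.D = 0) :
    ((((E.ys c).take (E.X c.P + 1)).map (misBit ((E.xs c).headD none))) ++
      List.replicate (2 ^ E.om c.P c.D * E.nb c.P c.D) false).take
      (2 ^ E.om c.P c.D * E.nb c.P c.D) = E.mrow c := by
  have hx : (E.xs c).headD none = c.x[c.j]? := by simp [xs, h0]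
  have hy : (E.ys c).take (E.X c.P + 1) =
      (List.range (E.X c.P + 1)).map fun t => ysym c.y (E.X c.P) (c.j + t) := by
    simp only [ys, h0, pow_zero, mul_one, ← List.map_take, List.take_range]
    rw [min_eq_left (by omega)]
  rw [hx, hy]
  apply List.ext_getElem
  · simp [mrow]
  · intro i h1 h2
    simp only [mrow, List.getElem_take, List.getElem_map, List.getElem_range, List.getElem_append,
      List.length_map, List.length_range, List.getElem_replicate]
    split_ifs with h3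
    · rw [mis_eq]; simp [Nat.lt_succ_iff.mp h3]
    · simp [Nat.lt_succ_iff.not.mp h3]

/-- The windows of mismatch bits at height `0`. -/
theorem L_mw0 {k : ℕ} (hcmp : CmpOK k) (hw : E.Wf Good) (hs : E.Sm Good Q)
    (h : ∀ a, Good (c a).P (c a).D) (h0 : ∀ a, E.hgt (c a).D = 0)
    (hV : (fun a => E.W Q (c a)) ≼ 𝔅.V)
    (hV' : (fun a => (E.X (c a).P + 1) * (symBits (c a).x (c a).y + 1) ^ k) ≼ 𝔅.V)
    (hi : L 𝔅 x fun a => E.inp (c a)) :
    L 𝔅 x fun a => (List.range (E.nb (c a).P (c a).D)).map (E.mw (c a)) := by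
  have hq : (fun a => q1 (Q (c a).P)) ≼ 𝔅.V := hV.mono_left fun a => q1_le_W hw (h a)
  have hPD : L 𝔅 x fun a => ((c a).P, (c a).D) := hi.fst
  have spd := S_pd hw hs h hV hPD
  have hxs : L 𝔅 x fun a => E.xs (c a) := hi.snd.fst
  have hys : L 𝔅 x fun a => E.ys (c a) := hi.snd.snd.fst
  have uX : L 𝔅 x fun a => un (E.X (c a).P + 1) :=
    ((spd.pt hs.ptX).add (spd.const 1)).un (X_ole hw h hV (Pol.const _ 1) fun a => by simp)
  have pom : Pol (fun a => Q (c a).P) fun a => E.om (c a).P (c a).D :=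
    Pol.of_le fun a => hs.om_le _ _ (h a)
  have pG : Pol (fun a => Q (c a).P) fun a => 2 ^ E.om (c a).P (c a).D :=
    Pol.of_le fun a => hs.leaf _ _ (h a) (h0 a)
  have uom : S 𝔅 x fun a => un (E.om (c a).P (c a).D) :=
    ⟨(spd.pt hs.ptOm).un (pom.ole.trans hq), (pom.un.smIn fun _ => le_rfl).mono hq⟩
  have sG : S 𝔅 x fun a => 2 ^ E.om (c a).P (c a).D :=
    (uom.pt (f := fun l : List Unit => 2 ^ l.length) (by fun_prop)).congr fun a => by simp
  have uG : L 𝔅 x fun a => un (2 ^ E.om (c a).P (c a).D) := sG.un (pG.ole.trans hq)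
  have uGn : L 𝔅 x fun a => un (2 ^ E.om (c a).P (c a).D * E.nb (c a).P (c a).D) :=
    (sG.mul (spd.pt (pt_nb hs))).un
      (X_ole hw h hV pG fun a => Nat.mul_le_mul_left _ (nb_le _ _))
  have hc := hcmp α X 𝔅 x (fun a => (E.xs (c a)).headD none)
    (fun a => (E.ys (c a)).take (E.X (c a).P + 1)) (fun a => symBits (c a).x (c a).y)
    (hxs.headD (L.const none)) (uX.take hys)
    (fun a n hn => by
      have hx : (E.xs (c a)).headD none = (c a).x[(c a).j]? := by simp [xs, h0 a]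
      rw [hx] at hn
      exact size_le_symBits_x (List.mem_of_getElem? hn))
    (fun a n hn => by
      have hn := List.mem_of_mem_take hn
      simp only [ys, List.mem_map, ysym] at hn
      obtain ⟨t, -, ht⟩ := hn
      split_ifs at ht
      exact size_le_symBits_y (List.mem_of_getElem? ht))
    ((hV'.const_mul 2).mono_left fun a => by
      rw [← mul_assoc]
      refine Nat.mul_le_mul_right _ ?_
      have := List.length_take_le (E.X (c a).P + 1) (E.ys (c a))
      omega)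
  have hrow : L 𝔅 x fun a => E.mrow (c a) :=
    (uGn.take (hc.append (uGn.replicate_const false))).congr fun a => mrow_eq (c a) (h0 a)
  have hch := L.chunks uG hrow (n := fun a => E.nb (c a).P (c a).D)
    (fun a => Nat.two_pow_pos _) (fun a => by simp [mrow])
  refine (L_glue (n := fun a => E.nb (c a).P (c a).D)
    (f := fun a t => ((E.mrow (c a)).drop (2 ^ E.om (c a).P (c a).D * t)).take
      (2 ^ E.om (c a).P (c a).D)) hch).congr fun a => ?_
  refine List.map_congr_left fun i _ => ?_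
  simp only [mw, if_pos (h0 a)]

/-- Regrid, glue and tag the answer to a request. -/
theorem L_ent (hw : E.Wf Good) (hs : E.Sm Good Q) (h : ∀ a, Good (c a).P (c a).D)
    {κ : α → Key De} (hκ : ∀ a, κ a ∈ E.plan (c a).P (c a).D)
    (hV : (fun a => E.W Q (c a)) ≼ 𝔅.V) (hi : L 𝔅 x fun a => E.inp (c a)) (hk : L 𝔅 x κ)
    (ho : L 𝔅 x fun a => E.out (E.subCall (c a) (κ a))) :
    L 𝔅 x fun a => (List.range (E.nb (c a).P (c a).D)).map (E.ent (c a) (κ a)) := by
  have hq : (fun a => q1 (Q (c a).P)) ≼ 𝔅.V := hV.mono_left fun a => q1_le_W hw (h a)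
  have hPD : L 𝔅 x fun a => ((c a).P, (c a).D) := hi.fst
  have hgsk := S_gsk hs h hκ hq hPD hk
  have sg : S 𝔅 x fun a => E.gR (c a).P (c a).D (κ a) := hgsk.pt (pt_gR hw hs)
  have sr : S 𝔅 x fun a => E.rR (c a).P (c a).D (κ a) := hgsk.pt (pt_rR hw hs)
  have sm : S 𝔅 x fun a => E.mR (c a).P (c a).D (κ a) := hgsk.pt (pt_mR hw hs)
  have sγ : S 𝔅 x fun a => E.gam (c a).P (κ a).1 := (hgsk.pt (pt_subPD hw)).pt hs.ptGam
  have pg : Pol (fun a => Q (c a).P) fun a => E.gR (c a).P (c a).D (κ a) :=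
    Pol.of_le fun a => hs.regrid _ _ _ (h a) (hκ a)
  have hg0 : ∀ a, 0 < E.gR (c a).P (c a).D (κ a) := fun a => Nat.two_pow_pos _
  have hr0 : ∀ a, 0 < E.rR (c a).P (c a).D (κ a) := fun a => Nat.two_pow_pos _
  have hm0 : ∀ a, 0 < E.mR (c a).P (c a).D (κ a) := fun a => Nat.succ_pos _
  have hm3 : ∀ a, E.mR (c a).P (c a).D (κ a) ≤ 3 * (E.X (c a).P + 1) := fun a =>
    (Nat.le_mul_of_pos_right _ (hr0 a)).trans (mR_mul_rR_le _ _ _)
  have hr3 : ∀ a, E.rR (c a).P (c a).D (κ a) ≤ 3 * (E.X (c a).P + 1) := fun a =>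
    (Nat.le_mul_of_pos_left _ (hm0 a)).trans (mR_mul_rR_le _ _ _)
  obtain ⟨B, hB, hBle⟩ := Pol.unif (Q := fun a => Q (c a).P) (ι := fun _ => ℕ)
    (u := fun a i => esize (E.blk (E.subCall (c a) (κ a)) i))
    ((pol_blk hs).comp fun p : (_ : α) × ℕ =>
      ((⟨E.subCall (c p.1) (κ p.1), hw.sub _ _ _ (h p.1) (hκ p.1)⟩ : GC Good), p.2))
  have hreg := L_regrid (n' := fun a => E.nb (c a).P (κ a).1)
    (g := fun a => E.gR (c a).P (c a).D (κ a)) (m := fun a => E.mR (c a).P (c a).D (κ a))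
    (r := fun a => E.rR (c a).P (c a).D (κ a)) (n := fun a => E.nb (c a).P (c a).D) (B := B)
    (f := fun a => E.blk (E.subCall (c a) (κ a))) ho
    (fun a i hi => blk_eq_nil _ hi) (sg.un (pg.ole.trans hq))
    ((sg.mul sm).un (X_ole hw h hV (pg.mul (Pol.const _ 3)) fun a => by
      rw [mul_assoc]; exact Nat.mul_le_mul_left _ (hm3 a)))
    (sr.un (X_ole hw h hV (Pol.const _ 3) hr3)) (L_un_nb hw hs h hV hPD) hg0 hr0
    (fun a => nb_le_gR_mul_mR _ _ _) (fun a => nb_le_mR_mul_rR _ _ _) hBle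
    (X_ole hw h hV (((pg.mul hB).add_const 1).mul (Pol.const _ 3)) fun a => by
      rw [mul_comm, mul_assoc _ 3]
      exact Nat.mul_le_mul_left _ (mR_mul_rR_le (E := E) (c a).P (c a).D (κ a)))
  have hgl := L_glue hreg
  have pp : Pol (fun a => Q (c a).P) (sz fun a =>
      (κ a, E.idx (c a).P (c a).D (c a).ρ (κ a), E.gam (c a).P (κ a).1)) := by
    refine Pol.pair ((pol_key hs).comp fun a => (⟨(c a, κ a), h a, hκ a⟩ : GK E Good))
      (Pol.pair ((pol_idx hw hs).comp fun a => (⟨(c a, κ a), h a, hκ a⟩ : GK E Good))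
        (Pol.nat (Pol.of_le fun a => ?_)))
    have h' := hw.sub _ _ _ (h a) (hκ a)
    exact (hs.gam_le _ _ h').trans (hs.om_le _ _ h')
  have hlt : LT fun q : (Key De × ℕ × ℕ) × Tb => ((q.1.1, q.1.2.1, q.1.2.2, q.2) : Ent De) :=
    fun _ _ _ _ _ _ hg => hg.fst.fst.pair (hg.fst.snd.fst.pair (hg.fst.snd.snd.pair hg.snd))
  have hmap := L.map_par
    (f := fun (p : Key De × ℕ × ℕ) (t : Tb) => ((p.1, p.2.1, p.2.2, t) : Ent De)) hlt
    (hk.pair ((S_idx hw hs h hκ hV hi hk).l.pair sγ.l)) hgl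
    (X_ole hw h hV pp fun a => by
      rw [mul_comm, List.length_map, List.length_range]
      exact Nat.mul_le_mul_left _ (nb_le _ _))
  exact hmap.congr fun a => by rw [List.map_map]; rfl

/-- The windows of mismatch bits.  `Cp.cases` on `hgt = 0`.  At height `0`: `xs = [x[j]?]`,
`mrow = (((ys.take (X + 1)).map (misBit (xs.headD none))) ++ replicate (G nb) false).take (G nb)`
with `G = 2 ^ om ≤ Q`; then `L.chunks` and `L_glue`.  Otherwise `replicate nb []`. -/
theorem L_mw {k : ℕ} (hcmp : CmpOK k) (hw : E.Wf Good) (hs : E.Sm Good Q)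
    (h : ∀ a, Good (c a).P (c a).D) (hV : (fun a => E.W Q (c a)) ≼ 𝔅.V)
    (hV' : (fun a => (E.X (c a).P + 1) * (symBits (c a).x (c a).y + 1) ^ k) ≼ 𝔅.V)
    (hi : L 𝔅 x fun a => E.inp (c a)) :
    L 𝔅 x fun a => (List.range (E.nb (c a).P (c a).D)).map (E.mw (c a)) := by
  refine L.with_sz fun hx => ?_
  have hPD : L 𝔅 x fun a => ((c a).P, (c a).D) := hi.fst
  have spd := S_pd hw hs h hV hPD
  refine Cp.cases (fun a => E.hgt (c a).D = 0) ((spd.pt hs.ptHgt).eq (spd.const 0)).l ?_ ?_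
  · exact L_mw0 (c := fun b : {a // E.hgt (c a).D = 0} => c b.1) hcmp hw hs (fun b => h b.1)
      (fun b => b.2) (hV.comp _) (hV'.comp _) (hi.reindex hx _)
  · refine (((L_un_nb hw hs h hV hPD).reindex hx
      (Subtype.val : {a // ¬ E.hgt (c a).D = 0} → α)).replicate_const ([] : List Bool)).congr
      fun b => ?_
    symm
    rw [List.eq_replicate_iff]
    refine ⟨by simp, fun l hl => ?_⟩
    obtain ⟨i, -, rfl⟩ := List.mem_map.1 hl
    simp only [mw, if_neg b.2]

/-- Apply the block function to all blocks (`zip`, `L_mapIdx_pt`, `pt_bf`, `blk_eq_bf`). -/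
theorem L_out (hw : E.Wf Good) (hs : E.Sm Good Q) (h : ∀ a, Good (c a).P (c a).D)
    (hV : (fun a => E.W Q (c a)) ≼ 𝔅.V) (hPD : L 𝔅 x fun a => ((c a).P, (c a).D))
    (hm : L 𝔅 x fun a => (List.range (E.nb (c a).P (c a).D)).map (E.mw (c a)))
    (he : L 𝔅 x fun a => (List.range (E.nb (c a).P (c a).D)).map (E.ents (c a))) :
    L 𝔅 x fun a => E.out (c a) := by
  have hq : (fun a => q1 (Q (c a).P)) ≼ 𝔅.V := hV.mono_left fun a => q1_le_W hw (h a)
  have hz : L 𝔅 x fun a => (List.range (E.nb (c a).P (c a).D)).map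
      fun i => (E.mw (c a) i, E.ents (c a) i) := (hm.zip he).congr fun a => List.zip_map'
  have pgs : Pol (fun a => Q (c a).P) (sz fun a => gsOf E (c a) (h a)) :=
    Pol.pair (p := fun a => ((c a).P, (c a).D)) (q := fun a => un (E.padM (c a).P (c a).D))
      ((pol_PD hs).comp fun a => (⟨c a, h a⟩ : GC Good))
      (Pol.un (((Pol.self _).const_mul 3).mono fun a => padM_le hs (h a)))
  have hmap := L_mapIdx_pt (g := fun a => q1 (Q (c a).P)) (pt_bf hs) (S_gs hs h hq hPD).l hz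
    (pgs.smIn fun _ => le_rfl)
    (Pol.smIn (Q := fun a => Q (c a).P) ((pol_nb hs).comp fun a => (⟨c a, h a⟩ : GC Good))
      fun _ => le_rfl)
    (Pol.smIn (Q := fun q : α × ℕ => Q (c q.1).P)
      (Pol.pair (p := fun q : α × ℕ => E.mw (c q.1) q.2) (q := fun q : α × ℕ => E.ents (c q.1) q.2)
        ((pol_mw hs).comp fun q : α × ℕ => ((⟨c q.1, h q.1⟩ : GC Good), q.2))
        ((pol_ents hw hs).comp fun q : α × ℕ => ((⟨c q.1, h q.1⟩ : GC Good), q.2)))
      fun _ => le_rfl)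
    (hV.mono_left fun a => by
      rw [mul_comm]
      refine Nat.mul_le_mul_left _ ((nb_le _ _).trans ?_)
      exact (Nat.le_mul_of_pos_right _ (hw.pot_pos _ _ (h a))).trans
        (Nat.le_mul_of_pos_left _ (Nat.succ_pos _)))
  refine hmap.congr fun a => List.map_congr_left fun i hi => ?_
  exact (blk_eq_bf hw (fun P D h => hs.gam_le P D h) (c a) (h a) (List.mem_range.1 hi)).symm

end Eng

end Crest.Agent.R288
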