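/-
R288/EngABody: the recursive algorithm.  Author: helper49.
-/
import Crest.Agent.R288.EngAStep

set_option autoImplicit false
set_option linter.unusedSectionVars false

namespace Crest.Agent.R288

open Crest.Agent.Lib.PolyTime Crest.Agent.R326

namespace Eng

variable {Pa De : Type} [DecidableEq De] [Enc Pa] [Enc De] {E : Eng Pa De}
  {Good : Pa → De → Prop} {Q : Pa → ℕ}

/-- The budget of the recursive body. -/
def VB (E : Eng Pa De) (Q : Pa → ℕ) (k : ℕ) (c : Call Pa De) : ℕ :=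
  qp (Q c.P) * (symBits c.x c.y + 1) ^ k * ((E.X c.P + 1) * E.pot c.P c.D)

theorem q1_mul_W_le {k : ℕ} (hk : 1 ≤ k) (c : Call Pa De) :
    q1 (Q c.P) * E.W Q c ≤ E.VB Q k c := by
  unfold W VB
  have h1 := q1_mul_q1 (Q c.P)
  have h2 : symBits c.x c.y + 1 ≤ (symBits c.x c.y + 1) ^ k := Nat.le_self_pow (by omega) _
  calc _ = (q1 (Q c.P) * q1 (Q c.P)) * (symBits c.x c.y + 1) * ((E.X c.P + 1) * E.pot c.P c.D) := by
        ring
    _ ≤ _ := by gcongr

theorem W_le_VB {k : ℕ} (hk : 1 ≤ k) (c : Call Pa De) : E.W Q c ≤ E.VB Q k c :=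
  (Nat.le_mul_of_pos_left _ (q1_pos _)).trans (q1_mul_W_le hk c)

theorem cmp_le_VB (hw : E.Wf Good) (k : ℕ) {c : Call Pa De} (h : Good c.P c.D) :
    (E.X c.P + 1) * (symBits c.x c.y + 1) ^ k ≤ E.VB Q k c := by
  unfold VB
  have h1 : 1 ≤ qp (Q c.P) := (q1_pos _).trans (q1_le_qp _)
  have h2 := hw.pot_pos _ _ h
  calc _ = 1 * (symBits c.x c.y + 1) ^ k * ((E.X c.P + 1) * 1) := by ring
    _ ≤ _ := by gcongr

section
variable {α X : Type} [Enc X] {𝔅 : Bud α} {x : α → X} {c : α → Call Pa De}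

/-- The parameters as good small data. -/
theorem S_PD (hw : E.Wf Good) (hs : E.Sm Good Q) (h : ∀ a, Good (c a).P (c a).D)
    (hV : (fun a => E.W Q (c a)) ≼ 𝔅.V) (hPD : L 𝔅 x fun a => ((c a).P, (c a).D)) :
    S 𝔅 x fun a => (⟨((c a).P, (c a).D), h a⟩ : {a : Pa × De // Good a.1 a.2}) :=
  ⟨hPD.of_enc_eq fun _ => rfl,
    ((((pol_PD hs).comp fun a => (⟨c a, h a⟩ : GC Good)).smIn
      (V := fun a => E.W Q (c a)) fun a => q1_le_W hw (h a)).mono hV).of_le fun _ => le_rfl⟩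

end

/-- The class of a call. -/
def clOf (a : GC Good) : Pa × De × ℕ := (a.1.P, a.1.D, symBits a.1.x a.1.y)

/-- The index type of the body. -/
abbrev RI (E : Eng Pa De) (Good : Pa → De → Prop) : Type :=
  RecIdx (fun a : GC Good => E.inp a.1) (fun a (y : List Tb) => y = E.out a.1)
    (fun a => E.pot a.1.P a.1.D) clOf

theorem body [Inhabited De] {k : ℕ} (hk : 1 ≤ k) (hcmp : CmpOK k) (hw : E.Wf Good)
    (hs : E.Sm Good Q) :
    Cp (recBud (fun a : GC Good => E.VB Q k a.1) (fun a => (E.VB Q k a.1 : ℝ)) fun _ => le_rfl)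
      (fun p : RI E Good => E.inp p.a.1) (fun p => E.out p.a.1)
      fun p => ((E.plan p.a.1.P p.a.1.D).map fun κ =>
        p.T (p.a.1.P, κ.1, symBits p.a.1.x p.a.1.y)).sum := by
  set 𝔅 : Bud (RI E Good) :=
    recBud (fun a : GC Good => E.VB Q k a.1) (fun a => (E.VB Q k a.1 : ℝ)) fun _ => le_rfl with h𝔅
  have hV : (fun p : RI E Good => E.W Q p.a.1) ≼ 𝔅.V := OLe.of_le fun p => W_le_VB hk _
  have h0 := L.refl 𝔅 fun p => E.inp p.a.1
  have hPD : L 𝔅 (fun p => E.inp p.a.1) fun p => (p.a.1.P, p.a.1.D) := h0.fst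
  have hplan : L 𝔅 (fun p => E.inp p.a.1) fun p => E.plan p.a.1.P p.a.1.D :=
    ((S_PD hw hs (fun p : RI E Good => p.a.2) hV hPD).pt hs.ptPlan).l
  have hsum : (fun p : RI E Good => ((E.plan p.a.1.P p.a.1.D).map fun _ => E.W Q p.a.1).sum) ≼
      𝔅.V := by
    refine (((((pol_plan hs).length.ole).comp fun p : RI E Good => p.a).mul
      (OLe.refl fun p : RI E Good => E.W Q p.a.1)).mono_right
      fun p => q1_mul_W_le hk _).mono_left fun p => ?_
    simp
  have hmap := Cp.map (𝔅 := 𝔅) (fun p => E.inp p.a.1) (fun p => E.plan p.a.1.P p.a.1.D)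
    (fun p κ => (List.range (E.nb p.a.1.P p.a.1.D)).map (E.ent p.a.1 κ))
    (fun p _ => E.W Q p.a.1) (fun p _ => (E.W Q p.a.1 : ℝ))
    (fun p κ => p.T (p.a.1.P, κ.1, symBits p.a.1.x p.a.1.y)) (fun _ _ => le_rfl) ?_ ?_
    ((Bud.toF hsum).mono_left fun p => by simp) hsum
  · refine (h0.pairCp ((h0.pair hplan).cp hmap)).l ?_
    have hi := L.in1 𝔅 (fun p => E.inp p.a.1) fun p => (E.plan p.a.1.P p.a.1.D).map
      fun κ => (List.range (E.nb p.a.1.P p.a.1.D)).map (E.ent p.a.1 κ)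
    have ha := L.in2 𝔅 (fun p => E.inp p.a.1) fun p => (E.plan p.a.1.P p.a.1.D).map
      fun κ => (List.range (E.nb p.a.1.P p.a.1.D)).map (E.ent p.a.1 κ)
    have hPD' : L 𝔅 _ fun p => (p.a.1.P, p.a.1.D) := hi.fst
    refine L_out hw hs (fun p : RI E Good => p.a.2) hV hPD'
      (L_mw hcmp hw hs (fun p : RI E Good => p.a.2) hV
        (OLe.of_le fun p => cmp_le_VB hw k p.a.2) hi) ?_
    exact L_transpose ha (L_un_nb hw hs (fun p : RI E Good => p.a.2) hV hPD')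
      (((sz_allEnts hw hs).comp fun p : RI E Good => p.a).trans hV)
  · exact sz_pair ((sz_inp hw hs).comp fun q : {q : RI E Good × Key De //
        q.2 ∈ E.plan q.1.a.1.P q.1.a.1.D} => q.1.1.a)
      (((pol_key hs).comp fun q : {q : RI E Good × Key De //
        q.2 ∈ E.plan q.1.a.1.P q.1.a.1.D} => (⟨(q.1.1.a.1, q.1.2), q.1.1.a.2, q.2⟩ :
          GK E Good)).ole' fun q => q1_le_W hw q.1.1.a.2)
  · set 𝔅' := 𝔅.sub (fun q : {q : RI E Good × Key De // q.2 ∈ E.plan q.1.a.1.P q.1.a.1.D} => q.1.1)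
      (fun q => E.W Q q.1.1.a.1) (fun q => (E.W Q q.1.1.a.1 : ℝ)) fun _ => le_rfl with h𝔅'
    have hsub := L_subInp (𝔅 := 𝔅') hw hs (fun q => q.1.1.a.2) (fun q => q.2) (OLe.refl _)
      (L.in1 𝔅' (fun q => E.inp q.1.1.a.1) fun q => q.1.2)
      (L.in2 𝔅' (fun q => E.inp q.1.1.a.1) fun q => q.1.2)
    obtain ⟨y, hy, hcall⟩ := RecIdx.call 𝔅' (fun q => q.1.1) (fun _ => rfl)
      (fun q => (⟨E.subCall q.1.1.a.1 q.1.2, hw.sub _ _ _ q.1.1.a.2 q.2⟩ : GC Good))
      (fun q => pot_sub_lt hw q.1.1.a.2 q.2) (fun y hy => by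
        refine (((sz_out hw hs).comp fun q : {q : RI E Good × Key De //
          q.2 ∈ E.plan q.1.a.1.P q.1.a.1.D} =>
          (⟨E.subCall q.1.1.a.1 q.1.2, hw.sub _ _ _ q.1.1.a.2 q.2⟩ : GC Good)).mono_right
          fun q => W_subCall_le hw q.1.1.a.2 q.2).mono_left fun q => ?_
        simp only [sz, hy q, le_refl])
    have h1 := hsub.cp (hcall.congr hy)
    refine ((L.refl 𝔅' _).pairCp h1).l ?_
    exact L_ent (𝔅 := 𝔅') hw hs (fun q => q.1.1.a.2) (fun q => q.2) (OLe.refl _)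
      (L.in1 𝔅' _ _).fst (L.in1 𝔅' _ _).snd (L.in2 𝔅' _ _)

/-- The recursive algorithm computes the block list of every good call. -/
theorem alg_rec [Inhabited De] (hw : E.Wf Good) (hs : E.Sm Good Q) :
    ∃ (c : ℝ) (k : ℕ), 0 ≤ c ∧ 1 ≤ k ∧
      Alg (fun a : GC Good => E.inp a.1) (fun a => E.out a.1)
        (fun a => c * qp (Q a.1.P) * ((symBits a.1.x a.1.y : ℝ) + 1) ^ k *
          (((E.X a.1.P : ℝ) + 1) * E.pot a.1.P a.1.D)) := by
  obtain ⟨k, hk, hcmp⟩ := exists_cmp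
  obtain ⟨c, hc, h⟩ := Alg.fix (fun a : GC Good => E.inp a.1)
    (fun a (y : List Tb) => y = E.out a.1) (fun a => E.pot a.1.P a.1.D) clOf
    (fun a : GC Good => E.VB Q k a.1) (fun a => (E.VB Q k a.1 : ℝ)) (fun _ => le_rfl)
    ((sz_inp hw hs).mono_right fun a => W_le_VB hk _)
    (fun T a => ((E.plan a.1.P a.1.D).map fun κ => T (a.1.P, κ.1, symBits a.1.x a.1.y)).sum)
    (fun p => E.out p.a.1) (fun _ => rfl) (body hk hcmp hw hs)
  obtain ⟨y, hy, halg⟩ := h (fun t => 2 * c * qp (Q t.1) * ((t.2.2 : ℝ) + 1) ^ k *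
    (((E.X t.1 : ℝ) + 1) * E.pot t.1 t.2.1)) (fun t => by positivity) (fun a => by
      have h1 := hw.pot_sum _ _ a.2
      have h2 : (2 : ℝ) * ((E.plan a.1.P a.1.D).map fun κ => (E.pot a.1.P κ.1 : ℝ)).sum ≤
          E.pot a.1.P a.1.D := by
        have h3 : ((2 * ((E.plan a.1.P a.1.D).map fun κ => E.pot a.1.P κ.1).sum : ℕ) : ℝ) ≤
          E.pot a.1.P a.1.D := by exact_mod_cast h1
        simpa [List.map_map, Function.comp_def] using h3
      have h4 : ((E.plan a.1.P a.1.D).map fun κ => 2 * c * qp (Q a.1.P) *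
          ((symBits a.1.x a.1.y : ℝ) + 1) ^ k * (((E.X a.1.P : ℝ) + 1) * E.pot a.1.P κ.1)).sum =
          (c * qp (Q a.1.P) * ((symBits a.1.x a.1.y : ℝ) + 1) ^ k * ((E.X a.1.P : ℝ) + 1)) *
            (2 * ((E.plan a.1.P a.1.D).map fun κ => (E.pot a.1.P κ.1 : ℝ)).sum) := by
        rw [← List.sum_map_mul_left, ← List.sum_map_mul_left]
        congr 1
        refine List.map_congr_left fun κ _ => ?_
        ring
      simp only [clOf, VB]
      rw [h4]
      have h5 : 0 ≤ c * qp (Q a.1.P) * ((symBits a.1.x a.1.y : ℝ) + 1) ^ k *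
          ((E.X a.1.P : ℝ) + 1) := by positivity
      have h6 := mul_le_mul_of_nonneg_left h2 h5
      push_cast
      nlinarith)
  refine ⟨2 * c, k, by positivity, hk, ?_⟩
  rw [show y = fun a => E.out a.1 from funext hy] at halg
  exact halg

end Eng

end Crest.Agent.R288
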