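/-
R288/EngAlg: running time of the generic engine (layer II of row 288).  Author: helper49.
-/
import Crest.Agent.R288.EngABody

set_option autoImplicit false
set_option linter.unusedSectionVars false

namespace Crest.Agent.R288

open Crest.Agent.Lib.PolyTime Crest.Agent.R326

theorem lookup_graph {β γ : Type} [BEq β] [LawfulBEq β] [DecidableEq β] (l : List β) (f : β → γ)
    (z : β) : (l.map fun w => (w, f w)).lookup z = if z ∈ l then some (f z) else none := by
  induction l with
  | nil => simp
  | cons w l ih =>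
    by_cases h : z = w
    · subst h; simp
    · have h' : (z == w) = false := by simpa using h
      simp [List.lookup_cons, h', ih, h]

theorem LT_some {β : Type} [Enc β] : LT (some : β → Option β) :=
  fun _ _ _ _ _ _ h => (h.cons (L.const [])).of_enc_eq fun _ => rfl

theorem pad_take {β : Type} (l : List β) (n : ℕ) :
    (l.map some ++ List.replicate n none).take n = (List.range n).map fun i => l[i]? := by
  refine List.ext_getElem (by simp) fun i h1 h2 => ?_
  simp only [List.length_map, List.length_range] at h2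
  simp only [List.getElem_take, List.getElem_map, List.getElem_range]
  by_cases h : i < l.length
  · rw [List.getElem_append_left (by simpa using h)]; simp [h]
  · rw [List.getElem_append_right (by simpa using h)]
    simp [List.getElem?_eq_none (not_lt.mp h)]

theorem pad_take' (y : List ℕ) (X n : ℕ) :
    (List.replicate (X / 2) none ++ (y.map some ++ List.replicate n none).take n).take n =
      (List.range n).map fun t => ysym y X t := by
  rw [pad_take]
  refine List.ext_getElem (by simp) fun i h1 h2 => ?_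
  simp only [List.length_map, List.length_range] at h2
  simp only [List.getElem_take, List.getElem_map, List.getElem_range, ysym]
  by_cases h : i < X / 2
  · rw [List.getElem_append_left (by simpa using h)]; simp [not_le.mpr h]
  · rw [List.getElem_append_right (by simpa using h)]
    simp [not_lt.mp h]

theorem esize_natList_le {l : List ℕ} {b : ℕ} (h : ∀ n ∈ l, n.size ≤ b) :
    esize l ≤ 6 * ((b + 1) * l.length) + 1 := by
  have := esize_list_le (l := l) (B := 6 * b + 1) fun n hn => by
    rw [esize_nat]; have := h n hn; omega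
  nlinarith [Nat.zero_le l.length]

namespace Eng

variable {Pa De : Type} [DecidableEq De] [Enc Pa] [Enc De] {E : Eng Pa De}
  {Good : Pa → De → Prop} {Q : Pa → ℕ}

theorem lookup_blk (c : Call Pa De) (hg : E.gam c.P c.D ≤ E.om c.P c.D) (z : St) :
    ((E.blk c (z.1 / 2 ^ E.om c.P c.D)).lookup z).getD (E.X c.P : ℚ) = E.val c z := by
  unfold blk
  rw [lookup_graph]
  split_ifs with h
  · rfl
  · have h' : ¬ E.inW c.P c.D z := fun hz => h (mem_sts hg hz)
    unfold val
    rw [ev, if_neg h']
    rfl

/-- The call made at the root. -/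
def root (a : EIn E Good) : Call Pa De :=
  ⟨a.P, a.D, a.x, a.y, tapesOf (E.pot a.P a.D) a.ρ, 0,
    tapesOf (E.pot a.P a.D) a.ρ (E.tp a.P a.D)⟩

theorem own_root (a : EIn E Good) :
    ((List.range ((E.tp a.P a.D + 1) * E.pot a.P a.D)).map a.ρ).drop
      (E.pot a.P a.D * E.tp a.P a.D) = E.own (root a) := by
  refine List.ext_getElem (by simp [own, root, add_mul, mul_comm]) fun i h1 h2 => ?_
  simp [own, root, tapesOf, shift, mul_comm]

theorem tps_root (a : EIn E Good) :
    chunks (E.pot a.P a.D) (E.tp a.P a.D)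
      (((List.range ((E.tp a.P a.D + 1) * E.pot a.P a.D)).map a.ρ).take
        (E.pot a.P a.D * E.tp a.P a.D)) = E.tps (root a) := by
  unfold chunks tps
  refine List.map_congr_left fun i hi => ?_
  have hi' : i + 1 ≤ E.tp a.P a.D := List.mem_range.mp hi
  have h3 := Nat.mul_le_mul_left (E.pot a.P a.D) hi'
  refine List.ext_getElem ?_ fun t h1 h2 => ?_
  · simp only [root, List.length_take, List.length_drop, List.length_map, List.length_range]
    rw [add_mul, mul_comm (E.tp a.P a.D)]
    rw [mul_add] at h3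
    omega
  · simp [root, tapesOf, shift, mul_comm]

section
variable {α X : Type} [Enc X] {𝔅 : Bud α} {x : α → X} {r : α → EIn E Good}

theorem L_root_inp (hw : E.Wf Good) (hs : E.Sm Good Q)
    (hV : (fun a => E.W Q (root (r a))) ≼ 𝔅.V)
    (hPD : L 𝔅 x fun a => ((r a).P, (r a).D)) (hx : L 𝔅 x fun a => (r a).x)
    (hy : L 𝔅 x fun a => (r a).y)
    (hb : L 𝔅 x fun a => (List.range ((E.tp (r a).P (r a).D + 1) *
      E.pot (r a).P (r a).D)).map (r a).ρ) :
    L 𝔅 x fun a => E.inp (root (r a)) := by
  have hg : ∀ a, Good (root (r a)).P (root (r a)).D := fun a => (r a).good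
  have hq : (fun a => q1 (Q (r a).P)) ≼ 𝔅.V :=
    hV.mono_left fun a => q1_le_W hw (hg a)
  have hS := S_PD (c := fun a => root (r a)) hw hs hg hV hPD
  have hX : S 𝔅 x fun a => E.X (r a).P := hS.pt hs.ptX
  have hXV : (fun a => E.X (r a).P + 1) ≼ 𝔅.V :=
    ((pol_mul_X_ole (c := fun a => root (r a)) hw hg (Pol.const _ 1)).trans hV).mono_left
      fun a => by simp [root]
  have hH : Pol (fun a => Q (r a).P) fun a => E.hgt (r a).D :=
    Pol.of_le fun a => hs.hgt_le _ _ (r a).good
  have huH : S 𝔅 x fun a => un (E.hgt (r a).D) :=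
    ⟨(hS.pt hs.ptHgt).un (hH.ole.trans hq), (hH.un.smIn fun _ => le_rfl).mono hq⟩
  have hl : S 𝔅 x fun a => 2 ^ E.hgt (r a).D :=
    (huH.pt (f := fun u : List Unit => 2 ^ u.length) (by fun_prop)).congr fun a => by simp
  have hlV : (fun a => 2 ^ E.hgt (r a).D) ≼ 𝔅.V :=
    ((len_ole hs).comp fun a => (⟨root (r a), hg a⟩ : GC Good)).trans hV
  have hul := hl.un hlV
  have hun : L 𝔅 x fun a => un (2 ^ E.hgt (r a).D + E.X (r a).P + 1) :=
    ((hl.add hX).add (hX.const 1)).un ((hlV.add hXV).mono_left fun a => by omega)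
  have huh : L 𝔅 x fun a => un (E.X (r a).P / 2) :=
    (hX.div (hX.const 2)).un (hXV.mono_left fun a => by omega)
  have hpot : S 𝔅 x fun a => E.pot (r a).P (r a).D := hS.pt hs.ptPot
  have htp : S 𝔅 x fun a => E.tp (r a).P (r a).D := hS.pt hs.ptTp
  have hup : L 𝔅 x fun a => un (E.pot (r a).P (r a).D) :=
    hpot.un (((pol_mul_pot_ole (c := fun a => root (r a)) (Pol.const _ 1)).trans hV).mono_left
      fun a => by simp [root])
  have hupt : L 𝔅 x fun a => un (E.pot (r a).P (r a).D * E.tp (r a).P (r a).D) :=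
    (hpot.mul htp).un (((pol_mul_pot_ole (c := fun a => root (r a))
      (f := fun a => E.tp (r a).P (r a).D)
      (Pol.of_le fun a => hs.tp_le _ _ (r a).good)).trans hV).mono_left
      fun a => by simp [root, mul_comm])
  have h1 : L 𝔅 x fun a => E.xs (root (r a)) :=
    (L.take hul ((hx.map_lt LT_some).append (hul.replicate_const none))).congr fun a => by
      rw [pad_take]; simp [xs, root]
  have h2 : L 𝔅 x fun a => E.ys (root (r a)) :=
    (L.take hun ((huh.replicate_const none).append
      (L.take hun ((hy.map_lt LT_some).append (hun.replicate_const none))))).congr fun a => by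
      rw [pad_take']; simp [ys, root]
  have h3 : L 𝔅 x fun a => E.own (root (r a)) := (L.drop hupt hb).congr fun a => own_root _
  have h4 : L 𝔅 x fun a => E.tps (root (r a)) :=
    (L.chunks (n := fun a => E.tp (r a).P (r a).D) hup (L.take hupt hb)
      (fun a => hw.pot_pos _ _ (r a).good) fun a => by
        simp [add_mul, mul_comm]).congr fun a => tps_root _
  exact hPD.pair (h1.pair (h2.pair (h3.pair h4)))

theorem L_root_val (hw : E.Wf Good) (hs : E.Sm Good Q)
    (hV : (fun a => E.W Q (root (r a))) ≼ 𝔅.V)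
    (hPD : L 𝔅 x fun a => ((r a).P, (r a).D)) (hz : L 𝔅 x fun a => (r a).z)
    (ho : L 𝔅 x fun a => E.out (root (r a))) :
    L 𝔅 x fun a => E.val (root (r a)) (r a).z := by
  have hg : ∀ a, Good (root (r a)).P (root (r a)).D := fun a => (r a).good
  have hq : (fun a => q1 (Q (r a).P)) ≼ 𝔅.V :=
    hV.mono_left fun a => q1_le_W hw (hg a)
  have hS := S_PD (c := fun a => root (r a)) hw hs hg hV hPD
  have hX : S 𝔅 x fun a => E.X (r a).P := hS.pt hs.ptX
  have hXV : (fun a => E.X (r a).P + 1) ≼ 𝔅.V :=
    ((pol_mul_X_ole (c := fun a => root (r a)) hw hg (Pol.const _ 1)).trans hV).mono_left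
      fun a => by simp [root]
  have hz' : S 𝔅 x fun a => (r a).z :=
    ⟨hz, (hX.sm.nat_le fun a => (r a).hz.1).pair (hX.sm.nat_le fun a => (r a).hz.2)⟩
  have hom : S 𝔅 x fun a => E.om (r a).P (r a).D := hS.pt hs.ptOm
  have hi : S 𝔅 x fun a => (r a).z.1 / 2 ^ E.om (r a).P (r a).D :=
    (hz'.fst.pt2 hom (f := fun u v : ℕ => u >>> v) (by fun_prop)).congr fun a =>
      Nat.shiftRight_eq_div_pow _ _
  have hiX : ∀ a, (r a).z.1 / 2 ^ E.om (r a).P (r a).D ≤ E.X (r a).P := fun a =>
    (Nat.div_le_self _ _).trans (r a).hz.1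
  have hB : L 𝔅 x fun a => E.blk (root (r a)) ((r a).z.1 / 2 ^ E.om (r a).P (r a).D) := by
    refine ((L.drop (hi.un (hXV.mono_left fun a => (hiX a).trans (Nat.le_succ _))) ho).headD
      (L.const [])).congr fun a => ?_
    have hlt : (r a).z.1 / 2 ^ E.om (r a).P (r a).D < E.nb (r a).P (r a).D :=
      Nat.lt_succ_of_le (Nat.div_le_div_right (r a).hz.1)
    rw [List.headD_eq_head?_getD, List.head?_drop]
    simp [out, root, hlt]
  have hB' : S 𝔅 x fun a => E.blk (root (r a)) ((r a).z.1 / 2 ^ E.om (r a).P (r a).D) :=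
    ⟨hB, (((pol_blk hs).comp fun a => ((⟨root (r a), hg a⟩ : GC Good),
      (r a).z.1 / 2 ^ E.om (r a).P (r a).D)).smIn fun _ => le_rfl).mono hq⟩
  refine (((hB'.pair (hz'.pair hX)).pt
    (f := fun p : Tb × St × ℕ => (p.1.lookup p.2.1).getD (p.2.2 : ℚ)) (by fun_prop)).l).congr
    fun a => ?_
  exact lookup_blk (root (r a)) (hs.gam_le _ _ (r a).good) _

end

/-- The budget at the root. -/
def VR (E : Eng Pa De) (Q : Pa → ℕ) (k : ℕ) (a : EIn E Good) : ℕ :=
  qp (Q a.P) * (symBits a.x a.y + 1) ^ k *
    ((E.X a.P + 1) * E.pot a.P a.D + a.x.length + a.y.length)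

theorem VB_le_VR (k : ℕ) (a : EIn E Good) : E.VB Q k (root a) ≤ VR E Q k a := by
  unfold VB VR root
  dsimp only
  gcongr
  omega

theorem sz_root (hw : E.Wf Good) (hs : E.Sm Good Q) {k : ℕ} (hk : 1 ≤ k) :
    sz (fun a : EIn E Good => (a.P, a.D, a.x, a.y,
      (List.range ((E.tp a.P a.D + 1) * E.pot a.P a.D)).map a.ρ, a.z)) ≼ VR E Q k := by
  have hV : (fun a : EIn E Good => E.W Q (root a)) ≼ VR E Q k :=
    OLe.of_le fun a => (W_le_VB hk _).trans (VB_le_VR k a)
  have hq : ∀ a : EIn E Good, q1 (Q a.P) ≤ VR E Q k a := fun a =>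
    (q1_le_W (c := root a) hw a.good).trans ((W_le_VB hk _).trans (VB_le_VR k a))
  have h1 : ∀ a : EIn E Good, 1 ≤ VR E Q k a := fun a => (q1_pos _).trans (hq a)
  have hX := (pol_X hs).comp fun a : EIn E Good => (⟨root a, a.good⟩ : GC Good)
  have hstr : ∀ a : EIn E Good, (symBits a.x a.y + 1) * (a.x.length + a.y.length) ≤
      VR E Q k a := fun a => by
    have e1 : 1 ≤ qp (Q a.P) := (q1_pos _).trans (q1_le_qp _)
    have e2 : symBits a.x a.y + 1 ≤ (symBits a.x a.y + 1) ^ k := Nat.le_self_pow (by omega) _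
    unfold VR
    calc _ = 1 * (symBits a.x a.y + 1) * (a.x.length + a.y.length) := by ring
      _ ≤ _ := by gcongr; omega
  refine sz_pair ((Pol.of_le fun a => hs.esP _ _ a.good).ole' hq)
    (sz_pair ((Pol.of_le fun a => hs.esD _ _ a.good).ole' hq) (sz_pair ?_ (sz_pair ?_
      (sz_pair (sz_bits ?_ h1) (sz_pair ((hX.nat_le fun a => a.hz.1).ole' hq)
        ((hX.nat_le fun a => a.hz.2).ole' hq))))))
  · refine (((OLe.of_le hstr).const_mul 6).add_const h1 1).mono_left fun a => ?_
    refine (esize_natList_le fun n hn => size_le_symBits_x (y := a.y) hn).trans ?_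
    gcongr; omega
  · refine (((OLe.of_le hstr).const_mul 6).add_const h1 1).mono_left fun a => ?_
    refine (esize_natList_le fun n hn => size_le_symBits_y (x := a.x) hn).trans ?_
    gcongr; omega
  · refine ((pol_mul_pot_ole (c := fun a : EIn E Good => root a)
      (f := fun a => E.tp a.P a.D + 1)
      ((Pol.of_le fun a => hs.tp_le _ _ a.good).add_const 1)).trans hV).mono_left fun a => ?_
    simp [root]

end Eng

/-- **Layer II.**  Recipe.  `Alg.fix` over the index `(P, D good, x, y, tapes, j, ρ)` with measure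
`pot P D`.  Input of a call: `(P, D, xs, ys, own, tps)` with `xs = x[j ℓ + i]?` (`i < ℓ = 2 ^ hgt D`),
`ys t = if X/2 ≤ j ℓ + t then y[j ℓ + t - X/2]? else none` (`t < ℓ + X + 1`), `own` = the first
`pot P D` bits of `ρ`, `tps` = the first `pot P D` bits of the tapes `i < tp P D` (`≤` at the root).
Output: the table as the list of the `X / 2 ^ om + 1` *blocks*; block `i` is the association list
`z ↦ ev … z` over the states `inW` with `z.1 / 2 ^ om = i`.  Body: compute `plan` (PT on small
data); walk through it (`Cp.mapAccum`/`Cp.map`, rest of `own` as accumulator or `drop (off κ)`):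
read `idx`, slice strings / bits / tapes, call (`RecIdx.call`), regrid the answer to blocks of
width `2 ^ om P D` (`chunks` + `flatten` if the sub-blocks are narrower, `replicate` + `flatten` if
wider), glue every block with its two neighbours (`zip` with shifted copies), and add it to the
per-block accumulator (`zipWith cons`: this is the transposition).  At height `0` cut the mismatch
bits `(b, ms j b)` into blocks in the same way.  Finally map over the blocks the PT function that
lists the states of the block and applies `rule` with `G κ z'` = guarded `lookup` (`ptRule` with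
`α` = good small data); every block datum has size `poly (Q P)`, so its cost is `O(qp (Q P))`.
Recurrence: `T D = c * qp Q * (b+1)^k * (X+1) * pot D`, closed by `pot_sum`, `len_le`.
Root: build `xs`, `ys` (pad / cut with `take`, `replicate`), cut the tapes (`chunks`), call, flatten
and look `z` up (default `X`). -/
theorem Eng.alg {Pa De : Type} [DecidableEq De] [Enc Pa] [Enc De] (E : Eng Pa De)
    (Good : Pa → De → Prop) (Q : Pa → ℕ) (hw : E.Wf Good) (hs : E.Sm Good Q) :
    ∃ (c : ℝ) (k : ℕ), 0 ≤ c ∧
      Alg (fun a : EIn E Good => (a.P, a.D, a.x, a.y,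
            (List.range ((E.tp a.P a.D + 1) * E.pot a.P a.D)).map a.ρ, a.z))
        (fun a => E.tab a.P (mis a.x a.y (E.X a.P)) (tapesOf (E.pot a.P a.D) a.ρ) a.D 0 a.z)
        (fun a => c * qp (Q a.P) * ((symBits a.x a.y : ℝ) + 1) ^ k *
          (((E.X a.P : ℝ) + 1) * E.pot a.P a.D + a.x.length + a.y.length)) := by
  rcases isEmpty_or_nonempty De with hD | hD
  · exact ⟨0, 0, le_rfl, .skip, fun a => (hD.false a.D).elim⟩
  have : Inhabited De := Classical.inhabited_of_nonempty hD
  obtain ⟨c, k, hc, hk, halg⟩ := Eng.alg_rec hw hs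
  obtain ⟨c', hc', h⟩ := Alg.ofL (fun a : EIn E Good => (a.P, a.D, a.x, a.y,
      (List.range ((E.tp a.P a.D + 1) * E.pot a.P a.D)).map a.ρ, a.z))
    (fun a => E.val (Eng.root a) a.z) (Eng.VR E Q k) (fun a => (Eng.VR E Q k a : ℝ))
    (fun _ => le_rfl) (Eng.sz_root hw hs hk) (by
      set 𝔅 : Bud (RProg × EIn E Good) := ⟨fun p => p.1, fun p => Eng.VR E Q k p.2,
        fun p => (Eng.VR E Q k p.2 : ℝ), fun _ => le_rfl⟩ with h𝔅
      have hV : (fun p : RProg × EIn E Good => E.W Q (Eng.root p.2)) ≼ 𝔅.V :=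
        OLe.of_le fun p => (Eng.W_le_VB hk _).trans (Eng.VB_le_VR k p.2)
      have h0 := L.refl 𝔅 fun p => (p.2.P, p.2.D, p.2.x, p.2.y,
        (List.range ((E.tp p.2.P p.2.D + 1) * E.pot p.2.P p.2.D)).map p.2.ρ, p.2.z)
      have hPD : L 𝔅 _ fun p => (p.2.P, p.2.D) := h0.fst.pair h0.snd.fst
      have hi := Eng.L_root_inp (r := fun p : RProg × EIn E Good => p.2) hw hs hV hPD
        h0.snd.snd.fst h0.snd.snd.snd.fst h0.snd.snd.snd.snd.fst
      have ho := hi.comp (halg.l 𝔅 (fun p => (⟨Eng.root p.2, p.2.good⟩ : GC Good))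
        (((Eng.sz_out hw hs).comp _).trans hV) ⟨c, hc, fun p => by
          have h1 : ((E.VB Q k (Eng.root p.2) : ℕ) : ℝ) ≤ Eng.VR E Q k p.2 := by
            exact_mod_cast Eng.VB_le_VR k p.2
          refine le_trans (le_of_eq ?_) (mul_le_mul_of_nonneg_left h1 hc)
          simp only [Eng.VB]; push_cast; ring⟩)
      exact Eng.L_root_val (r := fun p : RProg × EIn E Good => p.2) hw hs hV hPD
        h0.snd.snd.snd.snd.snd ho)
  refine ⟨c', k, hc', h.mono fun a => le_of_eq ?_⟩
  simp only [Eng.VR]; push_cast; ring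

end Crest.Agent.R288
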