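/-
R288/GeoHi: the banded program is exact when the edit distance fits in the band.
-/
import Crest.Agent.R288.Geo

set_option autoImplicit false

namespace Crest.Agent.R288

open Crest.GraphRAM

theorem hi_ed_nil (y : List ℕ) : editDist [] y = y.length := rfl

theorem hi_ed_nil' (x : List ℕ) : editDist x [] = x.length := by cases x <;> rfl

theorem hi_ed_cons (a b : ℕ) (x y : List ℕ) : editDist (a :: x) (b :: y) =
    min (editDist x y + if a = b then 0 else 1)
      (min (editDist (a :: x) y + 1) (editDist x (b :: y) + 1)) := rfl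

theorem dist_le_editDist (x y : List ℕ) : Nat.dist x.length y.length ≤ editDist x y := by
  induction x generalizing y with
  | nil => simp [hi_ed_nil, Nat.dist]
  | cons a x ihx =>
    induction y with
    | nil => simp [hi_ed_nil', Nat.dist]
    | cons b y ihy =>
      have h1 := ihx y
      have h2 := ihx (b :: y)
      rw [hi_ed_cons]
      simp only [List.length_cons, Nat.dist] at *
      omega

/-- a chain of columns through the rows `i, …, i + k - 1`, from `a` to (a column near) `a'` -/
def HiCh (X : ℕ) (ms : ℕ → ℕ → Bool) (a' k i a c : ℕ) : Prop :=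
  ∃ α : ℕ → ℕ, (∀ t, α t ≤ X) ∧ α 0 = a ∧
    ∑ t ∈ Finset.range k, vleaf (ms (i + t)) (α t, α (t + 1)) + Nat.dist (α k) a' ≤ c

theorem HiCh.cons {X : ℕ} {ms : ℕ → ℕ → Bool} {a' k i a s c c' : ℕ} (h : HiCh X ms a' k (i + 1) s c)
    (ha : a ≤ X) (hc : vleaf (ms i) (a, s) + c ≤ c') : HiCh X ms a' (k + 1) i a c' := by
  obtain ⟨α, h1, rfl, h2⟩ := h
  refine ⟨fun t => Nat.casesOn t a α, fun t => by cases t; exacts [ha, h1 _], rfl, ?_⟩
  rw [Finset.sum_range_succ']
  simp only [add_assoc i 1, add_comm 1] at h2
  change _ + vleaf (ms i) (a, α 0) + Nat.dist (α k) a' ≤ _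
  change ∑ t ∈ Finset.range k, vleaf (ms (i + (t + 1))) (α t, α (t + 1)) + _ + _ ≤ _
  omega

theorem HiCh.shift {X : ℕ} {ms : ℕ → ℕ → Bool} {a' k i a c : ℕ}
    (h : HiCh X ms a' (k + 1) i (a + 1) c) : HiCh X ms a' (k + 1) i a (c + 1) := by
  obtain ⟨α, h1, h0, h2⟩ := h
  rw [Finset.sum_range_succ'] at h2
  have h3 : HiCh X ms a' k (i + 1) (α 1) (∑ t ∈ Finset.range k,
      vleaf (ms (i + (t + 1))) (α (t + 1), α (t + 1 + 1)) + Nat.dist (α (k + 1)) a') :=
    ⟨fun t => α (t + 1), fun t => h1 _, rfl, by simp only [add_assoc i 1, add_comm 1]; rfl⟩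
  have h4 := V_lip (X := X) (ms := ms) 0 i (a, α 1) (a + 1, α 1)
  have h5 := h1 0
  refine h3.cons (by omega) ?_
  simp only [V, dst, Nat.dist_self, zero_add, add_zero, h0] at h2 h4
  have h6 : Nat.dist a (a + 1) = 1 := by simp [Nat.dist]
  omega

theorem hi_vleaf_diag (m : ℕ → Bool) (a : ℕ) : vleaf m (a, a) = if m a = true then 1 else 0 := by
  simp [vleaf]

theorem hi_vleaf_del (m : ℕ → Bool) (a : ℕ) : vleaf m (a + 1, a) = 1 := by
  simp [vleaf, Nat.dist]

theorem hi_main (x y : List ℕ) (H a' n : ℕ) (hx : x.length ≤ n) (ha : a' + x.length = H + y.length)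
    (u : List ℕ) : ∀ i, x.drop i = u → i ≤ x.length → ∀ k, i + k = n → ∀ (v : List ℕ) (p : ℕ),
      y.drop p = v → p ≤ y.length → ∀ a, a + i = H + p → Nat.dist a H + editDist u v ≤ H →
        HiCh (2 * H) (mis x y (2 * H)) a' k i a (editDist u v) := by
  induction u with
  | nil =>
    intro i hu hi k hk v p hv hp a hap hH
    have h1 : x.length ≤ i := List.drop_eq_nil_iff.1 hu
    have h2 : v.length = y.length - p := by rw [← hv, List.length_drop]
    rw [hi_ed_nil] at hH ⊢
    refine ⟨fun _ => a, fun _ => by beta_reduce; unfold Nat.dist at hH; omega, rfl, ?_⟩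
    rw [Finset.sum_eq_zero fun t _ => by
      rw [hi_vleaf_diag, mis, List.getElem?_eq_none (by omega)]; rfl]
    beta_reduce
    unfold Nat.dist
    omega
  | cons c u ihu =>
    intro i hu hi k hk v
    have h1 : i < x.length := by
      by_contra h
      rw [List.drop_eq_nil_iff.2 (by omega)] at hu
      cases hu
    have hc : x[i]? = some c := by rw [← List.head?_drop, hu]; rfl
    have hu' : x.drop (i + 1) = u := by rw [← List.tail_drop, hu]; rfl
    obtain ⟨k, rfl⟩ : ∃ k', k = k' + 1 := ⟨k - 1, by omega⟩
    have ih := ihu (i + 1) hu' h1 k (by omega)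
    have del : ∀ v p, y.drop p = v → p ≤ y.length → ∀ a, a + i = H + p →
        Nat.dist a H + (editDist u v + 1) ≤ H →
        HiCh (2 * H) (mis x y (2 * H)) a' (k + 1) i a (editDist u v + 1) := fun v p hv hp a hap hH => by
      unfold Nat.dist at hH
      obtain ⟨a, rfl⟩ : ∃ b, a = b + 1 := ⟨a - 1, by omega⟩
      refine (ih v p hv hp a (by omega) (by unfold Nat.dist; omega)).cons (by omega) ?_
      rw [hi_vleaf_del, add_comm]
    induction v with
    | nil =>
      intro p hv hp a hap hH
      have h2 := del [] p hv hp a hap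
      rw [hi_ed_nil'] at h2 hH ⊢
      exact h2 hH
    | cons b v ihv =>
      intro p hv hp a hap hH
      have h2 : p < y.length := by
        by_contra h
        rw [List.drop_eq_nil_iff.2 (by omega)] at hv
        cases hv
      have hb : y[p]? = some b := by rw [← List.head?_drop, hv]; rfl
      have hv' : y.drop (p + 1) = v := by rw [← List.tail_drop, hv]; rfl
      rw [hi_ed_cons] at hH ⊢
      rcases min_choice (editDist u v + if c = b then 0 else 1)
        (min (editDist (c :: u) v + 1) (editDist u (b :: v) + 1)) with h | h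
      · rw [h] at hH ⊢
        refine (ih v (p + 1) hv' h2 a (by omega) (by omega)).cons (by unfold Nat.dist at hH; omega) ?_
        have h3 : mis x y (2 * H) i a = (some b != some c) := by
          rw [mis, hc]
          simp only
          rw [if_pos (by omega), show i + a - 2 * H / 2 = p by omega, hb]
        rw [hi_vleaf_diag, h3, add_comm]
        by_cases h4 : c = b
        · simp [h4]
        · simp [h4, Ne.symm h4]
      rw [h] at hH ⊢
      rcases min_choice (editDist (c :: u) v + 1) (editDist u (b :: v) + 1) with h | h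
      · rw [h] at hH ⊢
        exact (ihv (p + 1) hv' h2 (a + 1) (by omega) (by unfold Nat.dist at hH ⊢; omega)).shift
      · rw [h] at hH ⊢
        exact del _ p hv hp a hap hH

/-- Recipe.  Show by induction on the suffix (`x.drop i`, then `y.drop p`, following the recursion of
`editDist`) that for `p ≤ |y|`, a column `a` with `a + i = H + p` (`i ≤ |x|`) and
`|a - H| + editDist (x.drop i) (y.drop p) ≤ H` there are columns `α i = a, …, α n = a'` (`n = 2^L`),
all within `[0, 2H]`, with `∑ vleaf (mis k) (α k, α (k+1)) ≤ editDist (x.drop i) (y.drop p)`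
(an insertion raises the entry column by one: `vleaf m (a, s) ≤ 1 + vleaf m (a+1, s)`; a deletion is
`vleaf (a, a-1) = 1`; a diagonal step is `vleaf (a, a) = mis`; when `x` is used up, trailing
insertions go into the next padded row, or into the exit column of the last row if there is none:
use `V_lip`-type monotonicity in the exit column).  Conclude with `V_chain_le` (`h = 0`). -/
theorem V_le_ed (x y : List ℕ) (L H a' : ℕ) (hx : x.length ≤ 2 ^ L)
    (ha : a' + x.length = H + y.length) (hH : editDist x y ≤ H) :
    V (2 * H) (mis x y (2 * H)) L 0 (H, a') ≤ editDist x y := by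
  obtain ⟨α, h1, h0, h2⟩ := hi_main x y H a' (2 ^ L) hx ha x 0 rfl (by omega) (2 ^ L) (by omega) y 0 rfl
    (by omega) H (by omega) (by simpa using hH)
  have h3 := V_chain_le (ms := mis x y (2 * H)) 0 L 0 α h1
  have h4 := V_lip (X := 2 * H) (ms := mis x y (2 * H)) L 0 (H, a') (α 0, α (2 ^ L))
  simp only [zero_add, zero_mul, V] at h2 h3
  rw [dst, h0, Nat.dist_self, Nat.dist_comm] at h4
  rw [h0] at h3
  simp only at h4
  omega

end Crest.Agent.R288
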