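/-
R288/GeoLo: the banded program never undershoots the edit distance.
-/
import Crest.Agent.R288.Geo

set_option autoImplicit false

namespace Crest.Agent.R288

open Crest.GraphRAM

theorem glo_nil_left (y : List ℕ) : editDist ([] : List ℕ) y = y.length := rfl

theorem glo_nil_right (x : List ℕ) : editDist x ([] : List ℕ) = x.length := by
  cases x <;> rfl

theorem glo_cons (a b : ℕ) (x y : List ℕ) : editDist (a :: x) (b :: y) =
    min (editDist x y + if a = b then 0 else 1)
      (min (editDist (a :: x) y + 1) (editDist x (b :: y) + 1)) := rfl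

theorem glo_cons_right (b : ℕ) (x y : List ℕ) : editDist x (b :: y) ≤ editDist x y + 1 := by
  cases x with
  | nil => simp [glo_nil_left]
  | cons a x => rw [glo_cons]; omega

theorem glo_cons_left (a : ℕ) (x y : List ℕ) : editDist (a :: x) y ≤ editDist x y + 1 := by
  cases y with
  | nil => simp [glo_nil_right]
  | cons b y => rw [glo_cons]; omega

theorem glo_le_cons (b : ℕ) (x y : List ℕ) : editDist x y ≤ editDist x (b :: y) + 1 := by
  induction x with
  | nil => simp only [glo_nil_left, List.length_cons]; omega
  | cons a x ih =>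
    have h := glo_cons_left a x y
    rw [glo_cons]
    omega

/-- the potential -/
def gloF (Y u : List ℕ) (P : ℕ) : ℕ := editDist u (Y.drop P) + (P - Y.length)

theorem glo_step (Y u : List ℕ) (P : ℕ) :
    gloF Y u P ≤ gloF Y u (P + 1) + 1 ∧ gloF Y u (P + 1) ≤ gloF Y u P + 1 := by
  unfold gloF
  rcases lt_or_ge P Y.length with h | h
  · rw [List.drop_eq_getElem_cons h]
    have h1 := glo_cons_right Y[P] u (Y.drop (P + 1))
    have h2 := glo_le_cons Y[P] u (Y.drop (P + 1))
    omega
  · rw [List.drop_of_length_le h, List.drop_of_length_le (by omega)]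
    omega

theorem glo_lip_add (Y u : List ℕ) (P k : ℕ) :
    gloF Y u P ≤ gloF Y u (P + k) + k ∧ gloF Y u (P + k) ≤ gloF Y u P + k := by
  induction k with
  | zero => simp
  | succ k ih =>
    have h := glo_step Y u (P + k)
    rw [show P + (k + 1) = P + k + 1 from rfl]
    omega

theorem glo_lip (Y u : List ℕ) (P Q : ℕ) : gloF Y u P ≤ gloF Y u Q + Nat.dist P Q := by
  rcases le_total P Q with h | h
  · obtain ⟨k, rfl⟩ := Nat.exists_eq_add_of_le h
    have := (glo_lip_add Y u P k).1
    unfold Nat.dist
    omega
  · obtain ⟨k, rfl⟩ := Nat.exists_eq_add_of_le h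
    have := (glo_lip_add Y u Q k).2
    unfold Nat.dist
    omega

theorem glo_del (Y u : List ℕ) (c P : ℕ) : gloF Y (c :: u) P ≤ gloF Y u P + 1 := by
  unfold gloF
  have := glo_cons_left c u (Y.drop P)
  omega

theorem glo_sub (Y u : List ℕ) (c P : ℕ) : gloF Y (c :: u) P ≤ gloF Y u (P + 1) + 1 := by
  unfold gloF
  rcases lt_or_ge P Y.length with h | h
  · rw [List.drop_eq_getElem_cons h, glo_cons]
    split_ifs <;> omega
  · rw [List.drop_of_length_le h, List.drop_of_length_le (by omega), glo_nil_right, glo_nil_right,
      List.length_cons]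
    omega

theorem glo_match (Y u : List ℕ) (c P : ℕ) (hc : Y[P]? = some c) :
    gloF Y (c :: u) P ≤ gloF Y u (P + 1) := by
  obtain ⟨h, rfl⟩ := List.getElem?_eq_some_iff.1 hc
  unfold gloF
  rw [List.drop_eq_getElem_cons h, glo_cons, if_pos rfl]
  omega

theorem glo_row (x y : List ℕ) (H i a s : ℕ) :
    gloF (List.replicate H 0 ++ y) (x.drop i) (min i x.length + a) ≤
      vleaf (mis x y (2 * H) i) (a, s) +
        gloF (List.replicate H 0 ++ y) (x.drop (i + 1)) (min (i + 1) x.length + s) := by
  generalize hY : List.replicate H 0 ++ y = Y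
  unfold vleaf
  dsimp only
  rcases lt_or_ge i x.length with h | h
  · rw [List.drop_eq_getElem_cons h, min_eq_left h.le, min_eq_left (show i + 1 ≤ x.length from h)]
    generalize hc : x[i] = c
    generalize x.drop (i + 1) = u
    split_ifs with h1
    · have a1 := glo_sub Y u c (i + a)
      have a2 := glo_lip Y u (i + a + 1) (i + 1 + s)
      unfold Nat.dist at a2 ⊢
      omega
    · rcases lt_or_ge s a with h2 | h2
      · have a1 := glo_del Y u c (i + a)
        have a2 := glo_lip Y u (i + a) (i + 1 + s)
        unfold Nat.dist at a2 ⊢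
        omega
      · have h3 : ¬ (List.range' a (s + 1 - a)).all (mis x y (2 * H) i) = true := fun h4 => h1 ⟨h2, h4⟩
        rw [List.all_eq_true] at h3
        push Not at h3
        obtain ⟨k, hk, hm⟩ := h3
        rw [List.mem_range'_1] at hk
        have hx : x[i]? = some c := by rw [List.getElem?_eq_getElem h, hc]
        unfold mis at hm
        rw [hx, show 2 * H / 2 = H by omega] at hm
        dsimp only at hm
        have h5 : H ≤ i + k := by
          by_contra h6
          rw [if_neg h6] at hm
          exact hm rfl
        rw [if_pos h5] at hm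
        have h7 : Y[i + k]? = some c := by
          rw [← hY, List.getElem?_append_right (by simpa using h5), List.length_replicate]
          simpa using hm
        have a1 := glo_lip Y (c :: u) (i + a) (i + k)
        have a2 := glo_match Y u c (i + k) h7
        have a3 := glo_lip Y u (i + k + 1) (i + 1 + s)
        unfold Nat.dist at a1 a3 ⊢
        omega
  · rw [List.drop_of_length_le h, List.drop_of_length_le (by omega), min_eq_right h,
      min_eq_right (show x.length ≤ i + 1 by omega)]
    have a1 := glo_lip Y [] (x.length + a) (x.length + s)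
    unfold Nat.dist at a1 ⊢
    omega

/-- Recipe.  `V_chain_eq` with `h = 0` gives columns `α 0 = H, …, α (2^L) = a'`.  Column `a` before
row `i` stands for the position `p = min i |x| + a - H ∈ ℤ` in `y`.  Potential
`F i p = editDist (x.drop i) (y.drop p) + (-p)₊ + …` (for `p < 0` use `editDist (x.drop i) y + |p|`,
for `p > |y|` use `editDist (x.drop i) [] + (p - |y|)`); `F i ·` is `1`-Lipschitz in `p`,
`F i p ≤ F (i+1) p + 1`, `F i p ≤ F (i+1) (p+1) + [mis]`; hence
`F i (pos i a) ≤ vleaf (mis i) (a, s) + F (i+1) (pos (i+1) s)` for every row (padded rows: Lipschitz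
only), and `F (2^L) |y| = 0`. -/
theorem ed_le_V (x y : List ℕ) (L H a' : ℕ) (hx : x.length ≤ 2 ^ L)
    (ha : a' + x.length = H + y.length) (ha' : a' ≤ 2 * H) :
    editDist x y ≤ V (2 * H) (mis x y (2 * H)) L 0 (H, a') := by
  obtain ⟨α, -, h0, h1, hs⟩ := V_chain_eq (X := 2 * H) (ms := mis x y (2 * H)) 0 L 0 (z := (H, a'))
    (by dsimp only; omega) ha'
  dsimp only at h0 h1
  rw [zero_add] at hs
  rw [← hs]
  have key : ∀ n, gloF (List.replicate H 0 ++ y) (x.drop 0) (min 0 x.length + α 0) ≤
      ∑ i ∈ Finset.range n, V (2 * H) (mis x y (2 * H)) 0 (0 * 2 ^ L + i) (α i, α (i + 1)) +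
        gloF (List.replicate H 0 ++ y) (x.drop n) (min n x.length + α n) := by
    intro n
    induction n with
    | zero => simp
    | succ n ih =>
      have a1 := glo_row x y H n (α n) (α (n + 1))
      rw [Finset.sum_range_succ]
      simp only [V, zero_mul, zero_add] at ih ⊢
      omega
  have a1 := key (2 ^ L)
  rw [h0, h1, List.drop_of_length_le hx, min_eq_right hx] at a1
  have e1 : gloF (List.replicate H 0 ++ y) [] (x.length + a') = 0 := by
    unfold gloF
    rw [List.drop_of_length_le (by simp; omega)]
    simp only [glo_nil_left, List.length_nil, List.length_append, List.length_replicate]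
    omega
  have e2 : gloF (List.replicate H 0 ++ y) (x.drop 0) (min 0 x.length + H) = editDist x y := by
    unfold gloF
    rw [Nat.zero_min, zero_add, List.drop_zero, List.drop_left' (by simp)]
    simp
  rw [e1, e2, add_zero] at a1
  exact a1

theorem editDist_le_add (x y : List ℕ) : editDist x y ≤ x.length + y.length := by
  induction x with
  | nil => simp [glo_nil_left]
  | cons a x ih =>
    have := glo_cons_left a x y
    rw [List.length_cons]
    omega

theorem editDist_eq_zero {x y : List ℕ} (h : editDist x y = 0) : x = y := by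
  induction x generalizing y with
  | nil => exact (List.length_eq_zero_iff.1 h).symm
  | cons a x ih =>
    cases y with
    | nil => simp [glo_nil_right] at h
    | cons b y =>
      rw [glo_cons] at h
      by_cases hab : a = b
      · rw [if_pos hab] at h
        rw [hab, ih (y := y) (by omega)]
      · rw [if_neg hab] at h
        omega

end Crest.Agent.R288
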