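/-
R288/SmR: regret of the linearised values against a tracked comparator.
-/
import Crest.Agent.R288.SmI

set_option autoImplicit false

namespace Crest.Agent.R288

open Finset

namespace Pa

/-- The comparator `zo` splits its states at admissible actions. -/
structure Tracked (P : Pa) (h c : ℕ) (nt : ℕ → ℕ → ℕ → St → ℚ) (y : St) (zo : ℕ → ℕ → St) :
    Prop where
  top : zo 0 0 = y
  step : ∀ i < P.d, ∀ j' < 2 ^ i, (P.cen h c nt y i j').2 = true → ¬ P.termAt h c nt y i j' →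
    ∃ a ∈ P.acts (h + c) (P.midAt h c nt y i j'),
      zo (i + 1) (2 * j') = ((zo i j').1, a) ∧ zo (i + 1) (2 * j' + 1) = (a, (zo i j').2)

/-- Cost of the comparator below node `j'` of height `e`, with bottom values `bm`. -/
def costv (P : Pa) (h c : ℕ) (nt : ℕ → ℕ → ℕ → St → ℚ) (y : St) (zo : ℕ → ℕ → St)
    (bm : ℕ → St → ℚ) : ℕ → ℕ → ℚ
  | 0, j' => bm j' (zo P.d j')
  | e + 1, j' =>
    if P.termAt h c nt y (P.d - (e + 1)) j' then
      nt (P.d - (e + 1)) j' c (P.cen h c nt y (P.d - (e + 1)) j').1 +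
        dst (zo (P.d - (e + 1)) j') (P.cen h c nt y (P.d - (e + 1)) j').1
    else costv P h c nt y zo bm e (2 * j') + costv P h c nt y zo bm e (2 * j' + 1)

variable {P : Pa} {ms : ℕ → ℕ → Bool} {Nb Nt : Fam} {Pt : ℕ → ℕ → Fam} {K : ℝ} {β h j c : ℕ}
  {y : St}

theorem Tracked.inA {nt : ℕ → ℕ → ℕ → St → ℚ} {zo : ℕ → ℕ → St} (hz : P.Tracked h c nt y zo)
    (hy : P.inW (h + c) y) {i j' : ℕ} (hi : i ≤ P.d) (hj : j' < 2 ^ i)
    (ha : (P.cen h c nt y i j').2 = true) :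
    P.InA (h + c) (P.cen h c nt y i j').1 (zo i j') := by
  induction i generalizing j' with
  | zero =>
    obtain rfl : j' = 0 := by simpa using hj
    rw [hz.top]
    exact cen_inA (nt := nt) hy (Nat.zero_le _) 0
  | succ i ih =>
    have hj2 : j' / 2 < 2 ^ i := by
      rw [pow_succ] at hj
      omega
    have hpar : (P.cen h c nt y i (j' / 2)).2 = true ∧ ¬ P.termAt h c nt y i (j' / 2) := by
      by_contra hcon
      have hd : (P.cen h c nt y i (j' / 2)).2 = false ∨ P.termAt h c nt y i (j' / 2) := by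
        by_cases h1 : (P.cen h c nt y i (j' / 2)).2 = true
        · exact Or.inr (by_contra fun h2 => hcon ⟨h1, h2⟩)
        · exact Or.inl (by simpa using h1)
      have h3 := cen_dead hd
      rcases Nat.mod_two_eq_zero_or_one j' with h4 | h4
      · rw [show 2 * (j' / 2) = j' by omega, ha] at h3
        exact absurd h3.1 (by simp)
      · rw [show 2 * (j' / 2) + 1 = j' by omega, ha] at h3
        exact absurd h3.2 (by simp)
    obtain ⟨a, haA, hl, hr⟩ := hz.step i (by omega) (j' / 2) hj2 hpar.1 hpar.2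
    have hin := ih (by omega) hj2 hpar.1
    rcases Nat.mod_two_eq_zero_or_one j' with h4 | h4
    · have h5 := cen_left hpar.1 hpar.2
      rw [show 2 * (j' / 2) = j' by omega] at h5 hl
      rw [h5, hl]
      exact ⟨hin.1, haA⟩
    · have h5 := cen_right hpar.1 hpar.2
      rw [show 2 * (j' / 2) + 1 = j' by omega] at h5 hr
      rw [h5, hr]
      exact ⟨haA, hin.2⟩

/-- The accumulated numerical errors are negligible. -/
theorem smr_ups (hP : P.OK) :
    (P.M : ℝ) * (2 ^ (P.d + 2) * (P.ups : ℝ) ^ 2) ≤ 1 / 2 ^ (5 * P.p) := by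
  have h1 : P.M ≤ 2 ^ P.Lx := by
    have h2 := hP.M_le
    have h3 := hP.l1_lt
    have h4 : P.M * 1 ≤ P.M * 2 ^ (3 * P.p) := Nat.mul_le_mul_left _ Nat.one_le_two_pow
    omega
  have h2 : (P.M : ℝ) ≤ 2 ^ P.Lx := by exact_mod_cast h1
  have h3 := hP.wx_le
  have h4 := hP.p_ge
  have e : ((P.ups : ℚ) : ℝ) ^ 2 = 1 / 2 ^ (16 * P.Lx) := by
    unfold ups
    push_cast
    rw [div_pow, one_pow, ← pow_mul]
    congr 2
    ring
  rw [e]
  calc (P.M : ℝ) * (2 ^ (P.d + 2) * (1 / 2 ^ (16 * P.Lx)))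
      ≤ 2 ^ P.Lx * (2 ^ (P.d + 2) * (1 / 2 ^ (16 * P.Lx))) := by gcongr
    _ = 2 ^ (P.Lx + (P.d + 2)) / 2 ^ (16 * P.Lx) := by
        rw [pow_add _ P.Lx]
        ring
    _ ≤ 1 / 2 ^ (5 * P.p) := by
        rw [div_le_div_iff₀ (by positivity) (by positivity), one_mul, ← pow_add]
        exact pow_le_pow_right₀ one_le_two (by omega)

theorem smr_x1 {x : ℝ} (hx : 128 ≤ x) : 12 / x ^ 6 * 7 ≤ 1 / x ^ 5 := by
  have hx0 : 0 < x := by linarith
  rw [div_mul_eq_mul_div, div_le_div_iff₀ (by positivity) (by positivity), pow_succ x 5]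
  have : 0 < x ^ 5 := by positivity
  nlinarith

theorem smr_x2 {x : ℝ} (hx : 128 ≤ x) : 6 * (1 / x ^ 13) ≤ 1 / x ^ 5 := by
  have hx0 : 0 < x := by linarith
  rw [mul_one_div, div_le_div_iff₀ (by positivity) (by positivity),
    show x ^ 13 = x ^ 5 * x ^ 8 by ring]
  have h1 : 0 < x ^ 5 := by positivity
  have h2 : x ≤ x ^ 8 := le_self_pow₀ (by linarith) (by norm_num)
  nlinarith

/-- The regret of one inner node. -/
theorem smr_node (hP : P.OK) {μ Λ : ℝ} (hΛ : 0 < Λ) (hΛμ : Λ ≤ μ) {A : List ℕ}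
    (hA : A.length ≤ 2 ^ P.kap) {q : ℕ → ℕ → ℝ} {a : ℕ} (ha : a ∈ A)
    (hosc : ∀ k < P.M, ∀ a ∈ A, ∀ b ∈ A, q k a ≤ q k b + 6 * P.Gq * μ)
    (hmono : ∀ k, k + 1 < P.M → ∀ a ∈ A,
      q (k + 1) a ≤ q k a + 2 ^ (P.d + 2) * (P.ups : ℝ) ^ 2 * Λ)
    (hrng : ∀ k < P.M, ∀ k' < P.M, ∀ a ∈ A, ∀ b ∈ A, q k a ≤ q k' b + 6 * μ) :
    ∑ m ∈ range P.M, Phi (P.eta / μ) A q m (q m) + P.M * ((P.ups : ℝ) ^ 2 * Λ) ≤
      ∑ m ∈ range P.M, q m a + P.rho * μ := by
  have hμ : 0 < μ := hΛ.trans_le hΛμ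
  obtain ⟨⟨k0, a0⟩, h0, hmin⟩ := exists_min_image (range P.M ×ˢ A.toFinset)
    (fun r : ℕ × ℕ => q r.1 r.2)
    ⟨(0, a), mem_product.2 ⟨mem_range.2 hP.M_pos, List.mem_toFinset.2 ha⟩⟩
  obtain ⟨hk0, ha0⟩ := mem_product.1 h0
  rw [mem_range] at hk0
  rw [List.mem_toFinset] at ha0
  obtain ⟨x, hx⟩ : ∃ x : ℝ, x = 2 ^ P.p := ⟨_, rfl⟩
  have hx1 : 128 ≤ x := by
    have h1 := hP.p_ge
    rw [hx, show (128 : ℝ) = 2 ^ 7 by norm_num]
    exact pow_le_pow_right₀ one_le_two (by omega)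
  have hx0 : 0 < x := by linarith
  have eη : ((P.eta : ℚ) : ℝ) = x ^ 7 := by
    unfold eta
    push_cast
    rw [hx, ← pow_mul, mul_comm]
  have eG : ((P.Gq : ℚ) : ℝ) = 1 / x ^ 13 := by
    unfold Gq
    push_cast
    rw [hx, ← pow_mul, mul_comm]
  have eρ : ((P.rho : ℚ) : ℝ) = 4 * (1 / x ^ 5) := by
    unfold rho
    push_cast
    rw [hx, ← pow_mul, mul_comm P.p]
    ring
  have hu := smr_ups hP
  rw [mul_comm 5, pow_mul, ← hx] at hu
  have hx5 : 1 / x ^ 5 ≤ 1 := by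
    rw [div_le_one (by positivity)]
    exact one_le_pow₀ (by linarith)
  have eηg : 2 * (P.eta / μ) * (6 * P.Gq * μ) = 12 / x ^ 6 := by
    rw [eη, eG]
    field_simp
    norm_num
  have hηg : 12 / x ^ 6 * 7 ≤ 1 / x ^ 5 := smr_x1 hx1
  have hηg0 : 0 ≤ 12 / x ^ 6 := by positivity
  have hG : 6 * (P.Gq : ℝ) ≤ 1 / x ^ 5 := by
    rw [eG]
    exact smr_x2 hx1
  have hG0 : 0 ≤ (P.Gq : ℝ) := by
    rw [eG]
    positivity
  have hη : 0 < (P.eta : ℝ) / μ := by
    rw [eη]
    positivity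
  have hlog : Real.log A.length / (P.eta / μ) ≤ 1 / x ^ 5 * μ := by
    have h1 : Real.log A.length ≤ x ^ 2 := by
      have h2 : (0 : ℝ) < A.length := ls_len_pos (List.ne_nil_of_mem ha)
      have h3 : (A.length : ℝ) ≤ 2 ^ P.kap := by exact_mod_cast hA
      have h4 := Real.log_le_log h2 h3
      rw [Real.log_pow] at h4
      have h5 : Real.log 2 ≤ 1 := by linarith [Real.log_two_lt_d9]
      have h6 : (P.kap : ℝ) ≤ x ^ 2 := by
        have h7 := hP.kap_le
        rw [hx, ← pow_mul, mul_comm]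
        exact_mod_cast (by omega : P.kap ≤ 2 ^ (2 * P.p))
      exact h4.trans ((mul_le_of_le_one_right (Nat.cast_nonneg _) h5).trans h6)
    rw [div_le_iff₀ hη, eη]
    refine h1.trans (le_of_eq ?_)
    field_simp
  have key := Phi_regret (q := q) hη P.M ha (g := 6 * P.Gq * μ)
    (ξ := 2 ^ (P.d + 2) * (P.ups : ℝ) ^ 2 * Λ) (lo := q k0 a0) (hi := q k0 a0 + 6 * μ)
    (mul_nonneg (mul_nonneg (by norm_num) hG0) hμ.le)
    (mul_nonneg (mul_nonneg (pow_nonneg zero_le_two _) (sq_nonneg _)) hΛ.le) (by linarith) hosc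
    (by rw [eηg]; linarith) hmono
    (fun k hk b hb => hmin (k, b) (mem_product.2 ⟨mem_range.2 hk, List.mem_toFinset.2 hb⟩))
    (fun k hk b hb => hrng k hk k0 hk0 b hb a0 ha0)
  rw [eηg] at key
  have h1 : (P.M : ℝ) * (2 ^ (P.d + 2) * (P.ups : ℝ) ^ 2 * Λ) ≤ 1 / x ^ 5 * μ := by
    rw [← mul_assoc]
    exact mul_le_mul hu hΛμ hΛ.le (by positivity)
  have h2 : (P.M : ℝ) * ((P.ups : ℝ) ^ 2 * Λ) ≤
      (P.M : ℝ) * (2 ^ (P.d + 2) * (P.ups : ℝ) ^ 2 * Λ) := by
    have h3 : (1 : ℝ) ≤ 2 ^ (P.d + 2) := one_le_pow₀ one_le_two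
    have h4 : 0 ≤ (P.M : ℝ) * ((P.ups : ℝ) ^ 2 * Λ) :=
      mul_nonneg (Nat.cast_nonneg _) (mul_nonneg (sq_nonneg _) hΛ.le)
    have h5 := mul_le_mul_of_nonneg_right h3 h4
    linarith
  have h3 : 1 / x ^ 5 * μ ≤ μ := mul_le_of_le_one_left hμ.le hx5
  have h4 : 12 / x ^ 6 * ((P.M : ℝ) * (2 ^ (P.d + 2) * (P.ups : ℝ) ^ 2 * Λ) +
      (q k0 a0 + 6 * μ - q k0 a0)) ≤ 12 / x ^ 6 * (7 * μ) :=
    mul_le_mul_of_nonneg_left (by linarith) hηg0
  have h5 := mul_le_mul_of_nonneg_right hηg hμ.le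
  have h6 := mul_le_mul_of_nonneg_right hG hμ.le
  rw [eρ]
  linarith

theorem smr_ind (hT : P.Top ms Nb Nt Pt K h j c y) (hβ : β ≤ P.M)
    (hen : P.enab h c (P.ntG Nt h j c y) y) {zo : ℕ → ℕ → St}
    (hz : P.Tracked h c (P.ntG Nt h j c y) y zo) (e : ℕ) :
    ∀ j' : ℕ, e ≤ P.d → j' < 2 ^ (P.d - e) →
      (P.cen h c (P.ntG Nt h j c y) y (P.d - e) j').2 = true →
      ∑ m ∈ range P.M, (P.lsG Nt Pt β h j c y e j' (zo (P.d - e) j') m : ℝ) ≤
        ∑ m ∈ range P.M,
          (P.costv h c (P.ntG Nt h j c y) y zo (P.leafG Nt Pt β h j c y m) e j' : ℝ) +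
          e * P.rho * P.mass h c (P.ntG Nt h j c y) y e j' := by
  have hP := hT.ok
  induction e with
  | zero =>
    intro j' _ _ _
    simp only [lsG, lsv, costv, Nat.sub_zero, Nat.cast_zero, zero_mul, add_zero, le_refl]
  | succ e ih =>
    intro j' he hj ha
    have hρ : (0 : ℝ) ≤ P.rho := by
      unfold rho
      positivity
    have hμ : (0 : ℝ) < P.mass h c (P.ntG Nt h j c y) y (e + 1) j' := by
      exact_mod_cast mass_pos _ _
    by_cases ht : P.termAt h c (P.ntG Nt h j c y) y (P.d - (e + 1)) j'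
    · have h1 : ∀ m, P.lsG Nt Pt β h j c y (e + 1) j' (zo (P.d - (e + 1)) j') m =
          P.costv h c (P.ntG Nt h j c y) y zo (P.leafG Nt Pt β h j c y m) (e + 1) j' := by
        intro m
        rw [costv, if_pos ht, lsG, lsv]
        exact if_pos ht
      simp only [h1]
      exact le_add_of_nonneg_right (mul_nonneg (mul_nonneg (Nat.cast_nonneg _) hρ) hμ.le)
    have hi : P.d - e = P.d - (e + 1) + 1 := by omega
    obtain ⟨a, haA, hl, hr⟩ := hz.step _ (by omega) j' hj ha ht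
    have hin := hz.inA hT.hy (Nat.sub_le _ _) hj ha
    have cL := cen_left ha ht
    have cR := cen_right ha ht
    rw [← hi] at cL cR hl hr
    have hjL : 2 * j' < 2 ^ (P.d - e) := by
      rw [hi, pow_succ]
      omega
    have hjR : 2 * j' + 1 < 2 ^ (P.d - e) := by
      rw [hi, pow_succ]
      omega
    have aL : (P.cen h c (P.ntG Nt h j c y) y (P.d - e) (2 * j')).2 = true := by rw [cL]
    have aR : (P.cen h c (P.ntG Nt h j c y) y (P.d - e) (2 * j' + 1)).2 = true := by rw [cR]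
    have iL := lsv_inv hT hβ hen (e := e) (by omega) hjL aL
    have iR := lsv_inv hT hβ hen (e := e) (by omega) hjR aR
    have rL := ih _ (by omega) hjL aL
    have rR := ih _ (by omega) hjR aR
    rw [hl] at rL
    rw [hr] at rR
    generalize zo (P.d - (e + 1)) j' = z at hin rL rR ⊢
    have inL : ∀ b ∈ P.acts (h + c) (P.midAt h c (P.ntG Nt h j c y) y (P.d - (e + 1)) j'),
        P.InA (h + c) (P.cen h c (P.ntG Nt h j c y) y (P.d - e) (2 * j')).1 (z.1, b) := by
      intro b hb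
      rw [cL]
      exact ⟨hin.1, hb⟩
    have inR : ∀ b ∈ P.acts (h + c) (P.midAt h c (P.ntG Nt h j c y) y (P.d - (e + 1)) j'),
        P.InA (h + c) (P.cen h c (P.ntG Nt h j c y) y (P.d - e) (2 * j' + 1)).1 (b, z.2) := by
      intro b hb
      rw [cR]
      exact ⟨hb, hin.2⟩
    have hms : (P.mass h c (P.ntG Nt h j c y) y (e + 1) j' : ℝ) =
        P.mass h c (P.ntG Nt h j c y) y e (2 * j') +
          P.mass h c (P.ntG Nt h j c y) y e (2 * j' + 1) := by
      exact_mod_cast mass_succ (by omega) hT.wd.dle j'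
    have hΛ : 0 < P.La (h + c - P.d) := by
      unfold La
      exact_mod_cast Lam_pos _
    have hΛμ : P.La (h + c - P.d) ≤ P.mass h c (P.ntG Nt h j c y) y (e + 1) j' := by
      unfold La
      exact_mod_cast Lam_le_mass _ _
    have hed : (e : ℝ) / P.d ≤ 1 := by
      rw [div_le_one (by exact_mod_cast hP.d_pos)]
      exact_mod_cast (by omega : e ≤ P.d)
    have hG0 : (0 : ℝ) ≤ P.Gq := by
      unfold Gq
      positivity
    have node := smr_node hP hΛ hΛμ (length_acts_le hP _ _)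
      (q := fun k' b => ((P.lsG Nt Pt β h j c y e (2 * j') (z.1, b) k' +
        P.lsG Nt Pt β h j c y e (2 * j' + 1) (b, z.2) k' : ℚ) : ℝ)) haA
      (fun k hk b hb b' hb' => by
        have h1 := iL.osc _ _ (inL b hb) (inL b' hb') k hk
        have h2 := iR.osc _ _ (inR b hb) (inR b' hb') k hk
        have h3 : (4 + 2 * (e : ℝ) / P.d) * P.Gq * P.mass h c (P.ntG Nt h j c y) y (e + 1) j' ≤
            6 * P.Gq * P.mass h c (P.ntG Nt h j c y) y (e + 1) j' := by
          gcongr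
          rw [mul_div_assoc]
          linarith
        rw [hms, mul_add] at h3
        rw [hms]
        push_cast
        linarith)
      (fun k hk b hb => by
        have h1 := iL.mono _ (inL b hb) k hk
        have h2 := iR.mono _ (inR b hb) k hk
        have h3 : 2 * ((2 : ℝ) ^ (e + 1) - 2) ≤ 2 ^ (P.d + 2) := by
          have h4 : (2 : ℝ) ^ (e + 1) ≤ 2 ^ (P.d + 1) := pow_le_pow_right₀ one_le_two (by omega)
          rw [pow_succ _ (P.d + 1)]
          linarith
        have h4 := mul_le_mul_of_nonneg_right h3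
          (mul_nonneg (sq_nonneg (P.ups : ℝ)) hΛ.le)
        push_cast
        linarith)
      (fun k hk k' hk' b hb b' hb' => by
        have h1 := iL.rng _ _ (inL b hb) (inL b' hb') k hk k' hk'
        have h2 := iR.rng _ _ (inR b hb) (inR b' hb') k hk k' hk'
        have h3 : (5 + (e : ℝ) / P.d) * P.mass h c (P.ntG Nt h j c y) y (e + 1) j' ≤
            6 * P.mass h c (P.ntG Nt h j c y) y (e + 1) j' := by
          gcongr
          linarith
        rw [hms, mul_add] at h3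
        rw [hms]
        push_cast
        linarith)
    have close : ∀ m ∈ range P.M, (P.lsG Nt Pt β h j c y (e + 1) j' z m : ℝ) ≤
        Phi (P.eta / P.mass h c (P.ntG Nt h j c y) y (e + 1) j')
          (P.acts (h + c) (P.midAt h c (P.ntG Nt h j c y) y (P.d - (e + 1)) j'))
          (fun k' b => ((P.lsG Nt Pt β h j c y e (2 * j') (z.1, b) k' +
            P.lsG Nt Pt β h j c y e (2 * j' + 1) (b, z.2) k' : ℚ) : ℝ)) m
          (fun b => ((P.lsG Nt Pt β h j c y e (2 * j') (z.1, b) m +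
            P.lsG Nt Pt β h j c y e (2 * j' + 1) (b, z.2) m : ℚ) : ℝ)) +
          (P.ups : ℝ) ^ 2 * P.La (h + c - P.d) := by
      intro m hm
      have h1 := lsv_succ_close (leaf := P.leafG Nt Pt β h j c y) (k := m) hP hT.wd.nt hT.hy hen
        (fun i j'' z' => by
          have h2 := ntG_mem (y := y) hT.sa hT.wd i j'' c z'
          rw [abs_of_nonneg h2.1]
          exact h2.2)
        (fun k' hk' j'' hj'' ha'' z' hz' =>
          bot_abs hT hβ hen hj'' ha'' hz' (hk'.trans_lt (mem_range.1 hm)))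
        (by omega) hj ha ht hin (h + c - P.d)
      rw [Rat.cast_div] at h1
      linarith [(abs_le.1 h1).2]
    have hsum := sum_le_sum close
    rw [sum_add_distrib, sum_const, card_range, nsmul_eq_mul] at hsum
    have hcost : ∑ m ∈ range P.M,
        (P.costv h c (P.ntG Nt h j c y) y zo (P.leafG Nt Pt β h j c y m) (e + 1) j' : ℝ) =
        ∑ m ∈ range P.M,
          (P.costv h c (P.ntG Nt h j c y) y zo (P.leafG Nt Pt β h j c y m) e (2 * j') : ℝ) +
        ∑ m ∈ range P.M,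
          (P.costv h c (P.ntG Nt h j c y) y zo (P.leafG Nt Pt β h j c y m) e (2 * j' + 1) : ℝ) := by
      rw [← sum_add_distrib]
      refine sum_congr rfl fun m _ => ?_
      rw [costv, if_neg ht, Rat.cast_add]
    simp only [Rat.cast_add, sum_add_distrib] at node hsum
    rw [hcost]
    have h1 : ((e + 1 : ℕ) : ℝ) * P.rho * P.mass h c (P.ntG Nt h j c y) y (e + 1) j' =
        e * P.rho * P.mass h c (P.ntG Nt h j c y) y e (2 * j') +
        e * P.rho * P.mass h c (P.ntG Nt h j c y) y e (2 * j' + 1) +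
        P.rho * P.mass h c (P.ntG Nt h j c y) y (e + 1) j' := by
      rw [hms]
      push_cast
      ring
    rw [h1]
    linarith

/-- Induction on `e`: `∑_m lsv e j' (zo …) m ≤ ∑_m costv e j' + e ρ mass e j'`.  At an inner node
apply `lsv_succ_close` and `Phi_regret` with `η = η₀ / mass`, `g = 6 G mass`,
`ξ = 2^(d+2) ups² Λ(h+c-d)`, `hi - lo = 6 mass` (`lo` = the least of the finitely many values, `LsvInv.rng`),
`log |A| ≤ kap ≤ 2^(2p)`: the regret is at most
`mass (2^(-5p) + 6 G + 12 η₀ G (6 + 1)) + M ups² mass ≤ ρ mass`. -/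
theorem sm_regret (hT : P.Top ms Nb Nt Pt K h j c y) (hβ : β ≤ P.M)
    (hen : P.enab h c (P.ntG Nt h j c y) y) {zo : ℕ → ℕ → St}
    (hz : P.Tracked h c (P.ntG Nt h j c y) y zo) :
    (∑ m ∈ range P.M, (P.SmM Nt Pt β h j c y m : ℝ)) ≤
      ∑ m ∈ range P.M, (P.costv h c (P.ntG Nt h j c y) y zo (P.leafG Nt Pt β h j c y m) P.d 0 : ℝ) +
        P.d * P.rho * P.mass h c (P.ntG Nt h j c y) y P.d 0 := by
  have h1 := smr_ind hT hβ hen hz P.d 0 le_rfl (Nat.two_pow_pos _) (by rw [Nat.sub_self]; rfl)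
  rw [Nat.sub_self, hz.top] at h1
  refine le_trans (le_of_eq (sum_congr rfl fun m _ => ?_)) h1
  rw [SmM, Sm, if_pos hen]

end Pa

end Crest.Agent.R288
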