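/-
R288/Track: in a good super-level the centres track the comparator.
-/
import Crest.Agent.R288.Cmp
import Crest.Agent.R288.SmR

set_option autoImplicit false

namespace Crest.Agent.R288

open Finset

theorem Track_core' {N₀ N₁ b r γ s₀ s₁ E : ℝ} (hr : |r| ≤ 1 - γ)
    (hN : |N₀ - N₁| ≤ |s₀ - s₁|) (hmin : |s₁ - b - r * N₁| ≤ |s₀ - b - r * N₀|)
    (hE : |s₀ - b - r * N₀| ≤ E) : γ * |s₀ - s₁| ≤ 2 * E := by
  have h1 : |r * (N₀ - N₁)| ≤ (1 - γ) * |s₀ - s₁| := by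
    rw [abs_mul]
    exact mul_le_mul hr hN (abs_nonneg _) ((abs_nonneg _).trans hr)
  have h2 : |s₀ - s₁| ≤ |s₀ - b - r * N₀| + |s₁ - b - r * N₁| + |r * (N₀ - N₁)| := by
    have e : s₀ - s₁ = ((s₀ - b - r * N₀) - (s₁ - b - r * N₁)) + r * (N₀ - N₁) := by ring
    calc |s₀ - s₁| = |((s₀ - b - r * N₀) - (s₁ - b - r * N₁)) + r * (N₀ - N₁)| := by rw [← e]
      _ ≤ |(s₀ - b - r * N₀) - (s₁ - b - r * N₁)| + |r * (N₀ - N₁)| := abs_add_le _ _
      _ ≤ _ := by gcongr; exact abs_sub _ _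
  linarith

/-- The real-variable core of the search case.  `N s` = Lipschitz value of the left child at
`(b, s)`, `r` = ratio at the centre, `s₀` = comparator, `s₁` = minimiser. -/
theorem track_core {N : ℝ → ℝ} {b r γ s₀ s₁ E : ℝ} (hγ : 0 < γ) (hr : |r| ≤ 1 - γ)
    (hN : |N s₀ - N s₁| ≤ |s₀ - s₁|) (hmin : |s₁ - b - r * N s₁| ≤ |s₀ - b - r * N s₀|)
    (hE : |s₀ - b - r * N s₀| ≤ E) : γ * |s₀ - s₁| ≤ 2 * E :=
  have _ := hγ
  Track_core' hr hN hmin hE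

theorem Track_ratio {t tc v N W : ℝ} (hW : 0 < W) (h2 : |t - tc| ≤ 2 * W)
    (h4 : |v - N| ≤ 2 * W + W / 4) (h5 : |tc| ≤ v) (h6 : W ≤ N) (hv : 0 < v) :
    |t / N - tc / v| * N ≤ 4 * W + W / 4 := by
  have hN : 0 < N := hW.trans_le h6
  have e : (t / N - tc / v) * N = (t - tc) + tc / v * (v - N) := by
    field_simp
    ring
  have h7 : |tc / v| ≤ 1 := by
    rw [abs_div, abs_of_pos hv, div_le_one hv]
    exact h5
  have h8 : |tc / v * (v - N)| ≤ 1 * (2 * W + W / 4) := by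
    rw [abs_mul]
    exact mul_le_mul h7 h4 (abs_nonneg _) zero_le_one
  have h9 := abs_add_le (t - tc) (tc / v * (v - N))
  rw [← e, abs_mul, abs_of_pos hN] at h9
  linarith

theorem Track_E {a b s t tc v N NL ML W : ℝ} (hW : 0 < W) (h1 : |a - b| ≤ W)
    (h2 : |t - tc| ≤ 2 * W) (h3 : |s - a - t / N * NL| ≤ W / 4) (h4 : |v - N| ≤ 2 * W + W / 4)
    (h5 : |tc| ≤ v) (h6 : W ≤ N) (h7 : NL ≤ N + W / 4) (h7' : 0 ≤ NL)
    (h8 : |NL - ML| ≤ W + W / 4) (hv : 0 < v) : |s - b - tc / v * ML| ≤ 11 * W := by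
  have k1 := Track_ratio hW h2 h4 h5 h6 hv
  have k2 : |tc / v| ≤ 1 := by
    rw [abs_div, abs_of_pos hv, div_le_one hv]
    exact h5
  have k3 : |tc / v * (NL - ML)| ≤ 1 * (W + W / 4) := by
    rw [abs_mul]
    exact mul_le_mul k2 h8 (abs_nonneg _) zero_le_one
  have k4 : |(t / N - tc / v) * NL| ≤ 2 * (4 * W + W / 4) := by
    rw [abs_mul, abs_of_nonneg h7']
    have : |t / N - tc / v| * NL ≤ |t / N - tc / v| * (2 * N) :=
      mul_le_mul_of_nonneg_left (by linarith) (abs_nonneg _)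
    linarith
  have e : s - b - tc / v * ML =
      (s - a - t / N * NL) + (a - b) + (t / N - tc / v) * NL + tc / v * (NL - ML) := by ring
  rw [e]
  rw [abs_le] at h1 h3 k3 k4 ⊢
  constructor <;> linarith [h1.1, h1.2, h3.1, h3.2, k3.1, k3.2, k4.1, k4.2]

theorem Track_cast_le {a b : ℕ} {x : ℚ} : (Nat.dist a b : ℚ) ≤ x ↔ |(a : ℝ) - b| ≤ (x : ℝ) := by
  rw [← cast_dist]
  exact_mod_cast Iff.rfl

namespace Pa

variable {P : Pa} {ms : ℕ → ℕ → Bool} {Nb Nt : Fam} {K : ℝ} {h j c : ℕ} {y : St}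
  {zo : ℕ → ℕ → St}

/-- A good super-level. -/
structure GoodLv (P : Pa) (ms : ℕ → ℕ → Bool) (Nb Nt : Fam) (K : ℝ) (h j c : ℕ) (y : St)
    (zo : ℕ → ℕ → St) : Prop where
  ok : P.OK
  sa : P.StageA ms Nb Nt K
  wd : P.Wd h j c
  hy : P.inW (h + c) y
  cp : P.CPath ms h j c y zo
  hV : P.VV ms h j y ≤ 2 * P.La (h + c)
  hmu : 16 * K * P.VV ms h j y ≤ P.mu * P.La (h + c)
  hDl : P.Dl ms Nb K h j c zo ≤ P.w0 * P.La (h + c)

/-! ### Parameter inequalities -/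

theorem Track_rad {u x a b : ℕ} (hab : |(a : ℝ) - b| ≤ 2 ^ x * P.La u) :
    Nat.dist a b ≤ P.rad u x := by
  rw [le_rad_iff, Track_cast_le]
  unfold La at hab
  push_cast
  exact hab

theorem Track_rad' {u x a b : ℕ} (hab : Nat.dist a b ≤ P.rad u x) :
    |(a : ℝ) - b| ≤ 2 ^ x * P.La u := by
  rw [le_rad_iff, Track_cast_le] at hab
  unfold La
  push_cast at hab
  exact hab

theorem Track_La_mono {u v : ℕ} (huv : u ≤ v) : P.La u ≤ P.La v := by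
  unfold La
  exact_mod_cast Lam_mono huv

theorem Track_La_add (u i : ℕ) : P.La (u + i) = 2 ^ i * P.La u := by
  unfold La
  rw [Lam_add]
  push_cast
  rfl

theorem Track_W0 (u : ℕ) : (P.Wq u 0 : ℝ) = P.La u / 2 ^ P.wx := by
  unfold Wq La
  push_cast
  simp

theorem Track_W_pos (u i : ℕ) : (0 : ℝ) < P.Wq u i := by
  have := Lam_pos (P := P) u
  have h : 0 < P.Wq u i := by
    unfold Wq
    positivity
  exact_mod_cast h

theorem Track_W_le (hP : P.OK) {u i : ℕ} (hu : P.d ≤ u) (hi : i ≤ P.d) :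
    (P.Wq u i : ℝ) ≤ P.La u := by
  have h1 := Wq_mono (P := P) u hi
  rw [Wq_d hu] at h1
  have h2 := cls_G_le hP
  have h3 := Lam_pos (P := P) (u - P.d)
  have h4 : P.Lam (u - P.d) ≤ P.Lam u := Lam_mono (Nat.sub_le _ _)
  have h5 : P.Wq u i ≤ P.Lam u := by nlinarith [h2.1, h2.2]
  unfold La
  exact_mod_cast h5

theorem Track_tw {i : ℕ} (hd : P.d ≤ h) (hi : i ≤ P.d) :
    8 * P.La (h + c) ≤ 2 ^ P.tw * P.La (h - i + c) := by
  rw [← Track_La_add, show (8 : ℝ) = 2 ^ 3 by norm_num, ← Track_La_add]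
  exact Track_La_mono (by unfold tw; omega)

theorem Track_mu : (P.mu : ℝ) = 2 ^ (4 * P.p) := by
  unfold mu
  push_cast
  rfl

theorem Track_cap {i : ℕ} (hd : P.d ≤ h) (hi : i ≤ P.d) :
    8 * (P.mu * P.La (h + c)) ≤ P.cap * P.La (h - i + c) := by
  have e : (P.cap : ℝ) = 2 ^ P.cp := by
    unfold cap
    push_cast
    rfl
  rw [e, Track_mu, ← Track_La_add, ← Track_La_add, show (8 : ℝ) = 2 ^ 3 by norm_num,
    ← Track_La_add]
  exact Track_La_mono (by unfold cp; omega)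

theorem Track_mu_ge : (16 : ℝ) ≤ P.mu := by
  rw [Track_mu, show (16 : ℝ) = 2 ^ 4 by norm_num]
  exact pow_le_pow_right₀ one_le_two (by unfold p; omega)

theorem Track_M (hP : P.OK) (u : ℕ) : P.mu * P.La u / P.M ≤ P.Wq u 0 / 4 := by
  have hL := La_pos (P := P) u
  have h1 : 2 ^ (4 * P.p + P.wx + 2) ≤ P.M :=
    (Nat.pow_le_pow_right two_pos (by unfold p; omega)).trans hP.two_pow_le_M
  have h2 : (2 : ℝ) ^ (4 * P.p + P.wx + 2) ≤ P.M := by exact_mod_cast h1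
  rw [Track_W0, Track_mu]
  calc (2 : ℝ) ^ (4 * P.p) * P.La u / P.M ≤ 2 ^ (4 * P.p) * P.La u / 2 ^ (4 * P.p + P.wx + 2) := by
        gcongr
    _ = _ := by
        simp only [pow_add]
        field_simp
        norm_num

theorem Track_w0 (u : ℕ) : P.w0 * P.La u ≤ P.Wq u 0 / 4 ∧
    P.mu * P.La u * (P.w0 * P.La u) = (P.Wq u 0 / 4) ^ 2 := by
  have hL := La_pos (P := P) u
  have e : (P.w0 : ℝ) = 1 / 2 ^ (2 * P.wx + 4 * P.p + 4) := by
    unfold w0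
    push_cast
    rfl
  rw [e, Track_W0, Track_mu]
  constructor
  · have h1 : (2 : ℝ) ^ (P.wx + 2) ≤ 2 ^ (2 * P.wx + 4 * P.p + 4) :=
      pow_le_pow_right₀ one_le_two (by omega)
    calc 1 / (2 : ℝ) ^ (2 * P.wx + 4 * P.p + 4) * P.La u ≤ 1 / 2 ^ (P.wx + 2) * P.La u := by
          gcongr
      _ = _ := by
          simp only [pow_add]
          field_simp
          norm_num
  · simp only [pow_add, two_mul]
    field_simp
    norm_num

theorem Track_fq : (0 : ℝ) < P.fq ∧ (P.fq : ℝ) ≤ 1 / 2 ∧ (P.fq : ℝ) * 2 ^ P.fx = 1 := by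
  have e : (P.fq : ℝ) = 1 / 2 ^ P.fx := by
    unfold fq
    push_cast
    rfl
  have h1 : (2 : ℝ) ^ 1 ≤ 2 ^ P.fx := pow_le_pow_right₀ one_le_two (by unfold fx; omega)
  rw [e]
  refine ⟨by positivity, one_div_le_one_div_of_le two_pos (by linarith), ?_⟩
  field_simp

/-! ### The tables along the comparator -/

theorem GoodLv.nd (hG : P.GoodLv ms Nb Nt K h j c y zo) {i j' : ℕ} (hi : i ≤ P.d)
    (hj : j' < 2 ^ i) : P.Nd (h - i) (j * 2 ^ i + j') :=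
  hG.wd.nd.desc (hi.trans hG.wd.dle) hj

theorem GoodLv.nt (hG : P.GoodLv ms Nb Nt K h j c y zo) (i : ℕ) : ¬ P.triv (h - i) c :=
  fun ht => hG.wd.nt (triv_mono ht le_rfl (Nat.sub_le _ _))

/-- widths along the comparator -/
theorem GoodLv.width (hG : P.GoodLv ms Nb Nt K h j c y zo) {i j' : ℕ} (hi : i ≤ P.d)
    (hj : j' < 2 ^ i) : |((zo i j').1 : ℝ) - (zo i j').2| ≤ 3 * P.La (h + c) := by
  have h1 := hG.cp.leV hi hj
  have h2 : |((zo i j').1 : ℝ) - (zo i j').2| ≤ P.VV ms (h - i) (j * 2 ^ i + j') (zo i j') := by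
    rw [← cast_dist]
    unfold VV
    exact_mod_cast dist_le_V _ _ _
  have hL := La_pos (P := P) (h + c)
  have h3 : P.d * P.La (h + c) / 2 ^ P.kap ≤ P.La (h + c) := by
    rw [div_le_iff₀ (by positivity), mul_comm]
    exact mul_le_mul_of_nonneg_left hG.ok.Cmp_d hL.le
  linarith [hG.hV]

theorem GoodLv.KV (hG : P.GoodLv ms Nb Nt K h j c y zo) {i j' : ℕ} (hi : i ≤ P.d)
    (hj : j' < 2 ^ i) : K * P.VV ms (h - i) (j * 2 ^ i + j') (zo i j') + P.La (h - i + c) ≤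
      P.mu * P.La (h + c) := by
  have hL := La_pos (P := P) (h + c)
  have hK : 0 ≤ K := zero_le_one.trans hG.sa.K1
  have h1 := mul_le_mul_of_nonneg_left (hG.cp.leV hi hj) hK
  have h3 : K * (P.d * P.La (h + c) / 2 ^ P.kap) ≤ P.La (h + c) := by
    have h4 : K * P.d ≤ 2 ^ P.kap :=
      (mul_le_mul_of_nonneg_right hG.sa.K2 (Nat.cast_nonneg _)).trans hG.ok.Cmp_K0
    rw [← mul_div_assoc, div_le_iff₀ (by positivity), ← mul_assoc, mul_comm]
    exact mul_le_mul_of_nonneg_left h4 hL.le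
  have h4 : P.La (h - i + c) ≤ P.La (h + c) := Track_La_mono (by omega)
  have h5 := mul_le_mul_of_nonneg_right (Track_mu_ge (P := P)) hL.le
  have h6 := hG.hmu
  rw [mul_add] at h1
  nlinarith

/-- `Nt ≤ Nb ≤ Nt + W₀ / 4`, `Nb ≤ μ Λ` along the comparator -/
theorem GoodLv.tabs (hG : P.GoodLv ms Nb Nt K h j c y zo) {i j' : ℕ} (hi : i ≤ P.d)
    (hj : j' < 2 ^ i) :
    (Nt (h - i) (j * 2 ^ i + j') c (zo i j') : ℝ) ≤ Nb (h - i) (j * 2 ^ i + j') c (zo i j') ∧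
    (Nb (h - i) (j * 2 ^ i + j') c (zo i j') : ℝ) ≤
      Nt (h - i) (j * 2 ^ i + j') c (zo i j') + P.Wq (h + c) 0 / 4 ∧
    (Nb (h - i) (j * 2 ^ i + j') c (zo i j') : ℝ) ≤ P.mu * P.La (h + c) ∧
    |((zo i j').1 : ℝ) - (zo i j').2| ≤ Nt (h - i) (j * 2 ^ i + j') c (zo i j') := by
  have hn := hG.nd hi hj
  have ht := hG.nt i
  have hw := hG.cp.inW i hi j' hj
  have h1 := hG.KV hi hj
  have hL := La_pos (P := P) (h + c)
  have hL' := La_pos (P := P) (h - i + c)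
  have h2 := hG.sa.le _ _ _ _ hn ht hw
  have h3 := hG.sa.tge _ _ _ _ hn ht hw
  have h4 : P.elk ms K (h - i) (j * 2 ^ i + j') c (zo i j') ≤ P.Wq (h + c) 0 / 4 :=
    (div_le_div_of_nonneg_right h1 (Nat.cast_nonneg _)).trans (Track_M hG.ok _)
  have h5 : 0 ≤ P.elk ms K (h - i) (j * 2 ^ i + j') c (zo i j') :=
    div_nonneg (add_nonneg (mul_nonneg (zero_le_one.trans hG.sa.K1) (VV_nonneg _ _ _)) hL'.le)
      (Nat.cast_nonneg _)
  have h6 := Track_cap (P := P) (c := c) hG.wd.dle hi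
  have h7 := mul_le_mul_of_nonneg_right (Track_mu_ge (P := P)) hL.le
  refine ⟨by exact_mod_cast hG.sa.tle _ _ _ _ hn ht hw, ?_, by linarith,
    Track_cast_le.1 (hG.sa.dist_le_t hn ht hw)⟩
  rw [min_eq_right (by linarith)] at h3
  linarith

/-- states near the top -/
theorem GoodLv.inW' (hG : P.GoodLv ms Nb Nt K h j c y zo) {i : ℕ} (hi : i ≤ P.d) {z : St}
    (h1 : z.1 ≤ P.X) (h2 : z.2 ≤ P.X) (h3 : 2 ^ P.gm (h + c - i) ∣ z.1)
    (h4 : 2 ^ P.gm (h + c - i) ∣ z.2) (h5 : |(z.1 : ℝ) - z.2| ≤ 8 * P.La (h + c)) :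
    P.inW (h - i + c) z := by
  have hd := hG.wd.dle
  have e : h + c - i = h - i + c := by omega
  rw [e] at h3 h4
  exact ⟨h1, h2, h3, h4, Track_rad (h5.trans (Track_tw hd hi))⟩

/-- the guards pass -/
theorem GoodLv.ntG_eq (hG : P.GoodLv ms Nb Nt K h j c y zo) {i j' : ℕ} (hi : i ≤ P.d)
    (hj : j' < 2 ^ i) {z : St} (hz : P.inW (h - i + c) z)
    (hy : |(z.1 : ℝ) - y.1| ≤ 8 * P.La (h + c)) :
    P.ntG Nt h j c y i j' c z = Nt (h - i) (j * 2 ^ i + j') c z := by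
  have c1 : Nat.dist z.1 y.1 ≤ P.rad (h + c) 3 := Track_rad (by norm_num; exact hy)
  rw [show P.ntG Nt h j c y i j' c z = P.ntM Nt h j c i j' c z from if_pos c1, ntM, if_pos,
    rd_eq_self hz le_rfl]
  refine ⟨hj, hz.1, ?_⟩
  rcases hi.lt_or_eq with h1 | h1
  · exact Or.inl ⟨h1, rfl⟩
  · exact Or.inr ⟨h1, Nat.sub_le _ _, hG.nt _⟩

theorem GoodLv.lip (hG : P.GoodLv ms Nb Nt K h j c y zo) {i j' : ℕ} (hi : i ≤ P.d)
    (hj : j' < 2 ^ i) {z z' : St} (hz : P.inW (h - i + c) z) (hz' : P.inW (h - i + c) z') :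
    |(Nt (h - i) (j * 2 ^ i + j') c z : ℝ) - Nt (h - i) (j * 2 ^ i + j') c z'| ≤
      |(z.1 : ℝ) - z'.1| + |(z.2 : ℝ) - z'.2| := by
  have h1 := hG.sa.lip _ _ _ _ _ (hG.nd hi hj) (hG.nt i) hz hz'
  have h2 := hG.sa.lip _ _ _ _ _ (hG.nd hi hj) (hG.nt i) hz' hz
  rw [dst_comm] at h2
  have e : ((dst z z' : ℚ) : ℝ) = |(z.1 : ℝ) - z'.1| + |(z.2 : ℝ) - z'.2| := by
    rw [← cast_dist, ← cast_dist]
    unfold dst
    push_cast
    rfl
  have h3 : (Nt (h - i) (j * 2 ^ i + j') c z : ℝ) ≤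
      Nt (h - i) (j * 2 ^ i + j') c z' + ((dst z z' : ℚ) : ℝ) := by exact_mod_cast h1
  have h4 : (Nt (h - i) (j * 2 ^ i + j') c z' : ℝ) ≤
      Nt (h - i) (j * 2 ^ i + j') c z + ((dst z z' : ℚ) : ℝ) := by exact_mod_cast h2
  rw [e] at h3 h4
  rw [abs_le]
  constructor <;> linarith

/-- One step.  Notation: `z° = zo i j' = (a, a')`, centre `(b, b')`, `W = Wq (h+c) i ≤ Λ`, `s°` the
comparator midpoint, `v = Nt (b, b')`, `N° = Nt z°`, `N_L° = Nt (a, s°)`, `W₀ = Wq (h+c) 0`.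
All guards pass (`near`: `3 Λ + W ≤ 8 Λ`), the centre and all `(b, s)` with `|s - b| ≤ 4 Λ` are states
(`|t| ≤ 8 Λ ≤ 2^tw Λ(h+c-d)`, `cen_grid`).  `Nb ≤ K V + Λ/8 ≤ μ Λ < cap Λ(h+c-d) = 8 μ Λ` at `z°` and at
`(a, s°)`, `elk ≤ μ Λ / M ≤ W₀ / 4`, `dl ≤ w₀ Λ ≤ W₀ / 4`, `μ Λ w₀ Λ = (W₀ / 4)²`; so (`tle`, `tge`, `dl_spec`)
`|s° - a| ≤ N_L° ≤ N° + W₀ / 2 ≤ v + 5 W / 2`.  Small case: `mid = b`, `|s° - b| ≤ v + 4 W ≤ 7 W / γ`.
Else `v > (1 + 2γ) |t^c|` (not terminal, `v < cap Λ`), `N° ≥ W`,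
`|s° - a - (t° / N°) N_L°| ≤ W₀`, `|t°/N° - t^c/v| ≤ 4 W / N°`, `N_L° ≤ 2 N°`, hence
`|s° - b - (t^c/v) Nt (b, s°)| ≤ 11 W` and `track_core` gives `|s° - mid| ≤ 22 W / γ`. -/
theorem track_step (hG : P.GoodLv ms Nb Nt K h j c y zo) {i j' : ℕ} (hi : i < P.d) (hj : j' < 2 ^ i)
    (ht : ¬ P.termAt h c (P.ntG Nt h j c y) y i j')
    (h1 : (Nat.dist (zo i j').1 (P.cen h c (P.ntG Nt h j c y) y i j').1.1 : ℚ) ≤ P.Wq (h + c) i)
    (h2 : (Nat.dist (zo i j').2 (P.cen h c (P.ntG Nt h j c y) y i j').1.2 : ℚ) ≤ P.Wq (h + c) i) :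
    (Nat.dist (zo (i + 1) (2 * j')).2 (P.midAt h c (P.ntG Nt h j c y) y i j') : ℚ) ≤
      P.Wq (h + c) (i + 1) := by
  have hd := hG.wd.dle
  have hj2 : 2 * j' < 2 ^ (i + 1) := by rw [pow_succ]; omega
  obtain ⟨g1, g2, g3, g4⟩ := cen_grid (nt := P.ntG Nt h j c y) hG.hy i j'
  unfold termAt term at ht
  unfold midAt
  generalize (P.cen h c (P.ntG Nt h j c y) y i j').1 = zc at *
  rw [Track_cast_le] at h1 h2 ⊢
  obtain ⟨s, e1, -⟩ := hG.cp.step i hi j' hj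
  have hL := La_pos (P := P) (h + c)
  have hW := Track_W_pos (P := P) (h + c) i
  have hWL := Track_W_le hG.ok (u := h + c) (by omega) hi.le
  have hW0 : (P.Wq (h + c) 0 : ℝ) ≤ P.Wq (h + c) i := by
    exact_mod_cast Wq_mono (P := P) (h + c) (Nat.zero_le i)
  have hW00 := Track_W_pos (P := P) (h + c) 0
  have hW' : (P.Wq (h + c) (i + 1) : ℝ) = 32 * 2 ^ P.fx * P.Wq (h + c) i := by
    rw [Wq_succ]
    push_cast
    rfl
  obtain ⟨f1, f2, f3⟩ := Track_fq (P := P)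
  have f4 : (1 : ℝ) ≤ 2 ^ P.fx := one_le_pow₀ one_le_two
  have f5 := mul_le_mul_of_nonneg_right f4 hW.le
  have hmu := mul_le_mul_of_nonneg_right (Track_mu_ge (P := P)) hL.le
  -- the comparator
  have w0 := hG.width hi.le hj
  have w1 := hG.width (i := i + 1) hi hj2
  obtain ⟨t1, t2, t3, t4⟩ := hG.tabs hi.le hj
  obtain ⟨l1, l2, l3, l4⟩ := hG.tabs (i := i + 1) hi hj2
  obtain ⟨d0, d1, d2⟩ := dl_spec hG.sa hG.wd hG.cp hi hj
  have d3 := (dl_le_Dl hG.sa hG.wd hG.cp hi hj).trans hG.hDl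
  obtain ⟨p1, p2⟩ := Track_w0 (P := P) (h + c)
  have nr := hG.cp.near i hi.le j' hj
  rw [cast_dist] at nr
  have iz := hG.cp.inW i hi.le j' hj
  have iL := hG.cp.inW (i + 1) hi (2 * j') hj2
  rw [e1] at w1 l1 l2 l3 l4 d1 d2 iL ⊢
  dsimp only at w1 l4 d2 ⊢
  generalize P.dl ms Nb K h j c zo i j' = δ at *
  -- the centre
  have hby : |(zc.1 : ℝ) - y.1| ≤ 8 * P.La (h + c) := by
    rw [abs_le] at h1 nr ⊢
    constructor <;> linarith [h1.1, h1.2, nr.1, nr.2]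
  have ic : P.inW (h - i + c) zc := by
    refine hG.inW' hi.le g1 g2 g3 g4 ?_
    rw [abs_le] at h1 h2 w0 ⊢
    constructor <;> linarith [h1.1, h1.2, h2.1, h2.2, w0.1, w0.2]
  have ev := hG.ntG_eq hi.le hj ic hby
  have lv := hG.lip hi.le hj ic iz
  rw [abs_sub_comm (zc.1 : ℝ), abs_sub_comm (zc.2 : ℝ)] at lv
  have lv' := abs_le.1 lv
  have hsb : |(s : ℝ) - zc.1| ≤ |((zo i j').1 : ℝ) - s| + |((zo i j').1 : ℝ) - zc.1| := by
    rw [abs_sub_comm ((zo i j').1 : ℝ) s]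
    exact abs_sub_le _ _ _
  unfold mid
  rw [ev] at ht ⊢
  by_cases hs : P.small (h + c) i (Nt (h - i) (j * 2 ^ i + j') c zc)
  · rw [if_pos hs, hW']
    have hs' : (Nt (h - i) (j * 2 ^ i + j') c zc : ℝ) ≤ 3 * 2 ^ P.fx * P.Wq (h + c) i := by
      unfold small at hs
      exact_mod_cast hs
    linarith [lv'.1, lv'.2]
  rw [if_neg hs]
  have hs' : 3 * 2 ^ P.fx * (P.Wq (h + c) i : ℝ) < Nt (h - i) (j * 2 ^ i + j') c zc := by
    unfold small at hs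
    exact_mod_cast not_le.1 hs
  have hcap : Nt (h - i) (j * 2 ^ i + j') c zc < P.cap * P.Lam (h + c - i) := by
    have k1 := Track_cap (P := P) (c := c) hd hi.le
    rw [show h - i + c = h + c - i by omega] at k1
    have k2 : (Nt (h - i) (j * 2 ^ i + j') c zc : ℝ) < P.cap * P.La (h + c - i) := by
      linarith [lv'.1, lv'.2]
    unfold La at k2
    exact_mod_cast k2
  have hgt : (1 + 2 * (P.fq : ℝ)) * |(zc.2 : ℝ) - zc.1| < Nt (h - i) (j * 2 ^ i + j') c zc := by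
    have k1 : (1 + 2 * P.fq) * (Nat.dist zc.1 zc.2 : ℚ) < Nt (h - i) (j * 2 ^ i + j') c zc :=
      not_le.1 fun k => ht ⟨hs, k, hcap⟩
    rw [abs_sub_comm, ← cast_dist]
    exact_mod_cast k1
  have hv : (0 : ℝ) < Nt (h - i) (j * 2 ^ i + j') c zc := by linarith
  have habs := abs_nonneg ((zc.2 : ℝ) - zc.1)
  have hr : |((zc.2 : ℝ) - zc.1) / Nt (h - i) (j * 2 ^ i + j') c zc| ≤ 1 - P.fq := by
    rw [abs_div, abs_of_pos hv, div_le_iff₀ hv]
    have k1 := mul_le_mul_of_nonneg_left hgt.le (show (0 : ℝ) ≤ 1 - P.fq by linarith)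
    have k2 : 0 ≤ (P.fq : ℝ) * (1 - 2 * P.fq) * |(zc.2 : ℝ) - zc.1| :=
      mul_nonneg (mul_nonneg f1.le (by linarith)) habs
    nlinarith
  -- the search
  have gd : 2 ^ P.gm (h + c - (i + 1)) ∣ zc.1 := (pow_dvd_pow 2 (gm_mono (by omega))).trans g3
  have hin : ∀ x ∈ gball P.X (P.gm (h + c - (i + 1))) (P.rad (h + c) 2) zc.1,
      P.inW (h - (i + 1) + c) (zc.1, x) := fun x hx => by
    obtain ⟨x1, x2, x3⟩ := mem_gball.1 hx
    refine hG.inW' (i := i + 1) hi g1 x2 gd x1 ?_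
    have x4 := Track_rad' x3
    rw [abs_sub_comm] at x4
    dsimp only
    linarith
  have hs0 : s ∈ gball P.X (P.gm (h + c - (i + 1))) (P.rad (h + c) 2) zc.1 := by
    refine mem_gball.2 ⟨?_, iL.2.1, Track_rad (by linarith)⟩
    rw [show h + c - (i + 1) = h - (i + 1) + c by omega]
    exact iL.2.2.2.1
  cases hm : (gball P.X (P.gm (h + c - (i + 1))) (P.rad (h + c) 2) zc.1).argmin fun a : ℕ =>
      |((a : ℚ) - zc.1) - ((zc.2 : ℚ) - zc.1) / Nt (h - i) (j * 2 ^ i + j') c zc *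
        P.ntG Nt h j c y (i + 1) (2 * j') c (zc.1, a)| with
  | none =>
    rw [List.argmin_eq_none] at hm
    rw [hm] at hs0
    exact absurd hs0 List.not_mem_nil
  | some s₁ =>
    rw [Option.getD_some]
    have hs1 := List.argmin_mem hm
    have hle := List.le_of_mem_argmin hs0 hm
    rw [hG.ntG_eq (i := i + 1) hi hj2 (hin _ hs0) hby,
      hG.ntG_eq (i := i + 1) hi hj2 (hin _ hs1) hby] at hle
    have hle' : |(s₁ : ℝ) - zc.1 - ((zc.2 : ℝ) - zc.1) / Nt (h - i) (j * 2 ^ i + j') c zc *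
        Nt (h - (i + 1)) (j * 2 ^ (i + 1) + 2 * j') c (zc.1, s₁)| ≤
        |(s : ℝ) - zc.1 - ((zc.2 : ℝ) - zc.1) / Nt (h - i) (j * 2 ^ i + j') c zc *
        Nt (h - (i + 1)) (j * 2 ^ (i + 1) + 2 * j') c (zc.1, s)| := by exact_mod_cast hle
    have hN := hG.lip (i := i + 1) hi hj2 (hin _ hs0) (hin _ hs1)
    dsimp only at hN
    rw [sub_self, abs_zero, zero_add] at hN
    have hN2 := hG.lip (i := i + 1) hi hj2 iL (hin _ hs0)
    dsimp only at hN2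
    rw [sub_self, abs_zero, add_zero] at hN2
    have hN3 := abs_le.1 hN2
    have hL0 : (0 : ℝ) ≤ Nb (h - (i + 1)) (j * 2 ^ (i + 1) + 2 * j') c ((zo i j').1, s) :=
      ((abs_nonneg _).trans l4).trans l1
    have q1 : |(s : ℝ) - (zo i j').1 - (((zo i j').2 : ℝ) - (zo i j').1) /
        Nb (h - i) (j * 2 ^ i + j') c (zo i j') *
        Nb (h - (i + 1)) (j * 2 ^ (i + 1) + 2 * j') c ((zo i j').1, s)| ≤ P.Wq (h + c) 0 / 4 := by
      refine abs_le_of_sq_le_sq' ?_ (by linarith) |> abs_le.2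
      rw [← p2]
      exact d2.trans (mul_le_mul l3 d3 d0 (by linarith))
    have hE := Track_E (tc := (zc.2 : ℝ) - zc.1) (v := Nt (h - i) (j * 2 ^ i + j') c zc)
      (ML := Nt (h - (i + 1)) (j * 2 ^ (i + 1) + 2 * j') c (zc.1, s)) hW h1
      (by
        rw [abs_le] at h1 h2 ⊢
        constructor <;> linarith [h1.1, h1.2, h2.1, h2.2])
      (q1.trans (by linarith))
      (by
        rw [abs_le]
        constructor <;> linarith [lv'.1, lv'.2])
      (by nlinarith) (by linarith [lv'.1, lv'.2]) (by linarith) hL0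
      (by
        rw [abs_le]
        constructor <;> linarith [hN3.1, hN3.2])
      hv
    have fin := Track_core' hr hN hle' hE
    have fin2 := mul_le_mul_of_nonneg_left fin (zero_le_one.trans f4)
    rw [← mul_assoc, mul_comm _ (P.fq : ℝ), f3, one_mul] at fin2
    rw [hW']
    linarith

theorem track (hG : P.GoodLv ms Nb Nt K h j c y zo) {i j' : ℕ} (hi : i ≤ P.d) (hj : j' < 2 ^ i)
    (ha : (P.cen h c (P.ntG Nt h j c y) y i j').2 = true) :
    (Nat.dist (zo i j').1 (P.cen h c (P.ntG Nt h j c y) y i j').1.1 : ℚ) ≤ P.Wq (h + c) i ∧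
      (Nat.dist (zo i j').2 (P.cen h c (P.ntG Nt h j c y) y i j').1.2 : ℚ) ≤ P.Wq (h + c) i := by
  induction i generalizing j' with
  | zero =>
    obtain rfl : j' = 0 := by omega
    have h0 : (0 : ℚ) ≤ P.Wq (h + c) 0 := by exact_mod_cast (Track_W_pos (P := P) (h + c) 0).le
    rw [hG.cp.top]
    simp only [cen, Nat.dist_self, Nat.cast_zero]
    exact ⟨h0, h0⟩
  | succ i ih =>
    obtain ⟨k, hk⟩ : ∃ k, j' = 2 * k ∨ j' = 2 * k + 1 := ⟨j' / 2, by omega⟩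
    have hk2 : k < 2 ^ i := by
      rw [pow_succ] at hj
      omega
    have hal : ¬ ((P.cen h c (P.ntG Nt h j c y) y i k).2 = false ∨
        P.termAt h c (P.ntG Nt h j c y) y i k) := fun hd => by
      obtain ⟨a1, a2⟩ := cen_dead hd
      rcases hk with rfl | rfl
      · rw [a1] at ha
        exact absurd ha Bool.false_ne_true
      · rw [a2] at ha
        exact absurd ha Bool.false_ne_true
    rw [not_or, Bool.not_eq_false] at hal
    obtain ⟨b1, b2⟩ := ih (by omega) hk2 hal.1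
    have b3 := track_step hG hi hk2 hal.2 b1 b2
    obtain ⟨s, e1, e2⟩ := hG.cp.step i hi k hk2
    have b4 := Wq_mono (P := P) (h + c) (Nat.le_succ i)
    rw [e1] at b3
    rcases hk with rfl | rfl
    · rw [cen_left hal.1 hal.2, e1]
      exact ⟨b1.trans b4, b3⟩
    · rw [cen_right hal.1 hal.2, e2]
      exact ⟨b3, b2.trans b4⟩

theorem tracked (hG : P.GoodLv ms Nb Nt K h j c y zo) :
    P.Tracked h c (P.ntG Nt h j c y) y zo := by
  refine ⟨hG.cp.top, fun i hi j' hj ha ht => ?_⟩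
  have hd := hG.wd.dle
  obtain ⟨b1, b2⟩ := track hG hi.le hj ha
  have b3 := track_step hG hi hj ht b1 b2
  obtain ⟨s, e1, e2⟩ := hG.cp.step i hi j' hj
  have iL := hG.cp.inW (i + 1) hi (2 * j') (by rw [pow_succ]; omega)
  rw [e1] at b3 iL
  refine ⟨s, mem_acts.2 ⟨?_, iL.2.1, le_Wn_iff.2 (b3.trans (Wq_mono _ hi))⟩, e1, e2⟩
  exact (pow_dvd_pow 2 (gm_mono (by omega))).trans iL.2.2.2.1

end Pa

end Crest.Agent.R288
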