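/-
R288/TrackC: the cost of the comparator in a good super-level.
-/
import Crest.Agent.R288.Track

set_option autoImplicit false

namespace Crest.Agent.R288

open Finset

namespace Pa

variable {P : Pa} {ms : ℕ → ℕ → Bool} {Nb Nt : Fam} {K : ℝ} {h j c : ℕ} {y : St}
  {zo : ℕ → ℕ → St}

theorem tc_num {γ V t W v d : ℚ} (h0 : 0 < γ) (h1 : γ ≤ 1 / 4) (hV : 0 ≤ V) (ht : 0 ≤ t)
    (h2 : 3 * W ≤ γ * v) (h3 : v ≤ (1 + 2 * γ) * t) (h4 : d ≤ 2 * W) (h5 : t ≤ V + d) :
    v + d ≤ (1 + 8 * γ) * V ∧ W ≤ V := by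
  have a0 : 0 ≤ γ * t := by positivity
  have a1 : γ * v ≤ 3 / 2 * (γ * t) := by
    have b1 := mul_le_mul_of_nonneg_left h3 h0.le
    have b2 := mul_le_mul_of_nonneg_right h1 a0
    linarith
  have a2 : γ * t ≤ 1 / 4 * t := mul_le_mul_of_nonneg_right h1 ht
  have a3 : t ≤ 4 / 3 * V := by linarith
  have a4 := mul_le_mul_of_nonneg_left a3 h0.le
  have a5 : 0 ≤ γ * V := by positivity
  constructor <;> linarith

/-- Induction on the height of an alive node. -/
theorem tc_ind {nt : ℕ → ℕ → ℕ → St → ℚ} (Q : ℕ → ℕ → ℝ) (F : ℕ → ℝ)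
    (h0 : ∀ j' < 2 ^ P.d, (P.cen h c nt y P.d j').2 = true → Q 0 j' ≤ F j')
    (h1 : ∀ e < P.d, ∀ j' < 2 ^ (P.d - (e + 1)), (P.cen h c nt y (P.d - (e + 1)) j').2 = true →
      P.termAt h c nt y (P.d - (e + 1)) j' →
      Q (e + 1) j' ≤ ∑ r ∈ range (2 ^ (e + 1)), F (j' * 2 ^ (e + 1) + r))
    (h2 : ∀ e < P.d, ∀ j', ¬ P.termAt h c nt y (P.d - (e + 1)) j' →
      Q (e + 1) j' ≤ Q e (2 * j') + Q e (2 * j' + 1)) :
    Q P.d 0 ≤ ∑ r ∈ range (2 ^ P.d), F r := by
  have key : ∀ e ≤ P.d, ∀ j' < 2 ^ (P.d - e), (P.cen h c nt y (P.d - e) j').2 = true →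
      Q e j' ≤ ∑ r ∈ range (2 ^ e), F (j' * 2 ^ e + r) := by
    intro e
    induction e with
    | zero =>
      intro _ j' hj ha
      simpa using h0 j' hj ha
    | succ e ih =>
      intro he j' hj ha
      by_cases ht : P.termAt h c nt y (P.d - (e + 1)) j'
      · exact h1 e he j' hj ha ht
      · have e0 : P.d - e = P.d - (e + 1) + 1 := by omega
        have a1 := ih (by omega) (2 * j') (by rw [e0, pow_succ]; omega)
          (by rw [e0, cen_left ha ht])
        have a2 := ih (by omega) (2 * j' + 1) (by rw [e0, pow_succ]; omega)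
          (by rw [e0, cen_right ha ht])
        have hp : 2 ^ (e + 1) = 2 ^ e + 2 ^ e := by rw [pow_succ]; ring
        have e1 : ∀ r, j' * (2 ^ e + 2 ^ e) + r = 2 * j' * 2 ^ e + r := fun r => by ring
        have e2 : ∀ r, 2 * j' * 2 ^ e + (2 ^ e + r) = (2 * j' + 1) * 2 ^ e + r := fun r => by ring
        rw [hp, sum_range_add]
        simp only [e1, e2]
        linarith [h2 e he j' ht]
  have := key P.d le_rfl 0 (by simp) (by rw [Nat.sub_self]; rfl)
  simpa using this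

theorem tc_dead {nt : ℕ → ℕ → ℕ → St → ℚ} {e j' r : ℕ} (he : e < P.d)
    (ht : P.termAt h c nt y (P.d - (e + 1)) j') (hr : r ∈ range (2 ^ (e + 1))) :
    ¬ (P.cen h c nt y P.d (j' * 2 ^ (e + 1) + r)).2 = true := by
  have := cen_dead_desc (Or.inr ht) (Nat.succ_pos e) (mem_range.1 hr)
  rw [show P.d - (e + 1) + e.succ = P.d by omega] at this
  rw [this]
  exact Bool.false_ne_true

/-- At a terminal node `W ≤ γ v / 3 ≤ γ |t^c| / 2`, so `|t^c| ≤ (1 + 2γ) |t°|`. -/
theorem term_cost (hG : P.GoodLv ms Nb Nt K h j c y zo) {i j' : ℕ} (hi : i < P.d) (hj : j' < 2 ^ i)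
    (ha : (P.cen h c (P.ntG Nt h j c y) y i j').2 = true)
    (ht : P.termAt h c (P.ntG Nt h j c y) y i j') :
    ((P.ntG Nt h j c y i j' c (P.cen h c (P.ntG Nt h j c y) y i j').1 +
        dst (zo i j') (P.cen h c (P.ntG Nt h j c y) y i j').1 : ℚ) : ℝ) ≤
        (1 + 8 * P.fq) * P.VV ms (h - i) (j * 2 ^ i + j') (zo i j') ∧
      P.La (h + c) ≤ 2 ^ P.wx * P.VV ms (h - i) (j * 2 ^ i + j') (zo i j') := by
  obtain ⟨t1, t2⟩ := track hG hi.le hj ha
  obtain ⟨s1, s2, -⟩ := ht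
  generalize P.ntG Nt h j c y i j' c (P.cen h c (P.ntG Nt h j c y) y i j').1 = v at s1 s2 ⊢
  generalize (P.cen h c (P.ntG Nt h j c y) y i j').1 = zc at t1 t2 s2 ⊢
  have hγ0 : (0 : ℚ) < P.fq := by unfold fq; positivity
  have hγ1 : P.fq * 2 ^ P.fx = 1 := by unfold fq; field_simp
  have hγ2 : P.fq ≤ 1 / 4 := by
    unfold fq
    refine one_div_le_one_div_of_le (by norm_num) ?_
    calc (4 : ℚ) = 2 ^ 2 := by norm_num
      _ ≤ 2 ^ P.fx := pow_le_pow_right₀ one_le_two (by unfold fx; omega)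
  have hW : P.Lam (h + c) ≤ 2 ^ P.wx * P.Wq (h + c) i := by
    have h1 := Wq_mono (P := P) (h + c) (Nat.zero_le i)
    have h2 : 2 ^ P.wx * P.Wq (h + c) 0 = P.Lam (h + c) := by
      unfold Wq
      rw [zero_mul, pow_zero, mul_one]
      field_simp
    rw [← h2]
    exact mul_le_mul_of_nonneg_left h1 (by positivity)
  have hd : (dst (zo i j') zc : ℚ) ≤ 2 * P.Wq (h + c) i := by
    unfold dst
    push_cast
    linarith
  have hc : (Nat.dist zc.1 zc.2 : ℚ) ≤
      V P.X ms (h - i) (j * 2 ^ i + j') (zo i j') + dst (zo i j') zc := by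
    have h1 := dist_le_dst zc (zo i j')
    have h2 := dist_le_V (X := P.X) (ms := ms) (h - i) (j * 2 ^ i + j') (zo i j')
    rw [dst_comm zc] at h1
    exact_mod_cast h1.trans (Nat.add_le_add_right h2 _)
  unfold small at s1
  rw [not_le] at s1
  have hV0 : (0 : ℚ) ≤ V P.X ms (h - i) (j * 2 ^ i + j') (zo i j') := Nat.cast_nonneg _
  have ht0 : (0 : ℚ) ≤ Nat.dist zc.1 zc.2 := Nat.cast_nonneg _
  have key := tc_num hγ0 hγ2 hV0 ht0 (W := P.Wq (h + c) i) (v := v) (by
    have h1 := mul_lt_mul_of_pos_left s1 hγ0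
    have h2 : P.fq * (3 * 2 ^ P.fx * P.Wq (h + c) i) = 3 * P.Wq (h + c) i := by
      linear_combination 3 * P.Wq (h + c) i * hγ1
    linarith) s2 hd hc
  have h3 := hW.trans (mul_le_mul_of_nonneg_left key.2 (by positivity))
  unfold VV La
  exact ⟨by exact_mod_cast key.1, by exact_mod_cast h3⟩

/-- Induction on the height `e` of an alive node (`term_cost`, `CPath.le_sum`, `cen_dead_desc`). -/
theorem cost_top (hG : P.GoodLv ms Nb Nt K h j c y zo) (bm : ℕ → St → ℚ) :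
    (P.costv h c (P.ntG Nt h j c y) y zo bm P.d 0 : ℝ) ≤ ∑ j' ∈ range (2 ^ P.d),
      if (P.cen h c (P.ntG Nt h j c y) y P.d j').2 = true then (bm j' (zo P.d j') : ℝ) else
        (1 + 8 * P.fq) * P.VV ms (h - P.d) (j * 2 ^ P.d + j') (zo P.d j') := by
  refine tc_ind (nt := P.ntG Nt h j c y) (h := h) (c := c) (y := y)
    (fun e j' => (P.costv h c (P.ntG Nt h j c y) y zo bm e j' : ℝ)) _ (fun j' _ ha => ?_)
    (fun e he j' hj ha ht => ?_) fun e _ j' ht => ?_
  · rw [if_pos ha, costv]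
  · have hγ : (0 : ℝ) ≤ 1 + 8 * P.fq := by
      have : (0 : ℚ) ≤ 1 + 8 * P.fq := by unfold fq; positivity
      exact_mod_cast this
    rw [costv, if_pos ht, sum_congr rfl fun r hr => if_neg (tc_dead he ht hr), ← mul_sum]
    exact (term_cost hG (by omega) hj ha ht).1.trans
      (mul_le_mul_of_nonneg_left (hG.cp.le_sum hG.wd.dle he hj) hγ)
  · rw [costv, if_neg ht, Rat.cast_add]

/-- Same induction: the dead bottom nodes have little mass. -/
theorem dead_mass (hG : P.GoodLv ms Nb Nt K h j c y zo) :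
    (∑ j' ∈ range (2 ^ P.d), if (P.cen h c (P.ntG Nt h j c y) y P.d j').2 = true then 0 else
        P.La (h - P.d + c)) ≤
      2 ^ P.wx * ∑ j' ∈ range (2 ^ P.d),
        if (P.cen h c (P.ntG Nt h j c y) y P.d j').2 = true then 0 else
          P.VV ms (h - P.d) (j * 2 ^ P.d + j') (zo P.d j') := by
  have key := tc_ind (P := P) (nt := P.ntG Nt h j c y) (h := h) (c := c) (y := y) (fun _ _ => 0)
    (fun j' => 2 ^ P.wx * (if (P.cen h c (P.ntG Nt h j c y) y P.d j').2 = true then 0 else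
      P.VV ms (h - P.d) (j * 2 ^ P.d + j') (zo P.d j')) -
      if (P.cen h c (P.ntG Nt h j c y) y P.d j').2 = true then 0 else P.La (h - P.d + c))
    (fun j' _ ha => by simp [ha]) (fun e he j' hj ha ht => ?_) fun e _ j' _ => by simp
  · rw [sum_sub_distrib, ← mul_sum] at key
    linarith
  · rw [sum_sub_distrib, ← mul_sum, sum_congr rfl fun r hr => if_neg (tc_dead he ht hr),
      sum_congr rfl fun r hr => if_neg (tc_dead he ht hr), sum_const, card_range, nsmul_eq_mul]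
    have h1 := (term_cost hG (by omega) hj ha ht).2.trans
      (mul_le_mul_of_nonneg_left (hG.cp.le_sum hG.wd.dle he hj) (by positivity))
    have h2 := Cmp_La (P := P) hG.wd.dle c
    have h3 : (2 : ℝ) ^ (e + 1) ≤ 2 ^ P.d := pow_le_pow_right₀ one_le_two he
    have h4 := mul_le_mul_of_nonneg_right h3 (La_pos (P := P) (h - P.d + c)).le
    push_cast
    linarith

end Pa

end Crest.Agent.R288
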