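/-
R288/Step: what one super-level of the comparator tree satisfies.  FROZEN definitions.
-/
import Crest.Agent.R288.TrackC
import Crest.Agent.R288.PreI

set_option autoImplicit false

namespace Crest.Agent.R288

open Finset

namespace Pa

/-- Regret and rounding per round. -/
noncomputable def eps1 (P : Pa) : ℝ := 2 * (P.d + 1) * P.rho / P.M

/-- Link errors. -/
noncomputable def eps2 (P : Pa) : ℝ := 8 * (P.d + 1) / P.M

/-- `J`: the bottom nodes where the tree continues, in class `cl`, at state `xs`; `μ`: mass;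
`vs`: value of the other bottom nodes. -/
structure StepD (P : Pa) (ms : ℕ → ℕ → Bool) (Nb Nt : Fam) (K : ℝ) (h j c : ℕ) (y : St)
    (J : Finset ℕ) (cl : ℕ → ℕ) (xs : ℕ → St) (μ vs : ℝ) : Prop where
  sub : J ⊆ range (2 ^ P.d)
  dom : ∀ j' ∈ J, ¬ P.triv (h - P.d) (cl j') ∧ P.inW (h - P.d + cl j') (xs j') ∧
    Nt (h - P.d) (j * 2 ^ P.d + j') (cl j') (xs j') ≤ 2 * P.Lam (h - P.d + cl j')
  vs0 : 0 ≤ vs
  mass : ∑ j' ∈ J, P.La (h - P.d + cl j') ≤ μ
  mass_le : μ ≤ 2 / 3 * P.La (h + c) + P.La h + 8 * K * P.VV ms h j y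
  val : vs + ∑ j' ∈ J, P.VV ms (h - P.d) (j * 2 ^ P.d + j') (xs j') ≤
    P.VV ms h j y + P.nu * (P.La (h + c) + μ)

/-- Right-hand side of the potential inequality. -/
noncomputable def piR (P : Pa) (ms : ℕ → ℕ → Bool) (Nb : Fam) (K : ℝ) (h j c : ℕ) (y : St)
    (J : Finset ℕ) (cl : ℕ → ℕ) (xs : ℕ → St) (μ vs : ℝ) : ℝ :=
  ∑ j' ∈ J, PiU Nb (h - P.d) (j * 2 ^ P.d + j') (cl j') (xs j') + (3 * K + 2 ^ P.wx) * vs +
    P.eps2 * (P.La (h + c) + μ + K * P.VV ms h j y)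

/-- The tables `β` at the top are bounded by the tables `β'` below. -/
def SumLe (P : Pa) (Pt : ℕ → ℕ → Fam) (h j c : ℕ) (y : St) (J : Finset ℕ) (cl : ℕ → ℕ)
    (xs : ℕ → St) (μ vs : ℝ) (β β' : ℕ) : Prop :=
  (∑ m ∈ range P.M, (Pt m β h j c y : ℝ)) ≤
    ∑ j' ∈ J, ∑ m ∈ range P.M, (Pt m β' (h - P.d) (j * 2 ^ P.d + j') (cl j') (xs j') : ℝ) +
      P.M * ((1 + 8 * P.fq) * vs + P.eps1 * (P.La (h + c) + μ))

/-- One super-level: good (no budget used) or bad (paid by the potential). -/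
def Step (P : Pa) (ms : ℕ → ℕ → Bool) (Nb Nt : Fam) (Pt : ℕ → ℕ → Fam) (K : ℝ) (h j c : ℕ)
    (y : St) : Prop :=
  ∃ (J : Finset ℕ) (cl : ℕ → ℕ) (xs : ℕ → St) (μ vs : ℝ),
    P.StepD ms Nb Nt K h j c y J cl xs μ vs ∧
    PiU Nb h j c y ≤ P.piR ms Nb K h j c y J cl xs μ vs ∧
    ((∀ β ≤ P.M, P.SumLe Pt h j c y J cl xs μ vs β β) ∨
      ((PiU Nb h j c y + P.w0 * P.La (h + c) ≤ P.piR ms Nb K h j c y J cl xs μ vs ∨
          P.mu * P.La (h + c) ≤ 16 * K * P.VV ms h j y) ∧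
        ∀ β ≤ P.M, β ≠ 0 → P.SumLe Pt h j c y J cl xs μ vs β (β - 1)))

variable {P : Pa} {ms : ℕ → ℕ → Bool} {Nb Nt : Fam} {K : ℝ} {h j c : ℕ} {y : St}
  {zo : ℕ → ℕ → St}

theorem Step_K0 (hP : P.OK) : 48 * ((P.K0 : ℝ) * P.d) ≤ 2 ^ P.kap := by
  have h1 := hP.wx_le
  have h2 : P.d ≤ 2 ^ P.Lx := le_trans (by omega) Nat.lt_two_pow_self.le
  have h3 : 48 * (2 ^ (P.D + P.Lx + 3) * P.d) ≤ 2 ^ P.kap := by
    refine (Nat.mul_le_mul (show 48 ≤ 2 ^ 6 by norm_num) (Nat.mul_le_mul_left _ h2)).trans ?_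
    rw [← pow_add, ← pow_add]
    exact Nat.pow_le_pow_right two_pos (by unfold kap Lx; omega)
  unfold K0
  exact_mod_cast h3

theorem Step_dst (u : ℕ) (z : St) : (dst z (P.rd u z) : ℝ) ≤ 2 / 2 ^ P.kap * P.La u := by
  have h1 := dst_rd_le (P := P) u z
  rw [div_mul_eq_mul_div]
  unfold La
  exact_mod_cast h1

theorem Step_kap (hP : P.OK) : (12 : ℝ) / 2 ^ P.kap ≤ 4 / P.M := by
  have hM : (0 : ℝ) < P.M := by exact_mod_cast hP.M_pos
  have h1 := (Wf_M hP).le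
  have h2 : 2 ^ (P.Lx + 2) ≤ 2 ^ P.kap := Nat.pow_le_pow_right two_pos (by unfold kap Lx; omega)
  have h3 : 12 * P.M ≤ 4 * 2 ^ P.kap := by
    rw [pow_add] at h2
    omega
  rw [div_le_div_iff₀ (by positivity) hM]
  exact_mod_cast h3

theorem Step_del (hP : P.OK) : 3 * (P.del : ℝ) ^ 3 ≤ 4 / P.M := by
  have hM : (0 : ℝ) < P.M := by exact_mod_cast hP.M_pos
  have h1 : (P.M : ℝ) ≤ 2 ^ P.Lx := by exact_mod_cast (Wf_M hP).le
  have h2 : (P.del : ℝ) = 1 / 2 ^ P.Lx := by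
    unfold del
    push_cast
    rfl
  have h3 : (0 : ℝ) < P.del := by rw [h2]; positivity
  have h4 : (P.del : ℝ) ≤ 1 := by
    rw [h2, div_le_one (by positivity)]
    exact one_le_pow₀ one_le_two
  have h5 : (P.del : ℝ) ≤ 1 / P.M := by
    rw [h2]
    exact one_div_le_one_div_of_le hM h1
  have h6 : (P.del : ℝ) ^ 3 ≤ P.del := pow_le_of_le_one h3.le h4 (by norm_num)
  have h7 : (4 : ℝ) / P.M = 4 * (1 / P.M) := by ring
  linarith

theorem Step_elk (hK : 0 ≤ K) (h j c : ℕ) (z : St) : 0 ≤ P.elk ms K h j c z :=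
  div_nonneg (add_nonneg (mul_nonneg hK (VV_nonneg _ _ _)) (La_pos _).le) (Nat.cast_nonneg _)

theorem Step_abs (hA : P.StageA ms Nb Nt K) (hn : P.Nd h j) (hc : ¬ P.triv h c) {z : St}
    (hz : P.inW (h + c) z) : |(z.2 : ℝ) - z.1| ≤ Nb h j c z := by
  have := hA.dist_le_b hn hc hz
  rw [abs_sub_comm, ← cast_dist]
  exact_mod_cast this

theorem Step_dead (hA : P.StageA ms Nb Nt K) (hn : P.Nd h j) (hc : ¬ P.triv h c) {z : St}
    (hz : P.inW (h + c) z) : PiU Nb h j c z ≤ 3 * K * P.VV ms h j z + P.La (h + c) := by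
  have h1 := Pi2_le (Step_abs hA hn hc hz)
  have h2 := hA.le h j c z hn hc hz
  have h3 := La_pos (P := P) (h + c)
  unfold PiU
  linarith

theorem Step_triv (hP : P.OK) (hA : P.StageA ms Nb Nt K) (hn : P.Nd h j) (hc : ¬ P.triv h c)
    {z : St} (hz : P.inW (h + c) z) {c' : ℕ} (ht : P.triv h c') :
    PiU Nb h j c z ≤ 3 * K * P.VV ms h j z + 4 / P.M * P.La (h + c') := by
  have h1 := Pi2_le (Step_abs hA hn hc hz)
  have h2 : (Nb h j c z : ℝ) ≤ P.trivV h z := by exact_mod_cast hA.triv h j c z hn hc hz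
  have h3 := trivV_le_of_triv (ms := ms) ht j z
  have h4 := mul_le_mul_of_nonneg_right (Step_del hP) (La_pos (P := P) (h + c')).le
  have h5 := mul_le_mul_of_nonneg_right hA.K1 (VV_nonneg (P := P) (ms := ms) h j z)
  unfold PiU
  linarith

theorem Step_link (hP : P.OK) (hA : P.StageA ms Nb Nt K) (hn : P.Nd h j) (hc : ¬ P.triv h c)
    {z : St} (hz : P.inW (h + c) z) {c' : ℕ} (h1 : c - 1 ≤ c') (ht : ¬ P.triv h c')
    (hz' : P.inW (h + c') (P.rd (h + c') z)) :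
    PiU Nb h j c z ≤ PiU Nb h j c' (P.rd (h + c') z) + 4 / P.M * P.La (h + c') +
      2 * P.elk ms K h j c z := by
  have he := Step_elk (zero_le_one.trans hA.K1) (P := P) (ms := ms) h j c z
  have h2 := hA.cls h j c c' z hn hc hz h1 ht
  have h3 := Pi2_link (b := dst z (P.rd (h + c') z) + P.elk ms K h j c z) (Step_abs hA hn hc hz)
    (Step_abs hA hn ht hz') (add_nonneg (Nat.cast_nonneg _) he) (by linarith)
  have h4 : |((z.2 : ℝ) - z.1) - (((P.rd (h + c') z).2 : ℝ) - (P.rd (h + c') z).1)| ≤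
      dst z (P.rd (h + c') z) := by
    unfold dst
    push_cast
    rw [cast_dist, cast_dist, abs_le]
    constructor <;>
      linarith [le_abs_self ((z.1 : ℝ) - (P.rd (h + c') z).1),
        neg_abs_le ((z.1 : ℝ) - (P.rd (h + c') z).1),
        le_abs_self ((z.2 : ℝ) - (P.rd (h + c') z).2), neg_abs_le ((z.2 : ℝ) - (P.rd (h + c') z).2)]
  have h5 := Step_dst (P := P) (h + c') z
  have h6 := mul_le_mul_of_nonneg_right (Step_kap hP) (La_pos (P := P) (h + c')).le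
  have h7 : (12 : ℝ) / 2 ^ P.kap * P.La (h + c') = 6 * (2 / 2 ^ P.kap * P.La (h + c')) := by ring
  unfold PiU
  linarith

/-- The part common to both cases.  `Al` = alive bottom nodes, `cl` their classes,
`J = Al` with nontrivial class, `xs j' = rd (zo d j')`, `μ = ∑_{Al} Λ'`, `vs = ∑_{j' ∉ J} V (zo d j')`.
`mass_le`: sum `hm`, use `sumV`, `8 K d / 2^kap ≤ 1/6`.  Potential: `Dl_tele`; for `j' ∈ J`
`StageA.cls` + `Pi2_link` (loss `12 Λ' / 2^kap + 2 elk`, `sum_elk_le`); for alive trivial `j'`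
`Pi2_le`, `StageA.triv`, `trivV_le_of_triv`; for dead `j'` `Pi2_le`, `StageA.le` and `hdead`. -/
theorem step_common (hP : P.OK) (hA : P.StageA ms Nb Nt K) (hw : P.Wd h j c)
    (hz : P.CPath ms h j c y zo) (Al : ℕ → Prop) [DecidablePred Al] (cl : ℕ → ℕ)
    (hcl : ∀ j' < 2 ^ P.d, Al j' → c - 1 ≤ cl j')
    (hdom : ∀ j' < 2 ^ P.d, Al j' → ¬ P.triv (h - P.d) (cl j') →
      P.inW (h - P.d + cl j') (P.rd (h - P.d + cl j') (zo P.d j')) ∧
        Nt (h - P.d) (j * 2 ^ P.d + j') (cl j') (P.rd (h - P.d + cl j') (zo P.d j')) ≤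
          2 * P.Lam (h - P.d + cl j'))
    (hm : ∀ j' < 2 ^ P.d, Al j' → P.La (h - P.d + cl j') ≤ P.La (h - P.d + c) / 2 +
      P.La (h - P.d) + 8 * K * P.VV ms (h - P.d) (j * 2 ^ P.d + j') (zo P.d j'))
    (hdead : (∑ j' ∈ range (2 ^ P.d), if Al j' then 0 else P.La (h - P.d + c)) ≤
      2 ^ P.wx * ∑ j' ∈ range (2 ^ P.d),
        if Al j' then 0 else P.VV ms (h - P.d) (j * 2 ^ P.d + j') (zo P.d j')) :
    let J := (range (2 ^ P.d)).filter fun j' => Al j' ∧ ¬ P.triv (h - P.d) (cl j')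
    let xs := fun j' => P.rd (h - P.d + cl j') (zo P.d j')
    let μ := ∑ j' ∈ (range (2 ^ P.d)).filter Al, P.La (h - P.d + cl j')
    let vs := ∑ j' ∈ range (2 ^ P.d) \ J, P.VV ms (h - P.d) (j * 2 ^ P.d + j') (zo P.d j')
    P.StepD ms Nb Nt K h j c y J cl xs μ vs ∧
      PiU Nb h j c y + P.Dl ms Nb K h j c zo ≤ P.piR ms Nb K h j c y J cl xs μ vs := by
  intro J xs μ vs
  have hd := hw.dle
  have hK : 0 ≤ K := zero_le_one.trans hA.K1
  have hsub : J ⊆ range (2 ^ P.d) := filter_subset _ _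
  have hmem : ∀ j', j' ∈ J ↔ j' < 2 ^ P.d ∧ Al j' ∧ ¬ P.triv (h - P.d) (cl j') := fun j' => by
    simp only [J, mem_filter, mem_range]
  have hL := La_pos (P := P) (h + c)
  have hk : (0 : ℝ) < 2 ^ P.kap := by positivity
  have hM : (0 : ℝ) < P.M := by exact_mod_cast hP.M_pos
  have hV0 := VV_nonneg (P := P) (ms := ms) h j y
  have hvs : 0 ≤ vs := sum_nonneg fun _ _ => VV_nonneg _ _ _
  have hμ0 : 0 ≤ μ := sum_nonneg fun _ _ => (La_pos _).le
  have hmass : ∑ j' ∈ J, P.La (h - P.d + cl j') ≤ μ :=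
    sum_le_sum_of_subset_of_nonneg (fun j' hj => mem_filter.2
      ⟨hsub hj, ((hmem j').1 hj).2.1⟩) fun _ _ _ => (La_pos _).le
  have hsV := hz.sumV P.d le_rfl
  have hspl : ∀ f : ℕ → ℝ, ∑ j' ∈ range (2 ^ P.d), f j' =
      ∑ j' ∈ J, f j' + ∑ j' ∈ range (2 ^ P.d) \ J, f j' := fun f => by
    rw [← sum_sdiff hsub, add_comm]
  have hite : ∀ f g : ℕ → ℝ, ∑ j' ∈ range (2 ^ P.d), (if j' ∈ J then f j' else g j') =
      ∑ j' ∈ J, f j' + ∑ j' ∈ range (2 ^ P.d) \ J, g j' := fun f g => by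
    rw [hspl, sum_congr rfl fun j' (hj : j' ∈ J) => if_pos hj,
      sum_congr rfl fun j' (hj : j' ∈ range (2 ^ P.d) \ J) => if_neg (mem_sdiff.1 hj).2]
  refine ⟨⟨hsub, fun j' hj => ?_, hvs, hmass, ?_, ?_⟩, ?_⟩
  · obtain ⟨a1, a2, a3⟩ := (hmem j').1 hj
    exact ⟨a3, hdom j' a1 a2 a3⟩
  · have h1 : μ ≤ ∑ j' ∈ range (2 ^ P.d), (P.La (h - P.d + c) / 2 + P.La (h - P.d + 0) +
        8 * K * P.VV ms (h - P.d) (j * 2 ^ P.d + j') (zo P.d j')) := by
      refine le_trans (sum_le_sum fun j' hj => hm j' (mem_range.1 (mem_filter.1 hj).1)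
        (mem_filter.1 hj).2) (sum_le_sum_of_subset_of_nonneg (filter_subset _ _) fun j' _ _ => ?_)
      have := La_pos (P := P) (h - P.d + c)
      have := La_pos (P := P) (h - P.d + 0)
      have := VV_nonneg (P := P) (ms := ms) (h - P.d) (j * 2 ^ P.d + j') (zo P.d j')
      positivity
    rw [sum_add_distrib, sum_const, card_range, nsmul_eq_mul, ← mul_sum] at h1
    push_cast at h1
    have h2 := Cmp_La (P := P) hd c
    have h3 := Cmp_La (P := P) hd 0
    rw [Nat.add_zero h] at h3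
    have h4 := mul_le_mul_of_nonneg_left hsV (show 0 ≤ 8 * K by positivity)
    have h5 : 8 * K * (P.d * P.La (h + c) / 2 ^ P.kap) ≤ P.La (h + c) / 6 := by
      have h6 : 48 * (K * P.d) ≤ 2 ^ P.kap := le_trans (mul_le_mul_of_nonneg_left
        (mul_le_mul_of_nonneg_right hA.K2 (Nat.cast_nonneg _)) (by norm_num)) (Step_K0 hP)
      rw [← mul_div_assoc, div_le_iff₀ hk]
      nlinarith
    nlinarith
  · have h1 : ∑ j' ∈ J, P.VV ms (h - P.d) (j * 2 ^ P.d + j') (xs j') ≤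
        ∑ j' ∈ J, (P.VV ms (h - P.d) (j * 2 ^ P.d + j') (zo P.d j') +
          2 / 2 ^ P.kap * P.La (h - P.d + cl j')) := sum_le_sum fun j' _ => by
      have a1 := VV_lip (P := P) (ms := ms) (h - P.d) (j * 2 ^ P.d + j') (xs j') (zo P.d j')
      have a2 := Step_dst (P := P) (h - P.d + cl j') (zo P.d j')
      rw [dst_comm] at a1
      exact a1.trans (add_le_add le_rfl a2)
    rw [sum_add_distrib, ← mul_sum] at h1
    have h2 := hspl fun j' => P.VV ms (h - P.d) (j * 2 ^ P.d + j') (zo P.d j')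
    have h3 := mul_le_mul_of_nonneg_left hmass (show (0 : ℝ) ≤ 2 / 2 ^ P.kap by positivity)
    have h4 : P.d * P.La (h + c) / 2 ^ P.kap + 2 / 2 ^ P.kap * μ ≤ P.nu * (P.La (h + c) + μ) := by
      have h5 : (0 : ℝ) ≤ P.d := Nat.cast_nonneg _
      unfold nu
      push_cast
      rw [div_mul_eq_mul_div, div_mul_eq_mul_div, ← add_div]
      refine div_le_div_of_nonneg_right ?_ hk.le
      nlinarith
    change _ = _ + vs at h2
    linarith
  · have h1 : ∀ j' ∈ range (2 ^ P.d), PiU Nb (h - P.d) (j * 2 ^ P.d + j') c (zo P.d j') ≤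
        (if j' ∈ J then PiU Nb (h - P.d) (j * 2 ^ P.d + j') (cl j') (xs j') else
          3 * K * P.VV ms (h - P.d) (j * 2 ^ P.d + j') (zo P.d j')) +
        (4 / P.M * (if Al j' then P.La (h - P.d + cl j') else 0) +
          (if Al j' then 0 else P.La (h - P.d + c))) +
        2 * P.elk ms K (h - P.d) (j * 2 ^ P.d + j') c (zo P.d j') := fun j' hj => by
      have hj' := mem_range.1 hj
      have hn := hw.nd.desc hd hj'
      have hc := Wf_nt hw.nt (Nat.sub_le h P.d)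
      have hi := hz.inW P.d le_rfl j' hj'
      have he := Step_elk hK (P := P) (ms := ms) (h - P.d) (j * 2 ^ P.d + j') c (zo P.d j')
      by_cases a1 : Al j'
      · rw [if_pos a1, if_pos a1, add_zero]
        by_cases a2 : P.triv (h - P.d) (cl j')
        · rw [if_neg fun hJ => ((hmem j').1 hJ).2.2 a2]
          linarith [Step_triv hP hA hn hc hi a2]
        · rw [if_pos ((hmem j').2 ⟨hj', a1, a2⟩)]
          exact Step_link hP hA hn hc hi (hcl j' hj' a1) a2 (hdom j' hj' a1 a2).1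
      · rw [if_neg a1, if_neg a1, if_neg fun hJ => a1 ((hmem j').1 hJ).2.1, mul_zero, zero_add]
        linarith [Step_dead hA hn hc hi]
    have h2 := sum_le_sum h1
    rw [sum_add_distrib, sum_add_distrib, sum_add_distrib, hite, ← mul_sum, ← mul_sum, ← mul_sum,
      ← sum_filter] at h2
    change _ ≤ _ + 3 * K * vs + (4 / P.M * μ + _) + _ at h2
    have h3 : (∑ j' ∈ range (2 ^ P.d),
        if Al j' then 0 else P.VV ms (h - P.d) (j * 2 ^ P.d + j') (zo P.d j')) ≤ vs := by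
      have h4 := hite (fun _ => 0) fun j' => P.VV ms (h - P.d) (j * 2 ^ P.d + j') (zo P.d j')
      rw [sum_const_zero, zero_add] at h4
      refine le_trans (sum_le_sum fun j' _ => ?_) h4.le
      by_cases a1 : Al j'
      · rw [if_pos a1]
        split_ifs
        · exact le_rfl
        · exact VV_nonneg _ _ _
      · rw [if_neg a1, if_neg fun hJ => a1 ((hmem j').1 hJ).2.1]
    have h4 := hdead.trans (mul_le_mul_of_nonneg_left h3 (by positivity))
    have h5 := Dl_tele hA hw hz hP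
    have h6 := sum_elk_le hA hw hz hP (le_refl P.d)
    have h7 : 2 * P.d * (K * P.VV ms h j y + 2 * P.La (h + c)) / P.M +
        2 * ((K * P.VV ms h j y + 2 * P.La (h + c)) / P.M) + 4 / P.M * μ ≤
          P.eps2 * (P.La (h + c) + μ + K * P.VV ms h j y) := by
      have h8 : (0 : ℝ) ≤ P.d := Nat.cast_nonneg _
      have h9 := mul_nonneg hK hV0
      unfold eps2
      rw [div_mul_eq_mul_div, div_mul_eq_mul_div, ← mul_div_assoc, ← add_div, ← add_div]
      refine div_le_div_of_nonneg_right ?_ hM.le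
      nlinarith [mul_nonneg h8 h9, mul_nonneg h8 hL.le, mul_nonneg h8 hμ0]
    unfold piR
    linarith

end Pa

end Crest.Agent.R288
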