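/-
R288/StepG: good and bad super-levels.
-/
import Crest.Agent.R288.Step

set_option autoImplicit false

namespace Crest.Agent.R288

open Finset

namespace Pa

variable {P : Pa} {ms : ℕ → ℕ → Bool} {Nb Nt : Fam} {Pt : ℕ → ℕ → Fam} {K : ℝ} {h j c : ℕ}
  {y : St} {zo : ℕ → ℕ → St}

theorem StepG_sum (s : Finset ℕ) (Al T : ℕ → Prop) [DecidablePred Al] [DecidablePred T]
    {b p v l : ℕ → ℝ} {f e : ℝ} (hf : 0 ≤ f) (hv : ∀ j ∈ s, 0 ≤ v j)
    (h1 : ∀ j ∈ s, Al j → ¬ T j → b j ≤ p j + e * l j)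
    (h2 : ∀ j ∈ s, Al j → T j → b j ≤ v j + e * l j)
    (h3 : ∀ j ∈ s, ¬ Al j → b j ≤ (1 + f) * v j) :
    ∑ j ∈ s, b j ≤ ∑ j ∈ s.filter (fun j => Al j ∧ ¬ T j), p j +
      (1 + f) * ∑ j ∈ s \ s.filter (fun j => Al j ∧ ¬ T j), v j + e * ∑ j ∈ s.filter Al, l j := by
  rw [← filter_not, sum_filter, sum_filter, sum_filter, mul_sum, mul_sum, ← sum_add_distrib,
    ← sum_add_distrib]
  refine sum_le_sum fun j hj => ?_
  have h0 := mul_nonneg hf (hv j hj)
  by_cases a : Al j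
  · by_cases t : T j
    · have := h2 j hj a t
      rw [if_neg (fun h => h.2 t), if_pos (fun h => h.2 t), if_pos a]
      linarith
    · have := h1 j hj a t
      rw [if_pos ⟨a, t⟩, if_neg (fun h => h ⟨a, t⟩), if_pos a]
      linarith
  · have := h3 j hj a
    rw [if_neg (fun h => a h.1), if_pos (fun h => a h.1), if_neg a]
    linarith

theorem StepG_M_le (hP : P.OK) : (P.M : ℝ) ≤ 2 ^ P.Lx := by
  have a1 : P.M ≤ P.l1 := Nat.div_le_self _ _
  have a2 := hP.l1_lt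
  have : P.M ≤ 2 ^ P.Lx := by omega
  exact_mod_cast this

theorem StepG_small (hP : P.OK) {n : ℕ} (hn : 3 * P.Lx ≤ n) :
    (P.M : ℝ) * (1 / 2 ^ n) ≤ P.rho / 4 := by
  have h1 := StepG_M_le hP
  have h2 := hP.wx_le
  have h3 : (2 : ℝ) ^ P.Lx / 2 ^ n ≤ 2 ^ 0 / 2 ^ (5 * P.p) := PreI_pp (by omega)
  have h4 : (P.rho : ℝ) / 4 = 2 ^ 0 / 2 ^ (5 * P.p) := by
    unfold rho
    push_cast
    ring
  rw [h4, mul_one_div]
  exact (div_le_div_of_nonneg_right h1 (by positivity)).trans h3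

theorem StepG_e (hP : P.OK) : (P.M : ℝ) * (2 / 2 ^ P.kap + P.del ^ 3) ≤ P.rho := by
  have h1 := StepG_small hP (n := P.kap) (by unfold kap; omega)
  have h2 := StepG_small hP (n := 3 * P.Lx) le_rfl
  have h3 : (P.del : ℝ) ^ 3 = 1 / 2 ^ (3 * P.Lx) := by
    unfold del
    push_cast
    rw [pow_mul', div_pow, one_pow]
  have h4 : (0 : ℝ) ≤ P.M * (1 / 2 ^ P.kap) := by positivity
  have h5 : (P.M : ℝ) * (2 / 2 ^ P.kap + P.del ^ 3) =
      2 * (P.M * (1 / 2 ^ P.kap)) + P.M * (1 / 2 ^ (3 * P.Lx)) := by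
    rw [h3]
    ring
  rw [h5]
  linarith

theorem StepG_ups (hP : P.OK) : (P.M : ℝ) * P.ups ≤ P.rho := by
  have h1 := StepG_small hP (n := 8 * P.Lx) (by omega)
  have h3 : (P.ups : ℝ) = 1 / 2 ^ (8 * P.Lx) := by
    unfold ups
    push_cast
    rfl
  have h4 : (0 : ℝ) ≤ P.M * (1 / 2 ^ (8 * P.Lx)) := by positivity
  rw [h3]
  linarith

theorem StepG_rho : (0 : ℝ) ≤ P.rho := by
  unfold rho
  push_cast
  positivity

theorem StepG_fq : (0 : ℝ) ≤ 8 * P.fq := by
  unfold fq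
  push_cast
  positivity

theorem StepG_eps1 (hP : P.OK) : (P.M : ℝ) * P.eps1 = 2 * (P.d + 1) * P.rho := by
  have hM : (0 : ℝ) < P.M := by exact_mod_cast hP.M_pos
  unfold eps1
  field_simp

theorem StepG_cmax (hw : P.Wd h j c) : c ≤ P.cmax := by
  have := hw.nt
  unfold triv at this
  omega

theorem StepG_dst_rd (u : ℕ) (z : St) :
    (dst z (P.rd u z) : ℝ) ≤ (2 / 2 ^ P.kap + P.del ^ 3) * P.La u := by
  have h1 := (Rat.cast_le (K := ℝ)).2 (dst_rd_le (P := P) u z)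
  have h2 := La_pos (P := P) u
  have h3 : (0 : ℝ) ≤ P.del := by
    unfold del
    push_cast
    positivity
  have h4 : (0 : ℝ) ≤ P.del ^ 3 * P.La u := by positivity
  have h5 : (2 / 2 ^ P.kap + P.del ^ 3) * P.La u =
      2 * (P.Lam u : ℝ) / 2 ^ P.kap + P.del ^ 3 * P.La u := by
    unfold La
    ring
  push_cast at h1
  rw [h5]
  linarith

theorem StepG_triv {h' c' : ℕ} (ht : P.triv h' c') (j' : ℕ) (z : St) :
    (P.trivV h' z : ℝ) ≤ P.VV ms h' j' z + (2 / 2 ^ P.kap + P.del ^ 3) * P.La (h' + c') := by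
  have h1 := trivV_le_of_triv (ms := ms) ht j' z
  have h2 := La_pos (P := P) (h' + c')
  have h3 : (0 : ℝ) ≤ 2 / 2 ^ P.kap * P.La (h' + c') := by positivity
  rw [add_mul]
  linarith

/-- The guarded lookup of a bottom Lipschitz table. -/
theorem StepG_nt {j' : ℕ} (hj : j' < 2 ^ P.d) {z : St} (h1 : z.1 ≤ P.X)
    (h3 : Nat.dist z.1 y.1 ≤ P.rad (h + c) 3) (c' : ℕ) (h5 : c - 1 ≤ c')
    (h6 : ¬ P.triv (h - P.d) c') : P.ntG Nt h j c y P.d j' c' z =
      Nt (h - P.d) (j * 2 ^ P.d + j') c' (P.rd (h - P.d + c') z) := by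
  unfold ntG grd ntM
  rw [if_pos h3, if_pos ⟨hj, h1, Or.inr ⟨rfl, h5, h6⟩⟩]

theorem StepG_near (hz : P.CPath ms h j c y zo) {i j' : ℕ} (hi : i ≤ P.d) (hj : j' < 2 ^ i) :
    ((Nat.dist (zo i j').1 y.1 : ℕ) : ℚ) ≤ 3 * P.Lam (h + c) := by
  have := hz.near i hi j' hj
  unfold La at this
  exact_mod_cast this

/-- The tracked centres. -/
theorem StepG_cen (hG : P.GoodLv ms Nb Nt K h j c y zo) {j' : ℕ} (hj : j' < 2 ^ P.d)
    (ha : (P.cen h c (P.ntG Nt h j c y) y P.d j').2 = true) :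
    Nat.dist (P.cen h c (P.ntG Nt h j c y) y P.d j').1.1 y.1 ≤ P.rad (h + c) 2 ∧
      P.La (h - P.d + P.clc h c (P.ntG Nt h j c y) y j') ≤ P.La (h - P.d + c) / 2 +
        P.La (h - P.d) + 8 * K * P.VV ms (h - P.d) (j * 2 ^ P.d + j') (zo P.d j') := by
  have hd := hG.wd.dle
  have hA := (tracked hG).inA hG.hy le_rfl hj ha
  have hdst := hA.dst_le (by omega)
  have hg := cen_grid (nt := P.ntG Nt h j c y) hG.hy P.d j'
  have hn := StepG_near hG.cp le_rfl hj
  have hw := hG.cp.inW P.d le_rfl j' hj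
  have hΛ := Lam_pos (P := P) (h + c)
  have hΛ' := Lam_pos (P := P) (h + c - P.d)
  obtain ⟨hG0, hG1⟩ := cls_G_le hG.ok
  have hcl : P.clc h c (P.ntG Nt h j c y) y j' =
      P.cls (P.ntG Nt h j c y P.d j') (h - P.d) c (P.cen h c (P.ntG Nt h j c y) y P.d j').1 := rfl
  rw [hcl]
  generalize (P.cen h c (P.ntG Nt h j c y) y P.d j').1 = zc at *
  have e1 : Nat.dist zc.1 y.1 ≤ dst (zo P.d j') zc + Nat.dist (zo P.d j').1 y.1 := by
    simp only [dst, Nat.dist]; omega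
  have e2 : ((Nat.dist zc.1 y.1 : ℕ) : ℚ) ≤
      dst (zo P.d j') zc + (Nat.dist (zo P.d j').1 y.1 : ℕ) := by exact_mod_cast e1
  have e3 : P.Lam (h + c - P.d) ≤ P.Lam (h + c) := Lam_mono (Nat.sub_le _ _)
  have e4 : P.Gq * P.Lam (h + c - P.d) ≤ 1 / 32 * P.Lam (h + c) :=
    mul_le_mul hG1 e3 hΛ'.le (by norm_num)
  have e5 : 0 ≤ P.Gq * P.Lam (h + c - P.d) := (mul_pos hG0 hΛ').le
  refine ⟨le_rad_iff.2 (by linarith), ?_⟩
  refine cls_mass hG.ok hG.sa (cls_Nd hG.wd.nd hd hj) (StepG_cmax hG.wd)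
    (StepG_nt hj hg.1 (le_rad_iff.2 (by linarith))) ⟨hg.1, hg.2.1⟩ ⟨hw.1, hw.2.1⟩ ?_
  rw [show h - P.d + c = h + c - P.d by omega]
  linarith

theorem StepG_mb (nt : ℕ → ℕ → ℕ → St → ℚ) :
    ((∑ j' ∈ range (2 ^ P.d), P.mb h c nt y j' : ℚ) : ℝ) =
      ∑ j' ∈ (range (2 ^ P.d)).filter (fun j' => (P.cen h c nt y P.d j').2 = true),
        P.La (h - P.d + P.clc h c nt y j') := by
  rw [sum_filter, Rat.cast_sum]
  refine sum_congr rfl fun j' _ => ?_
  unfold mb La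
  split_ifs
  · rfl
  · exact Rat.cast_zero

/-- The comparator top is enabled: `cls_mass` at the tracked centres gives
`∑ mb ≤ 2/3 Λ + La h + 8 K V ≤ 2 Λ + μ Λ / 2`; the centres are within `3 Λ + W ≤ 4 Λ` of `y`. -/
theorem good_enab (hG : P.GoodLv ms Nb Nt K h j c y zo) : P.enab h c (P.ntG Nt h j c y) y := by
  refine ⟨?_, fun j' hj ha => (StepG_cen hG (List.mem_range.1 hj) ha).1⟩
  have hd := hG.wd.dle
  have hK1 := hG.sa.K1
  have hΛ := La_pos (P := P) (h + c)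
  have h1 : ∑ j' ∈ (range (2 ^ P.d)).filter
        (fun j' => (P.cen h c (P.ntG Nt h j c y) y P.d j').2 = true),
        P.La (h - P.d + P.clc h c (P.ntG Nt h j c y) y j') ≤
      ∑ j' ∈ range (2 ^ P.d), (P.La (h - P.d + c) / 2 + P.La (h - P.d + 0) +
        8 * K * P.VV ms (h - P.d) (j * 2 ^ P.d + j') (zo P.d j')) := by
    rw [sum_filter]
    refine sum_le_sum fun j' hj => ?_
    split_ifs with ha
    · exact (StepG_cen hG (mem_range.1 hj) ha).2
    · have a1 := La_pos (P := P) (h - P.d + c)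
      have a2 := La_pos (P := P) (h - P.d + 0)
      have a3 := VV_nonneg (P := P) (ms := ms) (h - P.d) (j * 2 ^ P.d + j') (zo P.d j')
      have a4 : 0 ≤ K := by linarith
      positivity
  rw [sum_add_distrib, sum_const, card_range, nsmul_eq_mul, ← mul_sum] at h1
  have h2 := Cmp_La (P := P) hd c
  have h3 := Cmp_La (P := P) hd 0
  have h4 : P.La (h + 0) ≤ P.La (h + c) := by
    unfold La
    exact_mod_cast Lam_mono (by omega)
  have h5 := hG.cp.sumV P.d le_rfl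
  have h6 : K * P.d ≤ 2 ^ P.kap :=
    (mul_le_mul_of_nonneg_right hG.sa.K2 (Nat.cast_nonneg _)).trans hG.ok.Cmp_K0
  have h7 : K * (P.d * P.La (h + c) / 2 ^ P.kap) ≤ P.La (h + c) := by
    have : K * (P.d * P.La (h + c) / 2 ^ P.kap) = K * P.d / 2 ^ P.kap * P.La (h + c) := by ring
    rw [this]
    exact mul_le_of_le_one_left hΛ.le ((div_le_one (by positivity)).2 h6)
  have h8 := mul_le_mul_of_nonneg_left h5 (by linarith : 0 ≤ K)
  have h9 := hG.hmu
  have h10 : (32 : ℝ) ≤ P.mu := by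
    have := hG.ok.p_ge
    unfold mu
    push_cast
    exact le_trans (by norm_num) (pow_le_pow_right₀ (one_le_two (α := ℝ)) (by omega : 5 ≤ 4 * P.p))
  have h11 := mul_le_mul_of_nonneg_right h10 hΛ.le
  have h12 : ((∑ j' ∈ range (2 ^ P.d), P.mb h c (P.ntG Nt h j c y) y j' : ℚ) : ℝ) ≤
      P.mu * P.La (h + c) := by
    rw [StepG_mb]
    push_cast at h1
    rw [mul_add] at h1 h8
    linarith
  unfold La at h12
  exact_mod_cast h12

/-- `step_common` with `Al` = alive, `cl = clc` (`bot_eq`, `cls_mass`, `dead_mass`, `Dl_nonneg`);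
`pt_regret.1`, `sm_regret`, `cost_top`, `mass_top`; per round the alive nodes cost
`Pt + 2 Λ' / 2^kap` or `V + δ³ Λ'`; `2 / 2^kap + δ³ ≤ (d + 1) ρ / M`. -/
theorem step_good (hT : P.Top ms Nb Nt Pt K h j c y) (hR : P.TabRelAt ms Nt Pt h)
    (hG : P.GoodLv ms Nb Nt K h j c y zo) : P.Step ms Nb Nt Pt K h j c y := by
  have hP := hT.ok
  have hen := good_enab hG
  have htr := tracked hG
  obtain ⟨hS, hPi⟩ := step_common hP hT.sa hT.wd hG.cp
    (fun j' => (P.cen h c (P.ntG Nt h j c y) y P.d j').2 = true) (P.clc h c (P.ntG Nt h j c y) y)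
    (fun j' _ _ => cls_ge (StepG_cmax hT.wd))
    (fun j' hj ha ht =>
      have hb := bot_eq hT (Nat.zero_le _) hen hj ha (htr.inA hT.hy le_rfl hj ha) ht
      ⟨hb.1, hb.2.1⟩)
    (fun j' hj ha => (StepG_cen hG hj ha).2) (dead_mass hG)
  refine ⟨_, _, _, _, _, hS, ?_, Or.inl fun β hβ => ?_⟩
  · linarith [Dl_nonneg hT.sa hT.wd hG.cp]
  · have h1 := (pt_regret hT hβ hR).1
    have h2 := sm_regret hT hβ hen htr
    have h3 : ∀ m ∈ range P.M,
        (P.costv h c (P.ntG Nt h j c y) y zo (P.leafG Nt Pt β h j c y m) P.d 0 : ℝ) ≤ _ :=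
      fun m _ => (cost_top hG _).trans <| StepG_sum (range (2 ^ P.d))
        (fun j' => (P.cen h c (P.ntG Nt h j c y) y P.d j').2 = true)
        (fun j' => P.triv (h - P.d) (P.clc h c (P.ntG Nt h j c y) y j'))
        (p := fun j' => (Pt m β (h - P.d) (j * 2 ^ P.d + j') (P.clc h c (P.ntG Nt h j c y) y j')
          (P.rd (h - P.d + P.clc h c (P.ntG Nt h j c y) y j') (zo P.d j')) : ℝ))
        (v := fun j' => P.VV ms (h - P.d) (j * 2 ^ P.d + j') (zo P.d j'))
        (l := fun j' => P.La (h - P.d + P.clc h c (P.ntG Nt h j c y) y j'))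
        (e := 2 / 2 ^ P.kap + P.del ^ 3) (StepG_fq (P := P)) (fun j' _ => VV_nonneg _ _ _)
        (fun j' hj ha ht => by
          have hj' := mem_range.1 hj
          rw [if_pos ha, (bot_eq hT hβ hen hj' ha (htr.inA hT.hy le_rfl hj' ha) ht).2.2.2 m]
          push_cast
          exact add_le_add_right (StepG_dst_rd _ _) _)
        (fun j' _ ha ht => by
          rw [if_pos ha, cls_leaf_triv ht]
          exact StepG_triv ht _ _)
        (fun j' _ ha => by rw [if_neg ha])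
    have h4 := sum_le_sum h3
    rw [sum_add_distrib, sum_add_distrib, sum_const, sum_const, card_range, nsmul_eq_mul,
      nsmul_eq_mul, sum_comm] at h4
    rw [mass_top, Rat.cast_add, StepG_mb] at h2
    unfold SumLe
    have hμ : 0 ≤ ∑ j' ∈ (range (2 ^ P.d)).filter
        (fun j' => (P.cen h c (P.ntG Nt h j c y) y P.d j').2 = true),
        P.La (h - P.d + P.clc h c (P.ntG Nt h j c y) y j') :=
      sum_nonneg fun j' _ => (La_pos _).le
    have hΛ := La_pos (P := P) (h + c)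
    have e : (P.Lam (h + c) : ℝ) = P.La (h + c) := rfl
    rw [e] at h2
    generalize ∑ j' ∈ (range (2 ^ P.d)).filter
        (fun j' => (P.cen h c (P.ntG Nt h j c y) y P.d j').2 = true),
        P.La (h - P.d + P.clc h c (P.ntG Nt h j c y) y j') = μ at *
    have h5 := mul_le_mul_of_nonneg_right (StepG_e hP) hμ
    have h6 := StepG_eps1 hP
    have h7 : (0 : ℝ) ≤ P.rho * μ := mul_nonneg StepG_rho hμ
    have h8 : (0 : ℝ) ≤ P.rho * P.La (h + c) := mul_nonneg StepG_rho hΛ.le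
    have h9 : (0 : ℝ) ≤ P.d * (P.rho * (P.La (h + c) + μ)) :=
      mul_nonneg (Nat.cast_nonneg _) (mul_nonneg StepG_rho (by linarith))
    rw [mul_add (P.M : ℝ), ← mul_assoc (P.M : ℝ) P.eps1, h6]
    linarith

/-- `step_common` with `Al = True`, `cl j' = cls … (zo d j')` (`cls_dom`, `cls_mass` with `z = zc`;
the guards pass by `near`); `pt_regret.2`, `kn_le_big`, `big_le`. -/
theorem step_bad (hT : P.Top ms Nb Nt Pt K h j c y) (hR : P.TabRelAt ms Nt Pt h)
    (hz : P.CPath ms h j c y zo)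
    (hb : P.w0 * P.La (h + c) ≤ P.Dl ms Nb K h j c zo ∨
      P.mu * P.La (h + c) ≤ 16 * K * P.VV ms h j y) : P.Step ms Nb Nt Pt K h j c y := by
  have hP := hT.ok
  have hd := hT.wd.dle
  have hc := StepG_cmax hT.wd
  have hΛq := Lam_pos (P := P) (h + c)
  have hg : ∀ j' < 2 ^ P.d, Nat.dist (zo P.d j').1 y.1 ≤ P.rad (h + c) 3 := fun j' hj =>
    le_rad_iff.2 (by linarith [StepG_near hz le_rfl hj])
  have hX : ∀ j' < 2 ^ P.d, (zo P.d j').1 ≤ P.X ∧ (zo P.d j').2 ≤ P.X := fun j' hj =>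
    ⟨(hz.inW P.d le_rfl j' hj).1, (hz.inW P.d le_rfl j' hj).2.1⟩
  have hd0 : ∀ z : St, (dst z z : ℚ) ≤ P.Gq * P.Lam (h - P.d + c) := fun z => by
    rw [dst_self, Nat.cast_zero]
    exact (mul_pos (cls_G_le hP).1 (Lam_pos _)).le
  obtain ⟨hS, hPi⟩ := step_common hP hT.sa hT.wd hz (fun _ => True)
    (fun j' => P.cls (P.ntG Nt h j c y P.d j') (h - P.d) c (zo P.d j'))
    (fun j' _ _ => cls_ge hc)
    (fun j' hj _ ht => cls_dom hP hT.sa (cls_Nd hT.wd.nd hd hj) hc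
      (StepG_nt hj (hX j' hj).1 (hg j' hj)) (hX j' hj) (hX j' hj) (hd0 _) ht)
    (fun j' hj _ => cls_mass hP hT.sa (cls_Nd hT.wd.nd hd hj) hc
      (StepG_nt hj (hX j' hj).1 (hg j' hj)) (hX j' hj) (hX j' hj) (hd0 _))
    (by simp)
  refine ⟨_, _, _, _, _, hS, ?_, Or.inr ⟨hb.imp (fun hb => ?_) id, fun β hβ h0 => ?_⟩⟩
  · linarith [Dl_nonneg hT.sa hT.wd hz]
  · linarith
  · have h1 := (pt_regret hT hβ hR).2
    have hs : ∀ i < P.d, ∀ j' < 2 ^ i, ∃ a, 2 ^ P.gm (h + c - P.d) ∣ a ∧ a ≤ P.X ∧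
        Nat.dist a y.1 ≤ P.rad (h + c) 2 ∧ zo (i + 1) (2 * j') = ((zo i j').1, a) ∧
          zo (i + 1) (2 * j' + 1) = (a, (zo i j').2) := by
      intro i hi j' hj
      obtain ⟨a, a1, a2⟩ := hz.step i hi j' hj
      have hj2 : 2 * j' + 1 < 2 ^ (i + 1) := by rw [pow_succ]; omega
      have a3 := hz.inW (i + 1) hi _ hj2
      have a4 := StepG_near hz (i := i + 1) hi hj2
      rw [a2] at a3 a4
      exact ⟨a, (pow_dvd_pow 2 (gm_mono (by omega))).trans a3.2.2.1, a3.1,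
        le_rad_iff.2 (by linarith), a1, a2⟩
    have h3 : ∀ m ∈ range P.M, (P.KnM Nt Pt β h j c y m : ℝ) ≤ _ := fun m hm =>
      ((Rat.cast_le (K := ℝ)).2 (kn_le_big hT hβ h0 m)).trans <|
        (big_le hT (by omega) (mem_range.1 hm) hz.top hs).trans <| add_le_add_left
        (StepG_sum (range (2 ^ P.d)) (fun _ => True)
        (fun j' => P.triv (h - P.d) (P.cls (P.ntG Nt h j c y P.d j') (h - P.d) c (zo P.d j')))
        (p := fun j' => (Pt m (β - 1) (h - P.d) (j * 2 ^ P.d + j')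
          (P.cls (P.ntG Nt h j c y P.d j') (h - P.d) c (zo P.d j'))
          (P.rd (h - P.d + P.cls (P.ntG Nt h j c y P.d j') (h - P.d) c (zo P.d j'))
            (zo P.d j')) : ℝ))
        (v := fun j' => P.VV ms (h - P.d) (j * 2 ^ P.d + j') (zo P.d j'))
        (l := fun j' => P.La (h - P.d + P.cls (P.ntG Nt h j c y P.d j') (h - P.d) c (zo P.d j')))
        (e := 2 / 2 ^ P.kap + P.del ^ 3) (StepG_fq (P := P)) (fun j' _ => VV_nonneg _ _ _)
        (fun j' hj _ ht => by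
          have hj' := mem_range.1 hj
          unfold botv pbG grd pbM
          rw [if_neg ht, if_pos (hg j' hj'), if_pos ⟨hj', (hX j' hj').1, cls_ge hc, ht⟩]
          push_cast
          exact add_le_add_right (StepG_dst_rd _ _) _)
        (fun j' _ _ ht => by
          unfold botv
          rw [if_pos ht]
          exact StepG_triv ht _ _)
        (fun j' _ ha => (ha trivial).elim)) _
    have h4 := sum_le_sum h3
    rw [sum_add_distrib, sum_add_distrib, sum_add_distrib, sum_const, sum_const, sum_const,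
      card_range, nsmul_eq_mul, nsmul_eq_mul, nsmul_eq_mul, sum_comm] at h4
    unfold SumLe
    have hμ : 0 ≤ ∑ j' ∈ (range (2 ^ P.d)).filter (fun _ => True),
        P.La (h - P.d + P.cls (P.ntG Nt h j c y P.d j') (h - P.d) c (zo P.d j')) :=
      sum_nonneg fun j' _ => (La_pos _).le
    have hΛ := La_pos (P := P) (h + c)
    generalize ∑ j' ∈ (range (2 ^ P.d)).filter (fun _ => True),
        P.La (h - P.d + P.cls (P.ntG Nt h j c y P.d j') (h - P.d) c (zo P.d j')) = μ at *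
    have h5 := mul_le_mul_of_nonneg_right (StepG_e hP) hμ
    have h5' := mul_le_mul_of_nonneg_right (StepG_ups hP) hΛ.le
    have h6 := StepG_eps1 hP
    have h7 : (0 : ℝ) ≤ P.rho * μ := mul_nonneg StepG_rho hμ
    have h9 : (0 : ℝ) ≤ P.d * (P.rho * (P.La (h + c) + μ)) :=
      mul_nonneg (Nat.cast_nonneg _) (mul_nonneg StepG_rho (by linarith))
    rw [mul_add (P.M : ℝ), ← mul_assoc (P.M : ℝ) P.eps1, h6]
    linarith

/-- `V y ≤ 2 Λ` by `tval`; `exists_cpath`; case distinction. -/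
theorem step (hT : P.Top ms Nb Nt Pt K h j c y) (hR : P.TabRelAt ms Nt Pt h)
    (hd : Nt h j c y ≤ 2 * P.Lam (h + c)) (hX : P.VV ms h j y < P.X) :
    P.Step ms Nb Nt Pt K h j c y := by
  have hΛ := La_pos (P := P) (h + c)
  have hV : P.VV ms h j y ≤ 2 * P.La (h + c) := by
    have h1 := hT.sa.tval h j c y hT.wd.nd hT.wd.nt hT.hy
    have h2 : (Nt h j c y : ℝ) ≤ 2 * P.La (h + c) := by
      unfold La
      exact_mod_cast hd
    have h3 : (8 : ℝ) ≤ P.cap := by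
      unfold cap
      push_cast
      exact le_trans (by norm_num)
        (pow_le_pow_right₀ (one_le_two (α := ℝ)) (by unfold cp; omega : 3 ≤ P.cp))
    have h4 := mul_le_mul_of_nonneg_right h3 hΛ.le
    rw [min_eq_left hX.le] at h1
    rcases min_le_iff.1 (h1.trans h2) with h5 | h5
    · exact h5
    · linarith
  obtain ⟨zo, hz⟩ := exists_cpath hT.ok hT.wd.dle hT.hy hV
  by_cases hb : P.w0 * P.La (h + c) ≤ P.Dl ms Nb K h j c zo ∨
      P.mu * P.La (h + c) ≤ 16 * K * P.VV ms h j y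
  · exact step_bad hT hR hz hb
  · rw [not_or, not_le, not_le] at hb
    exact step_good hT hR ⟨hT.ok, hT.sa, hT.wd, hT.hy, hz, hV, hb.2.le, hb.1.le⟩

end Pa

end Crest.Agent.R288
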