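/-
R288/Ind: the induction over the super-levels.
-/
import Crest.Agent.R288.StepG

set_option autoImplicit false

namespace Crest.Agent.R288

open Finset

namespace Pa

variable {P : Pa} {ms : ℕ → ℕ → Bool} {Nb Nt : Fam} {Pt : ℕ → ℕ → Fam} {K : ℝ}

/-- Total mass of the comparator tree below a world at super-level `n`. -/
noncomputable def Tot (P : Pa) (K : ℝ) (n h c : ℕ) (v : ℝ) : ℝ :=
  6 * P.La (h + c) + n * (8 * P.La h + 70 * K * v)

theorem inv_all (hP : P.OK) (hA : P.StageA ms Nb Nt K)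
    (hR : ∀ h ≤ P.L, P.d ∣ h → P.TabRelAt ms Nt Pt h) {h : ℕ} (hh : h ≤ P.L) (hd : P.d ∣ h) :
    P.InvP ms Nt Pt h := by
  obtain ⟨n, rfl⟩ := hd
  induction n with
  | zero => exact inv_zero hP hA (hR 0 (Nat.zero_le _) (dvd_zero _))
  | succ n ih =>
    have e : P.d * (n + 1) - P.d = P.d * n := by rw [Nat.mul_succ, Nat.add_sub_cancel]
    refine inv_succ hP hA (by rw [Nat.mul_succ]; omega) ?_ (hR _ hh (Nat.dvd_mul_right _ _))
    rw [e]
    exact ih (by rw [Nat.mul_succ] at hh; omega)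

/-- The inequalities between the parameters used in the induction. -/
structure Ind_Par (P : Pa) (K : ℝ) : Prop where
  nu0 : (0 : ℝ) ≤ P.nu
  nuL : 7000 * ((P.L : ℝ) * K * P.nu) ≤ 1
  f0 : (0 : ℝ) ≤ P.fq
  f1 : 8 * (P.fq : ℝ) ≤ 1
  e1 : 2 * (P.nu : ℝ) ≤ P.eps1
  e2 : (3 * K + 2 ^ P.wx) * (P.nu : ℝ) ≤ P.eps2
  w0 : (0 : ℝ) < P.w0
  mu0 : (0 : ℝ) < P.mu
  Me : (P.rho : ℝ) ≤ P.M * P.eps1
  ze : 2 * ((P.M : ℝ) * P.zeta) ≤ P.eps1

theorem Ind_par (hP : P.OK) (h1 : 1 ≤ K) (h2 : K ≤ P.K0) : Ind_Par P K := by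
  have a1 := hP.wx_le
  have a2 := hP.p_ge
  have hM : (P.M : ℝ) ≤ 2 ^ P.Lx := by exact_mod_cast (Wf_M hP).le
  have hM1 : (1 : ℝ) ≤ P.M := by exact_mod_cast hP.M_pos
  have hM0 : (0 : ℝ) < P.M := by linarith
  have hL : (P.L : ℝ) ≤ 2 ^ P.Lx := by exact_mod_cast hP.L_lt.le
  have hK : K ≤ 2 ^ (P.D + P.Lx + 3) := by
    refine h2.trans (le_of_eq ?_)
    simp only [K0]
    push_cast
    rfl
  have hd : (P.d : ℝ) + 4 ≤ 2 ^ P.Lx := by
    have : P.d + 4 ≤ 2 ^ P.Lx := le_trans (by omega) Nat.lt_two_pow_self.le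
    exact_mod_cast this
  have hd0 : (0 : ℝ) ≤ P.d := Nat.cast_nonneg _
  have hnu : (P.nu : ℝ) = (P.d + 4) / 2 ^ P.kap := by
    simp only [nu]
    push_cast
    rfl
  have hrho : (P.rho : ℝ) = 4 / 2 ^ (5 * P.p) := by
    simp only [rho]
    push_cast
    rfl
  have hp := PreI_par hP
  have hr0 : (0 : ℝ) < P.rho := by rw [hrho]; positivity
  refine ⟨?_, ?_, ?_, ?_, ?_, ?_, ?_, ?_, ?_, ?_⟩
  · rw [hnu]
    positivity
  · rw [hnu]
    calc 7000 * ((P.L : ℝ) * K * ((P.d + 4) / 2 ^ P.kap)) ≤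
          2 ^ 13 * (2 ^ P.Lx * 2 ^ (P.D + P.Lx + 3) * (2 ^ P.Lx / 2 ^ P.kap)) := by
          gcongr
          norm_num
      _ = 2 ^ (13 + P.Lx + (P.D + P.Lx + 3) + P.Lx) / 2 ^ P.kap := by
          simp only [pow_add]
          ring
      _ ≤ 2 ^ 0 / 2 ^ 0 := PreI_pp (by unfold kap; omega)
      _ = 1 := by norm_num
  · simp only [fq]
    push_cast
    positivity
  · simp only [fq]
    push_cast
    calc (8 : ℝ) * (1 / 2 ^ P.fx) = 2 ^ 3 / 2 ^ P.fx := by ring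
      _ ≤ 2 ^ 0 / 2 ^ 0 := PreI_pp (by unfold fx; omega)
      _ = 1 := by norm_num
  · unfold eps1
    rw [hnu, hrho, le_div_iff₀ hM0]
    calc 2 * (((P.d : ℝ) + 4) / 2 ^ P.kap) * P.M ≤
          2 * ((4 * (P.d + 1)) / 2 ^ P.kap) * 2 ^ P.Lx := by
          gcongr
          linarith
      _ = 8 * (P.d + 1) * (2 ^ P.Lx / 2 ^ P.kap) := by ring
      _ ≤ 8 * (P.d + 1) * (2 ^ 0 / 2 ^ (5 * P.p)) := by
          gcongr ?_ * ?_
          exact PreI_pp (by unfold kap; omega)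
      _ = _ := by ring
  · unfold eps2
    have b1 : (2 : ℝ) ^ P.wx ≤ 2 ^ (P.D + P.Lx + 3) := pow_le_pow_right₀ one_le_two (by omega)
    rw [hnu, le_div_iff₀ hM0]
    calc (3 * K + 2 ^ P.wx) * (((P.d : ℝ) + 4) / 2 ^ P.kap) * P.M ≤
          (4 * 2 ^ (P.D + P.Lx + 3)) * ((4 * (P.d + 1)) / 2 ^ P.kap) * 2 ^ P.Lx := by
          gcongr
          · linarith
          · linarith
      _ = 8 * (P.d + 1) * (2 ^ (1 + (P.D + P.Lx + 3) + P.Lx) / 2 ^ P.kap) := by
          simp only [pow_add]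
          ring
      _ ≤ 8 * (P.d + 1) * (2 ^ 0 / 2 ^ 0) := by
          gcongr ?_ * ?_
          exact PreI_pp (by unfold kap; omega)
      _ = _ := by ring
  · simp only [w0]
    push_cast
    positivity
  · simp only [mu]
    push_cast
    positivity
  · unfold eps1
    rw [mul_div_cancel₀ _ hM0.ne']
    exact le_mul_of_one_le_left hr0.le (by linarith only [hd0])
  · unfold eps1
    rw [le_div_iff₀ hM0]
    have b1 := hp.MM
    have b2 := hp.r3
    have b3 : (0 : ℝ) ≤ P.d * P.rho := mul_nonneg hd0 hr0.le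
    linarith only [b1, b2, b3, hr0]

theorem Ind_La_add (u i : ℕ) : P.La (u + i) = 2 ^ i * P.La u := by
  unfold La
  rw [Lam_add]
  push_cast
  rfl

theorem Ind_La_le (h c : ℕ) : P.La h ≤ P.La (h + c) := by
  unfold La
  exact_mod_cast Lam_mono (Nat.le_add_right h c)

theorem StepD.Ind_mu {h j c : ℕ} {y : St} {J : Finset ℕ} {cl : ℕ → ℕ} {xs : ℕ → St} {μ vs : ℝ}
    (hS : P.StepD ms Nb Nt K h j c y J cl xs μ vs) : 0 ≤ μ :=
  (sum_nonneg fun _ _ => (La_pos _).le).trans hS.mass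

/-- The slack of `Tot`: `7 μ + Λ + 8 K V ≤ 17/3 Λ + 7 La h + 64 K V`, `∑_J La (h - d) ≤ La h`, and
`70 n K ν ≤ 1 / 100`, `La h ≤ Λ`. -/
theorem StepD.tot (hP : P.OK) (h1 : 1 ≤ K) (h2 : K ≤ P.K0) {n h j c : ℕ} {y : St} {J : Finset ℕ}
    {cl : ℕ → ℕ} {xs : ℕ → St} {μ vs : ℝ} (hn : n ≤ P.L) (hd : P.d ≤ h)
    (hS : P.StepD ms Nb Nt K h j c y J cl xs μ vs) :
    ∑ j' ∈ J, P.Tot K n (h - P.d) (cl j') (P.VV ms (h - P.d) (j * 2 ^ P.d + j') (xs j')) +
        (P.La (h + c) + μ + 8 * K * P.VV ms h j y) ≤ P.Tot K (n + 1) h c (P.VV ms h j y) := by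
  have hp := Ind_par hP h1 h2
  have hμ := hS.Ind_mu
  have hΛ := La_pos (P := P) (h + c)
  have hθ := La_pos (P := P) h
  have hθΛ := Ind_La_le (P := P) h c
  have hV := VV_nonneg (P := P) (ms := ms) h j y
  have hK : 0 ≤ K := by linarith
  have hKV := mul_nonneg hK hV
  have hn0 : (0 : ℝ) ≤ n := Nat.cast_nonneg _
  have hnL : (n : ℝ) ≤ P.L := Nat.cast_le.2 hn
  have a1 : ∑ _j' ∈ J, P.La (h - P.d) ≤ P.La h := by
    have b1 : J.card ≤ 2 ^ P.d := (card_le_card hS.sub).trans (card_range _).le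
    have b2 : (J.card : ℝ) ≤ 2 ^ P.d := by exact_mod_cast b1
    have b3 := Ind_La_add (P := P) (h - P.d) P.d
    rw [Nat.sub_add_cancel hd] at b3
    rw [sum_const, nsmul_eq_mul, b3]
    exact mul_le_mul_of_nonneg_right b2 (La_pos _).le
  have a2 : ∑ j' ∈ J, P.Tot K n (h - P.d) (cl j') (P.VV ms (h - P.d) (j * 2 ^ P.d + j') (xs j')) =
      6 * ∑ j' ∈ J, P.La (h - P.d + cl j') + n * (8 * ∑ _j' ∈ J, P.La (h - P.d) +
        70 * K * ∑ j' ∈ J, P.VV ms (h - P.d) (j * 2 ^ P.d + j') (xs j')) := by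
    unfold Tot
    rw [mul_sum, mul_sum, mul_sum, ← sum_add_distrib, mul_sum, ← sum_add_distrib]
  have a3 := hS.mass
  have a4 := hS.mass_le
  have a5 := hS.val
  have a6 := hS.vs0
  have a7 : (n : ℝ) * K * P.nu ≤ 1 / 7000 := by
    have b1 : (n : ℝ) * K * P.nu ≤ P.L * K * P.nu := by
      have := hp.nu0
      gcongr
    linarith [hp.nuL]
  have a8 : (n : ℝ) * K * P.nu * (P.La (h + c) + μ) ≤ 1 / 7000 * (P.La (h + c) + μ) :=
    mul_le_mul_of_nonneg_right a7 (by linarith)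
  have a9 : (n : ℝ) * (8 * ∑ _j' ∈ J, P.La (h - P.d) +
        70 * K * ∑ j' ∈ J, P.VV ms (h - P.d) (j * 2 ^ P.d + j') (xs j')) ≤
      n * (8 * P.La h + 70 * K * (P.VV ms h j y + P.nu * (P.La (h + c) + μ))) := by
    refine mul_le_mul_of_nonneg_left (add_le_add (by linarith) ?_) hn0
    exact mul_le_mul_of_nonneg_left (by linarith) (by linarith)
  rw [a2]
  unfold Tot
  push_cast
  nlinarith

theorem Ind_tot_ge (h1 : 1 ≤ K) (n h c : ℕ) {v : ℝ} (hv : 0 ≤ v) :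
    6 * P.La (h + c) ≤ P.Tot K n h c v := by
  have a1 := La_pos (P := P) h
  have a2 : 0 ≤ 70 * K * v := mul_nonneg (by linarith) hv
  have a3 : (0 : ℝ) ≤ n * (8 * P.La h + 70 * K * v) := mul_nonneg (Nat.cast_nonneg _) (by linarith)
  unfold Tot
  linarith

theorem Ind_pi_le (hA : P.StageA ms Nb Nt K) {h j c : ℕ} {y : St} (hn : P.Nd h j)
    (hc : ¬ P.triv h c) (hy : P.inW (h + c) y) : PiU Nb h j c y ≤ 3 * Nb h j c y := by
  refine Pi2_le ?_
  have := hA.dist_le_b hn hc hy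
  rw [abs_sub_comm, ← cast_dist]
  exact_mod_cast this

/-- The value per round. -/
noncomputable def Ind_A (P : Pa) (ms : ℕ → ℕ → Bool) (K : ℝ) (n h j c : ℕ) (y : St) : ℝ :=
  (1 + 8 * P.fq) * P.VV ms h j y + 2 * P.eps1 * P.Tot K n h c (P.VV ms h j y)

/-- The budget for the bad nodes. -/
noncomputable def Ind_B (P : Pa) (ms : ℕ → ℕ → Bool) (Nb : Fam) (K : ℝ) (n h j c : ℕ) (y : St) : ℝ :=
  4 / P.w0 * ((3 * K + 2 ^ P.wx) * P.VV ms h j y + 2 * P.eps2 * P.Tot K n h c (P.VV ms h j y) -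
    PiU Nb h j c y) + 8 / P.mu * P.Tot K n h c (P.VV ms h j y)

theorem Ind_eps (hP : P.OK) (hA : P.StageA ms Nb Nt K) : 0 ≤ P.eps1 ∧ 0 ≤ P.eps2 := by
  have hp := Ind_par hP hA.K1 hA.K2
  have h0 := hp.nu0
  have h1 : 0 ≤ (3 * K + 2 ^ P.wx) * (P.nu : ℝ) := by
    have := hA.K1
    positivity
  exact ⟨by linarith [hp.e1], h1.trans hp.e2⟩

theorem Ind_A_nonneg (hP : P.OK) (hA : P.StageA ms Nb Nt K) (n h j c : ℕ) (y : St) :
    0 ≤ P.Ind_A ms K n h j c y := by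
  have hp := Ind_par hP hA.K1 hA.K2
  have hV := VV_nonneg (P := P) (ms := ms) h j y
  have hT := Ind_tot_ge (P := P) hA.K1 n h c hV
  have hΛ := La_pos (P := P) (h + c)
  have h1 := hp.f0
  exact add_nonneg (mul_nonneg (by linarith) hV)
    (mul_nonneg (by linarith [(Ind_eps hP hA).1]) (by linarith))

/-- The terminal cases of the induction. -/
theorem Ind_end (hP : P.OK) (hA : P.StageA ms Nb Nt K) {n h j c nb : ℕ} {y : St}
    (hnb : nb ≤ P.M + 1) (hpi : PiU Nb h j c y ≤ 3 * P.VV ms h j y)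
    (hs : ∀ β ≤ P.M, ∑ m ∈ range P.M, (Pt m β h j c y : ℝ) ≤
      P.M * (P.VV ms h j y + P.eps1 * P.La (h + c))) :
    (∑ β ∈ range nb, ∑ m ∈ range P.M, (Pt m β h j c y : ℝ)) ≤
      P.M * nb * P.Ind_A ms K n h j c y + P.M * P.Ind_B ms Nb K n h j c y := by
  have hp := Ind_par hP hA.K1 hA.K2
  obtain ⟨e1, e2⟩ := Ind_eps hP hA
  have hV := VV_nonneg (P := P) (ms := ms) h j y
  have hT := Ind_tot_ge (P := P) hA.K1 n h c hV
  have hΛ := La_pos (P := P) (h + c)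
  have hM : (0 : ℝ) ≤ P.M := Nat.cast_nonneg _
  have a1 : P.VV ms h j y + P.eps1 * P.La (h + c) ≤ P.Ind_A ms K n h j c y := by
    unfold Ind_A
    have b1 := mul_nonneg hp.f0 hV
    have b2 := mul_le_mul_of_nonneg_left hT e1
    have b3 := mul_nonneg e1 hΛ.le
    linarith
  have a2 : 0 ≤ P.Ind_B ms Nb K n h j c y := by
    unfold Ind_B
    have b1 : (0 : ℝ) ≤ 2 ^ P.wx * P.VV ms h j y := by positivity
    have b2 := mul_le_mul_of_nonneg_right hA.K1 hV
    have b3 : 0 ≤ P.eps2 * P.Tot K n h c (P.VV ms h j y) := mul_nonneg e2 (by linarith)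
    exact add_nonneg (mul_nonneg (div_nonneg (by norm_num) hp.w0.le) (by linarith))
      (mul_nonneg (div_nonneg (by norm_num) hp.mu0.le) (by linarith))
  have a3 : (∑ β ∈ range nb, ∑ m ∈ range P.M, (Pt m β h j c y : ℝ)) ≤
      ∑ _β ∈ range nb, P.M * P.Ind_A ms K n h j c y :=
    sum_le_sum fun β hβ => (hs β (by have := mem_range.1 hβ; omega)).trans
      (mul_le_mul_of_nonneg_left a1 hM)
  rw [sum_const, card_range, nsmul_eq_mul] at a3
  have a4 := mul_nonneg hM a2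
  linarith

section step

variable {n h j c : ℕ} {y : St} {J : Finset ℕ} {cl : ℕ → ℕ} {xs : ℕ → St} {μ vs : ℝ}

theorem Ind_A_step (hP : P.OK) (hA : P.StageA ms Nb Nt K) (hn : n ≤ P.L) (hd : P.d ≤ h)
    (hS : P.StepD ms Nb Nt K h j c y J cl xs μ vs) :
    ∑ j' ∈ J, P.Ind_A ms K n (h - P.d) (j * 2 ^ P.d + j') (cl j') (xs j') +
      ((1 + 8 * P.fq) * vs + P.eps1 * (P.La (h + c) + μ)) ≤ P.Ind_A ms K (n + 1) h j c y := by
  have hp := Ind_par hP hA.K1 hA.K2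
  obtain ⟨e1, e2⟩ := Ind_eps hP hA
  have hT := hS.tot hP hA.K1 hA.K2 hn hd
  have hμ := hS.Ind_mu
  have hΛ := La_pos (P := P) (h + c)
  have hKV := mul_nonneg (zero_le_one.trans hA.K1) (VV_nonneg (P := P) (ms := ms) h j y)
  have f0 := hp.f0
  have f1 := hp.f1
  have a1 := mul_le_mul_of_nonneg_left hS.val (by linarith : (0 : ℝ) ≤ 1 + 8 * P.fq)
  have a2 := mul_le_mul_of_nonneg_left hT e1
  have a3 : (1 + 8 * (P.fq : ℝ)) * P.nu ≤ P.eps1 :=
    (mul_le_mul_of_nonneg_right (by linarith) hp.nu0).trans hp.e1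
  have a4 := mul_le_mul_of_nonneg_right a3 (by linarith : 0 ≤ P.La (h + c) + μ)
  have a5 := mul_nonneg e1 hKV
  unfold Ind_A
  rw [sum_add_distrib, ← mul_sum, ← mul_sum]
  linarith

theorem Ind_B_step (hP : P.OK) (hA : P.StageA ms Nb Nt K) (hn : n ≤ P.L) (hd : P.d ≤ h)
    (hS : P.StepD ms Nb Nt K h j c y J cl xs μ vs) {g : ℝ}
    (hg : PiU Nb h j c y + g ≤ P.piR ms Nb K h j c y J cl xs μ vs) :
    ∑ j' ∈ J, P.Ind_B ms Nb K n (h - P.d) (j * 2 ^ P.d + j') (cl j') (xs j') +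
      (4 / P.w0 * g + 8 / P.mu * (8 * K * P.VV ms h j y)) ≤ P.Ind_B ms Nb K (n + 1) h j c y := by
  have hp := Ind_par hP hA.K1 hA.K2
  obtain ⟨e1, e2⟩ := Ind_eps hP hA
  have hT := hS.tot hP hA.K1 hA.K2 hn hd
  have hμ := hS.Ind_mu
  have hΛ := La_pos (P := P) (h + c)
  have hK := hA.K1
  have hKV := mul_nonneg (zero_le_one.trans hA.K1) (VV_nonneg (P := P) (ms := ms) h j y)
  have a1 := mul_le_mul_of_nonneg_left hS.val (by positivity : (0 : ℝ) ≤ 3 * K + 2 ^ P.wx)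
  have a2 := mul_le_mul_of_nonneg_left hT e2
  have a4 := mul_le_mul_of_nonneg_right hp.e2 (by linarith : 0 ≤ P.La (h + c) + μ)
  have a5 := mul_nonneg e2 hKV
  have hw : (0 : ℝ) ≤ 4 / P.w0 := div_nonneg (by norm_num) hp.w0.le
  have hm : (0 : ℝ) ≤ 8 / P.mu := div_nonneg (by norm_num) hp.mu0.le
  unfold piR at hg
  have a6 : (3 * K + 2 ^ P.wx) * ∑ j' ∈ J, P.VV ms (h - P.d) (j * 2 ^ P.d + j') (xs j') +
      2 * P.eps2 * ∑ j' ∈ J, P.Tot K n (h - P.d) (cl j')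
        (P.VV ms (h - P.d) (j * 2 ^ P.d + j') (xs j')) -
      ∑ j' ∈ J, PiU Nb (h - P.d) (j * 2 ^ P.d + j') (cl j') (xs j') + g ≤
      (3 * K + 2 ^ P.wx) * P.VV ms h j y + 2 * P.eps2 * P.Tot K (n + 1) h c (P.VV ms h j y) -
        PiU Nb h j c y := by linarith
  have a7 := mul_le_mul_of_nonneg_left a6 hw
  have a8 := mul_le_mul_of_nonneg_left (by linarith :
    ∑ j' ∈ J, P.Tot K n (h - P.d) (cl j') (P.VV ms (h - P.d) (j * 2 ^ P.d + j') (xs j')) +
      8 * K * P.VV ms h j y ≤ P.Tot K (n + 1) h c (P.VV ms h j y)) hm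
  unfold Ind_B
  rw [sum_add_distrib, ← mul_sum, ← mul_sum, sum_sub_distrib, sum_add_distrib, ← mul_sum, ← mul_sum]
  linarith

theorem Ind_sum (hP : P.OK) (hA : P.StageA ms Nb Nt K) (hn : n ≤ P.L) (hd : P.d ≤ h)
    (hS : P.StepD ms Nb Nt K h j c y J cl xs μ vs) {k : ℕ} (σ : ℕ → ℕ)
    (hs : ∀ β < k, P.SumLe Pt h j c y J cl xs μ vs (σ β) β)
    (ih : ∀ j' ∈ J, (∑ β ∈ range k, ∑ m ∈ range P.M,
      (Pt m β (h - P.d) (j * 2 ^ P.d + j') (cl j') (xs j') : ℝ)) ≤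
      P.M * k * P.Ind_A ms K n (h - P.d) (j * 2 ^ P.d + j') (cl j') (xs j') +
        P.M * P.Ind_B ms Nb K n (h - P.d) (j * 2 ^ P.d + j') (cl j') (xs j')) :
    (∑ β ∈ range k, ∑ m ∈ range P.M, (Pt m (σ β) h j c y : ℝ)) ≤
      P.M * k * P.Ind_A ms K (n + 1) h j c y +
        P.M * ∑ j' ∈ J, P.Ind_B ms Nb K n (h - P.d) (j * 2 ^ P.d + j') (cl j') (xs j') := by
  have a1 := sum_le_sum fun β (hβ : β ∈ range k) => hs β (mem_range.1 hβ)
  rw [sum_add_distrib, sum_comm, sum_const, card_range, nsmul_eq_mul] at a1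
  have a2 := sum_le_sum ih
  rw [sum_add_distrib, ← mul_sum, ← mul_sum] at a2
  have a3 := mul_le_mul_of_nonneg_left (Ind_A_step hP hA hn hd hS)
    (by positivity : (0 : ℝ) ≤ P.M * k)
  rw [sum_comm] at a1
  rw [sum_comm (s := range k) (t := J)] at a1
  linarith

end step

theorem Ind_main (hP : P.OK) (hA : P.StageA ms Nb Nt K)
    (hR : ∀ h ≤ P.L, P.d ∣ h → P.TabRelAt ms Nt Pt h) (n : ℕ) : ∀ (h j c : ℕ) (y : St) (nb : ℕ),
    h = n * P.d → P.Nd h j → ¬ P.triv h c → P.inW (h + c) y → Nt h j c y ≤ 2 * P.Lam (h + c) →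
    nb ≤ P.M + 1 → (∑ β ∈ range nb, ∑ m ∈ range P.M, (Pt m β h j c y : ℝ)) ≤
      P.M * nb * P.Ind_A ms K n h j c y + P.M * P.Ind_B ms Nb K n h j c y := by
  have hp := Ind_par hP hA.K1 hA.K2
  have hM : (0 : ℝ) < P.M := by exact_mod_cast hP.M_pos
  induction n with
  | zero =>
    intro h j c y nb e hn hc hy _ hnb
    obtain rfl : h = 0 := by omega
    refine Ind_end hP hA hnb ((Ind_pi_le hA hn hc hy).trans ?_) fun β hβ => ?_
    · linarith [hA.leaf j c y hn hc hy]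
    · have a1 : ∑ m ∈ range P.M, (Pt m β 0 j c y : ℝ) ≤
          ∑ _m ∈ range P.M, (P.VV ms 0 j y + P.eps1 * P.La (0 + c)) := by
        refine sum_le_sum fun m hm => ?_
        have b1 := (abs_le.1 ((hR 0 hn.1 (dvd_zero _)).close m (mem_range.1 hm) β hβ j c y hn hc hy)).2
        rw [PreI_pre_leaf] at b1
        have b2 := PreI_off_le hP (0 + c) m
        have b3 := (min_le_left (min (P.VV ms 0 j y) P.X) (3 * P.La (0 + c))).trans (min_le_left _ _)
        obtain ⟨s0, s1, s2, s3, -⟩ := PreI_scaled hP (0 + c)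
        have b4 := mul_le_mul_of_nonneg_right hp.ze s0.le
        linarith
      rwa [sum_const, card_range, nsmul_eq_mul] at a1
  | succ n ih =>
    intro h j c y nb e hn hc hy hd hnb
    have hdh : P.d ≤ h := by rw [e, Nat.succ_mul]; omega
    have e' : h - P.d = n * P.d := by rw [e, Nat.succ_mul, Nat.add_sub_cancel]
    have hnL : n ≤ P.L := by
      have b1 := Nat.le_mul_of_pos_right n hP.d_pos
      have b2 := hn.1
      omega
    have hRh := hR h hn.1 (e ▸ Nat.dvd_mul_left _ _)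
    have hT : P.Top ms Nb Nt Pt K h j c y := ⟨hP, hA, ⟨hn, hc, hdh⟩,
      inv_all hP hA hR ((Nat.sub_le _ _).trans hn.1) (e' ▸ Nat.dvd_mul_left _ _), hy⟩
    have hΛ := La_pos (P := P) (h + c)
    rcases le_or_gt (P.X : ℝ) (P.VV ms h j y) with hX | hX
    · refine Ind_end hP hA hnb ((Ind_pi_le hA hn hc hy).trans ?_) fun β hβ => ?_
      · have b1 : (Nb h j c y : ℝ) ≤ P.X := by
          exact_mod_cast (hA.triv h j c y hn hc hy).trans (trivV_le_X h y)
        linarith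
      · have b1 : ∑ m ∈ range P.M, (P.KnM Nt Pt β h j c y m : ℝ) ≤
            ∑ _m ∈ range P.M, P.VV ms h j y := by
          refine sum_le_sum fun m _ => le_trans ?_ hX
          exact_mod_cast (kn_le_nt hT hβ m).trans (hA.t_le_X hn hc y)
        rw [sum_const, card_range, nsmul_eq_mul] at b1
        have b2 := (pt_regret hT hβ hRh).2
        have b3 := mul_le_mul_of_nonneg_right hp.Me hΛ.le
        linarith
    · obtain ⟨J, cl, xs, μ, vs, hS, hpi, hc'⟩ := step hT hRh hd hX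
      have IH : ∀ k ≤ P.M + 1, ∀ j' ∈ J, (∑ β ∈ range k, ∑ m ∈ range P.M,
          (Pt m β (h - P.d) (j * 2 ^ P.d + j') (cl j') (xs j') : ℝ)) ≤
          P.M * k * P.Ind_A ms K n (h - P.d) (j * 2 ^ P.d + j') (cl j') (xs j') +
            P.M * P.Ind_B ms Nb K n (h - P.d) (j * 2 ^ P.d + j') (cl j') (xs j') :=
        fun k hk j' hj => ih _ _ _ _ k e' (hn.desc hdh (mem_range.1 (hS.sub hj))) (hS.dom j' hj).1
          (hS.dom j' hj).2.1 (hS.dom j' hj).2.2 hk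
      have hKV := mul_nonneg (zero_le_one.trans hA.K1) (VV_nonneg (P := P) (ms := ms) h j y)
      have hm : (0 : ℝ) ≤ 8 / P.mu * (8 * K * P.VV ms h j y) :=
        mul_nonneg (div_nonneg (by norm_num) hp.mu0.le) (by linarith)
      have hB0 := Ind_B_step hP hA hnL hdh hS (g := 0) (by linarith)
      have hB1 := mul_le_mul_of_nonneg_left (by linarith :
        ∑ j' ∈ J, P.Ind_B ms Nb K n (h - P.d) (j * 2 ^ P.d + j') (cl j') (xs j') ≤
          P.Ind_B ms Nb K (n + 1) h j c y) hM.le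
      rcases hc' with hg | ⟨hb, hs⟩
      · have a1 := Ind_sum hP hA hnL hdh hS (k := nb) id (fun β hβ => hg β (by omega)) (IH nb hnb)
        simp only [id] at a1
        linarith
      · cases nb with
        | zero =>
          have a1 := Ind_sum (Pt := Pt) hP hA hnL hdh hS (k := 0) id (fun β hβ => absurd hβ (by omega))
            (IH 0 hnb)
          simp only [id] at a1
          linarith
        | succ k =>
          have a1 := Ind_sum hP hA hnL hdh hS (k := k) (fun β => β + 1)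
            (fun β hβ => hs (β + 1) (by omega) (by omega)) (IH k (by omega))
          have a2 : ∑ m ∈ range P.M, (Pt m 0 h j c y : ℝ) ≤ ∑ _m ∈ range P.M, 4 * P.La (h + c) :=
            sum_le_sum fun m hm => (hRh.rng m (mem_range.1 hm) 0 (Nat.zero_le _) j c y hn hc hy).2
          rw [sum_const, card_range, nsmul_eq_mul] at a2
          have a3 : ∑ j' ∈ J, P.Ind_B ms Nb K n (h - P.d) (j * 2 ^ P.d + j') (cl j') (xs j') +
              4 * P.La (h + c) ≤ P.Ind_B ms Nb K (n + 1) h j c y := by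
            rcases hb with hb | hb
            · have b1 := Ind_B_step hP hA hnL hdh hS hb
              have b2 : 4 / (P.w0 : ℝ) * (P.w0 * P.La (h + c)) = 4 * P.La (h + c) := by
                have := hp.w0.ne'
                field_simp
              linarith
            · have b1 := mul_le_mul_of_nonneg_left hb (div_nonneg (by norm_num : (0 : ℝ) ≤ 4) hp.mu0.le)
              have b2 : 4 / (P.mu : ℝ) * (P.mu * P.La (h + c)) = 4 * P.La (h + c) := by
                have := hp.mu0.ne'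
                field_simp
              have b3 : 4 / (P.mu : ℝ) * (16 * K * P.VV ms h j y) =
                  8 / P.mu * (8 * K * P.VV ms h j y) := by ring
              linarith
          have a4 := mul_le_mul_of_nonneg_left a3 hM.le
          have a5 := mul_nonneg hM.le (Ind_A_nonneg hP hA (n + 1) h j c y)
          rw [sum_range_succ']
          push_cast
          linarith

/-- Induction on `n` (for all `nb` at once).  Leaf: `Pt ≤ V + (M ζ + ζ/4) Λ`, `PiU ≤ 3 Nb ≤ 3 V`.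
`V ≥ X`: `pt_regret.2`, `kn_le_nt`, `Nt ≤ X ≤ V`, `PiU ≤ 3 X`.  Otherwise `step`: good: sum over
`β < nb` and use the claim `nb` below; bad: the term `β = 0` is at most `4 Λ M`, paid by `w₀ Λ` or
`8 K V`; the others use the claim `nb - 1` below; `nb = 0` uses the claim `0` below.
Arithmetic: `StepD.tot`, `2 ν ≤ ε₁`, `(3 K + 2^wx) ν ≤ ε₂`. -/
theorem phase_ind (hP : P.OK) (hA : P.StageA ms Nb Nt K)
    (hR : ∀ h ≤ P.L, P.d ∣ h → P.TabRelAt ms Nt Pt h) (n : ℕ) {j c : ℕ} {y : St}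
    (hn : P.Nd (n * P.d) j) (hc : ¬ P.triv (n * P.d) c) (hy : P.inW (n * P.d + c) y)
    (hd : Nt (n * P.d) j c y ≤ 2 * P.Lam (n * P.d + c)) {nb : ℕ} (hnb : nb ≤ P.M + 1) :
    (∑ β ∈ range nb, ∑ m ∈ range P.M, (Pt m β (n * P.d) j c y : ℝ)) ≤
      P.M * nb * ((1 + 8 * P.fq) * P.VV ms (n * P.d) j y +
        2 * P.eps1 * P.Tot K n (n * P.d) c (P.VV ms (n * P.d) j y)) +
      P.M * (4 / P.w0 * ((3 * K + 2 ^ P.wx) * P.VV ms (n * P.d) j y +
          2 * P.eps2 * P.Tot K n (n * P.d) c (P.VV ms (n * P.d) j y) - PiU Nb (n * P.d) j c y) +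
        8 / P.mu * P.Tot K n (n * P.d) c (P.VV ms (n * P.d) j y)) := by
  exact Ind_main hP hA hR n _ j c y nb rfl hn hc hy hd hnb

end Pa

end Crest.Agent.R288
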