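/-
R288/Out: the result of a phase.
-/
import Crest.Agent.R288.Ind

set_option autoImplicit false

namespace Crest.Agent.R288

open Finset

namespace Pa

variable {P : Pa} {ms : ℕ → ℕ → Bool} {Nb Nt N N' : Fam} {Pt : ℕ → ℕ → Fam} {K : ℝ}

theorem Out_arith {q F W M D B K V Λ T π : ℝ} (hF : 1 ≤ F) (hq : 2 ^ 16 * F ≤ q) (hW : 1 ≤ W)
    (hM : W ^ 3 * q ^ 20 ≤ M) (hD : 1 ≤ D) (hA : D * B ≤ 32 * M * q ^ 3) (hK : 1 ≤ K)
    (hV : 0 ≤ V) (hΛ : 0 ≤ Λ) (hT0 : 0 ≤ T) (hT : T ≤ 70 * B * (Λ + K * V)) (hπ : 0 ≤ π) :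
    (1 + 8 * (1 / F)) * V + 2 * (2 * D * (4 / q ^ 5) / M) * T +
      (4 / (1 / (16 * W ^ 2 * q ^ 4)) * ((3 * K + W) * V + 2 * (8 * D / M) * T - π) +
        8 / q ^ 4 * T) / (M + 1) ≤ (1 + 12 * (1 / F) * K) * V + 3 * (1 / F) * Λ := by
  have hq1 : 1 ≤ q := by nlinarith
  have hq0 : 0 < q := by linarith
  have hF0 : 0 < F := by linarith
  have hW0 : 0 < W := by linarith
  have hM1 : 1 ≤ M := le_trans (one_le_mul_of_one_le_of_one_le (one_le_pow₀ hW) (one_le_pow₀ hq1)) hM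
  have hM0 : 0 < M := by linarith
  have hKV : 0 ≤ K * V := by positivity
  obtain ⟨S, hS⟩ : ∃ S, S = Λ + K * V := ⟨_, rfl⟩
  have hS0 : 0 ≤ S := by rw [hS]; positivity
  rw [← hS] at hT
  have hDT : D * T ≤ 2240 * M * q ^ 3 * S := by
    calc D * T ≤ D * (70 * B * S) := by gcongr
      _ = 70 * (D * B) * S := by ring
      _ ≤ 70 * (32 * M * q ^ 3) * S := by gcongr
      _ = _ := by ring
  have hx : ∀ a : ℝ, a ≤ 2 ^ 16 → ∀ x : ℝ, 0 ≤ x → a / q * x ≤ 1 / F * x := fun a ha x hx => by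
    refine mul_le_mul_of_nonneg_right ?_ hx
    rw [div_le_div_iff₀ hq0 hF0]
    nlinarith
  have hq16 : (2 : ℝ) ^ 16 ≤ q := by nlinarith
  have t1 : 2 * (2 * D * (4 / q ^ 5) / M) * T ≤ 1 / F * S := by
    calc 2 * (2 * D * (4 / q ^ 5) / M) * T = 16 * (D * T) / (q ^ 5 * M) := by field_simp; ring
      _ ≤ 16 * (2240 * M * q ^ 3 * S) / (q ^ 5 * M) := by gcongr
      _ = (35840 / q) / q * S := by field_simp; ring
      _ ≤ _ := hx _ (by rw [div_le_iff₀ hq0]; nlinarith) _ hS0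
  have t2 : 64 * W ^ 2 * q ^ 4 * ((3 * K + W) * V) / (M + 1) ≤ 1 / F * (K * V) := by
    have e1 : (3 * K + W) ≤ 4 * W * K := by nlinarith
    calc 64 * W ^ 2 * q ^ 4 * ((3 * K + W) * V) / (M + 1)
        ≤ 64 * W ^ 2 * q ^ 4 * ((4 * W * K) * V) / (W ^ 3 * q ^ 20) := by
          gcongr
          linarith
      _ = (256 / q ^ 15) / q * (K * V) := by field_simp; ring
      _ ≤ _ := hx _ (by
          rw [div_le_iff₀ (by positivity)]
          have : 1 ≤ q ^ 15 := one_le_pow₀ hq1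
          nlinarith) _ hKV
  have t3 : 64 * W ^ 2 * q ^ 4 * (2 * (8 * D / M) * T) / (M + 1) ≤ 1 / F * S := by
    have e2 : W ^ 2 * q ^ 20 ≤ M + 1 := by
      have : W ^ 2 * q ^ 20 ≤ W ^ 3 * q ^ 20 := by gcongr; norm_num
      linarith
    calc 64 * W ^ 2 * q ^ 4 * (2 * (8 * D / M) * T) / (M + 1)
        = 1024 * W ^ 2 * q ^ 4 * (D * T) / M / (M + 1) := by field_simp; ring
      _ ≤ 1024 * W ^ 2 * q ^ 4 * (2240 * M * q ^ 3 * S) / M / (W ^ 2 * q ^ 20) := by gcongr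
      _ = (2293760 / q ^ 12) / q * S := by field_simp; ring
      _ ≤ _ := hx _ (by
          rw [div_le_iff₀ (by positivity)]
          have : q ≤ q ^ 12 := le_self_pow₀ hq1 (by norm_num)
          nlinarith) _ hS0
  have t4 : 8 / q ^ 4 * T / (M + 1) ≤ 1 / F * S := by
    have e3 : T ≤ D * T := le_mul_of_one_le_left hT0 hD
    calc 8 / q ^ 4 * T / (M + 1) ≤ 8 / q ^ 4 * (2240 * M * q ^ 3 * S) / M := by
          gcongr
          · linarith
          · linarith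
      _ = 17920 / q * S := by field_simp; ring
      _ ≤ _ := hx _ (by norm_num) _ hS0
  have t5 : 0 ≤ 64 * W ^ 2 * q ^ 4 * π / (M + 1) := by positivity
  have t6 : 1 / F * V ≤ 1 / F * (K * V) := by
    gcongr
    exact le_mul_of_one_le_left hV hK
  have e : (4 / (1 / (16 * W ^ 2 * q ^ 4)) * ((3 * K + W) * V + 2 * (8 * D / M) * T - π) +
        8 / q ^ 4 * T) / (M + 1) = 64 * W ^ 2 * q ^ 4 * ((3 * K + W) * V) / (M + 1) +
      64 * W ^ 2 * q ^ 4 * (2 * (8 * D / M) * T) / (M + 1) - 64 * W ^ 2 * q ^ 4 * π / (M + 1) +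
      8 / q ^ 4 * T / (M + 1) := by
    rw [div_div_eq_mul_div, div_one]
    ring
  rw [e]
  have e' : 1 / F * S = 1 / F * Λ + 1 / F * (K * V) := by rw [hS]; ring
  nlinarith

theorem Out_last_le {h : ℕ} (hI : P.InvP ms Nt Pt h) {β j c : ℕ} (hβ : β ≤ P.M) {y : St}
    (hn : P.Nd h j) (hc : ¬ P.triv h c) (hy : P.inW (h + c) y) {m k : ℕ} (hk : m + k < P.M) :
    Pt (m + k) β h j c y ≤ Pt m β h j c y := by
  induction k with
  | zero => exact le_rfl
  | succ k ih => exact (hI.mono (m + k) hk β hβ j c y hn hc hy).trans (ih (by omega))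

theorem Out_fq : (P.fq : ℝ) = 1 / 2 ^ P.fx := by
  unfold fq
  push_cast
  rfl

theorem Out_fq_pos : (0 : ℝ) < P.fq := by
  rw [Out_fq]
  positivity

theorem Out_del (hP : P.OK) : (P.del : ℝ) ^ 3 ≤ P.fq := by
  have h1 := hP.gp
  have h2 := hP.wx_le
  rw [Out_fq]
  unfold del
  push_cast
  rw [div_pow, one_pow, ← pow_mul]
  exact one_div_le_one_div_of_le (by positivity)
    (pow_le_pow_right₀ one_le_two (by unfold fx; omega))

theorem Out_dst (hP : P.OK) (h2 : K ≤ P.K0) (u : ℕ) (z : St) :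
    14 * K * (dst z (P.rd u z) : ℝ) ≤ P.fq * P.La u := by
  have e1 : (dst z (P.rd u z) : ℝ) ≤ 2 * P.La u / 2 ^ P.kap := by
    have := dst_rd_le (P := P) u z
    unfold La
    exact_mod_cast this
  have e2 : (P.K0 : ℝ) = 2 ^ (P.D + P.Lx + 3) := by
    unfold K0
    push_cast
    rfl
  have h3 := hP.gp
  have h4 := hP.wx_le
  have h5 := La_pos (P := P) u
  have e3 : (2 : ℝ) ^ 5 * 2 ^ (P.D + P.Lx + 3) * 2 ^ P.fx ≤ 2 ^ P.kap := by
    rw [← pow_add, ← pow_add]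
    exact pow_le_pow_right₀ one_le_two (by unfold fx kap; omega)
  rw [Out_fq]
  calc 14 * K * (dst z (P.rd u z) : ℝ) ≤ 14 * 2 ^ (P.D + P.Lx + 3) * (2 * P.La u / 2 ^ P.kap) := by
        gcongr
        exact e2 ▸ h2
    _ = 28 * 2 ^ (P.D + P.Lx + 3) / 2 ^ P.kap * P.La u := by ring
    _ ≤ _ := by
        gcongr ?_ * _
        rw [div_le_div_iff₀ (by positivity) (by positivity)]
        rw [one_mul]
        refine le_trans ?_ e3
        gcongr
        norm_num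

/-- `phase_ind` with `nb = M + 1`, `InvP.mono` (last round `≤` average), pigeonhole over `β`.
`Tot ≤ 70 (n + 1) (Λ + K V)`, `(d + 1)(n + 1) ≤ 4 L`, `L / M ≤ 2^(3p+3)`; each of the four error terms
is at most `f` (`OK.gp`, `OK.two_pow_le_M`). -/
theorem exists_beta (hP : P.OK) (hA : P.StageA ms Nb Nt K)
    (hR : ∀ h ≤ P.L, P.d ∣ h → P.TabRelAt ms Nt Pt h) {h j c : ℕ} {y : St} (hn : P.Nd h j)
    (hh : P.d ∣ h) (hc : ¬ P.triv h c) (hy : P.inW (h + c) y)
    (hd : Nt h j c y ≤ 2 * P.Lam (h + c)) : ∃ β ≤ P.M, (Pt (P.M - 1) β h j c y : ℝ) ≤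
      (1 + 12 * P.fq * K) * P.VV ms h j y + 3 * P.fq * P.La (h + c) := by
  obtain ⟨n, hn'⟩ : ∃ n, n * P.d = h := ⟨h / P.d, Nat.div_mul_cancel hh⟩
  subst hn'
  have hI := inv_all hP hA hR hn.1 hh
  have hph := phase_ind hP hA hR n hn hc hy hd (nb := P.M + 1) le_rfl
  have hM := hP.M_pos
  have hM0 : (0 : ℝ) < P.M := Nat.cast_pos.2 hM
  have hV := VV_nonneg (P := P) (ms := ms) (n * P.d) j y
  have hΛ := La_pos (P := P) (n * P.d + c)
  have hΛ0 := La_pos (P := P) (n * P.d)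
  have hΛ1 : P.La (n * P.d) ≤ P.La (n * P.d + c) := by
    unfold La
    exact_mod_cast Lam_mono (Nat.le_add_right _ _)
  have hK := hA.K1
  have hn0 : (0 : ℝ) ≤ n := Nat.cast_nonneg n
  have hKV : 0 ≤ K * P.VV ms (n * P.d) j y := by positivity
  have hT0 : 0 ≤ P.Tot K n (n * P.d) c (P.VV ms (n * P.d) j y) := by
    unfold Tot
    positivity
  have hT : P.Tot K n (n * P.d) c (P.VV ms (n * P.d) j y) ≤
      70 * (n + 1) * (P.La (n * P.d + c) + K * P.VV ms (n * P.d) j y) := by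
    unfold Tot
    have := mul_le_mul_of_nonneg_left hΛ1 hn0
    have := mul_nonneg hn0 hΛ.le
    nlinarith
  have hπ : 0 ≤ PiU Nb (n * P.d) j c y := by
    refine Pi2_nonneg ?_
    rw [abs_sub_comm, ← cast_dist]
    exact_mod_cast hA.dist_le_b hn hc hy
  have hDB : ((P.d : ℝ) + 1) * (n + 1) ≤ 32 * P.M * (2 ^ P.p) ^ 3 := by
    have a1 := hn.1
    have a2 := hP.L_lt
    have a3 := hP.M_ge
    have a4 := hP.d_pos
    have a5 : 0 < P.L := Nat.zero_lt_of_lt hP.l1_lt_L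
    have a6 : P.d ≤ P.L := Nat.le_of_dvd a5 hP.d_dvd_L
    have a7 : n ≤ n * P.d := Nat.le_mul_of_pos_right _ a4
    have a8 : (P.d + 1) * (n + 1) ≤ 32 * P.M * (2 ^ P.p) ^ 3 := by
      calc (P.d + 1) * (n + 1) = n * P.d + n + P.d + 1 := by ring
        _ ≤ 4 * P.L := by
          generalize n * P.d = x at a1 a7
          clear a2 a3
          omega
        _ ≤ 4 * (P.M * 2 ^ (3 * P.p + 3)) := Nat.mul_le_mul_left _ (a2.le.trans a3)
        _ = _ := by ring
    exact_mod_cast a8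
  have hq : (2 : ℝ) ^ 16 * 2 ^ P.fx ≤ 2 ^ P.p := by
    have := hP.gp
    rw [← pow_add]
    exact pow_le_pow_right₀ one_le_two (by unfold fx; omega)
  have hMw : ((2 : ℝ) ^ P.wx) ^ 3 * (2 ^ P.p) ^ 20 ≤ P.M := by
    have a1 : 2 ^ (P.wx * 3 + P.p * 20) ≤ P.M :=
      (Nat.pow_le_pow_right two_pos (by omega)).trans hP.two_pow_le_M
    rw [← pow_mul, ← pow_mul, ← pow_add]
    exact_mod_cast a1
  have har := Out_arith (one_le_pow₀ one_le_two) hq (one_le_pow₀ one_le_two) hMw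
    (le_add_of_nonneg_left (Nat.cast_nonneg P.d)) hDB hK hV hΛ.le hT0 hT hπ
  have e1 : P.eps1 = 2 * ((P.d : ℝ) + 1) * (4 / (2 ^ P.p) ^ 5) / P.M := by
    unfold eps1 rho
    push_cast
    rw [← pow_mul, mul_comm P.p 5]
  have e2 : (P.w0 : ℝ) = 1 / (16 * (2 ^ P.wx) ^ 2 * (2 ^ P.p) ^ 4) := by
    unfold w0
    push_cast
    ring
  have e3 : (P.mu : ℝ) = (2 ^ P.p) ^ 4 := by
    unfold mu
    push_cast
    rw [← pow_mul, mul_comm P.p 4]
  have e4 : P.eps2 = 8 * ((P.d : ℝ) + 1) / P.M := rfl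
  rw [← Out_fq, ← e1, ← e2, ← e3, ← e4] at har
  by_contra hcon
  push Not at hcon
  have hsum : ∑ β ∈ range (P.M + 1), (P.M : ℝ) * ((1 + 12 * P.fq * K) * P.VV ms (n * P.d) j y +
      3 * P.fq * P.La (n * P.d + c)) <
      ∑ β ∈ range (P.M + 1), ∑ m ∈ range P.M, (Pt m β (n * P.d) j c y : ℝ) := by
    refine sum_lt_sum_of_nonempty ⟨0, by simp⟩ fun β hβ => ?_
    have hβ' : β ≤ P.M := Nat.lt_succ_iff.1 (mem_range.1 hβ)
    refine (mul_lt_mul_of_pos_left (hcon β hβ') hM0).trans_le ?_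
    have : ∑ _m ∈ range P.M, (Pt (P.M - 1) β (n * P.d) j c y : ℝ) ≤
        ∑ m ∈ range P.M, (Pt m β (n * P.d) j c y : ℝ) := by
      refine sum_le_sum fun m hm => ?_
      have hm' := mem_range.1 hm
      have := Out_last_le hI hβ' hn hc hy (m := m) (k := P.M - 1 - m) (by omega)
      rw [show m + (P.M - 1 - m) = P.M - 1 by omega] at this
      exact_mod_cast this
    simpa using this
  rw [sum_const, card_range, nsmul_eq_mul] at hsum
  have h3 := mul_le_mul_of_nonneg_left har (by positivity : (0 : ℝ) ≤ P.M * (P.M + 1))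
  rw [mul_add, mul_assoc (P.M : ℝ) _ (_ / _), mul_div_cancel₀ _ (by positivity)] at h3
  push_cast at hsum hph
  nlinarith

theorem XRel.valN (hP : P.OK) (hA : P.StageA ms Nb Nt K)
    (hR : ∀ h ≤ P.L, P.d ∣ h → P.TabRelAt ms Nt Pt h) (hN : P.ValN ms N) (hX : P.XRel N Pt N') :
    P.ValN ms N' := by
  have hM := hP.M_pos
  have hle : ∀ h j c z, P.nnext (N h j c) (fun β => Pt (P.M - 1) β h j c) h c z ≤ N h j c z :=
    fun h j c z => minL_le_default _ _
  refine ⟨hX.out, fun h j c z hn hc => ?_, fun h j c z hn hc hz => ?_, fun h j c z hn hc hz => ?_,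
    fun j c z hn hc hz => ?_⟩
  · by_cases hz : P.inW (h + c) z
    · rw [hX.eq h j c z hn hc hz]
      exact onG_rup _ _
    · rw [hX.out h j c z hz]
      exact onG_nat _ _
  · rw [hX.eq h j c z hn hc hz]
    refine le_trans ?_ (Rat.cast_le.2 (min_le_rup _ _))
    rw [Rat.cast_min]
    refine le_min (Up_le_minL (fun a ha => ?_) (hN.val h j c z hn hc hz))
      ((min_le_right _ _).trans (by exact_mod_cast P.StA_X_le))
    split_ifs at ha with hd
    · obtain ⟨β, hβ, rfl⟩ := List.mem_map.1 ha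
      have hβ' : β ≤ P.M := Nat.lt_succ_iff.1 (List.mem_range.1 hβ)
      have hv := (inv_all hP hA hR hn.1 hd).val (P.M - 1) (by omega) β hβ' j c z hn hc hz
      split_ifs with hlt
      · have hlt' : (Pt (P.M - 1) β h j c z : ℝ) < 3 * P.La (h + c) := by
          unfold La
          exact_mod_cast hlt
        exact (min_le_iff.1 hv).resolve_right (not_le.2 hlt')
      · exact (min_le_right _ _).trans (by simp)
    · simp at ha
  · rw [hX.eq h j c z hn hc hz]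
    exact rup_le_of_onG ((hle h j c z).trans (hN.triv h j c z hn hc hz)) (onG_trivV h z)
      (P.StA_neg_le (trivV_nonneg h z))
  · rw [hX.eq 0 j c z hn hc hz]
    exact (Rat.cast_le.2 (rup_le_of_onG (hle 0 j c z) (hN.onG 0 j c z hn hc)
      (P.StA_neg_le (hN.nonneg hn hc z)))).trans (hN.leaf j c z hn hc hz)

/-- If `c ≥ cmax` the trivial bound suffices.  Else take `c' = cls ntb h (c + 1) z` with
`ntb c' z = Nt h j c' (rd z)`; `cls_mass` gives `Λ' ≤ 2 Λ + 8 K V`; trivial `c'`: `trivV_le_of_triv`;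
otherwise `cls_dom`, `exists_beta` at `rd z`, and the entry is accepted since
`Pt ≤ Nt + 2 G Λ' < 3 Λ'` (`InvP.le_nt`); the lift is at most `(1 + 12 f K) V + 4 f Λ'`. -/
theorem XRel.upH (hP : P.OK) (hA : P.StageA ms Nb Nt K)
    (hR : ∀ h ≤ P.L, P.d ∣ h → P.TabRelAt ms Nt Pt h) (hN : P.ValN ms N) (hX : P.XRel N Pt N')
    {h : ℕ} (hh : P.d ∣ h) : P.UpH ms N' (1 + 64 * P.fq * K) (8 * P.fq) h := by
  intro j c z hn hz1 hz2
  have _hN := hN
  have hM := hP.M_pos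
  have hf := Out_fq_pos (P := P)
  have hf1 : (P.fq : ℝ) ≤ 1 := by
    rw [Out_fq]
    exact (div_le_one (by positivity)).2 (one_le_pow₀ one_le_two)
  have hK := hA.K1
  have hV := VV_nonneg (P := P) (ms := ms) h j z
  have hΛ := La_pos (P := P) (h + c)
  have hdel := Out_del hP
  have hKV : 0 ≤ K * P.VV ms h j z := by positivity
  have hfKV : 0 ≤ P.fq * (K * P.VV ms h j z) := by positivity
  have hfΛ : 0 ≤ P.fq * P.La (h + c) := by positivity
  have htr : ∀ c', P.triv h c' →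
      (P.upQ (P.lkF N' h j) h c z : ℝ) ≤ P.VV ms h j z + P.fq * P.La (h + c') := fun c' hc' => by
    have a1 := trivV_le_of_triv (ms := ms) hc' j z
    have a2 : (P.upQ (P.lkF N' h j) h c z : ℝ) ≤ P.trivV h z :=
      Rat.cast_le.2 (upQ_le_trivV _ _ _ _)
    have a3 := mul_le_mul_of_nonneg_right hdel (La_pos (P := P) (h + c')).le
    linarith
  rcases le_or_gt P.cmax c with hc | hc
  · have := htr c (Or.inl hc)
    nlinarith
  have hG : (dst z z : ℚ) ≤ P.Gq * P.Lam (h + (c + 1)) := by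
    rw [dst_self, Nat.cast_zero]
    exact mul_nonneg (cls_G_le hP).1.le (Lam_pos _).le
  have hmass := cls_mass hP hA hn (c := c + 1) hc (ntb := P.lkF Nt h j) (zc := z) (z := z)
    (fun _ _ _ => rfl) ⟨hz1, hz2⟩ ⟨hz1, hz2⟩ hG
  have hdom := cls_dom hP hA hn (c := c + 1) hc (ntb := P.lkF Nt h j) (zc := z) (z := z)
    (fun _ _ _ => rfl) ⟨hz1, hz2⟩ ⟨hz1, hz2⟩ hG
  have hge : c + 1 - 1 ≤ P.cls (P.lkF Nt h j) h (c + 1) z := cls_ge hc
  generalize P.cls (P.lkF Nt h j) h (c + 1) z = c' at hmass hdom hge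
  have e1 : P.La (h + (c + 1)) = 2 * P.La (h + c) := by
    unfold La
    rw [← add_assoc, Lam_add]
    push_cast
    ring
  have e2 : P.La h ≤ P.La (h + c) := by
    unfold La
    exact_mod_cast Lam_mono (Nat.le_add_right _ _)
  have hm : P.La (h + c') ≤ 2 * P.La (h + c) + 8 * (K * P.VV ms h j z) := by linarith
  have hm' := mul_le_mul_of_nonneg_left hm hf.le
  by_cases ht : P.triv h c'
  · have := htr c' ht
    nlinarith
  obtain ⟨hy, hd⟩ := hdom ht
  obtain ⟨β, hβ, hb⟩ := exists_beta hP hA hR hn hh ht hy hd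
  have hI := inv_all hP hA hR hn.1 hh
  have hacc : Pt (P.M - 1) β h j c' (P.rd (h + c') z) < 3 * P.Lam (h + c') := by
    have a1 := hI.le_nt (P.M - 1) (by omega) β hβ j c' _ hn ht hy
    have a2 : (Pt (P.M - 1) β h j c' (P.rd (h + c') z)) ≤
        Nt h j c' (P.rd (h + c') z) + 2 * P.Gq * P.Lam (h + c') := by
      unfold La at a1
      exact_mod_cast a1
    have a3 := (cls_G_le hP).2
    have a4 := Lam_pos (P := P) (h + c')
    nlinarith
  have hN' : N' h j c' (P.rd (h + c') z) ≤ Pt (P.M - 1) β h j c' (P.rd (h + c') z) := by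
    rw [hX.eq h j c' _ hn ht hy]
    refine rup_le_of_onG (minL_le_of_mem ?_)
      ((hR h hn.1 hh).onG (P.M - 1) (by omega) β hβ j c' _ hn ht)
      (P.StA_neg_le (hI.rng (P.M - 1) (by omega) β hβ j c' _ hn ht hy).1)
    rw [if_pos hh]
    exact List.mem_map.2 ⟨β, List.mem_range.2 (Nat.lt_succ_of_le hβ), if_pos hacc⟩
  have hup : (P.upQ (P.lkF N' h j) h c z : ℝ) ≤
      Pt (P.M - 1) β h j c' (P.rd (h + c') z) + dst z (P.rd (h + c') z) := by
    have a1 := (upQ_le (f := P.lkF N' h j) z (show c ≤ c' by omega) ht).trans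
      (add_le_add_left hN' _)
    exact_mod_cast a1
  have hlip := VV_lip (P := P) (ms := ms) h j (P.rd (h + c') z) z
  rw [dst_comm] at hlip
  have hdst := Out_dst hP hA.K2 (h + c') z
  have hd0 : (0 : ℝ) ≤ dst z (P.rd (h + c') z) := Nat.cast_nonneg _
  have b1 := mul_le_mul_of_nonneg_left hlip (by positivity : (0 : ℝ) ≤ 1 + 12 * P.fq * K)
  have b2 : P.fq * (K * (dst z (P.rd (h + c') z) : ℝ)) ≤ K * dst z (P.rd (h + c') z) :=
    mul_le_of_le_one_left (by positivity) hf1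
  have b3 : (dst z (P.rd (h + c') z) : ℝ) ≤ K * dst z (P.rd (h + c') z) :=
    le_mul_of_one_le_left hd0 hK
  nlinarith

end Pa

end Crest.Agent.R288
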