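/-
R288/PT1: polynomial time of the parameters, of the plan and of the simple local functions.
All statements are over an arbitrary index type `α` with admissible parameters and bounded
heights and classes.
-/
import Crest.Agent.R288.Defs

set_option autoImplicit false

namespace Crest.Agent.R288

open Finset Crest.Agent.Lib.PolyTime

/-- An index family of admissible parameters. -/
structure PIdx {α : Type} [Enc α] (P : α → Pa) : Prop where
  pt : PT P
  ok : ∀ a, (P a).OK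

variable {α : Type} [Enc α] {P : α → Pa}

theorem PIdx.comp {β : Type} [Enc β] (h : PIdx P) {φ : β → α} (hφ : PT φ) :
    PIdx fun b => P (φ b) := ⟨h.pt.comp hφ, fun b => h.ok _⟩

/-- Everything bounded by the pad is polynomially bounded. -/
theorem PIdx.pb (h : PIdx P) {f : α → ℕ} (hf : ∀ a, f a ≤ (P a).pad) : PB f := by
  have h1 : PT fun a => (show List Unit × ℕ × ℕ from P a) := h.pt
  exact (PB.length h1.fst).mono hf

/-- `2 ^ x ≤ pad` for `x ≤ 3 kap`; `2 ^ (Lx + 2) ≤ pad` bounds `L, cmax, s, M, …`. -/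
theorem Pa.OK.two_pow_le_pad {P : Pa} (h : P.OK) {x : ℕ} (hx : x ≤ 3 * P.kap) : 2 ^ x ≤ P.pad := by
  rw [h.pad_eq]
  exact Nat.pow_le_pow_right two_pos hx

/-- A natural-number parameter that is computable and polynomially bounded. -/
structure Sml (f : α → ℕ) : Prop where
  pt : PT f
  pb : PB f

theorem Sml.p1const (n : ℕ) : Sml fun _ : α => n := ⟨PT.const n, PB.const n⟩
theorem Sml.p1add {f g : α → ℕ} (hf : Sml f) (hg : Sml g) : Sml fun a => f a + g a :=
  ⟨hf.pt.nat_add hg.pt, hf.pb.add hg.pb⟩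
theorem Sml.p1mul {f g : α → ℕ} (hf : Sml f) (hg : Sml g) : Sml fun a => f a * g a :=
  ⟨hf.pt.nat_mul hg.pt, hf.pb.mul hg.pb⟩
theorem Sml.p1sub {f g : α → ℕ} (hf : Sml f) (hg : PT g) : Sml fun a => f a - g a :=
  ⟨hf.pt.nat_sub hg, hf.pb.sub⟩
theorem Sml.p1div {f g : α → ℕ} (hf : Sml f) (hg : PT g) : Sml fun a => f a / g a :=
  ⟨hf.pt.nat_div hg, hf.pb.div⟩
theorem Sml.p1sq {f : α → ℕ} (hf : Sml f) : Sml fun a => f a ^ 2 :=
  ⟨PT.nat_pow hf.pt (PT.const 2) (PB.const 2), hf.pb.pow 2⟩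
theorem Sml.p1cmul {f : α → ℕ} (n : ℕ) (hf : Sml f) : Sml fun a => n * f a :=
  (Sml.p1const n).p1mul hf
theorem Sml.p1addc {f : α → ℕ} (hf : Sml f) (n : ℕ) : Sml fun a => f a + n :=
  hf.p1add (Sml.p1const n)
theorem Sml.p1min {f g : α → ℕ} (hf : PT f) (hg : Sml g) : Sml fun a => min (f a) (g a) :=
  ⟨hf.nat_min hg.pt, hg.pb.min_right⟩
theorem Sml.p1comp {β : Type} [Enc β] {f : α → ℕ} (hf : Sml f) {φ : β → α} (hφ : PT φ) :
    Sml fun b => f (φ b) := ⟨hf.pt.comp hφ, hf.pb.comp hφ⟩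
theorem Sml.p1log {f : α → ℕ} (hf : PT f) : Sml fun a => Nat.log 2 (f a) :=
  ⟨PT.nat_log (PT.const 2) hf, PB.log (b := fun _ => 2) hf⟩
theorem Sml.p1pow {f : α → ℕ} (hf : Sml f) : PT fun a => 2 ^ f a :=
  PT.nat_pow (PT.const 2) hf.pt hf.pb
theorem Sml.p1qpow {f : α → ℕ} (hf : Sml f) : PT fun a => (2 : ℚ) ^ f a :=
  PT.rat_pow (PT.const 2) hf.pt hf.pb
theorem Sml.p1range {f : α → ℕ} (hf : Sml f) : PT fun a => List.range (f a) :=
  PT.range hf.pt hf.pb
theorem Sml.p1of_le {f g : α → ℕ} (hf : PT f) (hg : Sml g) (h : ∀ a, f a ≤ g a) : Sml f :=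
  ⟨hf, hg.pb.mono h⟩
theorem PIdx.p1pow (h : PIdx P) {f : α → ℕ} (hf : Sml f) (hle : ∀ a, f a ≤ 3 * (P a).kap) :
    Sml fun a => 2 ^ f a := ⟨hf.p1pow, h.pb fun a => (h.ok a).two_pow_le_pad (hle a)⟩

section
variable (h : PIdx P)
include h

theorem PIdx.l1 : Sml fun a => (P a).l1 := by
  have h1 : PT fun a => (show List Unit × ℕ × ℕ from P a) := h.pt
  refine ⟨h1.snd.fst, h.pb fun a => ?_⟩
  have h2 := (h.ok a).l1_lt
  have h3 := (h.ok a).two_pow_le_pad (x := (P a).Lx) (by unfold Pa.kap; omega)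
  omega
theorem PIdx.e : Sml fun a => (P a).e := by
  have h1 : PT fun a => (show List Unit × ℕ × ℕ from P a) := h.pt
  exact Sml.p1of_le h1.snd.snd (h.l1.p1cmul 2) fun a => (h.ok a).e_le.trans (h.ok a).L_le
theorem PIdx.p1l2 : Sml fun a => (P a).l2 := Sml.p1log h.l1.pt
theorem PIdx.p1l3 : Sml fun a => (P a).l3 := Sml.p1log h.p1l2.pt

theorem PIdx.g : Sml fun a => (P a).g := by
  exact Sml.p1log h.p1l3.pt
theorem PIdx.p : Sml fun a => (P a).p := by
  exact h.p1l3.p1addc 1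
theorem PIdx.d : Sml fun a => (P a).d := by
  exact h.p1l3.p1sq
theorem PIdx.D : Sml fun a => (P a).D := by
  exact h.d.p1mul h.p1l2
theorem PIdx.L : Sml fun a => (P a).L := by
  exact ((h.l1.p1div h.D.pt).p1addc 1).p1mul h.D
theorem PIdx.Lx : Sml fun a => (P a).Lx := by
  exact h.p1l2.p1addc 2
theorem PIdx.c0 : Sml fun a => (P a).c0 := by
  exact ((h.L.p1sub h.e.pt).p1add h.g).p1addc 10
theorem PIdx.kap : Sml fun a => (P a).kap := by
  exact h.D.p1add (h.Lx.p1cmul 12)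
theorem PIdx.cmax : Sml fun a => (P a).cmax := by
  exact h.c0.p1add h.kap
theorem PIdx.umax : Sml fun a => (P a).umax := by
  exact ((h.c0.p1add h.e).p1addc 2).p1add (h.Lx.p1cmul 3)
theorem PIdx.tw : Sml fun a => (P a).tw := by
  exact h.d.p1addc 3
theorem PIdx.cp : Sml fun a => (P a).cp := by
  exact (h.d.p1add (h.p.p1cmul 4)).p1addc 3
theorem PIdx.omx : Sml fun a => (P a).omx := by
  exact (h.cp.p1add h.Lx).p1addc 4
theorem PIdx.fx : Sml fun a => (P a).fx := by
  exact h.g.p1addc 20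
theorem PIdx.wx : Sml fun a => (P a).wx := by
  exact ((h.d.p1mul (h.fx.p1addc 6)).p1add (h.p.p1cmul 13)).p1addc 2
theorem PIdx.M : Sml fun a => (P a).M := by
  exact h.l1.p1div (h.p.p1cmul 3).p1pow
theorem PIdx.T : Sml fun a => (P a).T := by
  exact (h.D.p1add h.Lx).p1addc 4
theorem PIdx.kT : Sml fun a => (P a).kT := by
  exact h.Lx.p1cmul 8
theorem PIdx.I : Sml fun a => (P a).I := by
  exact (h.d.p1add (h.p.p1cmul 4)).p1addc 2
theorem PIdx.rx : Sml fun a => (P a).rx := by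
  exact h.p.p1cmul 40
theorem PIdx.rf : Sml fun a => (P a).rf := by
  exact (h.Lx.p1cmul 11).p1addc 10
theorem PIdx.ra : Sml fun a => (P a).ra := by
  exact (h.Lx.p1cmul 6).p1addc 5
theorem PIdx.s : Sml fun a => (P a).s := by
  exact ((h.c0.p1add h.e).p1add (h.kap.p1cmul 4)).p1add (h.Lx.p1cmul 20)
theorem PIdx.two_pow_d : Sml fun a => 2 ^ (P a).d := by
  refine h.p1pow h.d fun a => ?_
  have := (h.ok a).wx_le
  unfold Pa.kap
  omega
theorem PIdx.two_pow_D : Sml fun a => 2 ^ (P a).D := by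
  refine h.p1pow h.D fun a => ?_
  unfold Pa.kap
  omega
theorem PIdx.two_pow_rf : Sml fun a => 2 ^ (P a).rf := by
  refine h.p1pow h.rf fun a => ?_
  unfold Pa.kap Pa.rf Pa.Lx
  omega
theorem PIdx.X : PT fun a => (P a).X := by
  exact (h.e.p1addc 2).p1pow
theorem PIdx.del : PT fun a => (P a).del := by
  exact (PT.const 1).rat_div h.Lx.p1qpow
theorem PIdx.fq : PT fun a => (P a).fq := by
  exact (PT.const 1).rat_div h.fx.p1qpow
theorem PIdx.Gq : PT fun a => (P a).Gq := by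
  exact (PT.const 1).rat_div (h.p.p1cmul 13).p1qpow
theorem PIdx.eta : PT fun a => (P a).eta := by
  exact (h.p.p1cmul 7).p1qpow
theorem PIdx.theta : PT fun a => (P a).theta := by
  exact (h.p.p1cmul 16).p1qpow
theorem PIdx.mu : PT fun a => (P a).mu := by
  exact (h.p.p1cmul 4).p1qpow
theorem PIdx.zeta : PT fun a => (P a).zeta := by
  exact (PT.const 1).rat_div (h.Lx.p1cmul 4).p1qpow
theorem PIdx.cap : PT fun a => (P a).cap := by
  exact h.cp.p1qpow

variable {u x h' c i : α → ℕ} {z : α → St}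

theorem PIdx.Lam (hu : Sml u) : PT fun a => (P a).Lam (u a) := by
  exact hu.p1qpow.rat_div h.c0.p1qpow
theorem PIdx.gm (hu : Sml u) : Sml fun a => (P a).gm (u a) := by
  exact hu.p1sub h.cmax.pt
theorem PIdx.rad (hu : Sml u) (hx : Sml x) : PT fun a => (P a).rad (u a) (x a) := by
  exact (hu.p1add hx).p1pow.nat_div h.c0.p1pow
theorem PIdx.wid (hu : Sml u) : PT fun a => (P a).wid (u a) := by
  exact h.rad hu h.tw
theorem PIdx.om (hu : Sml u) : Sml fun a => (P a).om (u a) := by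
  exact (hu.p1add h.omx).p1sub h.c0.pt
theorem PIdx.triv (h1 : PT h') (h2 : PT c) : PT fun a => (P a).triv (h' a) (c a) := by
  exact (h.cmax.pt.nat_le h2).or (h.umax.pt.nat_le (h1.nat_add h2))
theorem PIdx.rd (hu : Sml u) (hz : PT z) : PT fun a => (P a).rd (u a) (z a) := by
  exact pt_rdn (h.gm hu).pt (h.gm hu).pb hz
theorem PIdx.Wq (hu : Sml u) (hi : Sml i) : PT fun a => (P a).Wq (u a) (i a) := by
  exact ((h.Lam hu).rat_mul (hi.p1mul (h.fx.p1addc 5)).p1qpow).rat_div h.wx.p1qpow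
theorem PIdx.Wn (hu : Sml u) : PT fun a => (P a).Wn (u a) := by
  exact hu.p1pow.nat_div (((h.c0.p1add h.d).p1add (h.p.p1cmul 13)).p1addc 2).p1pow
theorem PIdx.off (hu : Sml u) (hi : PT i) : PT fun a => (P a).off (u a) (i a) := by
  exact ((h.M.pt.nat_sub hi).rat_natCast.rat_mul h.zeta).rat_mul (h.Lam hu)
theorem PIdx.trivV (h1 : Sml h') (hz : PT z) : PT fun a => (P a).trivV (h' a) (z a) := by
  exact (h.X.nat_min ((pt_dist hz.fst hz.snd).nat_add h1.p1pow)).rat_natCast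
theorem PIdx.clsList (h1 : PT h') (h2 : PT c) : PT fun a => (P a).clsList (h' a) (c a) := by
  exact (PT.range' h2 (h.cmax.p1sub h2).pt (h.cmax.p1sub h2).pb).filter
    ((h.comp PT.fst').triv (h1.comp PT.fst') PT.snd').not.decide

/-- A ball of radius `2 ^ x Λ(u)` on the grid of a scale `v` with `u + x ≤ v + 2 kap`. -/
theorem PIdx.gball_rad {v b : α → ℕ} (hu : Sml u) (hx : Sml x) (hv : Sml v) (hb : PT b)
    (hle : ∀ a, u a + x a ≤ v a + 2 * (P a).kap) :
    PT fun a => gball (P a).X ((P a).gm (v a)) ((P a).rad (u a) (x a)) (b a) := by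
  refine pt_gball h.X (h.gm hv).pt (h.gm hv).pb (h.rad hu hx) hb (h.pb fun a => ?_)
  refine le_trans ?_ ((h.ok a).two_pow_le_pad le_rfl)
  unfold Pa.rad
  rw [Nat.div_div_eq_div_mul, ← pow_add]
  refine Nat.div_le_of_le_mul ?_
  rw [← pow_add]
  refine Nat.pow_le_pow_right two_pos ?_
  have := hle a
  unfold Pa.gm Pa.cmax
  omega

theorem PIdx.box (hu : Sml u) (hx : Sml x) (hz : PT z) (hle : ∀ a, x a ≤ 2 * (P a).kap) :
    PT fun a => (P a).box (u a) ((P a).rad (u a) (x a)) (z a) := by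
  have h1 := h.gball_rad hu hx hu hz.fst fun a => Nat.add_le_add_left (hle a) _
  have h2 := h.gball_rad hu hx hu hz.snd fun a => Nat.add_le_add_left (hle a) _
  exact (h1.product h2).filter
    ((pt_dist PT.snd'.fst PT.snd'.snd).nat_le ((h.wid hu).comp PT.fst')).decide

theorem PIdx.acts {b : α → ℕ} (hu : Sml u) (hb : PT b) :
    PT fun a => (P a).acts (u a) (b a) := by
  have hv := h.gm (hu.p1sub h.d.pt)
  refine pt_gball h.X hv.pt hv.pb (h.Wn hu) hb (h.pb fun a => ?_)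
  refine le_trans ?_ ((h.ok a).two_pow_le_pad le_rfl)
  unfold Pa.Wn
  rw [Nat.div_div_eq_div_mul, ← pow_add]
  refine Nat.div_le_of_le_mul ?_
  rw [← pow_add]
  refine Nat.pow_le_pow_right two_pos ?_
  unfold Pa.gm Pa.cmax
  omega

/-- In the lists of classes the class is bounded by `cmax`: use `min c' cmax` (or a subtype) to get
`PB` inside the `map`. -/
theorem PIdx.upQ {f : α → ℕ → St → ℚ} (hf : PT fun q : α × ℕ × St => f q.1 q.2.1 q.2.2)
    (h1 : Sml h') (h2 : PT c) (hz : PT z) : PT fun a => (P a).upQ (f a) (h' a) (c a) (z a) := by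
  have hf' : PT fun q : α × ℕ => f q.1 q.2 (z q.1) :=
    hf.comp (g := fun q : α × ℕ => (q.1, q.2, z q.1))
      (PT.fst'.prodMk (PT.snd'.prodMk (hz.comp PT.fst')))
  have hm : Sml fun q : α × ℕ => h' q.1 + min q.2 (P q.1).cmax :=
    (h1.p1comp PT.fst').p1add (Sml.p1min PT.snd' (h.cmax.p1comp PT.fst'))
  have hr := (h.comp (β := α × ℕ) PT.fst').rd hm (hz.comp PT.fst')
  have h3 := pt_minL ((h.clsList h1.pt h2).map
    (f := fun a c' => f a c' (z a) + (dst (z a) ((P a).rd (h' a + min c' (P a).cmax) (z a)) : ℚ))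
    (hf'.rat_add (pt_dst (hz.comp PT.fst') hr).rat_natCast)) (h.trivV h1 hz)
  refine h3.of_eq fun a => ?_
  unfold Pa.upQ
  congr 1
  refine List.map_congr_left fun c' hc' => ?_
  have h4 := List.mem_range'_1.1 (List.mem_of_mem_filter hc')
  rw [min_eq_left (by omega)]

theorem PIdx.cls {f : α → ℕ → St → ℚ} (hf : PT fun q : α × ℕ × St => f q.1 q.2.1 q.2.2)
    (h1 : Sml h') (h2 : PT c) (hz : PT z) :
    Sml fun a => (P a).cls (f a) (h' a) (c a) (z a) := by
  have hf' : PT fun q : α × ℕ => f q.1 q.2 (z q.1) :=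
    hf.comp (g := fun q : α × ℕ => (q.1, q.2, z q.1))
      (PT.fst'.prodMk (PT.snd'.prodMk (hz.comp PT.fst')))
  have hm : Sml fun q : α × ℕ => h' q.1 + min q.2 (P q.1).cmax :=
    (h1.p1comp PT.fst').p1add (Sml.p1min PT.snd' (h.cmax.p1comp PT.fst'))
  have hc1 : PT fun a => c a - 1 := h2.nat_sub (PT.const 1)
  have hq := h.comp (β := α × ℕ) PT.fst'
  have h3 := ((PT.range' hc1 (h.cmax.p1sub hc1).pt (h.cmax.p1sub hc1).pb).find?
    (f := fun a c' => decide ((P a).triv (h' a) c' ∨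
      f a c' (z a) ≤ (P a).Lam (h' a + min c' (P a).cmax)))
    ((hq.triv (h1.pt.comp PT.fst') PT.snd').or (hf'.rat_le (hq.Lam hm))).decide).option_getD
    h.cmax.pt
  refine Sml.p1of_le (h3.of_eq fun a => ?_) h.cmax fun a => ?_
  · unfold Pa.cls
    congr 1
    refine List.find?_congr fun c' hc' => ?_
    have h4 := List.mem_range'_1.1 hc'
    rw [min_eq_left (by omega)]
  · unfold Pa.cls
    cases h5 : List.find? _ _ with
    | none => exact le_rfl
    | some c' =>
      have h4 := List.mem_range'_1.1 (List.mem_of_find?_eq_some h5)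
      simp only [Option.getD_some]
      omega

theorem PIdx.botv {f : α → St → ℚ} (hf : PT fun q : α × St => f q.1 q.2)
    (h1 : Sml h') (h2 : Sml c) (hz : PT z) : PT fun a => (P a).botv (h' a) (c a) (f a) (z a) := by
  have hf' : PT fun a => f a (z a) := hf.comp (g := fun a => (a, z a)) (PT.id'.prodMk hz)
  exact (h.triv h1.pt h2.pt).ite (h.trivV h1 hz)
    (hf'.rat_add (pt_dst hz (h.rd (h1.p1add h2) hz)).rat_natCast)

end

/-- `vleaf` for states of bounded width (otherwise the loop is too long). -/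
theorem pt_vleaf {m : α → ℕ → Bool} {z : α → St} (hm : PT fun q : α × ℕ => m q.1 q.2) (hz : PT z)
    (hb : PB fun a => (z a).2 - (z a).1) : PT fun a => vleaf (m a) (z a) := by
  have h1 : PT fun a => (z a).2 + 1 - (z a).1 := (hz.snd.nat_add (PT.const 1)).nat_sub hz.fst
  have h2 : PB fun a => (z a).2 + 1 - (z a).1 := (hb.add (PB.const 1)).mono fun a => by omega
  exact (pt_dist hz.fst hz.snd).nat_add (PT.ite ((hz.fst.nat_le hz.snd).and
    ((PT.range' hz.fst h1 h2).all hm).eq_true) (PT.const 1) (PT.const 0))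

section plan
variable {t m β h c : α → ℕ}

theorem p1_De {k : α → ℕ} (hk : PT k) (ht : PT t) (hm : PT m) (hβ : PT β) (hh : PT h) (hc : PT c) :
    PT fun a => ((k a, t a, m a, β a, h a, c a) : De) :=
  hk.prodMk (ht.prodMk (hm.prodMk (hβ.prodMk (hh.prodMk hc))))

theorem p1_key {D : α → De} {e n : α → ℕ} (hD : PT D) (he : PT e) (hn : PT n) (b b' : Bool) :
    PT fun a => ((D a, e a, n a, b, b') : Key De) :=
  hD.prodMk (he.prodMk (hn.prodMk (PT.const (b, b'))))

/-- a list of requests numbered by the last component -/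
theorem p1_keys {D : α → De} {e n : α → ℕ} (hD : PT D) (he : PT e) (hn : Sml n) (b b' : Bool) :
    PT fun a => (List.range (n a)).map fun r => ((D a, e a, r, b, b') : Key De) :=
  hn.p1range.map (f := fun a r => ((D a, e a, r, b, b') : Key De))
    (p1_key (hD.comp PT.fst') (he.comp PT.fst') PT.snd' b b')

theorem PIdx.p1planA (hP : PIdx P) (hh : PT h) (hc : PT c) :
    PT fun a => (P a).planA (h a) (c a) := by
  have f1 : PT (Prod.fst : α × ℕ → α) := PT.fst'
  have f2 : PT (Prod.snd : α × ℕ → ℕ) := PT.snd'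
  have d0 : PT fun _ : α × ℕ => (0 : ℕ) := PT.const 0
  have hq := hP.comp f1
  have h1 := (hh.comp f1).nat_sub hq.D.pt
  have h2 := (hc.comp f1).nat_add f2
  have h3 := hq.p1pow ((Sml.p1min f2 hq.D).p1add hq.ra) fun q => by
    unfold Pa.kap Pa.ra Pa.Lx; omega
  have h5 := p1_keys (p1_De d0 d0 d0 d0 h1 h2) hq.D.pt h3 true false
  have h4 := (hq.triv h1 h2).not.decide
  have h6 := ((hP.D.p1addc 1).p1range.filter
    (f := fun a i => decide (¬ (P a).triv (h a - (P a).D) (c a + i))) h4).flatMap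
    (f := fun a i => (List.range (2 ^ (min i (P a).D + (P a).ra))).map
      fun r => qR (dA (h a - (P a).D) (c a + i)) (P a).D r) h5
  refine ((hh.eq (PT.const 0)).ite (PT.const []) h6).of_eq fun a => ?_
  unfold Pa.planA
  refine if_congr Iff.rfl rfl (List.flatMap_congr fun i hi => ?_)
  have := List.mem_range.1 (List.mem_of_mem_filter hi)
  rw [min_eq_left (by omega)]

theorem PIdx.p1planN (hP : PIdx P) (ht : PT t) (hm : PT m) (hh : PT h) (hc : PT c) :
    PT fun a => (P a).planN (t a) (m a) (h a) (c a) := by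
  have hq := hP.comp (β := α × ℕ) PT.fst'
  have c0 : PT fun _ : α => (0 : ℕ) := PT.const 0
  have d0 : PT fun _ : α × ℕ => (0 : ℕ) := PT.const 0
  have d1 : PT fun _ : α × ℕ => (1 : ℕ) := PT.const 1
  have ht1 : PT fun a => t a - 1 := ht.nat_sub (PT.const 1)
  have hm1 : PT fun q : α × ℕ => m q.1 - 1 := (hm.comp PT.fst').nat_sub d1
  have hh1 : PT fun a => h a - 1 := hh.nat_sub (PT.const 1)
  have k1 := p1_key (p1_De c0 c0 c0 c0 hh hc) c0 c0 false false
  have k2 := p1_key (p1_De (PT.const 1) ht1 hP.D.pt c0 hh hc) c0 c0 false false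
  have k3 := (hP.M.p1addc 1).p1range.map
    (f := fun a b => qT (dP (t a - 1) ((P a).M - 1) b (h a) (c a)) 0 0)
    (p1_key (p1_De (PT.const 4) (ht1.comp PT.fst') (hq.M.pt.nat_sub d1) PT.snd' (hh.comp PT.fst')
      (hc.comp PT.fst')) d0 d0 false false)
  have k4 := (hP.clsList hh (hc.nat_sub (PT.const 1))).map
    (f := fun a c' => qT (dN (t a) (m a - 1) (h a) c') 0 0)
    (p1_key (p1_De d1 (ht.comp PT.fst') hm1 d0 (hh.comp PT.fst') PT.snd') d0 d0 false false)
  have k5 := p1_De d1 (ht.comp PT.fst') hm1 d0 (hh1.comp PT.fst') PT.snd'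
  have k6 := (hP.clsList hh1 hc).flatMap
    (f := fun a c' => [qT (dN (t a) (m a - 1) (h a - 1) c') 1 0,
      qT (dN (t a) (m a - 1) (h a - 1) c') 1 1])
    ((p1_key k5 d1 d0 false false).cons ((p1_key k5 d1 d1 false false).cons (PT.const [])))
  exact (hm.eq c0).ite ((ht.eq c0).ite
      (((hh.ne c0).and (hP.D.pt.nat_dvd hh)).ite (k1.cons (PT.const [])) (PT.const []))
      (k2.cons ((hP.d.pt.nat_dvd hh).ite k3 (PT.const []))))
    (k4.append ((hh.eq c0).ite (PT.const []) k6))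

theorem PIdx.p1botKeys (hP : PIdx P) (hh : PT h) (hc : PT c) {mk : α → ℕ → De}
    (hmk : PT fun q : α × ℕ => mk q.1 q.2) : PT fun a => (P a).botKeys (h a) (c a) (mk a) := by
  have hq := hP.comp (β := α × ℕ) PT.fst'
  have h1 := p1_keys hmk hq.d.pt hq.two_pow_d false false
  have h2 := (hP.clsList (hh.nat_sub hP.d.pt) (hc.nat_sub (PT.const 1))).flatMap
    (f := fun a c' => (List.range (2 ^ (P a).d)).map fun j => qT (mk a c') (P a).d j) h1
  exact h2

theorem PIdx.p1botP (hP : PIdx P) (ht : PT t) (hm : Sml m) (hβ : PT β) (hh : PT h) (hc : PT c) :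
    PT fun a => (List.range (m a)).flatMap fun k => (P a).botKeys (h a) (c a)
      fun c' => dP (t a) k (β a) (h a - (P a).d) c' := by
  have f1 : PT (Prod.fst : α × ℕ → α) := PT.fst'
  have f2 : PT fun q : (α × ℕ) × ℕ => q.1.1 := PT.fst'.fst
  have g2 : PT fun q : (α × ℕ) × ℕ => q.1.2 := PT.fst'.snd
  have hq := hP.comp f1
  have a1 := ht.comp f2
  have a2 := hβ.comp f2
  have a3 := (hh.nat_sub hP.d.pt).comp f2
  have a4 := p1_De (PT.const 4) a1 g2 a2 a3 PT.snd'
  have a5 := hh.comp f1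
  have a6 := hc.comp f1
  have k3 := hq.p1botKeys a5 a6
      (mk := fun q c' => dP (t q.1) q.2 (β q.1) (h q.1 - (P q.1).d) c') a4
  exact hm.p1range.flatMap
    (f := fun a k => (P a).botKeys (h a) (c a) fun c' => dP (t a) k (β a) (h a - (P a).d) c') k3

theorem PIdx.p1planR (hP : PIdx P) (ht : PT t) (hm : Sml m) (hβ : PT β) (hh : PT h) (hc : PT c) :
    PT fun a => (P a).planR (t a) (m a) (β a) (h a) (c a) := by
  have c0 : PT fun _ : α => (0 : ℕ) := PT.const 0
  have d0 : PT fun _ : α × ℕ => (0 : ℕ) := PT.const 0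
  have f1 : PT (Prod.fst : α × ℕ → α) := PT.fst'
  have f2 : PT (Prod.snd : α × ℕ → ℕ) := PT.snd'
  have hq := hP.comp f1
  have at' := ht.comp f1
  have am := hm.pt.comp f1
  have aβ := hβ.comp f1
  have ah := hh.comp f1
  have ac := hc.comp f1
  have ad := ah.nat_sub hq.d.pt
  have s1 := hq.p1pow (Sml.p1min f2 hq.d) fun q => by
    have := (hP.ok q.1).wx_le
    unfold Pa.kap; omega
  have j1 := p1_keys (p1_De (PT.const 2) at' d0 d0 (ah.nat_sub f2) ac) f2 s1 false false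
  have k1 := hP.d.p1range.flatMap
    (f := fun a i => (List.range (2 ^ min i (P a).d)).map
      fun j => qT (dT (t a) (h a - i) (c a)) i j) j1
  have j2 := p1_De (PT.const 2) at' d0 d0 ad f2
  have k2 := hP.p1botKeys hh hc (mk := fun a c' => dT (t a) (h a - (P a).d) c') j2
  have k4 := hP.p1botP ht hm hβ hh hc
  have k5 := hP.p1botP ht (hm.p1addc 1) (hβ.nat_sub (PT.const 1)) hh hc
  have hci := (ac.nat_sub (PT.const 1)).nat_add f2
  have s2 := (hq.kT.p1sq.p1addc 1).p1mul (hq.p1pow ((Sml.p1min f2 hq.I).p1add hq.rx) fun q => by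
    have := (hP.ok q.1).wx_le
    have := (hP.ok q.1).p_ge
    unfold Pa.kap Pa.I Pa.rx; omega)
  have j3 := (hq.triv ad hci).not.decide
  have j4 := p1_keys (p1_De (PT.const 3) at' am aβ ad hci) hq.d.pt s2 true true
  have k6 := (hP.I.p1range.filter
    (f := fun a i => decide (¬ (P a).triv (h a - (P a).d) (c a - 1 + i))) j3).flatMap
    (f := fun a i => (List.range (((P a).kT ^ 2 + 1) * 2 ^ (min i (P a).I + (P a).rx))).map
      fun n => qF (dR (t a) (m a) (β a) (h a - (P a).d) (c a - 1 + i)) (P a).d n) j4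
  refine ((hh.eq c0).ite (PT.const []) ((((k1.append k2).append k4).append
    ((hβ.eq c0).ite (PT.const []) k5)).append k6)).of_eq fun a => ?_
  unfold Pa.planR
  refine if_congr Iff.rfl rfl (congrArg₂ _ (congrArg₂ _ (congrArg₂ _ (congrArg₂ _ ?_ rfl) rfl) rfl) ?_)
  · refine List.flatMap_congr fun i hi => ?_
    rw [min_eq_left (List.mem_range.1 hi).le]
  · refine List.flatMap_congr fun i hi => ?_
    rw [min_eq_left (List.mem_range.1 (List.mem_of_mem_filter hi)).le]

theorem PIdx.p1plan {k : α → ℕ} (hP : PIdx P) (hk : PT k) (ht : PT t) (hm : Sml m) (hβ : PT β)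
    (hh : PT h) (hc : PT c) : PT fun a => (P a).plan (k a, t a, m a, β a, h a, c a) := by
  have f1 : PT (Prod.fst : α × ℕ → α) := PT.fst'
  have f2 : PT (Prod.snd : α × ℕ → ℕ) := PT.snd'
  have d0 : PT fun _ : α × ℕ => (0 : ℕ) := PT.const 0
  have a1 := ht.comp f1
  have a2 := (hP.comp f1).D.pt.nat_add f2
  have a3 := hh.comp f1
  have a4 := hc.comp f1
  have a5 := p1_key (p1_De (PT.const 1) a1 a2 d0 a3 a4) d0 d0 false false
  have k2 := hP.M.p1range.map
    (f := fun a k' => qT (dN (t a) ((P a).D + k') (h a) (c a)) 0 0) a5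
  have k4 := p1_keys (p1_De (PT.const 3) ht hm.pt hβ hh hc) (PT.const 0) hP.two_pow_rf true true
  have k0 := hP.p1planA hh hc
  have k1 := hP.p1planN ht hm.pt hh hc
  have k3 := hP.p1planR ht hm hβ hh hc
  have k5 := (hk.eq (PT.const 0)).ite k0 ((hk.eq (PT.const 1)).ite k1
    ((hk.eq (PT.const 2)).ite k2 ((hk.eq (PT.const 3)).ite k3 k4)))
  exact k5.of_eq fun a => by simp only [Pa.plan]

end plan

/-- the index set of good descriptors -/
abbrev P1G : Type := {a : Pa × De // Good a.1 a.2}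

theorem p1_idx : PIdx fun a : P1G => a.1.1 := ⟨PT.id'.subtypeVal.fst, fun a => a.2.1⟩
theorem p1_De' : PT fun a : P1G => a.1.2 := PT.id'.subtypeVal.snd
theorem p1_t : Sml fun a : P1G => a.1.2.2.1 :=
  Sml.p1of_le p1_De'.snd.fst p1_idx.T fun ⟨⟨P, k, t, m, β, h, c⟩, hG⟩ => by
    have := hG.2.2.2
    dsimp only at this
    show t ≤ P.T
    omega
theorem p1_m : Sml fun a : P1G => a.1.2.2.2.1 :=
  Sml.p1of_le p1_De'.snd.snd.fst (p1_idx.D.p1add p1_idx.M) fun ⟨⟨P, k, t, m, β, h, c⟩, hG⟩ => by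
    have := hG.2.2.2
    dsimp only at this
    show m ≤ P.D + P.M
    omega
theorem p1_β : Sml fun a : P1G => a.1.2.2.2.2.1 :=
  Sml.p1of_le p1_De'.snd.snd.snd.fst p1_idx.M fun ⟨⟨P, k, t, m, β, h, c⟩, hG⟩ => by
    have := hG.2.2.2
    dsimp only at this
    show β ≤ P.M
    omega
theorem p1_h : Sml fun a : P1G => a.1.2.2.2.2.2.1 :=
  Sml.p1of_le p1_De'.snd.snd.snd.snd.fst p1_idx.L fun a => a.2.2.1
theorem p1_c : PT fun a : P1G => a.1.2.2.2.2.2.2 := p1_De'.snd.snd.snd.snd.snd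

theorem p1_rk : Sml fun a : P1G => a.1.1.rk a.1.2 := by
  have hP := p1_idx
  have hk := p1_De'.fst
  have hb : Sml fun a : P1G => a.1.1.base a.1.2.2.1 :=
    ((hP.L.p1div hP.D.pt).p1addc 1).p1add
      (p1_t.p1mul ((hP.D.p1add (hP.M.p1cmul 5)).p1addc 2))
  have h0 := p1_h.p1div hP.D.pt
  have h1 := hb.p1add p1_m
  have h2 := (hb.p1add hP.D).p1add hP.M
  have h3 := (p1_m.p1add p1_β).p1cmul 2
  exact ⟨(hk.eq (PT.const 0)).ite h0.pt ((hk.eq (PT.const 1)).ite h1.pt
      ((hk.eq (PT.const 2)).ite (h2.p1addc 1).pt ((hk.eq (PT.const 3)).ite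
        ((h2.p1addc 2).p1add h3).pt ((h2.p1addc 3).p1add h3).pt))),
    h0.pb.ite (h1.pb.ite ((h2.p1addc 1).pb.ite (((h2.p1addc 2).p1add h3).pb.ite
      ((h2.p1addc 3).p1add h3).pb)))⟩

theorem pt_plan : PT fun a : {a : Pa × De // Good a.1 a.2} => a.1.1.plan a.1.2 := by
  have h := p1_idx.p1plan p1_De'.fst p1_t.pt p1_m p1_β.pt p1_h.pt p1_c
  exact h

theorem pt_pot : PT fun a : {a : Pa × De // Good a.1 a.2} => a.1.1.pot a.1.2 := by
  have hP := p1_idx
  exact (((hP.Lx.p1add ((hP.Lx.p1cmul 14).p1mul p1_rk)).p1add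
    ((hP.p.p1cmul 44).p1mul (p1_h.p1div hP.d.pt))).p1add (hP.cmax.p1sub p1_c)).p1pow

theorem pt_rk : PT fun a : {a : Pa × De // Good a.1 a.2} => a.1.1.rk a.1.2 := by
  exact p1_rk.pt

end Crest.Agent.R288
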