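/-
R288/PT2: polynomial time of the rules of the start and of stage A.
-/
import Crest.Agent.R288.PT1

set_option autoImplicit false

namespace Crest.Agent.R288

open Finset Crest.Agent.Lib.PolyTime

variable {α : Type} [Enc α] {P : α → Pa} {G : α → Key De → St → ℚ} {ms : α → ℕ → Bool}
  {t k h c : α → ℕ} {z : α → St}

theorem Sml.p2comp {β : Type} [Enc β] {f : α → ℕ} (hf : Sml f) {φ : β → α} (hφ : PT φ) :
    Sml fun b => f (φ b) := ⟨hf.pt.comp hφ, hf.pb.comp hφ⟩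

theorem Sml.p2add {f g : α → ℕ} (hf : Sml f) (hg : Sml g) : Sml fun a => f a + g a :=
  ⟨hf.pt.nat_add hg.pt, hf.pb.add hg.pb⟩

theorem Sml.p2sub {f g : α → ℕ} (hf : Sml f) (hg : PT g) : Sml fun a => f a - g a :=
  ⟨hf.pt.nat_sub hg, hf.pb.sub⟩

theorem Sml.p2const (n : ℕ) : Sml fun _ : α => n := ⟨PT.const n, PB.const n⟩

theorem Sml.p2min {f g : α → ℕ} (hf : PT f) (hg : Sml g) : Sml fun a => min (f a) (g a) :=
  ⟨hf.nat_min hg.pt, hg.pb.min_right⟩

theorem PIdx.p2pow (hP : PIdx P) {f : α → ℕ} (hf : Sml f) (hle : ∀ a, f a ≤ 3 * (P a).kap) :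
    Sml fun a => 2 ^ f a :=
  ⟨(PT.const 2).nat_pow hf.pt hf.pb, hP.pb fun a => (hP.ok a).two_pow_le_pad (hle a)⟩

theorem Pa.OK.p2_d_le {P : Pa} (h : P.OK) : P.d ≤ P.D := Nat.le_of_dvd h.D_pos h.d_dvd_D

theorem Pa.OK.p2_cp {P : Pa} (h : P.OK) : P.cp ≤ 2 * P.kap := by
  have h1 := h.p2_d_le
  have h2 := h.pd
  unfold Pa.cp Pa.kap Pa.Lx
  omega

theorem Pa.OK.p2_tw {P : Pa} (h : P.OK) : P.tw + 1 ≤ 2 * P.kap := by
  have h1 := h.p2_d_le
  unfold Pa.tw Pa.kap Pa.Lx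
  omega

/-- States of nontrivial worlds of height `0` are narrow. -/
theorem Pa.OK.p2_wid {P : Pa} (h : P.OK) {c : ℕ} (hc : ¬ P.triv 0 c) : P.wid c ≤ P.pad := by
  have h1 : c < P.c0 + P.kap := not_le.1 fun h' => hc (Or.inl h')
  have h2 := h.p2_tw
  refine le_trans ?_ (h.two_pow_le_pad le_rfl)
  unfold Pa.wid Pa.rad
  refine Nat.div_le_of_le_mul ?_
  rw [← pow_add]
  exact Nat.pow_le_pow_right (by norm_num) (by omega)

theorem pt2_vleaf (hP : PIdx P) (hm : PT fun q : α × ℕ => ms q.1 q.2) (hh : PT h) (hz : PT z)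
    (hw : ∀ a, ¬ (P a).triv (h a) (c a) ∧ (P a).inW (h a + c a) (z a)) :
    PT fun a => if h a = 0 then vleaf (ms a) (z a) else 0 := by
  have h0 : PT fun a => h a = 0 := hh.eq (PT.const 0)
  have h1 := pt_vleaf (z := fun a => if h a = 0 then z a else (0, 0)) hm
    (h0.ite hz (PT.const _)) (hP.pb fun a => by
      split_ifs with ha
      · obtain ⟨h2, h3⟩ := hw a
        rw [ha] at h2 h3
        have h4 := (hP.ok a).p2_wid h2
        have h5 := h3.2.2.2.2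
        rw [Nat.zero_add] at h5
        unfold Nat.dist at h5
        omega
      · simp)
  exact (h0.ite h1 (PT.const 0)).of_eq fun a => by split_ifs <;> rfl

theorem pt2_hiA {u : α → ℕ} (hP : PIdx P) (hu : Sml u) : PT fun a => (P a).hiA (u a) :=
  have h1 := hP.Lx.p2add (Sml.p2const 2)
  ((PT.const 2).rat_pow h1.pt h1.pb).rat_mul (hP.Lam hu)

theorem pt2_aenv {f : α → St → ℚ} {b : α → ℕ} (hP : PIdx P)
    (hf : PT fun q : α × St => f q.1 q.2) (hh : Sml h) (hc : Sml c) (hb : PT b) :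
    PT fun a => (P a).aenv (f a) (h a) (c a) (b a) := by
  have hu := hh.p2add hc
  have h1 := pt2_hiA hP hu
  have h2 := hP.gball_rad hu (hP.Lx.p2add (Sml.p2const 1)) hu hb fun a => by
    unfold Pa.kap Pa.Lx; omega
  refine (hP.triv hh.pt hc.pt).ite (h1.rat_min (hP.trivV hh (hb.prodMk hb))) (pt_minL ?_ h1)
  refine h2.map (f := fun a x => f a (x, x) + 2 * (Nat.dist x (b a) : ℚ)) ?_
  exact (hf.comp (g := fun p : α × ℕ => (p.1, (p.2, p.2))) (by fun_prop)).rat_add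
    ((PT.const 2).rat_mul (pt_dist PT.snd' (hb.comp PT.fst')).rat_natCast)

theorem pt2_phiA {i : α → ℕ} {x : α → ℚ} (hP : PIdx P) (hh : Sml h) (hc : Sml c) (hi : Sml i)
    (hx : PT x) : PT fun a => (P a).phiA (h a) (c a) (i a) (x a) := by
  have hu := (hh.p2add hc).p2add hi
  exact (PT.const 0).rat_max ((hx.rat_min (pt2_hiA hP hu)).rat_sub
    ((hi.pt.eq (PT.const 0)).ite (PT.const 0) (pt2_hiA hP (hu.p2sub (PT.const 1)))))

theorem pt2_aTerm {f : α → ℕ → ℕ → St → ℚ} {b i : α → ℕ} (hP : PIdx P)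
    (hf : PT fun q : α × ℕ × St => f q.1 (i q.1) q.2.1 q.2.2) (hh : Sml h) (hc : Sml c)
    (hb : PT b) (hi : Sml i) (hle : ∀ a, i a ≤ (P a).D) :
    PT fun a => (P a).aTerm (f a) (h a) (c a) (b a) (i a) := by
  have h1 := hi.p2add hP.ra
  have h2 := hP.p2pow h1 fun a => by
    have := hle a
    unfold Pa.kap Pa.ra Pa.Lx
    omega
  have h3 := hh.p2sub hP.D.pt
  refine (((PT.const 2).rat_pow hP.D.pt hP.D.pb).rat_div
    ((PT.const 2).rat_pow h1.pt h1.pb)).rat_mul (PT.sum_range_rat h2.pt h2.pb ?_)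
  have e : PT (Prod.fst : α × ℕ → α) := PT.fst'
  exact pt2_phiA (hP.comp e) (h3.p2comp e) (hc.p2comp e) (hi.p2comp e)
    (pt2_aenv (f := fun p : α × ℕ => f p.1 (i p.1) p.2) (hP.comp e)
      (hf.comp (g := fun q : (α × ℕ) × St => (q.1.1, q.1.2, q.2)) (by fun_prop))
      (h3.p2comp e) ((hc.p2add hi).p2comp e) (hb.comp e))

theorem pt2_nzero {f : α → St → ℚ} (hP : PIdx P) (hf : PT fun q : α × St => f q.1 q.2)
    (hm : PT fun q : α × ℕ => ms q.1 q.2) (hh : Sml h) (hc : Sml c) (hz : PT z)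
    (hw : ∀ a, ¬ (P a).triv (h a) (c a) ∧ (P a).inW (h a + c a) (z a)) :
    PT fun a => (P a).nzero (f a) (ms a) (h a) (c a) (z a) := by
  have h0 : PT fun a => h a = 0 := hh.pt.eq (PT.const 0)
  have h1 := pt2_vleaf hP hm hh.pt hz hw
  have h2 : PT fun a => f a ((z a).1, (z a).1) :=
    hf.comp (g := fun a => (a, ((z a).1, (z a).1))) (by fun_prop)
  have h3 := hP.trivV hh hz
  refine (h0.ite (hP.X.nat_min h1).rat_natCast ((hP.D.pt.nat_dvd hh.pt).ite
    (h3.rat_min ((h2.rat_lt (pt2_hiA hP (hh.p2add hc))).ite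
      (h2.rat_add (pt_dist hz.fst hz.snd).rat_natCast) hP.X.rat_natCast)) h3)).of_eq fun a => ?_
  unfold Pa.nzero
  split_ifs <;> rfl

theorem pt2_nnext {n : α → St → ℚ} {pm : α → ℕ → St → ℚ} (hP : PIdx P)
    (hn : PT fun a => n a (z a)) (hp : PT fun q : α × ℕ => pm q.1 q.2 (z q.1)) (hh : Sml h)
    (hc : Sml c) : PT fun a => (P a).nnext (n a) (pm a) (h a) (c a) (z a) := by
  have h1 := hP.M.p2add (Sml.p2const 1)
  have e : PT (Prod.fst : α × ℕ → α) := PT.fst'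
  refine pt_minL ((hP.d.pt.nat_dvd hh.pt).ite ?_ (PT.const [])) hn
  refine (PT.range h1.pt h1.pb).map (f := fun a β =>
    if pm a β (z a) < 3 * (P a).Lam (h a + c a) then pm a β (z a) else (P a).X) ?_
  exact (hp.rat_lt ((PT.const 3).rat_mul ((hP.Lam (hh.p2add hc)).comp e))).ite hp
    (hP.X.rat_natCast.comp e)

theorem pt2_nstep {f0 fL fR : α → ℕ → St → ℚ} (hP : PIdx P)
    (h0 : PT fun q : α × ℕ × St => f0 q.1 q.2.1 q.2.2)
    (hL : PT fun q : α × ℕ × St => fL q.1 q.2.1 q.2.2)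
    (hR : PT fun q : α × ℕ × St => fR q.1 q.2.1 q.2.2) (hh : Sml h) (hc : Sml c) (hz : PT z) :
    PT fun a => (P a).nstep (f0 a) (fL a) (fR a) (h a) (c a) (z a) := by
  have hu := hh.p2add hc
  have hc' := hc.pt
  have e : PT (Prod.fst : α × ℕ → α) := PT.fst'
  have h1 := hP.box hu hP.cp hz fun a => (hP.ok a).p2_cp
  have h2 := hP.gball_rad hu hP.tw (hu.p2sub (PT.const 1)) hz.fst fun a => by
    have := (hP.ok a).p2_tw
    omega
  have h3 := (hh.p2sub (PT.const 1)).p2comp e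
  refine pt_minL (PT.append ?_ ((hh.pt.eq (PT.const 0)).ite (PT.const []) ?_))
    (hP.upQ h0 hh (hc.pt.nat_sub (PT.const 1)) hz)
  · refine h1.map (f := fun a z' => f0 a (c a) z' + dst (z a) z') ?_
    exact (h0.comp (g := fun p : α × St => (p.1, c p.1, p.2)) (by fun_prop)).rat_add
      (pt_dst (hz.comp PT.fst') PT.snd').rat_natCast
  · refine h2.map (f := fun a x => (P a).upQ (fL a) (h a - 1) (c a) ((z a).1, x) +
      (P a).upQ (fR a) (h a - 1) (c a) (x, (z a).2)) ?_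
    exact ((hP.comp e).upQ (f := fun p : α × ℕ => fL p.1)
      (hL.comp (g := fun q : (α × ℕ) × ℕ × St => (q.1.1, q.2)) (by fun_prop)) h3 (hc.pt.comp e)
      ((hz.fst.comp e).prodMk PT.snd')).rat_add
      ((hP.comp e).upQ (f := fun p : α × ℕ => fR p.1)
        (hR.comp (g := fun q : (α × ℕ) × ℕ × St => (q.1.1, q.2)) (by fun_prop)) h3 (hc.pt.comp e)
        (PT.snd'.prodMk (hz.snd.comp e)))

theorem pt_ruleA (hP : PIdx P) (hG : PT fun q : α × Key De × St => G q.1 q.2.1 q.2.2)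
    (hm : PT fun q : α × ℕ => ms q.1 q.2) (hh : Sml h) (hc : Sml c) (hz : PT z)
    (hw : ∀ a, ¬ (P a).triv (h a) (c a) ∧ (P a).inW (h a + c a) (z a)) :
    PT fun a => (P a).ruleA (G a) (ms a) (h a) (c a) (z a) := by
  have h0 : PT fun a => h a = 0 := hh.pt.eq (PT.const 0)
  have h1 := pt2_vleaf hP hm hh.pt hz hw
  have e : PT (Prod.fst : α × ℕ → α) := PT.fst'
  have hh' := hh.pt
  have hc' := hc.pt
  have hD := hP.D.pt
  have key : ∀ D : α → ℕ, PT D → PT fun q : (α × ℕ) × ℕ × St => (q.1.1, qR (dA (h q.1.1 - D q.1.1)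
      (c q.1.1 + min q.1.2 (D q.1.1))) (D q.1.1) q.2.1, q.2.2) := fun D hD => by fun_prop
  have h2 := pt2_aTerm (i := fun p : α × ℕ => min p.2 (P p.1).D)
    (f := fun (p : α × ℕ) i r => G p.1 (qR (dA (h p.1 - (P p.1).D) (c p.1 + i)) (P p.1).D r))
    (hP.comp e)
    (hG.comp (g := fun q : (α × ℕ) × ℕ × St => (q.1.1, qR (dA (h q.1.1 - (P q.1.1).D)
      (c q.1.1 + min q.1.2 (P q.1.1).D)) (P q.1.1).D q.2.1, q.2.2))
      (key (fun a => (P a).D) hD))
    (hh.p2comp e) (hc.p2comp e) (hz.fst.comp e) (Sml.p2min PT.snd' (hP.D.p2comp e))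
    fun p => min_le_right _ _
  have h3 := hP.D.p2add (Sml.p2const 1)
  have h4 := PT.sum_range_rat (f := fun a i => (P a).aTerm
    (fun i r => G a (qR (dA (h a - (P a).D) (c a + i)) (P a).D r)) (h a) (c a) (z a).1
      (min i (P a).D)) h3.pt h3.pb h2
  refine (h0.ite h1.rat_natCast (hP.X.rat_natCast.rat_min
    ((((PT.const 1).rat_add ((PT.const 2).rat_mul hP.del)).rat_mul h4).rat_add
      ((hP.del.rat_pow (PT.const 2) (PB.const 2)).rat_mul (hP.Lam (hh.p2add hc)))))).of_eq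
    fun a => ?_
  unfold Pa.ruleA Pa.aComb
  split_ifs
  · rfl
  · rw [sum_congr rfl fun i hi => by rw [min_eq_left (Nat.lt_succ_iff.1 (mem_range.1 hi))]]

theorem pt_ruleN (hP : PIdx P) (hG : PT fun q : α × Key De × St => G q.1 q.2.1 q.2.2)
    (hm : PT fun q : α × ℕ => ms q.1 q.2) (ht : PT t) (hk : PT k) (hh : Sml h) (hc : Sml c)
    (hz : PT z) (hw : ∀ a, ¬ (P a).triv (h a) (c a) ∧ (P a).inW (h a + c a) (z a)) :
    PT fun a => (P a).ruleN (G a) (ms a) (t a) (k a) (h a) (c a) (z a) := by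
  have hh' := hh.pt
  have hc' := hc.pt
  have hD := hP.D.pt
  have hM := hP.M.pt
  have key : ∀ M : α → ℕ, PT M → PT fun q : α × ℕ => (q.1,
      qT (dP (t q.1 - 1) (M q.1 - 1) q.2 (h q.1) (c q.1)) 0 0, z q.1) := fun M hM => by fun_prop
  refine (hk.eq (PT.const 0)).ite ((ht.eq (PT.const 0)).ite ?_ ?_) ?_
  · exact pt2_nzero (f := fun a => G a (qT (dA (h a) (c a)) 0 0)) hP
      (hG.comp (g := fun q : α × St => (q.1, qT (dA (h q.1) (c q.1)) 0 0, q.2)) (by fun_prop))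
      hm hh hc hz hw
  · exact pt2_nnext (n := fun a => G a (qT (dN (t a - 1) (P a).D (h a) (c a)) 0 0))
      (pm := fun a β => G a (qT (dP (t a - 1) ((P a).M - 1) β (h a) (c a)) 0 0)) hP
      (hG.comp (g := fun a => (a, qT (dN (t a - 1) (P a).D (h a) (c a)) 0 0, z a)) (by fun_prop))
      (hG.comp (g := fun q : α × ℕ => (q.1,
        qT (dP (t q.1 - 1) ((P q.1).M - 1) q.2 (h q.1) (c q.1)) 0 0, z q.1))
        (key (fun a => (P a).M) hM)) hh hc
  · exact pt2_nstep (f0 := fun a c' => G a (qT (dN (t a) (k a - 1) (h a) c') 0 0))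
      (fL := fun a c' => G a (qT (dN (t a) (k a - 1) (h a - 1) c') 1 0))
      (fR := fun a c' => G a (qT (dN (t a) (k a - 1) (h a - 1) c') 1 1)) hP
      (hG.comp (g := fun q : α × ℕ × St =>
        (q.1, qT (dN (t q.1) (k q.1 - 1) (h q.1) q.2.1) 0 0, q.2.2)) (by fun_prop))
      (hG.comp (g := fun q : α × ℕ × St =>
        (q.1, qT (dN (t q.1) (k q.1 - 1) (h q.1 - 1) q.2.1) 1 0, q.2.2)) (by fun_prop))
      (hG.comp (g := fun q : α × ℕ × St =>
        (q.1, qT (dN (t q.1) (k q.1 - 1) (h q.1 - 1) q.2.1) 1 1, q.2.2)) (by fun_prop)) hh hc hz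

theorem pt_ntil {f : α → ℕ → St → ℚ} {u : α → ℕ} (hP : PIdx P)
    (hf : PT fun q : α × ℕ × St => f q.1 q.2.1 q.2.2) (hu : Sml u) (hz : PT z) :
    PT fun a => (P a).ntil (f a) (u a) (z a) := by
  have e : PT (Prod.fst : α × St → α) := PT.fst'
  have h1 := hP.box hu hP.cp hz fun a => (hP.ok a).p2_cp
  refine pt_minL ?_ (hP.cap.rat_mul (hP.Lam hu))
  refine h1.map (f := fun a z' => (P a).nbar (f a) z' + dst (z a) z') ?_
  refine PT.rat_add ?_ (pt_dst (hz.comp e) PT.snd').rat_natCast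
  have h2 := hP.M.p2comp e
  have h3 := hP.s.p2comp e
  exact pt_rup h3.pt h3.pb ((PT.sum_range_rat (f := fun (p : α × St) k => f p.1 k p.2) h2.pt h2.pb
    (hf.comp (g := fun q : (α × St) × ℕ => (q.1.1, q.2, q.1.2)) (by fun_prop))).rat_div
    h2.pt.rat_natCast)

theorem pt_tabAvg {f : α → ℕ → St → ℚ} (hP : PIdx P)
    (hf : PT fun q : α × ℕ × St => f q.1 q.2.1 q.2.2) (hz : PT z) :
    PT fun a => (P a).tabAvg (f a) (z a) := by
  exact (PT.sum_range_rat (f := fun a r => f a r (z a)) hP.two_pow_rf.pt hP.two_pow_rf.pb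
    (hf.comp (g := fun q : α × ℕ => (q.1, q.2, z q.1)) (by fun_prop))).rat_div
    ((PT.const 2).rat_pow hP.rf.pt hP.rf.pb)

theorem pt_rawLeaf (hP : PIdx P) (hm : PT fun q : α × ℕ => ms q.1 q.2) (hc : Sml c) (hk : PT k)
    (hz : PT z) (hw : ∀ a, ¬ (P a).triv 0 (c a) ∧ (P a).inW (c a) (z a)) :
    PT fun a => (P a).rawLeaf (ms a) (c a) (k a) (z a) := by
  have h1 := pt2_vleaf (h := fun _ => 0) (c := c) hP hm (PT.const 0) hz fun a => by
    simpa using hw a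
  exact (((hP.X.nat_min h1).rat_natCast.rat_min ((PT.const 3).rat_mul (hP.Lam hc))).rat_add
    (hP.off hc hk)).of_eq fun a => by simp only [Pa.rawLeaf, if_true]

theorem pt_estF {Ix : α → ℕ → ℕ → ℕ} {Rw : α → ℕ → ℕ → St → ℚ} {j c' : α → ℕ} (hP : PIdx P)
    (hI : PT fun q : α × ℕ × ℕ => Ix q.1 q.2.1 q.2.2)
    (hR : PT fun q : α × ℕ × ℕ × St => Rw q.1 q.2.1 q.2.2.1 q.2.2.2) (hc : PT c) (hj : PT j)
    (hc' : PT c') (hz : PT z) :
    PT fun a => (P a).estF (c a) (Ix a) (Rw a) (j a) (c' a) (z a) := by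
  have hi : PT fun a => c' a - (c a - 1) := hc'.nat_sub (hc.nat_sub (PT.const 1))
  have h1 := Sml.p2min hi hP.I
  have h1' := h1.pt
  have h2 := h1.p2add hP.rx
  have h3 := hP.p2pow h2 fun a => by
    have h4 := (hP.ok a).p2_d_le
    have h5 := (hP.ok a).pd
    have h6 := min_le_right (c' a - (c a - 1)) (P a).I
    unfold Pa.kap Pa.rx Pa.Lx
    unfold Pa.I at h6 ⊢
    omega
  have h4 := PT.sum_range_rat (f := fun a r =>
    if Ix a (c' a - (c a - 1)) r = j a then Rw a (c' a - (c a - 1)) r (z a) else 0) h3.pt h3.pb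
    (((hI.comp (g := fun q : α × ℕ => (q.1, c' q.1 - (c q.1 - 1), q.2)) (by fun_prop)).eq
      (hj.comp PT.fst')).ite
      (hR.comp (g := fun q : α × ℕ => (q.1, c' q.1 - (c q.1 - 1), q.2, z q.1)) (by fun_prop))
      (PT.const 0))
  refine ((hi.nat_lt hP.I.pt).ite ((((PT.const 2).rat_pow hP.d.pt hP.d.pb).rat_div
    ((PT.const 2).rat_pow h2.pt h2.pb)).rat_mul h4) (PT.const 0)).of_eq fun a => ?_
  unfold Pa.estF
  split_ifs with h5
  · rw [min_eq_left h5.le]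
  · rfl

end Crest.Agent.R288
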