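/-
R288/PT3: polynomial time of the centres and of the full dynamic program.
-/
import Crest.Agent.R288.PT1

set_option autoImplicit false

namespace Crest.Agent.R288

open Finset Crest.Agent.Lib.PolyTime

variable {α : Type} [Enc α] {P : α → Pa} {nt pm : α → ℕ → ℕ → ℕ → St → ℚ}
  {h c i j e k β : α → ℕ} {y z : α → St}

/-- A computable family of lookups. -/
abbrev PT4 (f : α → ℕ → ℕ → ℕ → St → ℚ) : Prop :=
  PT fun q : α × ℕ × ℕ × ℕ × St => f q.1 q.2.1 q.2.2.1 q.2.2.2.1 q.2.2.2.2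

theorem PT3_app {f : α → ℕ → ℕ → ℕ → St → ℚ} (hf : PT4 f) {γ : Type} [Enc γ] {φ : γ → α}
    {a b c : γ → ℕ} {z : γ → St} (hφ : PT φ) (ha : PT a) (hb : PT b) (hc : PT c) (hz : PT z) :
    PT fun x => f (φ x) (a x) (b x) (c x) (z x) :=
  PT.comp (g := fun x => (φ x, a x, b x, c x, z x)) hf
    (hφ.prodMk (ha.prodMk (hb.prodMk (hc.prodMk hz))))

theorem PT3_comp {f : α → ℕ → ℕ → ℕ → St → ℚ} (hf : PT4 f) {γ : Type} [Enc γ] {φ : γ → α}
    (hφ : PT φ) : PT4 fun x => f (φ x) :=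
  PT3_app hf (hφ.comp PT.fst') PT.snd'.fst PT.snd'.snd.fst PT.snd'.snd.snd.fst PT.snd'.snd.snd.snd

theorem PT3_scomp {f : α → ℕ} (hf : Sml f) {γ : Type} [Enc γ] {φ : γ → α} (hφ : PT φ) :
    Sml fun x => f (φ x) := ⟨hf.pt.comp hφ, hf.pb.comp hφ⟩

theorem PT3_add {f g : α → ℕ} (hf : Sml f) (hg : Sml g) : Sml fun a => f a + g a :=
  ⟨hf.pt.nat_add hg.pt, hf.pb.add hg.pb⟩

theorem PT3_sub {f g : α → ℕ} (hf : Sml f) (hg : PT g) : Sml fun a => f a - g a :=
  ⟨hf.pt.nat_sub hg, hf.pb.sub⟩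

theorem PT3_const (n : ℕ) : Sml fun _ : α => n := ⟨PT.const n, PB.const n⟩

theorem PT3_le {f g : α → ℕ} (hf : PT f) (hg : Sml g) (h : ∀ a, f a ≤ g a) : Sml f :=
  ⟨hf, hg.pb.mono h⟩

theorem PT3_kap {P : Pa} (h : P.OK) : P.d + 2 ≤ 2 * P.kap := by
  have h1 := Nat.le_of_dvd h.D_pos h.d_dvd_D
  unfold Pa.kap Pa.Lx
  omega

theorem PT3_small {u : α → ℕ} {v : α → ℚ} (hP : PIdx P) (hu : Sml u) (hi : Sml i) (hv : PT v) :
    PT fun a => (P a).small (u a) (i a) (v a) :=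
  hv.rat_le (((PT.const 3).rat_mul ((PT.const 2).rat_pow hP.fx.pt hP.fx.pb)).rat_mul (hP.Wq hu hi))

theorem PT3_term {u : α → ℕ} {v : α → ℚ} (hP : PIdx P) (hu : Sml u) (hi : Sml i) (hv : PT v)
    (hz : PT z) : PT fun a => (P a).term (u a) (i a) (v a) (z a) :=
  (PT3_small hP hu hi hv).not.and ((hv.rat_le (((PT.const 1).rat_add
    ((PT.const 2).rat_mul hP.fq)).rat_mul (pt_dist hz.fst hz.snd).rat_natCast)).and
      (hv.rat_lt (hP.cap.rat_mul (hP.Lam (PT3_sub hu hi.pt)))))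

theorem pt_grd {u : α → ℕ} (hP : PIdx P) (hu : Sml u) (hy : PT y) (hn : PT4 nt) :
    PT4 fun a => (P a).grd (u a) (y a) (nt a) := by
  exact ((pt_dist PT.snd'.snd.snd.snd.fst (hy.comp PT.fst').fst).nat_le
    ((hP.rad hu (PT3_const 3)).comp PT.fst')).ite hn (hP.X.comp PT.fst').rat_natCast

theorem pt_mid (hP : PIdx P) (hh : Sml h) (hc : Sml c) (hn : PT4 nt) (hi : PT i) (hj : PT j)
    (hz : PT z) (hid : ∀ a, i a < (P a).d) :
    PT fun a => (P a).mid (h a) (c a) (nt a) (i a) (j a) (z a) := by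
  have hu := PT3_add hh hc
  have hi' : Sml i := PT3_le hi hP.d fun a => (hid a).le
  have hv := PT3_app hn PT.id' hi hj hc.pt hz
  have hg := hP.gball_rad hu (PT3_const 2) (PT3_sub hu (hi.nat_add (PT.const 1))) hz.fst fun a => by
    have h1 := PT3_kap (hP.ok a)
    have h2 := hid a
    omega
  have hz1 : PT fun q : α × ℕ => (z q.1).1 := (hz.comp PT.fst').fst
  refine (PT3_small hP hu hi' hv).ite hz.fst (PT.option_getD (PT.argmin_rat ?_ hg) hz.fst)
  exact ((PT.snd'.rat_natCast.rat_sub hz1.rat_natCast).rat_sub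
    (((((hz.comp PT.fst').snd.rat_natCast.rat_sub hz1.rat_natCast).rat_div
      (hv.comp PT.fst')).rat_mul (PT3_app hn PT.fst' ((hi.nat_add (PT.const 1)).comp PT.fst')
        (((PT.const 2).nat_mul hj).comp PT.fst') (hc.pt.comp PT.fst')
        (hz1.prodMk PT.snd'))))).rat_abs

/-- One step of `cen`. -/
def PT3_step (P : Pa) (h c : ℕ) (nt : ℕ → ℕ → ℕ → St → ℚ) (i j : ℕ) (q : St × Bool) : St × Bool :=
  if q.2 = false ∨ P.term (h + c) i (nt i (j / 2) c q.1) q.1 then (q.1, false) else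
    (if j % 2 = 0 then (q.1.1, P.mid h c nt i (j / 2) q.1) else (P.mid h c nt i (j / 2) q.1, q.1.2),
      true)

theorem PT3_pt_step {q : α → St × Bool} (hP : PIdx P) (hh : Sml h) (hc : Sml c) (hn : PT4 nt)
    (hi : PT i) (hj : PT j) (hq : PT q) (hid : ∀ a, i a < (P a).d) :
    PT fun a => PT3_step (P a) (h a) (c a) (nt a) (i a) (j a) (q a) := by
  have hj2 := hj.nat_div (PT.const 2)
  have hm := pt_mid hP hh hc hn hi hj2 hq.fst hid
  exact ((hq.snd.eq (PT.const false)).or (PT3_term hP (PT3_add hh hc)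
    (PT3_le hi hP.d fun a => (hid a).le) (PT3_app hn PT.id' hi hj2 hc.pt hq.fst) hq.fst)).ite
    (hq.fst.prodMk (PT.const false))
    ((((hj.nat_mod (PT.const 2)).eq (PT.const 0)).ite (hq.fst.fst.prodMk hm)
      (hm.prodMk hq.fst.snd)).prodMk (PT.const true))

theorem PT3_mid_le (P : Pa) (h c : ℕ) (nt : ℕ → ℕ → ℕ → St → ℚ) (i j : ℕ) (z : St) :
    P.mid h c nt i j z ≤ max z.1 P.X := by
  unfold Pa.mid
  split_ifs
  · exact le_max_left _ _
  · have key : ∀ (f : ℕ → ℚ) (g r b : ℕ),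
        (List.argmin f (gball P.X g r b)).getD z.1 ≤ max z.1 P.X := fun f g r b => by
      rcases hm : List.argmin f (gball P.X g r b) with _ | m
      · exact le_max_left _ _
      · exact (mem_gball.1 (List.argmin_mem hm)).2.1.trans (le_max_right _ _)
    exact key _ _ _ _

theorem PT3_cen_le (P : Pa) (h c : ℕ) (nt : ℕ → ℕ → ℕ → St → ℚ) (y : St) (i j : ℕ) :
    (P.cen h c nt y i j).1.1 ≤ P.X + y.1 + y.2 ∧ (P.cen h c nt y i j).1.2 ≤ P.X + y.1 + y.2 := by
  induction i generalizing j with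
  | zero => simp only [Pa.cen]; omega
  | succ i ih =>
    have h1 := ih (j / 2)
    have h2 := PT3_mid_le P h c nt i (j / 2) (P.cen h c nt y i (j / 2)).1
    simp only [Pa.cen]
    split_ifs <;> simp only [] <;> omega

/-- `cen … i j` is a left fold over the depths `k < i` (node `j / 2 ^ (i - k)`); the columns stay
bounded by `max X y`. -/
theorem pt_cen (hP : PIdx P) (hh : Sml h) (hc : Sml c) (hn : PT4 nt) (hy : PT y) (hi : PT i)
    (hj : PT j) (hid : ∀ a, i a ≤ (P a).d) :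
    PT fun a => (P a).cen (h a) (c a) (nt a) (y a) (i a) (j a) := by
  have hi' : Sml i := PT3_le hi hP.d hid
  have H := PT.of_nat_rec (n := i)
    (F := fun a k => (P a).cen (h a) (c a) (nt a) (y a) (min k (i a)) (j a / 2 ^ (i a - k)))
    (g := fun a k q => if k < i a then PT3_step (P a) (h a) (c a) (nt a) (min k ((P a).d - 1))
      (j a / 2 ^ (i a - (k + 1))) q else q)
    (fun a => 2 * esize ((P a).X + (y a).1 + (y a).2) + 5) hi hi'.pb
    ((hy.prodMk (PT.const true)).of_eq fun a => by simp [Pa.cen]) ?_ ?_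
    (((PB.const 2).mul (PB.esize ((hP.X.nat_add hy.fst).nat_add hy.snd))).add (PB.const 5)) ?_
  · exact H.of_eq fun a => by simp
  · have h1 := PT3_sub (PT3_scomp hi' (PT.fst' (β := ℕ × St × Bool)))
      (PT.snd'.fst.nat_add (PT.const 1))
    refine (PT.snd'.fst.nat_lt (hi.comp PT.fst')).ite (PT3_pt_step (hP.comp PT.fst')
      (PT3_scomp hh PT.fst') (PT3_scomp hc PT.fst') (PT3_comp hn PT.fst')
      (PT.snd'.fst.nat_min ((hP.d.pt.comp PT.fst').nat_sub (PT.const 1)))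
      ((hj.comp PT.fst').nat_div ((PT.const 2).nat_pow h1.pt h1.pb)) PT.snd'.snd fun a => ?_)
      PT.snd'.snd
    have := (hP.ok a.1).d_pos
    omega
  · intro a k
    have h1 := hid a
    split_ifs with hk
    · rw [min_eq_left (by omega : k + 1 ≤ i a), min_eq_left hk.le,
        min_eq_left (by omega : k ≤ (P a).d - 1), show i a - k = i a - (k + 1) + 1 by omega,
        pow_succ, ← Nat.div_div_eq_div_mul]
      rfl
    · rw [min_eq_right (by omega : i a ≤ k + 1), min_eq_right (by omega : i a ≤ k),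
        show i a - (k + 1) = i a - k by omega]
  · intro a k _
    obtain ⟨h1, h2⟩ := PT3_cen_le (P a) (h a) (c a) (nt a) (y a) (min k (i a)) (j a / 2 ^ (i a - k))
    have h3 := esize_nat_mono h1
    have h4 := esize_nat_mono h2
    have h5 := esize_bool_le
      ((P a).cen (h a) (c a) (nt a) (y a) (min k (i a)) (j a / 2 ^ (i a - k))).2
    rw [esize_prod, esize_prod]
    omega

theorem pt_clc (hP : PIdx P) (hh : Sml h) (hc : Sml c) (hn : PT4 nt) (hy : PT y) (hj : PT j) :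
    Sml fun a => (P a).clc (h a) (c a) (nt a) (y a) (j a) := by
  exact hP.cls (f := fun a => nt a (P a).d (j a))
    (PT3_app hn PT.fst' (hP.d.pt.comp PT.fst') (hj.comp PT.fst') PT.snd'.fst PT.snd'.snd)
    (PT3_sub hh hP.d.pt) hc.pt (pt_cen hP hh hc hn hy hP.d.pt hj fun _ => le_rfl).fst

theorem pt_mb (hP : PIdx P) (hh : Sml h) (hc : Sml c) (hn : PT4 nt) (hy : PT y) (hj : PT j) :
    PT fun a => (P a).mb (h a) (c a) (nt a) (y a) (j a) := by
  exact (pt_cen hP hh hc hn hy hP.d.pt hj fun _ => le_rfl).snd.eq_true.ite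
    (hP.Lam (PT3_add (PT3_sub hh hP.d.pt) (pt_clc hP hh hc hn hy hj))) (PT.const 0)

theorem pt_mass (hP : PIdx P) (hh : Sml h) (hc : Sml c) (hn : PT4 nt) (hy : PT y) (he : PT e)
    (hj : PT j) (hed : ∀ a, e a ≤ (P a).d) :
    PT fun a => (P a).mass (h a) (c a) (nt a) (y a) (e a) (j a) := by
  have h2 : PT fun a => 2 ^ e a := (PT.const 2).nat_pow he (PT3_le he hP.d hed).pb
  exact (hP.Lam (PT3_sub (PT3_add hh hc) (hP.d.pt.nat_sub he))).rat_add (PT.sum_range_rat h2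
    (hP.two_pow_d.pb.mono fun a => Nat.pow_le_pow_right (by norm_num) (hed a))
    (pt_mb (hP.comp PT.fst') (PT3_scomp hh PT.fst') (PT3_scomp hc PT.fst') (PT3_comp hn PT.fst')
      (hy.comp PT.fst') (((hj.nat_mul h2).comp PT.fst').nat_add PT.snd')))

theorem pt_enab (hP : PIdx P) (hh : Sml h) (hc : Sml c) (hn : PT4 nt) (hy : PT y) :
    PT fun a => (P a).enab (h a) (c a) (nt a) (y a) := by
  have hu := PT3_add hh hc
  have h1 := pt_cen (hP.comp (PT.fst' (β := ℕ))) (PT3_scomp hh PT.fst') (PT3_scomp hc PT.fst')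
    (PT3_comp hn PT.fst') (hy.comp PT.fst') (hP.d.pt.comp PT.fst') PT.snd' fun _ => le_rfl
  have h2 : PT fun a => ∑ j ∈ range (2 ^ (P a).d), (P a).mb (h a) (c a) (nt a) (y a) j :=
    PT.sum_range_rat (f := fun a j => (P a).mb (h a) (c a) (nt a) (y a) j)
      hP.two_pow_d.pt hP.two_pow_d.pb
      (pt_mb (hP.comp PT.fst') (PT3_scomp hh PT.fst') (PT3_scomp hc PT.fst') (PT3_comp hn PT.fst')
        (hy.comp PT.fst') PT.snd')
  have h3 := PT.forall_mem (p := fun a j => ((P a).cen (h a) (c a) (nt a) (y a) (P a).d j).2 = true →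
      Nat.dist ((P a).cen (h a) (c a) (nt a) (y a) (P a).d j).1.1 (y a).1 ≤ (P a).rad (h a + c a) 2)
    (PT.range hP.two_pow_d.pt hP.two_pow_d.pb) (h1.snd.eq_true.imp
      ((pt_dist h1.fst.fst (hy.comp PT.fst').fst).nat_le
        ((hP.rad hu (PT3_const 2)).comp PT.fst')))
  exact ((h2.rat_le (hP.mu.rat_mul (hP.Lam hu))).and h3).of_iff fun a => Iff.rfl

theorem pt_bot {pb : α → ℕ → ℕ → St → ℚ} (hP : PIdx P) (hh : Sml h) (hc : Sml c) (hn : PT4 nt)
    (hy : PT y) (hb : PT fun q : α × ℕ × ℕ × St => pb q.1 q.2.1 q.2.2.1 q.2.2.2) (hj : PT j)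
    (hz : PT z) : PT fun a => (P a).bot (h a) (c a) (nt a) (y a) (pb a) (j a) (z a) := by
  have h1 := pt_clc hP hh hc hn hy hj
  exact hP.botv (f := fun a => pb a (j a) ((P a).clc (h a) (c a) (nt a) (y a) (j a)))
    (PT.comp (g := fun q : α × St => (q.1, j q.1, (P q.1).clc (h q.1) (c q.1) (nt q.1) (y q.1)
      (j q.1), q.2)) hb (PT.fst'.prodMk ((hj.comp PT.fst').prodMk
        ((h1.pt.comp PT.fst').prodMk PT.snd'))))
    (PT3_sub hh hP.d.pt) h1 hz

/-- The keys of the table of level `e`. -/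
def PT3_keys (n : ℕ) (C : List ℕ) (e : ℕ) : List (ℕ × St) :=
  (List.range (n >>> e)).product (C.product C)

theorem PT3_mem_keys {n e : ℕ} {C : List ℕ} {κ : ℕ × St} :
    κ ∈ PT3_keys n C e ↔ κ.1 < n >>> e ∧ κ.2.1 ∈ C ∧ κ.2.2 ∈ C := by
  obtain ⟨j, a, b⟩ := κ
  simp [PT3_keys]

theorem PT3_length_keys (n : ℕ) (C : List ℕ) (e : ℕ) :
    (PT3_keys n C e).length ≤ (PT3_keys n C 0).length := by
  have h : ∀ e, (PT3_keys n C e).length = (n >>> e) * (C.length * C.length) := fun e => by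
    have h1 := List.length_product (List.range (n >>> e)) (C ×ˢ C)
    rw [List.length_product C C, List.length_range] at h1
    exact h1
  rw [h, h]
  exact Nat.mul_le_mul_right _ (Nat.shiftRight_le _ _)

theorem PT3_bigv {pm : α → ℕ → ℕ → St → ℚ} (hP : PIdx P) (hh : Sml h) (hc : Sml c) (hn : PT4 nt)
    (hm : PT fun q : α × ℕ × ℕ × St => pm q.1 q.2.1 q.2.2.1 q.2.2.2) (hy : PT y) :
    PT fun a => (P a).bigv (h a) (c a) (nt a) (y a) (pm a) (P a).d 0 (y a) := by
  have hu := PT3_add hh hc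
  obtain ⟨A, hA⟩ : ∃ A : α → List ℕ, ∀ a, A a = gball (P a).X ((P a).gm (h a + c a - (P a).d))
    ((P a).rad (h a + c a) 2) (y a).1 := ⟨_, fun _ => rfl⟩
  have hA' : PT A := (hP.gball_rad hu (PT3_const 2) (PT3_sub hu hP.d.pt) hy.fst fun a => by
    have h1 := PT3_kap (hP.ok a)
    omega).of_eq fun a => (hA a).symm
  obtain ⟨K, hK⟩ : ∃ K : α → ℕ → List (ℕ × St), ∀ a e,
    K a e = PT3_keys (2 ^ (P a).d) ((y a).1 :: (y a).2 :: A a) e := ⟨_, fun _ _ => rfl⟩
  have hK' : PT fun q : α × ℕ => K q.1 q.2 := by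
    have h1 : PT fun q : α × ℕ => (y q.1).1 :: (y q.1).2 :: A q.1 :=
      (hy.fst.cons (hy.snd.cons hA')).comp PT.fst'
    exact ((PT.range ((hP.two_pow_d.pt.comp PT.fst').shiftRight PT.snd')
      ((hP.two_pow_d.pb.comp PT.fst').mono fun q => Nat.shiftRight_le _ _)).product
        (h1.product h1)).of_eq fun q => (hK _ _).symm
  have hK0 : PT fun a => K a 0 :=
    PT.comp (g := fun a => (a, 0)) hK' (PT.id'.prodMk (PT.const 0))
  have h0 : PT fun a => (K a 0).map fun κ =>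
      (κ, (P a).bigv (h a) (c a) (nt a) (y a) (pm a) 0 κ.1 κ.2) := by
    refine hK0.map (PT.snd'.prodMk ?_)
    have hP' := hP.comp (PT.fst' (β := ℕ × St))
    have h1 := PT3_scomp (PT3_sub hh hP.d.pt) (PT.fst' (β := ℕ × St))
    have h2 := hP'.cls (f := fun q => nt q.1 (P q.1).d q.2.1)
      (PT3_app hn PT.fst'.fst (hP.d.pt.comp PT.fst'.fst) PT.fst'.snd.fst PT.snd'.fst PT.snd'.snd)
      h1 (hc.pt.comp PT.fst') PT.snd'.snd
    exact hP'.botv (f := fun q => pm q.1 q.2.1 ((P q.1).cls (nt q.1 (P q.1).d q.2.1)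
      (h q.1 - (P q.1).d) (c q.1) q.2.2))
      (PT.comp (g := fun r : (α × ℕ × St) × St => (r.1.1, r.1.2.1, (P r.1.1).cls
        (nt r.1.1 (P r.1.1).d r.1.2.1) (h r.1.1 - (P r.1.1).d) (c r.1.1) r.1.2.2, r.2)) hm
        (PT.fst'.fst.prodMk (PT.fst'.snd.fst.prodMk ((h2.pt.comp PT.fst').prodMk PT.snd'))))
      h1 h2 PT.snd'.snd
  have H := PT.of_nat_rec (n := fun a => (P a).d)
    (F := fun a e => (K a e).map fun κ => (κ, (P a).bigv (h a) (c a) (nt a) (y a) (pm a) e κ.1 κ.2))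
    (g := fun a e T => (K a (e + 1)).map fun κ => (κ, rup (P a).s (minL ((A a).map fun b =>
      (T.lookup (2 * κ.1, (κ.2.1, b))).getD 0 + (T.lookup (2 * κ.1 + 1, (b, κ.2.2))).getD 0)
      (P a).X)))
    (fun a => esize ((K a 0).map fun κ =>
      (κ, (P a).bigv (h a) (c a) (nt a) (y a) (pm a) 0 κ.1 κ.2))
      + ((K a 0).length * (esize (K a 0) + 24 * (P a).s + 41 + 1) + 1)) hP.d.pt hP.d.pb h0 ?_ ?_
    ((PB.esize h0).add (((PB.length hK0).mul ((((PB.esize hK0).add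
      ((PB.const 24).mul hP.s.pb)).add (PB.const 41)).add (PB.const 1))).add (PB.const 1))) ?_
  · refine ((((PT.const 0).prodMk hy).lookup H).option_getD (PT.const 0)).of_eq fun a => ?_
    rw [List.lookup_graph, Option.getD_some]
    rw [hK, PT3_mem_keys]
    simp [Nat.shiftRight_eq_div_pow]
  · refine PT.map (PT.comp (g := fun q : α × ℕ × List ((ℕ × St) × ℚ) => (q.1, q.2.1 + 1)) hK'
      (PT.fst'.prodMk (PT.snd'.fst.nat_add (PT.const 1)))) (PT.snd'.prodMk
        (pt_rup (hP.s.pt.comp PT.fst'.fst) (hP.s.pb.comp PT.fst'.fst) (pt_minL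
          (PT.map (hA'.comp PT.fst'.fst) ?_) (hP.X.comp PT.fst'.fst).rat_natCast)))
    fun_prop
  · intro a e
    refine List.map_congr_left fun κ hκ => ?_
    rw [hK, PT3_mem_keys, Nat.shiftRight_succ] at hκ
    rw [Pa.bigv, ← hA]
    congr 3
    refine List.map_congr_left fun b hb => ?_
    rw [List.lookup_graph, List.lookup_graph, Option.getD_some, Option.getD_some]
    · rw [hK, PT3_mem_keys]
      exact ⟨by simp only; omega, by simp [hb], hκ.2.2⟩
    · rw [hK, PT3_mem_keys]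
      exact ⟨by simp only; omega, hκ.2.1, by simp [hb]⟩
  · intro a e _
    rcases e with _ | e
    · exact Nat.le_add_right _ _
    · refine le_trans ((esize_list_le (B := esize (K a 0) + 24 * (P a).s + 41)
        fun x hx => ?_).trans ?_) (Nat.le_add_left _ _)
      · obtain ⟨κ, hκ, rfl⟩ := List.mem_map.1 hx
        have h1 : κ ∈ K a 0 := by
          rw [hK, PT3_mem_keys] at hκ ⊢
          exact ⟨hκ.1.trans_le (Nat.shiftRight_le _ _), hκ.2⟩
        have h2 := esize_lt_of_mem h1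
        rw [esize_pair, Pa.bigv]
        have h3 := esize_rup_le (P a).s
        exact (Nat.add_le_add_right (Nat.add_le_add h2.le (h3 _)) 1).trans (by omega)
      · rw [List.length_map, hK, hK]
        exact Nat.add_le_add_right (Nat.mul_le_mul_right _ (PT3_length_keys _ _ _)) 1

/-- Memoise level by level: the table of level `e` lists `bigv e j (a, a')` for `j < 2 ^ d` and
`a, a' ∈ y.1 :: y.2 :: gball …`; its entries for `e ≥ 1` are outputs of `rup` (`esize_rup_le`). -/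
theorem pt_Big (hP : PIdx P) (hh : Sml h) (hc : Sml c) (hn : PT4 nt) (hm : PT4 pm) (hy : PT y)
    (hk : PT k) : PT fun a => (P a).Big (h a) (c a) (nt a) (pm a) (y a) (k a) := by
  have hu := PT3_add hh hc
  exact PT3_bigv (pm := fun a => (P a).grd (h a + c a) (y a) (pm a) (k a)) hP hh hc
    (pt_grd hP hu hy hn) (PT3_app (pt_grd hP hu hy hm) PT.fst' (hk.comp PT.fst') PT.snd'.fst
      PT.snd'.snd.fst PT.snd'.snd.snd) hy

theorem pt_Kn (hP : PIdx P) (hh : Sml h) (hc : Sml c) (hn : PT4 nt) (hm : PT4 pm) (hβ : PT β)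
    (hz : PT z) (hk : Sml k) :
    PT fun a => (P a).Kn (h a) (c a) (nt a) (pm a) (β a) (z a) (k a) := by
  have hu := PT3_add hh hc
  have hk1 := PT3_add hk (PT3_const 1)
  refine pt_minL ((hβ.eq (PT.const 0)).ite (PT.const []) (PT.map ((hP.box hu (PT3_const 2) hz
    fun a => ?_).product (PT.range hk1.pt hk1.pb)) ((pt_Big (hP.comp PT.fst') (PT3_scomp hh PT.fst')
      (PT3_scomp hc PT.fst') (PT3_comp hn PT.fst') (PT3_comp hm PT.fst') PT.snd'.fst
      PT.snd'.snd).rat_add (pt_dst (hz.comp PT.fst') PT.snd'.fst).rat_natCast)))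
    (((PT.const 3).rat_mul (hP.Lam hu)).rat_min
      (PT3_app hn PT.id' (PT.const 0) (PT.const 0) hc.pt hz))
  have := PT3_kap (hP.ok a)
  omega

end Crest.Agent.R288
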