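/-
R288/PT4: polynomial time of the linearised values and of all rules; the size conditions.
-/
import Crest.Agent.R288.PT2
import Crest.Agent.R288.PT3

set_option autoImplicit false

namespace Crest.Agent.R288

open Finset Crest.Agent.Lib.PolyTime

variable {α : Type} [Enc α] {P : α → Pa} {nt pb pm : α → ℕ → ℕ → ℕ → St → ℚ}
  {h c k β : α → ℕ} {y z : α → St}

/-! ### A memoised dynamic program -/

section memo

variable {κ : Type} [BEq κ] [LawfulBEq κ]

/-- Lookup in a table. -/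
def PT4_look (T : List (κ × ℚ)) (x : κ) : ℚ := (T.lookup x).getD 0

/-- The tables of the levels. -/
def PT4_tab (K : List κ) (ini : κ → ℚ) (st : ℕ → (κ → ℚ) → κ → ℚ) : ℕ → List (κ × ℚ)
  | 0 => K.map fun x => (x, ini x)
  | e + 1 => K.map fun x => (x, st e (PT4_look (PT4_tab K ini st e)) x)

theorem PT4_look_map {K : List κ} (f : κ → ℚ) {x : κ} (hx : x ∈ K) :
    PT4_look (K.map fun x => (x, f x)) x = f x := by
  induction K with
  | nil => simp at hx
  | cons b K ih =>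
    unfold PT4_look at ih ⊢
    rw [List.map_cons, List.lookup_cons]
    by_cases hb : x = b
    · simp [hb]
    · rw [beq_eq_false_iff_ne.2 hb]
      exact ih ((List.mem_cons.1 hx).resolve_left hb)

variable [Enc κ]

theorem PT4_pt_look {T : α → List (κ × ℚ)} {x : α → κ} (hT : PT T) (hx : PT x) :
    PT fun a => PT4_look (T a) (x a) :=
  PT.option_getD (PT.lookup hx hT) (PT.const 0)

omit [LawfulBEq κ] in
theorem PT4_pt_tab {K : α → List κ} {n : α → ℕ} {ini : α → κ → ℚ}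
    {st : α → ℕ → (κ → ℚ) → κ → ℚ} {g : α × ℕ × κ → ℕ} (hK : PT K) (hn : Sml n)
    (hini : PT fun p : α × κ => ini p.1 p.2)
    (hst : PT fun p : (α × ℕ × List (κ × ℚ)) × κ => st p.1.1 p.1.2.1 (PT4_look p.1.2.2) p.2)
    (hg : PB g) (hsz : ∀ a e f x, esize (st a e f x) ≤ g (a, e, x)) :
    PT fun a => PT4_tab (K a) (ini a) (st a) (n a) := by
  have h0 : PT fun a => PT4_tab (K a) (ini a) (st a) 0 := PT.map hK (PT.prodMk PT.snd' hini)
  obtain ⟨B, hB, hB'⟩ := hg.exists_bound (s := fun a => esize a + (esize (n a) + esize (K a) + 1) + 1)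
    (((PB.esize_id).add (((PB.esize hn.pt).add (PB.esize hK)).add (PB.const 1))).add (PB.const 1))
  refine PT.of_nat_rec (F := fun a => PT4_tab (K a) (ini a) (st a))
    (g := fun a e T => (K a).map fun x => (x, st a e (PT4_look T) x))
    (fun a => esize (PT4_tab (K a) (ini a) (st a) 0) +
      ((K a).length * (esize (K a) + B a + 1 + 1) + 1)) hn.pt hn.pb h0
    (PT.map (hK.comp PT.fst') (PT.prodMk PT.snd' hst)) (fun _ _ => rfl)
    ((PB.esize h0).add (((PB.length hK).mul ((((PB.esize hK).add hB).add (PB.const 1)).add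
      (PB.const 1))).add (PB.const 1))) fun a i hi => ?_
  rcases i with _ | e
  · exact Nat.le_add_right _ _
  refine le_add_left ?_
  have := esize_list_le (l := PT4_tab (K a) (ini a) (st a) (e + 1)) (B := esize (K a) + B a + 1)
    fun p hp => by
      obtain ⟨x, hx, rfl⟩ := List.mem_map.1 hp
      have h1 := esize_lt_of_mem hx
      have h2 := esize_nat_mono (show e ≤ n a by omega)
      have h3 := (hsz a e (PT4_look (PT4_tab (K a) (ini a) (st a) e)) x).trans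
        (hB' a (a, e, x) (by simp only [esize_pair]; omega))
      rw [esize_pair]
      omega
  rwa [show (PT4_tab (K a) (ini a) (st a) (e + 1)).length = (K a).length from List.length_map _]
    at this

end memo

/-! ### Changing the index type -/

theorem PT4_sml {γ : Type} [Enc γ] {f : α → ℕ} (hf : Sml f) {φ : γ → α} (hφ : PT φ) :
    Sml fun b => f (φ b) := ⟨hf.pt.comp hφ, hf.pb.comp hφ⟩

theorem PT4_add {f g : α → ℕ} (hf : Sml f) (hg : Sml g) : Sml fun a => f a + g a :=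
  ⟨hf.pt.nat_add hg.pt, hf.pb.add hg.pb⟩

theorem PT4_sub {f g : α → ℕ} (hf : Sml f) (hg : PT g) : Sml fun a => f a - g a :=
  ⟨hf.pt.nat_sub hg, hf.pb.sub⟩

theorem PT4_min {f g : α → ℕ} (hf : PT f) (hg : Sml g) : Sml fun a => min (f a) (g a) :=
  ⟨hf.nat_min hg.pt, hg.pb.min_right⟩

theorem PT4_app {γ : Type} [Enc γ] (hn : PT4 nt) {φ : γ → α} {i j c : γ → ℕ} {z : γ → St}
    (hφ : PT φ) (hi : PT i) (hj : PT j) (hc : PT c) (hz : PT z) :
    PT fun b => nt (φ b) (i b) (j b) (c b) (z b) :=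
  PT.comp (g := fun b => (φ b, i b, j b, c b, z b)) hn
    (hφ.prodMk (hi.prodMk (hj.prodMk (hc.prodMk hz))))

theorem PT4_comp {γ : Type} [Enc γ] (hn : PT4 nt) {φ : γ → α} (hφ : PT φ) :
    PT4 fun b => nt (φ b) :=
  PT4_app hn (hφ.comp PT.fst') (by fun_prop) (by fun_prop) (by fun_prop) (by fun_prop)

theorem PT4_app1 {γ ι δ : Type} [Enc γ] [Enc ι] [Enc δ] {f : α → ι → δ}
    (hf : PT fun p : α × ι => f p.1 p.2) {φ : γ → α} {x : γ → ι} (hφ : PT φ) (hx : PT x) :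
    PT fun b => f (φ b) (x b) :=
  PT.comp (g := fun b => (φ b, x b)) hf (hφ.prodMk hx)

theorem PT4_app2 {γ ι ι' δ : Type} [Enc γ] [Enc ι] [Enc ι'] [Enc δ] {f : α → ι → ι' → δ}
    (hf : PT fun p : α × ι × ι' => f p.1 p.2.1 p.2.2) {φ : γ → α} {x : γ → ι} {x' : γ → ι'}
    (hφ : PT φ) (hx : PT x) (hx' : PT x') : PT fun b => f (φ b) (x b) (x' b) :=
  PT.comp (g := fun b => (φ b, x b, x' b)) hf (hφ.prodMk (hx.prodMk hx'))

theorem PT4_key (n : ℕ) (r f : Bool) {t m β h c e j : α → ℕ} (h1 : PT t) (h2 : PT m) (h3 : PT β)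
    (h4 : PT h) (h5 : PT c) (h6 : PT e) (h7 : PT j) :
    PT fun a => (((n, t a, m a, β a, h a, c a), e a, j a, r, f) : Key De) :=
  ((PT.const n).prodMk (h1.prodMk (h2.prodMk (h3.prodMk (h4.prodMk h5))))).prodMk
    (h6.prodMk (h7.prodMk (PT.const (r, f))))

/-! ### The linearised values -/

namespace Pa

variable (P : Pa) (h c : ℕ) (nt : ℕ → ℕ → ℕ → St → ℚ) (y : St)

/-- The centre of a node at height `e + 1`. -/
def PT4_zc (e j : ℕ) : St := (P.cen h c nt y (P.d - (e + 1)) j).1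

/-- The actions of a node at height `e + 1`. -/
def PT4_acts (e j : ℕ) : List ℕ :=
  P.acts (h + c) (P.mid h c nt (P.d - (e + 1)) j (P.PT4_zc h c nt y e j))

/-- All columns that are ever read. -/
def PT4_cols : List ℕ :=
  y.1 :: y.2 :: (List.range P.d).flatMap fun e => (List.range (2 ^ P.d)).flatMap
    fun j => P.PT4_acts h c nt y e j

/-- The keys of the tables. -/
def PT4_keys (kk : ℕ) : List (ℕ × St × ℕ) :=
  (List.range (2 ^ P.d)).product
    (((P.PT4_cols h c nt y).product (P.PT4_cols h c nt y)).product (List.range (kk + 1)))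

/-- One level of the recursion. -/
def PT4_step (kk e : ℕ) (f : ℕ × St × ℕ → ℚ) (x : ℕ × St × ℕ) : ℚ :=
  if P.term (h + c) (P.d - (e + 1)) (nt (P.d - (e + 1)) x.1 c (P.PT4_zc h c nt y e x.1))
      (P.PT4_zc h c nt y e x.1) then
    nt (P.d - (e + 1)) x.1 c (P.PT4_zc h c nt y e x.1) + dst x.2.1 (P.PT4_zc h c nt y e x.1) else
    rup P.s (lsQ P.s (P.eta / P.mass h c nt y (min (e + 1) P.d) x.1) (P.PT4_acts h c nt y e x.1)
      (fun k' a => f (2 * x.1, (x.2.1.1, a), k') + f (2 * x.1 + 1, (a, x.2.1.2), k'))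
      (min x.2.2 kk)
      fun a => f (2 * x.1, (x.2.1.1, a), x.2.2) + f (2 * x.1 + 1, (a, x.2.1.2), x.2.2))

theorem PT4_tab_eq (leaf : ℕ → ℕ → St → ℚ) (kk : ℕ) (e : ℕ) (he : e ≤ P.d) :
    ∀ (j : ℕ) (z : St) (k : ℕ), j < 2 ^ (P.d - e) → z.1 ∈ P.PT4_cols h c nt y →
      z.2 ∈ P.PT4_cols h c nt y → k ≤ kk →
      PT4_look (PT4_tab (P.PT4_keys h c nt y kk) (fun x => leaf x.2.2 x.1 x.2.1)
        (P.PT4_step h c nt y kk) e) (j, z, k) = P.lsv h c nt y leaf e j z k := by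
  have hmem : ∀ (e j : ℕ) (z : St) (k : ℕ), j < 2 ^ (P.d - e) → z.1 ∈ P.PT4_cols h c nt y →
      z.2 ∈ P.PT4_cols h c nt y → k ≤ kk → (j, z, k) ∈ P.PT4_keys h c nt y kk := by
    intro e j z k hj h1 h2 hk
    refine List.pair_mem_product.2 ⟨List.mem_range.2 (hj.trans_le ?_), List.pair_mem_product.2
      ⟨List.pair_mem_product.2 ⟨h1, h2⟩, List.mem_range.2 (Nat.lt_succ_of_le hk)⟩⟩
    exact Nat.pow_le_pow_right two_pos (Nat.sub_le _ _)
  induction e with
  | zero =>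
    intro j z k hj h1 h2 hk
    rw [PT4_tab, PT4_look_map _ (hmem 0 j z k hj h1 h2 hk), lsv]
  | succ e ih =>
    intro j z k hj h1 h2 hk
    have ih := ih (Nat.le_of_succ_le he)
    have hj2 : 2 * j + 1 < 2 ^ (P.d - e) := by
      rw [show P.d - e = P.d - (e + 1) + 1 by omega, pow_succ]
      omega
    have hA : ∀ a ∈ P.PT4_acts h c nt y e j, a ∈ P.PT4_cols h c nt y := fun a ha =>
      List.mem_cons_of_mem _ (List.mem_cons_of_mem _ (List.mem_flatMap.2 ⟨e, List.mem_range.2 he,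
        List.mem_flatMap.2 ⟨j, List.mem_range.2
          (hj.trans_le (Nat.pow_le_pow_right two_pos (Nat.sub_le _ _))), ha⟩⟩))
    rw [PT4_tab, PT4_look_map _ (hmem _ j z k hj h1 h2 hk), lsv, PT4_step, min_eq_left he,
      min_eq_left hk]
    refine if_congr Iff.rfl rfl (congrArg (rup P.s) (lsQ_congr k (fun k' hk' a ha => ?_)
      fun a ha => ?_))
    · rw [ih (2 * j) (z.1, a) k' (by omega) h1 (hA a ha) (by omega),
        ih (2 * j + 1) (a, z.2) k' hj2 (hA a ha) h2 (by omega)]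
    · rw [ih (2 * j) (z.1, a) k (by omega) h1 (hA a ha) hk,
        ih (2 * j + 1) (a, z.2) k hj2 (hA a ha) h2 hk]

end Pa

theorem PT4_pt_zc {e j : α → ℕ} (hP : PIdx P) (hh : Sml h) (hc : Sml c) (hn : PT4 nt) (hy : PT y)
    (he : PT e) (hj : PT j) : PT fun a => (P a).PT4_zc (h a) (c a) (nt a) (y a) (e a) (j a) :=
  (pt_cen hP hh hc hn hy (hP.d.pt.nat_sub (he.nat_add (PT.const 1))) hj
    fun _ => Nat.sub_le _ _).fst

theorem PT4_pt_acts {e j : α → ℕ} (hP : PIdx P) (hh : Sml h) (hc : Sml c) (hn : PT4 nt)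
    (hy : PT y) (he : PT e) (hj : PT j) :
    PT fun a => (P a).PT4_acts (h a) (c a) (nt a) (y a) (e a) (j a) :=
  hP.acts (PT4_add hh hc) (pt_mid hP hh hc hn (hP.d.pt.nat_sub (he.nat_add (PT.const 1))) hj
    (PT4_pt_zc hP hh hc hn hy he hj) fun a => Nat.sub_lt (hP.ok a).d_pos (Nat.succ_pos _))

theorem PT4_pt_cols (hP : PIdx P) (hh : Sml h) (hc : Sml c) (hn : PT4 nt) (hy : PT y) :
    PT fun a => (P a).PT4_cols (h a) (c a) (nt a) (y a) := by
  have hφ : PT fun p : (α × ℕ) × ℕ => p.1.1 := PT.fst'.fst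
  have h2 := PT4_sml hP.two_pow_d (PT.fst' (β := ℕ))
  exact hy.fst.cons (hy.snd.cons ((hP.d.pt.range hP.d.pb).flatMap ((h2.pt.range h2.pb).flatMap
    (PT4_pt_acts (hP.comp hφ) (PT4_sml hh hφ) (PT4_sml hc hφ) (PT4_comp hn hφ) (hy.comp hφ)
      PT.fst'.snd PT.snd'))))

theorem PT4_pt_term {u i : α → ℕ} {v : α → ℚ} (hP : PIdx P) (hu : Sml u) (hi : Sml i) (hv : PT v)
    (hz : PT z) : PT fun a => (P a).term (u a) (i a) (v a) (z a) := by
  have h1 := hP.Wq hu hi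
  have h2 := hP.Lam (PT4_sub hu hi.pt)
  have h3 := hP.fq
  have h4 := hP.cap
  have h5 := hP.fx.pt
  have h6 := hP.fx.pb
  unfold Pa.term Pa.small
  fun_prop

/-- The value at a terminal node. -/
theorem PT4_pt_tv {e j : α → ℕ} (hP : PIdx P) (hh : Sml h) (hc : Sml c) (hn : PT4 nt) (hy : PT y)
    (he : PT e) (hj : PT j) (hz : PT z) :
    PT fun a => nt a ((P a).d - (e a + 1)) (j a) (c a)
      ((P a).PT4_zc (h a) (c a) (nt a) (y a) (e a) (j a)) +
      (dst (z a) ((P a).PT4_zc (h a) (c a) (nt a) (y a) (e a) (j a)) : ℚ) := by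
  have hzc := PT4_pt_zc hP hh hc hn hy he hj
  have hv := PT4_app hn PT.id' (hP.d.pt.nat_sub (he.nat_add (PT.const 1))) hj hc.pt hzc
  exact hv.rat_add (pt_dst hz hzc).rat_natCast

theorem PT4_pt_step {e : α → ℕ} {T : α → List ((ℕ × St × ℕ) × ℚ)} {x : α → ℕ × St × ℕ}
    (hP : PIdx P) (hh : Sml h) (hc : Sml c) (hn : PT4 nt) (hy : PT y) (hk : Sml k) (he : PT e)
    (hT : PT T) (hx : PT x) :
    PT fun a => (P a).PT4_step (h a) (c a) (nt a) (y a) (k a) (e a) (PT4_look (T a)) (x a) := by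
  have hzc := PT4_pt_zc hP hh hc hn hy he hx.fst
  have hi := PT4_sub hP.d (he.nat_add (PT.const 1))
  have hv := PT4_app hn PT.id' hi.pt hx.fst hc.pt hzc
  have hterm := PT4_pt_term hP (PT4_add hh hc) hi hv hzc
  have htv := PT4_pt_tv hP hh hc hn hy he hx.fst hx.snd.fst
  have hmass := pt_mass hP hh hc hn hy ((he.nat_add (PT.const 1)).nat_min hP.d.pt) hx.fst
    fun _ => min_le_right _ _
  have hacts := PT4_pt_acts hP hh hc hn hy he hx.fst
  have hm := PT4_min hx.snd.snd hk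
  have hq : PT fun p : α × ℕ × ℕ =>
      PT4_look (T p.1) (2 * (x p.1).1, ((x p.1).2.1.1, p.2.2), p.2.1) +
        PT4_look (T p.1) (2 * (x p.1).1 + 1, (p.2.2, (x p.1).2.1.2), p.2.1) :=
    PT.rat_add (PT4_pt_look (by fun_prop) (by fun_prop)) (PT4_pt_look (by fun_prop) (by fun_prop))
  have hw : PT fun p : α × ℕ =>
      PT4_look (T p.1) (2 * (x p.1).1, ((x p.1).2.1.1, p.2), (x p.1).2.2) +
        PT4_look (T p.1) (2 * (x p.1).1 + 1, (p.2, (x p.1).2.1.2), (x p.1).2.2) :=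
    PT.rat_add (PT4_pt_look (by fun_prop) (by fun_prop)) (PT4_pt_look (by fun_prop) (by fun_prop))
  have hls := pt_lsQ
    (q := fun (a : α) (k' b : ℕ) => PT4_look (T a) (2 * (x a).1, ((x a).2.1.1, b), k') +
      PT4_look (T a) (2 * (x a).1 + 1, (b, (x a).2.1.2), k'))
    (v := fun (a : α) (b : ℕ) => PT4_look (T a) (2 * (x a).1, ((x a).2.1.1, b), (x a).2.2) +
      PT4_look (T a) (2 * (x a).1 + 1, (b, (x a).2.1.2), (x a).2.2))
    hP.s.pt hP.s.pb (hP.eta.rat_div hmass) hacts hq hm.pt hm.pb hw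
  have := PT.ite hterm htv (pt_rup hP.s.pt hP.s.pb hls)
  exact this.of_eq fun a => rfl

/-- Memoise level by level: the table of level `e` lists `lsv e j z k'` for `j < 2 ^ d`, `k' ≤ k` and
`z.1 ∈ zc.1 :: y.1 :: acts zc.1`, `z.2 ∈ zc.2 :: y.2 :: acts zc.2` (`zc` = centre of `(d - e, j)`);
`lsQ` only reads the rounds `≤ k` and the listed actions (`lsQ_congr`); children of non-terminal
alive nodes have the centres `(zc.1, mid)`, `(mid, zc.2)`, and only alive nodes are ever read from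
the top.  Entries are leaf values, terminal values or outputs of `rup`. -/
theorem pt_lsv_top {leaf : α → ℕ → ℕ → St → ℚ} (hP : PIdx P) (hh : Sml h) (hc : Sml c)
    (hn : PT4 nt) (hy : PT y)
    (hl : PT fun q : α × ℕ × ℕ × St => leaf q.1 q.2.1 q.2.2.1 q.2.2.2) (hk : Sml k) :
    PT fun a => (P a).lsv (h a) (c a) (nt a) (y a) (leaf a) (P a).d 0 (y a) (k a) := by
  have hK : PT fun a => (P a).PT4_keys (h a) (c a) (nt a) (y a) (k a) := by
    have h1 := PT4_pt_cols hP hh hc hn hy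
    exact (hP.two_pow_d.pt.range hP.two_pow_d.pb).product ((h1.product h1).product
      ((hk.pt.nat_add (PT.const 1)).range (hk.pb.add (PB.const 1))))
  have hφ : PT fun p : α × ℕ × ℕ × St × ℕ => p.1 := PT.fst'
  have htv := PT4_pt_tv (hP.comp hφ) (PT4_sml hh hφ) (PT4_sml hc hφ) (PT4_comp hn hφ) (hy.comp hφ)
    PT.snd'.fst PT.snd'.snd.fst PT.snd'.snd.snd.fst
  have hψ : PT fun p : (α × ℕ × List ((ℕ × St × ℕ) × ℚ)) × ℕ × St × ℕ => p.1.1 := PT.fst'.fst
  have hst := PT4_pt_step (hP.comp hψ) (PT4_sml hh hψ) (PT4_sml hc hψ) (PT4_comp hn hψ)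
    (hy.comp hψ) (PT4_sml hk hψ) PT.fst'.snd.fst PT.fst'.snd.snd PT.snd'
  have hini : PT fun p : α × ℕ × St × ℕ => leaf p.1 p.2.2.2 p.2.1 p.2.2.1 :=
    PT.comp (g := fun p : α × ℕ × St × ℕ => (p.1, p.2.2.2, p.2.1, p.2.2.1)) hl (by fun_prop)
  have hg := (PB.esize htv).add (((PB.const 24).mul (hP.s.pb.comp hφ)).add (PB.const 40))
  have htab := PT4_pt_tab (ini := fun (a : α) (x : ℕ × St × ℕ) => leaf a x.2.2 x.1 x.2.1)
    (st := fun a : α => (P a).PT4_step (h a) (c a) (nt a) (y a) (k a)) hK hP.d hini hst hg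
    fun a e f x => by
      unfold Pa.PT4_step
      split_ifs
      · exact Nat.le_add_right _ _
      · exact le_add_left (esize_rup_le _ _)
  refine (PT4_pt_look htab ((PT.const 0).prodMk (hy.prodMk hk.pt))).of_eq fun a => ?_
  exact (P a).PT4_tab_eq (h a) (c a) (nt a) (y a) (leaf a) (k a) (P a).d le_rfl 0 (y a) (k a)
    (Nat.two_pow_pos _) List.mem_cons_self (List.mem_cons_of_mem _ List.mem_cons_self) le_rfl

theorem pt_Sm (hP : PIdx P) (hh : Sml h) (hc : Sml c) (hn : PT4 nt) (hb : PT4 pb) (hy : PT y)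
    (hk : Sml k) : PT fun a => (P a).Sm (h a) (c a) (nt a) (pb a) (y a) (k a) := by
  have hu := PT4_add hh hc
  have hn' := pt_grd hP hu hy hn
  have hb' := pt_grd hP hu hy hb
  have hφ : PT fun q : α × ℕ × ℕ × St => q.1 := PT.fst'
  have h1 := PT4_app hb' (φ := fun r : (α × ℕ × ℕ × St) × ℕ × ℕ × St => r.1.1)
    (i := fun r => r.1.2.1) (j := fun r => r.2.1) (c := fun r => r.2.2.1) (z := fun r => r.2.2.2)
    (by fun_prop) (by fun_prop) (by fun_prop) (by fun_prop) (by fun_prop)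
  have h2 := pt_bot (hP.comp hφ) (PT4_sml hh hφ) (PT4_sml hc hφ) (PT4_comp hn' hφ) (hy.comp hφ)
    (pb := fun q : α × ℕ × ℕ × St => (P q.1).grd (h q.1 + c q.1) (y q.1) (pb q.1) q.2.1)
    (j := fun q => q.2.2.1) (z := fun q => q.2.2.2) h1 (by fun_prop) (by fun_prop)
  have h3 := pt_lsv_top (leaf := fun a k' => (P a).bot (h a) (c a)
    ((P a).grd (h a + c a) (y a) (nt a)) (y a) ((P a).grd (h a + c a) (y a) (pb a) k'))
    hP hh hc hn' hy h2 hk
  have h4 := PT.ite (pt_enab hP hh hc hn' hy) h3 ((PT.const 8).rat_mul (hP.Lam hu))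
  exact h4.of_eq fun a => rfl

theorem PT4_pt_trmA {u : α → ℕ} (hP : PIdx P) (hu : Sml u) (hz : PT z) :
    PT fun a => (P a).trmA (u a) (z a) := by
  have h1 := hP.box hu (x := fun _ => 2) ⟨PT.const 2, PB.const 2⟩ hz fun a => by
    have h2 := (hP.ok a).D_pos
    unfold Pa.kap
    omega
  unfold Pa.trmA
  fun_prop

theorem PT4_pt_trm {u i : α → ℕ} {S : α → St → ℚ} {Kv : α → ℚ} {b : α → ℕ × St} (hP : PIdx P)
    (hu : Sml u) (hS : PT fun q : α × St => S q.1 q.2) (hK : PT Kv) (hi : PT i) (hz : PT z)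
    (hb : PT b) : PT fun a => (P a).trm (u a) (S a) (Kv a) (i a) (z a) (b a) := by
  have h1 : PT fun a => S a (z a) := PT.comp (g := fun a => (a, z a)) hS (by fun_prop)
  have h2 : PT fun a => S a (b a).2 := PT.comp (g := fun a => (a, (b a).2)) hS (by fun_prop)
  have h3 := hP.Gq
  have h4 := hP.Lam hu
  unfold Pa.trm
  fun_prop

/-- The terms of the soft clipping of expert `i`, as a function of the term. -/
theorem PT4_pt_trm' {i : α → ℕ} (hP : PIdx P) (hh : Sml h) (hc : Sml c) (hn : PT4 nt)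
    (hb : PT4 pb) (hm : PT4 pm) (hβ : PT β) (hz : PT z) (hk : Sml k) (hi : PT i) :
    PT fun p : α × ℕ × St => (P p.1).trm (h p.1 + c p.1)
      (fun y => (P p.1).Sm (h p.1) (c p.1) (nt p.1) (pb p.1) y (k p.1))
      ((P p.1).Kn (h p.1) (c p.1) (nt p.1) (pm p.1) (β p.1) (z p.1) (k p.1)) (i p.1) (z p.1) p.2 := by
  have hφ : PT fun p : α × ℕ × St => p.1 := PT.fst'
  have hψ : PT fun p : (α × ℕ × St) × St => p.1.1 := PT.fst'.fst
  exact PT4_pt_trm (hP.comp hφ) (PT4_sml (PT4_add hh hc) hφ)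
    (pt_Sm (hP.comp hψ) (PT4_sml hh hψ) (PT4_sml hc hψ) (PT4_comp hn hψ) (PT4_comp hb hψ) PT.snd'
      (PT4_sml hk hψ))
    ((pt_Kn hP hh hc hn hm hβ hz hk).comp hφ) (hi.comp hφ) (hz.comp hφ) PT.snd'

theorem PT4_pt_cq {i : α → ℕ} (hP : PIdx P) (hh : Sml h) (hc : Sml c) (hn : PT4 nt)
    (hb : PT4 pb) (hm : PT4 pm) (hβ : PT β) (hz : PT z) (hk : Sml k) (hi : PT i) :
    PT fun a => (P a).cq (h a) (c a) (nt a) (pb a) (pm a) (β a) (z a) (k a) (i a) :=
  pt_sminQ hP.s.pt hP.s.pb (hP.theta.rat_div (hP.Lam (PT4_add hh hc)))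
    (PT4_pt_trmA hP (PT4_add hh hc) hz) (PT4_pt_trm' hP hh hc hn hb hm hβ hz hk hi)

theorem PT4_pt_pbE {E : α → ℕ → ℕ → ℕ → St → ℚ} {n : α → ℕ} (hb : PT4 pb) (hE : PT4 E) (hk : PT k)
    (hn : PT n) : PT4 fun a => Pa.pbE (pb a) (k a) (E a (n a)) := by
  refine (PT.ite (c := fun q : α × ℕ × ℕ × ℕ × St => q.2.1 < k q.1) (by fun_prop) hb
    (PT4_app hE PT.fst' (hn.comp PT.fst') (j := fun q => q.2.2.1) (c := fun q => q.2.2.2.1)
      (z := fun q => q.2.2.2.2) (by fun_prop) (by fun_prop) (by fun_prop))).of_eq fun q => ?_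
  simp only [Pa.pbE]
  split_ifs <;> rfl

theorem pt_rawF {E : α → ℕ → ℕ → ℕ → St → ℚ} (hP : PIdx P) (hh : Sml h) (hc : Sml c) (hn : PT4 nt)
    (hb : PT4 pb) (hm : PT4 pm) (hE : PT4 E) (hk : Sml k) (hβ : PT β) (hz : PT z) :
    PT fun a => (P a).rawF (h a) (c a) (nt a) (pb a) (pm a) (E a) (k a) (β a) (z a) := by
  have hu := PT4_add hh hc
  have hL := hP.Lam hu
  -- the costs of the earlier rounds
  have h1 : PT fun p : α × ℕ × ℕ => p.1 := PT.fst'
  have hq := PT4_pt_cq (hP.comp h1) (PT4_sml hh h1) (PT4_sml hc h1) (PT4_comp hn h1)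
    (PT4_comp hb h1) (PT4_comp hm h1) (hβ.comp h1) (hz.comp h1)
    (PT4_min PT.snd'.fst (PT4_sml hk h1)) PT.snd'.snd
  -- the estimates
  have h2 : PT fun p : α × ℕ => p.1 := PT.fst'
  have h3 : PT fun p : (α × ℕ) × ℕ × ℕ => p.1.1 := PT.fst'.fst
  have hq0 := PT4_pt_trm' (hP.comp h2) (PT4_sml hh h2) (PT4_sml hc h2) (PT4_comp hn h2)
    (PT4_comp (PT4_pt_pbE hb hE hk.pt (PT.const 0)) h2) (PT4_comp hm h2) (hβ.comp h2) (hz.comp h2)
    (PT4_sml hk h2) PT.snd'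
  have hpb := PT4_pt_pbE (PT4_comp hb h3) (PT4_comp hE h3) (hk.pt.comp h3)
    (((PT.const 1).nat_add (PT.snd'.fst.nat_mul (hP.kT.pt.comp h3))).nat_add PT.snd'.snd)
  have hqq := PT4_pt_trm' (hP.comp h3) (PT4_sml hh h3) (PT4_sml hc h3) (PT4_comp hn h3) hpb
    (PT4_comp hm h3) (hβ.comp h3) (hz.comp h3) (PT4_sml hk h3) PT.fst'.snd
  have h4 : PT fun p : (α × ℕ) × ℕ × ℕ × ℕ × St => ((p.1, p.2.1, p.2.2.1), p.2.2.2) := by
    fun_prop
  have hqq' := hqq.comp h4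
  have hs := PT4_sml hP.s h2
  have hkT := PT4_sml hP.kT h2
  have hv := pt_estQ
    (q0 := fun p : α × ℕ => (P p.1).trm (h p.1 + c p.1)
      (fun y => (P p.1).Sm (h p.1) (c p.1) (nt p.1) (Pa.pbE (pb p.1) (k p.1) (E p.1 0)) y (k p.1))
      ((P p.1).Kn (h p.1) (c p.1) (nt p.1) (pm p.1) (β p.1) (z p.1) (k p.1)) p.2 (z p.1))
    (qq := fun (p : α × ℕ) (a b : ℕ) => (P p.1).trm (h p.1 + c p.1)
      (fun y => (P p.1).Sm (h p.1) (c p.1) (nt p.1)
        (Pa.pbE (pb p.1) (k p.1) (E p.1 (1 + a * (P p.1).kT + b))) y (k p.1))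
      ((P p.1).Kn (h p.1) (c p.1) (nt p.1) (pm p.1) (β p.1) (z p.1) (k p.1)) p.2 (z p.1))
    hs.pt hs.pb hkT.pt hkT.pb ((hP.theta.rat_div hL).comp h2) ((PT4_pt_trmA hP hu hz).comp h2)
    hq0 hqq'
  have hls := pt_lsQ
    (q := fun (a : α) (k' : ℕ) =>
      (P a).cq (h a) (c a) (nt a) (pb a) (pm a) (β a) (z a) (min k' (k a)))
    (v := fun (a : α) (i : ℕ) => estQ (P a).s ((P a).theta / (P a).Lam (h a + c a)) (P a).kT
      ((P a).trmA (h a + c a) (z a)) ((P a).trm (h a + c a)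
        (fun y => (P a).Sm (h a) (c a) (nt a) (Pa.pbE (pb a) (k a) (E a 0)) y (k a))
        ((P a).Kn (h a) (c a) (nt a) (pm a) (β a) (z a) (k a)) i (z a))
      fun a' b => (P a).trm (h a + c a)
        (fun y => (P a).Sm (h a) (c a) (nt a)
          (Pa.pbE (pb a) (k a) (E a (1 + a' * (P a).kT + b))) y (k a))
        ((P a).Kn (h a) (c a) (nt a) (pm a) (β a) (z a) (k a)) i (z a))
    hP.s.pt hP.s.pb (hP.eta.rat_div hL) (PT.const [0, 1]) hq hk.pt hk.pb hv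
  have := pt_clampQ hL.rat_neg ((PT.const 5).rat_mul hL) (hls.rat_add (hP.off hu hk.pt))
  refine this.of_eq fun a => ?_
  unfold Pa.rawF
  rw [lsQ_congr (q' := (P a).cq (h a) (c a) (nt a) (pb a) (pm a) (β a) (z a)) (k a)
    (fun k' hk' i _ => by rw [min_eq_left hk'.le]) fun _ _ => rfl]

theorem PT4_good {P : Pa} {D : De} (h : Good P D) : D.2.2.1 ≤ P.D + P.M := by
  obtain ⟨k, t, m, β, h', c⟩ := D
  obtain ⟨-, -, -, h | h | h | h⟩ := h <;> dsimp only <;> omega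

theorem PT4_estF_min (P : Pa) (c : ℕ) (Ix : ℕ → ℕ → ℕ) (Rw : ℕ → ℕ → St → ℚ) :
    P.estF c (fun i => Ix (min i P.I)) (fun i => Rw (min i P.I)) = P.estF c Ix Rw := by
  funext j c' z
  unfold Pa.estF
  split_ifs with h
  · simp only [min_eq_left h.le]
  · rfl

theorem PT4_pt_inW {u : α → ℕ} (hP : PIdx P) (hu : Sml u) (hz : PT z) :
    PT fun a => (P a).inW (u a) (z a) := by
  have h1 := PT.nat_pow (PT.const 2) (hP.gm hu).pt (hP.gm hu).pb
  have h2 := (hz.fst.nat_le hP.X).and ((hz.snd.nat_le hP.X).and ((h1.nat_dvd hz.fst).and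
    ((h1.nat_dvd hz.snd).and ((pt_dist hz.fst hz.snd).nat_le (hP.wid hu)))))
  exact h2.of_eq fun a => rfl

section rules

variable {I : α → Key De → ℕ} {G : α → Key De → St → ℚ} {ms : α → ℕ → Bool} {n t : α → ℕ}

/-- The request of sample `r` of step `i` of the ladder in copy `b`. -/
def Pa.PT4_req (P : Pa) (t m β h c b i r : ℕ) : Key De :=
  qF (dR t m β (h - P.d) (c - 1 + i)) P.d (b * 2 ^ (i + P.rx) + r)

theorem PT4_pt_req {b i r : α → ℕ} (hP : PIdx P) (ht : PT t) (hk : PT k) (hβ : PT β) (hh : PT h)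
    (hc : PT c) (hb : PT b) (hi : PT i) (hr : PT r) :
    PT fun a => (P a).PT4_req (t a) (k a) (β a) (h a) (c a) (b a) (min (i a) (P a).I) (r a) := by
  have h1 := PT4_min hi hP.I
  have h2 := PT4_add h1 hP.rx
  have h3 := PT4_key 3 true true ht hk hβ (hh.nat_sub hP.d.pt)
    ((hc.nat_sub (PT.const 1)).nat_add h1.pt) hP.d.pt
    ((hb.nat_mul (PT.nat_pow (PT.const 2) h2.pt h2.pb)).nat_add hr)
  exact h3.of_eq fun a => rfl

theorem PT4_pt_E (hP : PIdx P) (hI : PT fun p : α × Key De => I p.1 p.2)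
    (hG : PT fun p : α × Key De × St => G p.1 p.2.1 p.2.2) (ht : PT t) (hk : PT k) (hβ : PT β)
    (hh : PT h) (hc : PT c) :
    PT4 fun a b => (P a).estF (c a)
      (fun i r => I a ((P a).PT4_req (t a) (k a) (β a) (h a) (c a) b i r))
      fun i r => G a ((P a).PT4_req (t a) (k a) (β a) (h a) (c a) b i r) := by
  have hφ : PT fun q : α × ℕ × ℕ × ℕ × St => q.1 := PT.fst'
  have h1 : PT fun p : (α × ℕ × ℕ × ℕ × St) × ℕ × ℕ => p.1.1 := PT.fst'.fst
  have h2 : PT fun p : (α × ℕ × ℕ × ℕ × St) × ℕ × ℕ × St => p.1.1 := PT.fst'.fst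
  have hIx := PT4_app1 hI h1 (PT4_pt_req (hP.comp h1) (ht.comp h1) (hk.comp h1) (hβ.comp h1)
    (hh.comp h1) (hc.comp h1) PT.fst'.snd.fst PT.snd'.fst PT.snd'.snd)
  have hRw := PT4_app2 hG h2 (PT4_pt_req (hP.comp h2) (ht.comp h2) (hk.comp h2) (hβ.comp h2)
    (hh.comp h2) (hc.comp h2) PT.fst'.snd.fst PT.snd'.fst PT.snd'.snd.fst) PT.snd'.snd.snd
  have hE := pt_estF
    (Ix := fun (q : α × ℕ × ℕ × ℕ × St) (i r : ℕ) => I q.1 ((P q.1).PT4_req (t q.1) (k q.1) (β q.1)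
      (h q.1) (c q.1) q.2.1 (min i (P q.1).I) r))
    (Rw := fun (q : α × ℕ × ℕ × ℕ × St) (i r : ℕ) => G q.1 ((P q.1).PT4_req (t q.1) (k q.1) (β q.1)
      (h q.1) (c q.1) q.2.1 (min i (P q.1).I) r))
    (hP.comp hφ) hIx hRw (hc.comp hφ) PT.snd'.snd.fst PT.snd'.snd.snd.fst PT.snd'.snd.snd.snd
  refine hE.of_eq fun q => ?_
  exact congrFun (congrFun (congrFun (PT4_estF_min (P q.1) (c q.1)
    (fun i r => I q.1 ((P q.1).PT4_req (t q.1) (k q.1) (β q.1) (h q.1) (c q.1) q.2.1 i r))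
    fun i r => G q.1 ((P q.1).PT4_req (t q.1) (k q.1) (β q.1) (h q.1) (c q.1) q.2.1 i r)) _) _) _

theorem PT4_pt_ruleR (hP : PIdx P) (hI : PT fun p : α × Key De => I p.1 p.2)
    (hG : PT fun p : α × Key De × St => G p.1 p.2.1 p.2.2) (hm : PT fun p : α × ℕ => ms p.1 p.2)
    (ht : PT t) (hk : Sml k) (hβ : PT β) (hh : Sml h) (hc : Sml c) (hz : PT z)
    (hw : ∀ a, ¬ (P a).triv (h a) (c a) ∧ (P a).inW (h a + c a) (z a)) :
    PT fun a => (P a).ruleR (I a) (G a) (ms a) (t a) (k a) (β a) (h a) (c a) (z a) := by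
  refine PT.cases_sub (c := fun a => h a = 0) (hh.pt.eq (PT.const 0)) ?_ ?_
  · have hφ : PT fun a : {a // h a = 0} => a.1 := PT.id'.subtypeVal
    have h1 := PT4_app1 hm (hφ.comp (PT.fst' (β := ℕ))) PT.snd'
    have h2 := pt_rawLeaf (ms := fun a : {a // h a = 0} => ms a.1) (hP.comp hφ) h1
      (PT4_sml hc hφ) (hk.pt.comp hφ) (hz.comp hφ) fun a => by
        have := hw a.1
        rwa [a.2, zero_add] at this
    exact h2.of_eq fun a => (if_pos a.2).symm
  · have hφ : PT fun q : α × ℕ × ℕ × ℕ × St => q.1 := PT.fst'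
    have hd := (hh.pt.nat_sub hP.d.pt).comp hφ
    have h1 := PT4_app2 hG hφ (PT4_key 2 false false (ht.comp hφ) (PT.const 0) (PT.const 0)
      ((hh.pt.comp hφ).nat_sub PT.snd'.fst) PT.snd'.snd.snd.fst PT.snd'.fst PT.snd'.snd.fst)
      PT.snd'.snd.snd.snd
    have h2 := PT4_app2 hG hφ (PT4_key 4 false false (ht.comp hφ) PT.snd'.fst (hβ.comp hφ)
      hd PT.snd'.snd.snd.fst (hP.d.pt.comp hφ) PT.snd'.snd.fst) PT.snd'.snd.snd.snd
    have h3 := PT4_app2 hG hφ (PT4_key 4 false false (ht.comp hφ) PT.snd'.fst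
      ((hβ.nat_sub (PT.const 1)).comp hφ) hd PT.snd'.snd.snd.fst (hP.d.pt.comp hφ) PT.snd'.snd.fst)
      PT.snd'.snd.snd.snd
    have h4 := pt_rawF
      (nt := fun (a : α) (i j c' : ℕ) => G a (qT (dT (t a) (h a - i) c') i j))
      (pb := fun (a : α) (k' j c' : ℕ) => G a (qT (dP (t a) k' (β a) (h a - (P a).d) c') (P a).d j))
      (pm := fun (a : α) (k' j c' : ℕ) =>
        G a (qT (dP (t a) k' (β a - 1) (h a - (P a).d) c') (P a).d j))
      hP hh hc h1 h2 h3 (PT4_pt_E hP hI hG ht hk.pt hβ hh.pt hc.pt) hk hβ hz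
    exact (h4.restrict _).of_eq fun a => (if_neg a.2).symm

/-- The rules on the states of the world. -/
theorem PT4_pt_rule_in (hP : PIdx P) (hI : PT fun p : α × Key De => I p.1 p.2)
    (hG : PT fun p : α × Key De × St => G p.1 p.2.1 p.2.2) (hm : PT fun p : α × ℕ => ms p.1 p.2)
    (hn : PT n) (ht : PT t) (hk : Sml k) (hβ : PT β) (hh : Sml h) (hc : Sml c) (hz : PT z)
    (hw : ∀ a, ¬ (P a).triv (h a) (c a) ∧ (P a).inW (h a + c a) (z a)) :
    PT fun a => if n a = 0 then (P a).ruleA (G a) (ms a) (h a) (c a) (z a) else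
      if n a = 1 then (P a).ruleN (G a) (ms a) (t a) (k a) (h a) (c a) (z a) else
      if n a = 2 then (P a).ntil (fun k' => G a (qT (dN (t a) ((P a).D + k') (h a) (c a)) 0 0))
        (h a + c a) (z a) else
      if n a = 3 then (P a).ruleR (I a) (G a) (ms a) (t a) (k a) (β a) (h a) (c a) (z a) else
        clampQ 0 (4 * (P a).Lam (h a + c a))
          ((P a).tabAvg (fun r => G a (qF (dR (t a) (k a) (β a) (h a) (c a)) 0 r)) (z a)) := by
  have hφ : PT fun q : α × ℕ × St => q.1 := PT.fst'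
  have h1 := PT4_app2 hG hφ (PT4_key 1 false false (ht.comp hφ)
    ((hP.D.pt.comp hφ).nat_add PT.snd'.fst) (PT.const 0) (hh.pt.comp hφ) (hc.pt.comp hφ)
    (PT.const 0) (PT.const 0)) PT.snd'.snd
  have h2 := PT4_app2 hG hφ (PT4_key 3 true true (ht.comp hφ) (hk.pt.comp hφ) (hβ.comp hφ)
    (hh.pt.comp hφ) (hc.pt.comp hφ) (PT.const 0) PT.snd'.fst) PT.snd'.snd
  have h3 := pt_ntil
    (f := fun (a : α) (k' : ℕ) => G a (qT (dN (t a) ((P a).D + k') (h a) (c a)) 0 0))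
    hP h1 (PT4_add hh hc) hz
  have h4 := pt_tabAvg
    (f := fun (a : α) (r : ℕ) => G a (qF (dR (t a) (k a) (β a) (h a) (c a)) 0 r)) hP h2 hz
  exact PT.ite (hn.eq (PT.const 0)) (pt_ruleA hP hG hm hh hc hz hw) (PT.ite (hn.eq (PT.const 1))
    (pt_ruleN hP hG hm ht hk.pt hh hc hz hw) (PT.ite (hn.eq (PT.const 2)) h3
      (PT.ite (hn.eq (PT.const 3)) (PT4_pt_ruleR hP hI hG hm ht hk hβ hh hc hz hw)
        (pt_clampQ (PT.const 0) ((PT.const 4).rat_mul (hP.Lam (PT4_add hh hc))) h4))))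

end rules

theorem pt_rule (α : Type) [Enc α] (P : α → Pa) (D : α → De) (I : α → Key De → ℕ)
    (G : α → Key De → St → ℚ) (m : α → ℕ → Bool) (z : α → St) (hg : ∀ a, Good (P a) (D a))
    (hP : PT P) (hD : PT D) (hI : PT (fun p : α × Key De => I p.1 p.2))
    (hG : PT (fun p : α × Key De × St => G p.1 p.2.1 p.2.2)) (hm : PT (fun p : α × ℕ => m p.1 p.2))
    (hz : PT z) : PT fun a => (P a).rule (D a) (I a) (G a) (m a) (z a) := by
  have hP' : PIdx P := ⟨hP, fun a => (hg a).1⟩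
  have hh : Sml fun a => (D a).2.2.2.2.1 :=
    ⟨hD.snd.snd.snd.snd.fst, hP'.L.pb.mono fun a => (hg a).2.1⟩
  have hc : Sml fun a => (D a).2.2.2.2.2 := ⟨hD.snd.snd.snd.snd.snd,
    hP'.cmax.pb.mono fun a => (not_le.1 fun h => (hg a).2.2.1 (Or.inl h)).le⟩
  have hk : Sml fun a => (D a).2.2.1 :=
    ⟨hD.snd.snd.fst, (hP'.D.pb.add hP'.M.pb).mono fun a => PT4_good (hg a)⟩
  have hin := PT4_pt_inW hP' (PT4_add hh hc) hz
  have hφ : PT fun a : {a // (P a).inW ((D a).2.2.2.2.1 + (D a).2.2.2.2.2) (z a)} => a.1 :=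
    PT.id'.subtypeVal
  have hD' := hD.comp hφ
  have h1 := PT4_pt_rule_in
    (I := fun a : {a // (P a).inW ((D a).2.2.2.2.1 + (D a).2.2.2.2.2) (z a)} => I a.1)
    (G := fun a => G a.1) (ms := fun a => m a.1) (hP'.comp hφ)
    (PT4_app1 hI (hφ.comp PT.fst') PT.snd') (PT4_app2 hG (hφ.comp PT.fst') PT.snd'.fst PT.snd'.snd)
    (PT4_app1 hm (hφ.comp PT.fst') PT.snd') hD'.fst hD'.snd.fst (PT4_sml hk hφ)
    hD'.snd.snd.snd.fst (PT4_sml hh hφ) (PT4_sml hc hφ) (hz.comp hφ) fun a => ⟨(hg a.1).2.2.1, a.2⟩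
  have hs := PT4_sml hP'.s hφ
  refine PT.cases_sub hin ((pt_rup hs.pt hs.pb h1).of_eq fun a => ?_)
    (((pt_rup hP'.s.pt hP'.s.pb hP'.X.rat_natCast).restrict _).of_eq fun a => ?_)
  · exact congrArg (rup (P a.1).s) (if_neg (not_not.2 a.2)).symm
  · exact congrArg (rup (P a.1).s) (if_pos a.2).symm

end Crest.Agent.R288
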