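/-
R288/Warm: the first `D` closure steps spread the guarantee to all heights.
-/
import Crest.Agent.R288.Up

set_option autoImplicit false

namespace Crest.Agent.R288

open Finset

namespace Pa

variable {P : Pa} {ms : ℕ → ℕ → Bool}

theorem Warm_del_pos : (0 : ℝ) < P.del := by
  unfold del
  push_cast
  positivity

theorem Warm_del_le : (P.del : ℝ) ≤ 1 / 4 := by
  have h : (4 : ℝ) ≤ 2 ^ P.Lx := by
    unfold Lx
    rw [pow_add]
    have : (1 : ℝ) ≤ 2 ^ P.l2 := one_le_pow₀ (by norm_num)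
    linarith
  unfold del
  push_cast
  exact one_div_le_one_div_of_le (by norm_num) h

theorem Warm_La_succ (u : ℕ) : P.La (u + 1) = 2 * P.La u := by
  unfold La
  rw [Lam_add]
  push_cast
  ring

theorem Warm_eps (u : ℕ) : (1 : ℝ) / 2 ^ P.s ≤ P.del ^ 3 * P.La u := by
  have h1 : (1 : ℚ) / 2 ^ P.s ≤ 2 ^ (3 * P.kap) / 2 ^ P.s :=
    div_le_div_of_nonneg_right (one_le_pow₀ (by norm_num)) (by positivity)
  have h2 : P.ups * P.ups ≤ P.del ^ 3 := by
    unfold ups del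
    rw [div_mul_div_comm, one_mul, div_pow, one_pow, ← pow_add, ← pow_mul]
    exact one_div_le_one_div_of_le (by positivity) (pow_le_pow_right₀ (by norm_num) (by omega))
  have h3 := h1.trans ((eps_le u).trans (mul_le_mul_of_nonneg_right h2 (Lam_pos u).le))
  have h4 := (Rat.cast_le (K := ℝ)).2 h3
  push_cast at h4
  exact h4

theorem Warm_kap : 10 * (P.K0 : ℝ) / 2 ^ P.kap ≤ P.del ^ 3 := by
  have h1 : (10 : ℚ) * P.K0 / 2 ^ P.kap ≤ P.del ^ 3 := by
    have h2 : (2 : ℚ) ^ (P.D + P.Lx + 3 + 4) / 2 ^ P.kap ≤ 2 ^ 0 / 2 ^ (P.Lx * 3) :=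
      Par_pp (by unfold kap Lx; omega)
    unfold del K0
    rw [div_pow, one_pow, ← pow_mul]
    rw [pow_zero, pow_add] at h2
    refine le_trans (div_le_div_of_nonneg_right ?_ (by positivity)) h2
    have : (0 : ℚ) < 2 ^ (P.D + P.Lx + 3) := by positivity
    linarith
  exact_mod_cast h1

theorem Warm_upQ_nonneg {N : Fam} (hN : P.ValN ms N) {h j : ℕ} (hn : P.Nd h j) (c : ℕ) {z : St}
    (h1 : z.1 ≤ P.X) : 0 ≤ P.upQ (P.lkF N h j) h c z := by
  have h2 := (le_min (VV_nonneg h j z) (Nat.cast_nonneg P.X)).trans (upQ_valid hN hn c h1)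
  exact_mod_cast h2

theorem Warm_rup {x y : ℚ} (h : x ≤ y) (hy : 0 ≤ y) : (rup P.s x : ℝ) ≤ y + 1 / 2 ^ P.s := by
  have h1 : (0 : ℚ) ≤ 2 ^ P.s := by positivity
  have h2 := (Rat.cast_le (K := ℝ)).2 ((rup_mono (s := P.s) h).trans (rup_le (by linarith)))
  push_cast at h2
  exact h2

/-- the least class in which the state fits -/
theorem Warm_class (h c : ℕ) {v T : ℝ} (hv : 0 ≤ v) (hT : 0 < T) :
    ∃ c', c ≤ c' ∧ (P.triv h c' ∨ v ≤ T * P.La (h + c') / 2) ∧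
      P.La (h + c') ≤ P.La (h + c) + 4 * v / T := by
  classical
  have hex : ∃ i, P.triv h (c + i) ∨ v ≤ T * P.La (h + (c + i)) / 2 :=
    ⟨P.cmax, Or.inl (Or.inl (Nat.le_add_left _ _))⟩
  refine ⟨c + Nat.find hex, Nat.le_add_right _ _, Nat.find_spec hex, ?_⟩
  have h0 : 0 ≤ 4 * v / T := by positivity
  rcases hi : Nat.find hex with _ | i
  · rw [add_zero]
    linarith
  · have h1 := Nat.find_min hex (m := i) (by omega)
    have h2 := not_le.1 (not_or.1 h1).2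
    have h3 : 2 * P.La (h + (c + i)) ≤ 4 * v / T := by
      rw [le_div_iff₀ hT]
      linarith
    rw [show h + (c + (i + 1)) = h + (c + i) + 1 by ring, Warm_La_succ]
    linarith [La_pos (P := P) (h + c)]

/-- One split round.  Given `(c, z)` at height `h + 1`, let `c' ≥ c` be least with `triv (h+1) c'` or
`V z ≤ 2 ^ tw Λ' / 2` (`Λ' = La (h+1+c')`; exists since `cmax` is trivial); then
`Λ' ≤ Λ + 4 V / 2 ^ tw`.  Trivial `c'`: `trivV_le_of_triv`.  Otherwise `z' = rd z` is a state, the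
rounded optimal midpoint `a` of `z'` (`V_split_eq`, grid `gm (h + c')`) is in the ball, and
`N (k+1) c' z' ≤ up L + up R + 2^{-s} ≤ K (V z + 4 Λ' / 2^kap) + κ Λ' + 2^{-s}`. -/
theorem NRel.upH_succ (hP : P.OK) {N : ℕ → Fam} (hR : P.NRel N) {k : ℕ} (hk : k < P.D + P.M)
    (hN : P.ValN ms (N k)) {K κ : ℝ} (h1 : 1 ≤ K) (h2 : K ≤ 2 * P.K0) (h3 : 0 ≤ κ) {h : ℕ}
    (hU : P.UpH ms (N k) K κ h) :
    P.UpH ms (N (k + 1)) (K + 4 * (κ + 2 * P.del ^ 3) / 2 ^ P.tw) (κ + 2 * P.del ^ 3) (h + 1) := by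
  intro j c z hn hz1 hz2
  have hV := VV_nonneg (P := P) (ms := ms) (h + 1) j z
  have hδ : (0 : ℝ) < P.del ^ 3 := pow_pos Warm_del_pos 3
  have hT : (8 : ℝ) ≤ 2 ^ P.tw := by
    unfold tw
    rw [pow_add]
    have : (1 : ℝ) ≤ 2 ^ P.d := one_le_pow₀ (by norm_num)
    linarith
  obtain ⟨c', hc, hcase, hΛ⟩ := Warm_class (P := P) (h + 1) c hV (T := 2 ^ P.tw) (by linarith)
  have hΛ0 := La_pos (P := P) (h + 1 + c')
  suffices H : (P.upQ (P.lkF (N (k + 1)) (h + 1) j) (h + 1) c z : ℝ) ≤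
      K * P.VV ms (h + 1) j z + (κ + 2 * P.del ^ 3) * P.La (h + 1 + c') by
    have h4 := mul_le_mul_of_nonneg_left hΛ (show 0 ≤ κ + 2 * (P.del : ℝ) ^ 3 by linarith)
    refine H.trans (le_of_le_of_eq (add_le_add le_rfl h4) ?_)
    ring
  by_cases ht : P.triv (h + 1) c'
  · have h4 : (P.upQ (P.lkF (N (k + 1)) (h + 1) j) (h + 1) c z : ℝ) ≤ P.trivV (h + 1) z := by
      exact_mod_cast upQ_le_trivV _ _ _ _
    have h5 := trivV_le_of_triv (ms := ms) ht j z
    nlinarith [mul_nonneg h3 hΛ0.le, mul_pos hδ hΛ0, mul_nonneg (sub_nonneg.2 h1) hV]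
  have hfit := hcase.resolve_left ht
  set z' := P.rd (h + 1 + c') z with hz'
  set e : ℝ := P.La (h + 1 + c') / 2 ^ P.kap with he
  have he0 : 0 < e := by positivity
  have he1 : e ≤ P.La (h + 1 + c') := div_le_self hΛ0.le (one_le_pow₀ (by norm_num))
  have hd : (dst z z' : ℝ) ≤ 2 * e := by
    have := dst_rd_le (P := P) (h + 1 + c') z
    rw [he, La, ← mul_div_assoc]
    exact_mod_cast this
  have hwid : ∀ m : ℕ, (m : ℝ) ≤ P.VV ms (h + 1) j z + 4 * e → m ≤ P.wid (h + 1 + c') := by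
    intro m hm
    rw [wid, le_rad_iff]
    have h4 : (m : ℝ) ≤ 2 ^ P.tw * P.La (h + 1 + c') := by nlinarith
    unfold La at h4
    exact_mod_cast h4
  have hz1' : z'.1 ≤ P.X := (rdn_fst_le _ z).trans hz1
  have hz2' : z'.2 ≤ P.X := (rdn_snd_le _ z).trans hz2
  have hVz : P.VV ms (h + 1) j z' ≤ P.VV ms (h + 1) j z + 2 * e := by
    have := VV_lip (P := P) (ms := ms) (h + 1) j z' z
    rw [dst_comm] at this
    linarith
  have hin : P.inW (h + 1 + c') z' := by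
    refine ⟨hz1', hz2', (dvd_rdn _ z).1, (dvd_rdn _ z).2, hwid _ ?_⟩
    have h4 : ((Nat.dist z'.1 z'.2 : ℕ) : ℝ) ≤ P.VV ms (h + 1) j z' := by
      unfold VV
      exact_mod_cast dist_le_V _ _ _
    linarith
  obtain ⟨a₀, ha₀, hsp⟩ := V_split_eq (X := P.X) (ms := ms) h j z'
  have hsp' : P.VV ms (h + 1) j z' =
      P.VV ms h (2 * j) (z'.1, a₀) + P.VV ms h (2 * j + 1) (a₀, z'.2) := by
    unfold VV
    exact_mod_cast hsp
  set a := a₀ / 2 ^ P.gm (h + c') * 2 ^ P.gm (h + c') with ha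
  have hle : a ≤ a₀ := Nat.div_mul_le_self _ _
  have hLa : P.La (h + 1 + c') = 2 * P.La (h + c') := by
    rw [← Warm_La_succ, Nat.add_right_comm]
  have hda : ((Nat.dist a a₀ : ℕ) : ℝ) ≤ e / 2 := by
    have h4 := sub_rd_le (P := P) (h + c') a₀
    rw [Nat.dist_eq_sub_of_le hle, he, hLa, show 2 * P.La (h + c') / 2 ^ P.kap / 2 =
      P.La (h + c') / 2 ^ P.kap by ring, La]
    exact_mod_cast h4
  have hVR := VV_nonneg (P := P) (ms := ms) h (2 * j + 1) (a₀, z'.2)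
  have hmem : a ∈ gball P.X (P.gm (h + 1 + c' - 1)) (P.wid (h + 1 + c')) z'.1 := by
    rw [mem_gball, show h + 1 + c' - 1 = h + c' by omega]
    refine ⟨Dvd.intro_left _ rfl, hle.trans ha₀, hwid _ ?_⟩
    have h4 : ((Nat.dist z'.1 a₀ : ℕ) : ℝ) ≤ P.VV ms h (2 * j) (z'.1, a₀) := by
      unfold VV
      exact_mod_cast dist_le_V (X := P.X) (ms := ms) h (2 * j) (z'.1, a₀)
    have h5 : ((Nat.dist a z'.1 : ℕ) : ℝ) ≤ (Nat.dist a a₀ : ℕ) + (Nat.dist z'.1 a₀ : ℕ) := by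
      rw [Nat.dist_comm z'.1]
      exact_mod_cast Nat.dist.triangle_inequality a a₀ z'.1
    linarith
  have hstep : (N (k + 1) (h + 1) j c' z' : ℝ) ≤
      (P.upQ (P.lkF (N k) h (2 * j)) h c' (z'.1, a) +
        P.upQ (P.lkF (N k) h (2 * j + 1)) h c' (a, z'.2) : ℚ) + 1 / 2 ^ P.s := by
    rw [hR.step k hk (h + 1) j c' z' hn ht hin]
    refine Warm_rup (minL_le_of_mem (List.mem_append_right _ ?_)) (add_nonneg
      (Warm_upQ_nonneg hN hn.left _ hz1') (Warm_upQ_nonneg hN hn.right _ (hle.trans ha₀)))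
    rw [if_neg (Nat.succ_ne_zero h)]
    exact List.mem_map.2 ⟨a, hmem, rfl⟩
  have hL := hU (2 * j) c' (z'.1, a) hn.left hz1' (hle.trans ha₀)
  have hR' := hU (2 * j + 1) c' (a, z'.2) hn.right (hle.trans ha₀) hz2'
  have hL2 := VV_lip (P := P) (ms := ms) h (2 * j) (z'.1, a) (z'.1, a₀)
  have hR2 := VV_lip (P := P) (ms := ms) h (2 * j + 1) (a, z'.2) (a₀, z'.2)
  simp only [dst, Nat.dist_self, zero_add, add_zero] at hL2 hR2
  have hsum : P.VV ms h (2 * j) (z'.1, a) + P.VV ms h (2 * j + 1) (a, z'.2) ≤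
      P.VV ms (h + 1) j z + 3 * e := by linarith
  have hsum' := mul_le_mul_of_nonneg_left hsum (show 0 ≤ K by linarith)
  have hup : (P.upQ (P.lkF (N (k + 1)) (h + 1) j) (h + 1) c z : ℝ) ≤
      N (k + 1) (h + 1) j c' z' + dst z z' := by
    exact_mod_cast upQ_le (f := P.lkF (N (k + 1)) (h + 1) j) z hc ht
  have hKe : 5 * K * e ≤ P.del ^ 3 * P.La (h + 1 + c') := by
    have h4 : 5 * K * e ≤ 10 * (P.K0 : ℝ) / 2 ^ P.kap * P.La (h + 1 + c') := by
      rw [show 10 * (P.K0 : ℝ) / 2 ^ P.kap * P.La (h + 1 + c') = 5 * (2 * P.K0) * e by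
        rw [he]; ring]
      gcongr
    exact h4.trans (mul_le_mul_of_nonneg_right Warm_kap hΛ0.le)
  have heps := Warm_eps (P := P) (h + 1 + c')
  have hK2 := mul_le_mul_of_nonneg_right h1 he0.le
  push_cast at hstep
  rw [hLa] at heps hKe ⊢
  linarith

theorem UpH.mono {N N' : Fam} {K K' κ κ' : ℝ} {h : ℕ} (hU : P.UpH ms N K κ h) (hK : K ≤ K')
    (hκ : κ ≤ κ') (hN : ∀ j c z, P.Nd h j → ¬ P.triv h c → N' h j c z ≤ N h j c z) :
    P.UpH ms N' K' κ' h := by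
  intro j c z hn h1 h2
  have h3 : (P.upQ (P.lkF N' h j) h c z : ℝ) ≤ P.upQ (P.lkF N h j) h c z := by
    exact Rat.cast_le.2 (upQ_mono (f := P.lkF N' h j) (f' := P.lkF N h j) le_rfl
      fun c'' _ ht => hN j c'' (P.rd (h + c'') z) hn ht)
  refine h3.trans ((hU j c z hn h1 h2).trans (add_le_add ?_ ?_))
  · exact mul_le_mul_of_nonneg_right hK (VV_nonneg h j z)
  · exact mul_le_mul_of_nonneg_right hκ (La_pos _).le

/-- A height `h` with `h % q = r < q ≤ D` gets the lifted guarantee at round `r` (induction with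
`upH_succ`, constants `κ + 2 r δ³` and `K + r * 4 (κ + δ / 2) / 2 ^ tw ≤ K + κ + δ`, using
`100 D ≤ 2 ^ d`), keeps it (`NRel.anti`), and the last round `D` makes it direct:
`N (k+1) c z ≤ upQ (N k) (c - 1) z + 2^{-s} ≤ upQ (N k) c z + 2^{-s}`. -/
theorem NRel.warm (hP : P.OK) {N : ℕ → Fam} (hR : P.NRel N) (h0 : P.ValN ms (N 0)) {q : ℕ}
    (hq : 0 < q) (hqD : q ≤ P.D) {K κ : ℝ} (h1 : 1 ≤ K) (h2 : K ≤ P.K0) (h3 : 0 ≤ κ)
    (h4 : κ ≤ 1 / 16) (hU : ∀ h, q ∣ h → P.UpH ms (N 0) K κ h) :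
    P.HN ms (N P.D) (K + κ + P.del) (κ + P.del) := by
  have hδ := Warm_del_pos (P := P)
  have hδ1 := Warm_del_le (P := P)
  have hD := hP.D_pos
  have hD' : (0 : ℝ) < P.D := Nat.cast_pos.2 hD
  have hT : 800 * (P.D : ℝ) ≤ 2 ^ P.tw := by
    have h5 : (100 * P.D : ℝ) ≤ 2 ^ P.d := by exact_mod_cast hP.D_le_two_pow_d
    unfold tw
    rw [pow_add]
    linarith
  have hDδ : 2 * (P.D : ℝ) * P.del ≤ 1 := by
    have h5 : 2 * P.D ≤ 2 ^ P.Lx := by
      have := hP.Par_D_le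
      have := hP.l1_lt
      omega
    have h6 : 2 * (P.D : ℝ) ≤ 2 ^ P.Lx := by exact_mod_cast h5
    unfold del
    push_cast
    rwa [mul_one_div, div_le_one (by positivity)]
  have hκr : ∀ r : ℕ, r ≤ P.D → 2 * (r : ℝ) * P.del ^ 3 ≤ P.del / 2 := by
    intro r hr
    have h5 : (r : ℝ) ≤ P.D := Nat.cast_le.2 hr
    have h6 : 2 * (r : ℝ) * P.del ≤ 1 := le_trans (by gcongr) hDδ
    have h7 := mul_le_mul_of_nonneg_right h6 (mul_pos hδ hδ).le
    nlinarith
  have hKr : ∀ r : ℕ, r ≤ P.D → (r : ℝ) * (4 * (κ + P.del / 2) / 2 ^ P.tw) ≤ κ + P.del := by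
    intro r hr
    have h5 : (r : ℝ) ≤ P.D := Nat.cast_le.2 hr
    rw [← mul_div_assoc, div_le_iff₀ (by positivity)]
    have h6 : (r : ℝ) * (4 * (κ + P.del / 2)) ≤ P.D * (4 * (κ + P.del)) := by
      gcongr
      linarith
    have h7 := mul_le_mul_of_nonneg_left hT (show 0 ≤ κ + P.del by linarith)
    nlinarith [mul_nonneg hD'.le (show 0 ≤ κ + P.del by linarith)]
  have hK0 : (8 : ℝ) ≤ P.K0 := by
    unfold K0
    push_cast
    rw [pow_add]
    have : (1 : ℝ) ≤ 2 ^ (P.D + P.Lx) := one_le_pow₀ (by norm_num)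
    linarith
  have key : ∀ r, r < q → ∀ h, h % q = r →
      P.UpH ms (N r) (K + r * (4 * (κ + P.del / 2) / 2 ^ P.tw)) (κ + 2 * r * P.del ^ 3) h := by
    intro r
    induction r with
    | zero =>
      intro _ h hh
      simpa using hU h (Nat.dvd_of_mod_eq_zero hh)
    | succ r ih =>
      intro hr h hh
      obtain ⟨h, rfl⟩ : ∃ h', h = h' + 1 := by
        rcases h with _ | h
        · simp at hh
        · exact ⟨h, rfl⟩
      have hh' : h % q = r := by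
        have h5 := Nat.div_add_mod (h + 1) q
        rw [hh] at h5
        rw [show h = r + q * ((h + 1) / q) by omega, Nat.add_mul_mod_self_left,
          Nat.mod_eq_of_lt (by omega)]
      have h5 := hKr r (by omega)
      have h6 := hκr (r + 1) (by omega)
      have h7 : 0 ≤ (r : ℝ) * (4 * (κ + P.del / 2) / 2 ^ P.tw) := by positivity
      have h8 := hR.upH_succ hP (k := r) (by omega) (hR.valN h0 (by omega)) (by linarith)
        (by linarith) (by positivity) (ih (by omega) h hh')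
      refine h8.mono ?_ (le_of_eq ?_) fun _ _ _ _ _ => le_rfl
      · push_cast at h6 ⊢
        have h9 : 4 * (κ + 2 * r * P.del ^ 3 + 2 * P.del ^ 3) / 2 ^ P.tw ≤
            4 * (κ + P.del / 2) / (2 : ℝ) ^ P.tw := by
          gcongr 4 * ?_ / _
          linarith
        linarith
      · push_cast
        ring
  obtain ⟨k, hk⟩ : ∃ k, P.D = k + 1 := ⟨P.D - 1, by omega⟩
  intro h j c z hn hc hz
  have hr := Nat.mod_lt h hq
  have h5 : P.UpH ms (N k) (K + κ + P.del) (κ + P.del / 2) h :=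
    (key _ hr h rfl).mono (by linarith [hKr (h % q) (by omega)])
      (by linarith [hκr (h % q) (by omega)])
      fun j c z hn hc => hR.anti h0 (by omega) (by omega) hn hc z
  have h6 := h5 j c z hn hz.1 hz.2.1
  have h7 : (N (k + 1) h j c z : ℝ) ≤ P.upQ (P.lkF (N k) h j) h c z + 1 / 2 ^ P.s := by
    rw [hR.step k (by omega) h j c z hn hc hz]
    exact Warm_rup ((minL_le_default _ _).trans (upQ_mono (Nat.sub_le _ _) fun _ _ _ => le_rfl))
      (Warm_upQ_nonneg (hR.valN h0 (by omega)) hn c hz.1)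
  have h8 := Warm_eps (P := P) (h + c)
  have h9 := mul_le_mul_of_nonneg_right (hκr 1 hD) (La_pos (P := P) (h + c)).le
  have h10 := mul_pos (pow_pos hδ 3) (La_pos (P := P) (h + c))
  rw [hk]
  push_cast at h9
  linarith

end Pa

end Crest.Agent.R288
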