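/-
R288/Phase: the induction over the phases and the value at the root.
-/
import Crest.Agent.R288.AccPr
import Crest.Agent.R288.Out
import Crest.Agent.R288.Warm
import Crest.Agent.R288.Ako3
import Crest.Agent.R288.StA
import Crest.Agent.R288.GeoLo
import Crest.Agent.R288.GeoHi

set_option autoImplicit false

namespace Crest.Agent.R288

open Finset Crest.GraphRAM

namespace Pa

/-- The approximation factor of phase `t`. -/
noncomputable def Kt (P : Pa) (t : ℕ) : ℝ := 1 + 80 * P.fq + P.K0 / (2 * 4 ^ t)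

/-- The state asked for at the root. -/
def z0 (P : Pa) (x y : List ℕ) : St := (P.X / 2, min P.X (P.X / 2 + y.length - x.length))

/-- The value at the root. -/
def val (P : Pa) (x y : List ℕ) (ρ : ℕ → Bool) : ℚ :=
  eng.tab P (mis x y P.X) (tapesOf (P.pot P.root) ρ) P.root 0 (P.rd P.L (P.z0 x y)) +
    dst (P.z0 x y) (P.rd P.L (P.z0 x y))

/-- The answer for one guess. -/
def ans (P : Pa) (x y : List ℕ) (ρ : ℕ → Bool) : ℕ :=
  if (P.z0 x y).2 + x.length = P.X / 2 + y.length ∧ P.val x y ρ < P.X then ⌊P.val x y ρ⌋₊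
  else x.length + y.length

variable {P : Pa}

theorem Phase_fq (hP : P.OK) : (P.fq : ℝ) ≤ 1 / 2 ^ 20 ∧ (P.del : ℝ) ≤ P.fq := by
  have h1 := hP.gp
  have h2 := hP.wx_le
  rw [Out_fq]
  refine ⟨one_div_le_one_div_of_le (by positivity)
    (pow_le_pow_right₀ one_le_two (by unfold fx; omega)), ?_⟩
  unfold del
  push_cast
  exact one_div_le_one_div_of_le (by positivity)
    (pow_le_pow_right₀ one_le_two (by unfold fx; omega))

theorem Phase_K0 : (8 : ℝ) ≤ P.K0 := by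
  have : (2 : ℚ) ^ 3 ≤ P.K0 := pow_le_pow_right₀ one_le_two (by omega)
  have h' : (8 : ℚ) ≤ P.K0 := by linarith
  exact_mod_cast h'

theorem Phase_HN {ms : ℕ → ℕ → Bool} {N : Fam} {K κ K' κ' : ℝ} (h : P.HN ms N K κ) (hK : K ≤ K')
    (hκ : κ ≤ κ') : P.HN ms N K' κ' := fun a j c z hn hc hz =>
  (h a j c z hn hc hz).trans (add_le_add (mul_le_mul_of_nonneg_right hK (VV_nonneg a j z))
    (mul_le_mul_of_nonneg_right hκ (La_pos _).le))

theorem Phase_Kt (hP : P.OK) (t : ℕ) : 1 ≤ P.Kt t ∧ P.Kt t ≤ P.K0 := by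
  have hf := Out_fq_pos (P := P)
  have hf1 := (Phase_fq hP).1
  have hK := Phase_K0 (P := P)
  have h4 : (1 : ℝ) ≤ 4 ^ t := one_le_pow₀ (by norm_num)
  have h5 : (0 : ℝ) ≤ P.K0 / (2 * 4 ^ t) := by positivity
  have h6 : (P.K0 : ℝ) / (2 * 4 ^ t) ≤ P.K0 / 2 :=
    div_le_div_of_nonneg_left (by linarith) (by norm_num) (by linarith)
  unfold Kt
  norm_num at hf1
  constructor <;> linarith

/-- Induction on `t`.  Start: `AccA.arel`, `zrel`, `ZRel.valN`, `ZRel.upH`, `NRel.warm` with `q = D`.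
Step: `stageA` (`nrel`, `trel`), `AccP.tabRel`, `NRel.valN`, `xrel`, `XRel.valN`, `XRel.upH`,
`NRel.warm` with `q = d`; `1 + 64 f K + 8 f + δ ≤ Kt (t + 1)` since `64 f ≤ 1/4`,
`64 · 80 f² + δ ≤ 8 f`. -/
theorem Acc.phase (hP : P.OK) {ms tapes : ℕ → ℕ → Bool} (hA : P.Acc ms tapes) {t : ℕ}
    (ht : t ≤ P.T) : P.ValN ms (P.tN ms tapes t 0) ∧
      P.HN ms (P.tN ms tapes t P.D) (P.Kt t) (1 / 16) := by
  have hf := Out_fq_pos (P := P)
  obtain ⟨hf1, hd1⟩ := Phase_fq hP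
  have hd := Warm_del_pos (P := P)
  have hK0 := Phase_K0 (P := P)
  norm_num at hf1
  induction t with
  | zero =>
    have hR := hA.1.arel hP
    have hZ := zrel ms tapes hP
    have hV := hZ.valN hP hR
    refine ⟨hV, Phase_HN ((nrel ms tapes hP ht).warm hP hV hP.D_pos le_rfl (K := P.K0 / 2)
      (κ := 1 / 32) (by linarith) (by linarith) (by norm_num) (by norm_num)
      fun h hh => hZ.upH hP hR hh) ?_ (by linarith)⟩
    unfold Kt
    rw [pow_zero, mul_one]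
    linarith
  | succ t ih =>
    have ht' : t < P.T := ht
    obtain ⟨hV, hH⟩ := ih ht'.le
    obtain ⟨hK1, hK2⟩ := Phase_Kt hP t
    have hN := nrel ms tapes hP ht'.le
    have hS := stageA hP hN (trel ms tapes hP ht') hV hK1 hK2 hH
    have hT := (hA.2 t ht').tabRel hP ht' hS
    have hVD := hN.valN hV (Nat.le_add_right _ _)
    have hX := xrel ms tapes hP ht'
    have hV' := hX.valN hP hS hT hVD
    have hfK : 0 ≤ (P.fq : ℝ) * P.Kt t := by positivity
    have hfK' : 64 * (P.fq : ℝ) * P.Kt t ≤ 1 / 4 * P.Kt t :=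
      mul_le_mul_of_nonneg_right (by linarith) (by linarith)
    refine ⟨hV', Phase_HN ((nrel ms tapes hP ht).warm hP hV' hP.d_pos
      (Nat.le_of_dvd hP.D_pos hP.d_dvd_D) (K := 1 + 64 * P.fq * P.Kt t)
      (κ := 8 * P.fq) (by linarith) (by linarith) (by linarith) (by linarith)
      fun h hh => hX.upH hP hS hT hVD hh) ?_ (by linarith)⟩
    have h5 : (0 : ℝ) ≤ P.K0 / (2 * 4 ^ t) := by positivity
    have e : (P.K0 : ℝ) / (2 * 4 ^ (t + 1)) = 1 / 4 * (P.K0 / (2 * 4 ^ t)) := by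
      rw [pow_succ]
      field_simp
    have h6 : 64 * (P.fq : ℝ) * (P.K0 / (2 * 4 ^ t)) ≤ 1 / 4 * (P.K0 / (2 * 4 ^ t)) :=
      mul_le_mul_of_nonneg_right (by linarith) h5
    have h7 : 5120 * (P.fq : ℝ) * P.fq ≤ 1 * P.fq := mul_le_mul_of_nonneg_right (by linarith) hf.le
    unfold Kt
    rw [e]
    nlinarith

theorem Kt_T (hP : P.OK) : P.Kt P.T ≤ 1 + 81 * P.fq := by
  have h1 := hP.gp
  have h2 := hP.wx_le
  have h3 : P.K0 / (2 * 4 ^ P.T) ≤ P.fq := by
    have h4 := Par_pp (a := P.D + P.Lx + 3) (b := 1 + 2 * P.T) (c := 0) (d := P.fx)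
      (by unfold fx T; omega)
    unfold K0 fq
    rw [pow_add 2 1, pow_mul, pow_zero] at h4
    norm_num at h4 ⊢
    exact h4
  have h5 : (P.K0 : ℝ) / (2 * 4 ^ P.T) ≤ P.fq := by exact_mod_cast h3
  unfold Kt
  linarith

variable {x y : List ℕ} {ρ : ℕ → Bool}

theorem Phase_X : 2 * (P.X / 2) = P.X ∧ P.X = 4 * 2 ^ P.e := by
  unfold X
  rw [pow_add]
  omega

theorem Phase_nd : P.Nd P.L 0 := ⟨le_rfl, Nat.two_pow_pos _⟩

theorem Phase_val (P : Pa) (x y : List ℕ) (ρ : ℕ → Bool) : P.val x y ρ =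
    P.tN (mis x y P.X) (tapesOf (P.pot P.root) ρ) P.T P.D P.L 0 0 (P.rd P.L (P.z0 x y)) +
      dst (P.z0 x y) (P.rd P.L (P.z0 x y)) := rfl

theorem Phase_valD (hP : P.OK) {ms tapes : ℕ → ℕ → Bool} (hA : P.Acc ms tapes) :
    P.ValN ms (P.tN ms tapes P.T P.D) :=
  (nrel ms tapes hP le_rfl).valN (hA.phase hP le_rfl).1 (Nat.le_add_right _ _)

theorem Phase_Lam (hP : P.OK) : P.La P.L = 2 ^ P.e * (1 / 2) ^ P.g / 1024 := by
  have h := hP.e_le
  unfold La Lam c0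
  push_cast
  obtain ⟨k, hk⟩ := Nat.exists_eq_add_of_le h
  rw [hk, Nat.add_sub_cancel_left]
  simp only [pow_add, one_div, inv_pow]
  field_simp
  norm_num

/-- `ValN.Up_val`, `ed_le_V` with `H = X / 2`, `editDist_le_add`. -/
theorem le_ans (hP : P.OK) (hx : x.length ≤ 2 ^ P.L)
    (hA : P.Acc (mis x y P.X) (tapesOf (P.pot P.root) ρ)) : editDist x y ≤ P.ans x y ρ := by
  unfold ans
  split_ifs with hc
  · obtain ⟨h1, h2⟩ := hc
    have h3 := (Phase_valD hP hA).Up_val Phase_nd (good_root hP).2.2.1 (P.z0 x y)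
      (P.rd P.L (P.z0 x y))
    rw [← Phase_val] at h3
    have h4 : ((P.val x y ρ : ℚ) : ℝ) < P.X := by exact_mod_cast h2
    have h5 := (min_le_iff.1 h3).resolve_right (not_le.2 h4)
    have h6 := ed_le_V x y P.L (P.X / 2) (P.z0 x y).2 hx h1
      (by rw [Phase_X.1]; exact min_le_left _ _)
    rw [Phase_X.1] at h6
    refine Nat.le_floor ?_
    have h7 : ((editDist x y : ℕ) : ℝ) ≤ P.VV (mis x y P.X) P.L 0 (P.z0 x y) := by
      unfold VV
      exact_mod_cast h6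
    exact_mod_cast h7.trans h5
  · exact editDist_le_add x y

/-- The right guess.  `dist_le_editDist`, `V_le_ed`; `Λ(L) = 2^e / 2^(g+10) ≤ 2 ED / 2^(g+10)`; the
rounded state is a state since `2^e + Λ ≤ 2^tw Λ` (`cls_inW_rd`, `dst_rd_le`); the value is at most
`K ED + (K + 1) Λ + Λ / 16 ≤ (1 + 2^(-g)) ED ≤ 2^(e+1) < X`. -/
theorem ans_le (hP : P.OK) (hx : x.length ≤ 2 ^ P.L)
    (hA : P.Acc (mis x y P.X) (tapesOf (P.pot P.root) ρ)) (h1 : editDist x y ≤ 2 ^ P.e)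
    (h2 : 2 ^ P.e ≤ 2 * editDist x y) :
    (P.ans x y ρ : ℝ) ≤ (1 + (1 / 2 : ℝ) ^ P.g) * editDist x y := by
  have hX := Phase_X (P := P)
  have hd := dist_le_editDist x y
  have hz : (P.z0 x y).2 + x.length = P.X / 2 + y.length := by
    unfold z0
    unfold Nat.dist at hd
    dsimp only
    omega
  have hz1 : (P.z0 x y).1 = P.X / 2 := rfl
  have hz2 : (P.z0 x y).2 ≤ P.X := min_le_left _ _
  have hzd : Nat.dist (P.z0 x y).1 (P.z0 x y).2 ≤ editDist x y := by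
    unfold Nat.dist at hd ⊢
    omega
  have hV := V_le_ed x y P.L (P.X / 2) (P.z0 x y).2 hx hz (by omega)
  rw [hX.1] at hV
  have hV' : P.VV (mis x y P.X) P.L 0 (P.z0 x y) ≤ editDist x y := by
    unfold VV
    exact_mod_cast hV
  have hL := La_pos (P := P) P.L
  have hLam := Phase_Lam hP
  have hr : ((dst (P.z0 x y) (P.rd P.L (P.z0 x y)) : ℕ) : ℝ) ≤ P.La P.L := by
    have a1 := cls_dst_rd hP P.L (P.z0 x y)
    have a2 := cls_G_le hP
    have a3 := Lam_pos (P := P) P.L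
    have a4 : ((dst (P.z0 x y) (P.rd P.L (P.z0 x y)) : ℕ) : ℚ) ≤ P.Lam P.L := by nlinarith
    unfold La
    exact_mod_cast a4
  have he1 : ((editDist x y : ℕ) : ℝ) ≤ 2 ^ P.e := by exact_mod_cast h1
  have he2 : (2 : ℝ) ^ P.e ≤ 2 * (editDist x y : ℕ) := by exact_mod_cast h2
  have hg0 : (0 : ℝ) < (1 / 2) ^ P.g := by positivity
  have hg1 : ((1 : ℝ) / 2) ^ P.g ≤ 1 := pow_le_one₀ (by norm_num) (by norm_num)
  have hW : P.inW (P.L + 0) (P.rd P.L (P.z0 x y)) := by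
    rw [Nat.add_zero, cls_inW_rd ⟨by omega, hz2⟩]
    have a1 := dist_le_dst (P.rd P.L (P.z0 x y)) (P.z0 x y)
    rw [dst_comm] at a1
    have a2 : ((Nat.dist (P.rd P.L (P.z0 x y)).1 (P.rd P.L (P.z0 x y)).2 : ℕ) : ℝ) ≤
        (editDist x y : ℕ) + ((dst (P.z0 x y) (P.rd P.L (P.z0 x y)) : ℕ) : ℝ) := by
      exact_mod_cast a1.trans (Nat.add_le_add_right hzd _)
    have a3 : (2 : ℝ) ^ (P.g + 11) ≤ 2 ^ P.tw := by
      have b1 := hP.gp
      have b2 := hP.pd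
      exact pow_le_pow_right₀ one_le_two (by unfold tw; omega)
    have a4 : (2 : ℝ) ^ (P.g + 11) * P.La P.L = 2 * 2 ^ P.e := by
      rw [hLam, pow_add, one_div, inv_pow]
      field_simp
      norm_num
    have a5 : P.La P.L ≤ 2 ^ P.e := by
      rw [hLam]
      have : (0 : ℝ) < 2 ^ P.e := by positivity
      nlinarith
    have a6 := mul_le_mul_of_nonneg_right a3 hL.le
    have a7 : ((Nat.dist (P.rd P.L (P.z0 x y)).1 (P.rd P.L (P.z0 x y)).2 : ℕ) : ℝ) ≤
        2 ^ P.tw * P.La P.L := by linarith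
    unfold La at a7
    exact_mod_cast a7
  have hN := (hA.phase hP le_rfl).2 P.L 0 0 _ Phase_nd (good_root hP).2.2.1 hW
  rw [Nat.add_zero] at hN
  have hK := Kt_T hP
  have hK1 := (Phase_Kt hP P.T).1
  have hf1 := (Phase_fq hP).1
  have hf := Out_fq_pos (P := P)
  have hfg : (P.fq : ℝ) = (1 / 2) ^ P.g / 2 ^ 20 := by
    rw [Out_fq]
    unfold fx
    rw [pow_add, one_div_pow, div_div]
  have hlip := VV_lip (P := P) (ms := mis x y P.X) P.L 0 (P.rd P.L (P.z0 x y)) (P.z0 x y)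
  rw [dst_comm] at hlip
  have hE : (0 : ℝ) ≤ (editDist x y : ℕ) := Nat.cast_nonneg _
  have hb : ((P.val x y ρ : ℚ) : ℝ) ≤ (1 + (1 / 2 : ℝ) ^ P.g) * editDist x y := by
    rw [Phase_val]
    push_cast
    have a1 : P.Kt P.T * P.VV (mis x y P.X) P.L 0 (P.rd P.L (P.z0 x y)) ≤
        (1 + 81 * P.fq) * ((editDist x y : ℕ) + P.La P.L) :=
      mul_le_mul hK (by linarith) (VV_nonneg _ _ _) (by linarith)
    have a2 : (P.fq : ℝ) * P.La P.L ≤ 1 / 2 ^ 20 * P.La P.L := mul_le_mul_of_nonneg_right hf1 hL.le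
    have a3 : P.La P.L ≤ (1 / 2) ^ P.g * (editDist x y : ℕ) / 512 := by
      rw [hLam]
      nlinarith
    have a4 : (P.fq : ℝ) * (editDist x y : ℕ) = (1 / 2) ^ P.g * (editDist x y : ℕ) / 2 ^ 20 := by
      rw [hfg]
      ring
    have a5 : (0 : ℝ) ≤ (1 / 2) ^ P.g * (editDist x y : ℕ) := by positivity
    norm_num at a2 a4 ⊢
    nlinarith
  have h0 : 0 ≤ P.val x y ρ := by
    rw [Phase_val]
    exact add_nonneg ((Phase_valD hP hA).nonneg Phase_nd (good_root hP).2.2.1 _) (Nat.cast_nonneg _)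
  have hlt : P.val x y ρ < P.X := by
    have a1 : ((P.X : ℕ) : ℝ) = 4 * 2 ^ P.e := by exact_mod_cast hX.2
    have a2 : (0 : ℝ) < 2 ^ P.e := by positivity
    have a3 : ((P.val x y ρ : ℚ) : ℝ) < (P.X : ℕ) := by nlinarith
    exact_mod_cast a3
  unfold ans
  rw [if_pos ⟨hz, hlt⟩]
  refine le_trans ?_ hb
  exact_mod_cast Nat.floor_le h0

end Pa

end Crest.Agent.R288
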