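/-
R288/RamDefs: a structured language `W` for the word RAM (expressions, memory, random words, `if`, `while`) with an
overflow-free cost semantics `Run`, its weakest-precondition rules `Wp.*`, the abstract stack machine `AI` and the
representation `Rep` of stacks in memory.  Complete; do not change definitions (message helper88).
-/
import Crest.Agent.R288.Iface

set_option autoImplicit false

namespace Crest.Agent.R288.Ram

open Function

/-! ## The language -/

/-- expressions -/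
inductive Ex : Type
  | var : ℕ → Ex
  | num : ℕ → Ex
  | add : Ex → Ex → Ex
  | sub : Ex → Ex → Ex
  | mul : Ex → Ex → Ex
  | div : Ex → Ex → Ex
  | mod : Ex → Ex → Ex
  | ld : Ex → Ex

/-- states: variables, memory, number of random words drawn -/
structure St where
  v : ℕ → ℕ
  m : ℕ → ℕ
  d : ℕ

/-- value of an expression -/
@[simp] def Ex.ev (s : St) : Ex → ℕ
  | .var r => s.v r
  | .num n => n
  | .add a b => a.ev s + b.ev s
  | .sub a b => a.ev s - b.ev s
  | .mul a b => a.ev s * b.ev s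
  | .div a b => a.ev s / b.ev s
  | .mod a b => a.ev s % b.ev s
  | .ld a => s.m (a.ev s)

/-- no overflow in the evaluation with words of `w` bits -/
@[simp] def Ex.ok (w : ℕ) (s : St) : Ex → Prop
  | .var _ => True
  | .num n => n < 2 ^ w
  | .add a b => a.ok w s ∧ b.ok w s ∧ a.ev s + b.ev s < 2 ^ w
  | .sub a b => a.ok w s ∧ b.ok w s
  | .mul a b => a.ok w s ∧ b.ok w s ∧ a.ev s * b.ev s < 2 ^ w
  | .div a b => a.ok w s ∧ b.ok w s
  | .mod a b => a.ok w s ∧ b.ok w s
  | .ld a => a.ok w s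

/-- conditions -/
inductive Cd : Type
  | lt : Ex → Ex → Cd
  | eq : Ex → Ex → Cd

@[simp] def Cd.ev (s : St) : Cd → Prop
  | .lt a b => a.ev s < b.ev s
  | .eq a b => a.ev s = b.ev s

@[simp] def Cd.ok (w : ℕ) (s : St) : Cd → Prop
  | .lt a b => a.ok w s ∧ b.ok w s
  | .eq a b => a.ok w s ∧ b.ok w s

/-- programs: `set r e` is `v r := e`, `st a e` is `m a := e`, `rnd r` draws a random word into `v r` -/
inductive W : Type
  | skip : W
  | set : ℕ → Ex → W
  | st : Ex → Ex → W
  | rnd : ℕ → W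
  | seq : W → W → W
  | ite : Cd → W → W → W
  | wh : Cd → W → W

/-- write a variable -/
def St.set (s : St) (r x : ℕ) : St := ⟨fun j => if j = r then x else s.v j, s.m, s.d⟩
/-- write a memory cell -/
def St.wr (s : St) (a x : ℕ) : St := ⟨s.v, fun i => if i = a then x else s.m i, s.d⟩
/-- count a random word -/
def St.tick (s : St) : St := ⟨s.v, s.m, s.d + 1⟩

@[simp] theorem St.set_v (s : St) (r x j : ℕ) : (s.set r x).v j = if j = r then x else s.v j := rfl
@[simp] theorem St.set_m (s : St) (r x : ℕ) : (s.set r x).m = s.m := rfl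
@[simp] theorem St.set_d (s : St) (r x : ℕ) : (s.set r x).d = s.d := rfl
@[simp] theorem St.wr_v (s : St) (a x : ℕ) : (s.wr a x).v = s.v := rfl
@[simp] theorem St.wr_m (s : St) (a x i : ℕ) : (s.wr a x).m i = if i = a then x else s.m i := rfl
@[simp] theorem St.wr_d (s : St) (a x : ℕ) : (s.wr a x).d = s.d := rfl
@[simp] theorem St.tick_v (s : St) : s.tick.v = s.v := rfl
@[simp] theorem St.tick_m (s : St) : s.tick.m = s.m := rfl
@[simp] theorem St.tick_d (s : St) : s.tick.d = s.d + 1 := rfl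

/-- `Run w ρ p s s' t`: without overflow, `p` leads from `s` to `s'` at cost at most `t` -/
inductive Run (w : ℕ) (ρ : ℕ → ℕ) : W → St → St → ℕ → Prop
  | skip (s : St) : Run w ρ .skip s s 0
  | set {r : ℕ} {e : Ex} {s : St} : e.ok w s → Run w ρ (.set r e) s (s.set r (e.ev s)) 1
  | st {a e : Ex} {s : St} : a.ok w s → e.ok w s → Run w ρ (.st a e) s (s.wr (a.ev s) (e.ev s)) 1
  | rnd {r : ℕ} {s : St} : Run w ρ (.rnd r) s (s.set r (ρ s.d % 2 ^ w)).tick 1
  | seq {p q : W} {s s' s'' : St} {t t' : ℕ} :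
      Run w ρ p s s' t → Run w ρ q s' s'' t' → Run w ρ (.seq p q) s s'' (t + t')
  | iteT {c : Cd} {p q : W} {s s' : St} {t : ℕ} :
      c.ok w s → c.ev s → Run w ρ p s s' t → Run w ρ (.ite c p q) s s' (t + 1)
  | iteF {c : Cd} {p q : W} {s s' : St} {t : ℕ} :
      c.ok w s → ¬ c.ev s → Run w ρ q s s' t → Run w ρ (.ite c p q) s s' (t + 1)
  | whF {c : Cd} {p : W} {s : St} : c.ok w s → ¬ c.ev s → Run w ρ (.wh c p) s s 1
  | whT {c : Cd} {p : W} {s s' s'' : St} {t t' : ℕ} :
      c.ok w s → c.ev s → Run w ρ p s s' t → Run w ρ (.wh c p) s' s'' t' → Run w ρ (.wh c p) s s'' (t + t' + 1)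
  | mono {p : W} {s s' : St} {t t' : ℕ} : Run w ρ p s s' t → t ≤ t' → Run w ρ p s s' t'

/-- total correctness with cost -/
def Wp (w : ℕ) (ρ : ℕ → ℕ) (p : W) (s : St) (t : ℕ) (Q : St → Prop) : Prop :=
  ∃ s', Run w ρ p s s' t ∧ Q s'

namespace Wp

variable {w : ℕ} {ρ : ℕ → ℕ} {p q : W} {s : St} {t t' : ℕ} {Q Q' : St → Prop} {c : Cd}

theorem mono (h : Wp w ρ p s t Q) (ht : t ≤ t') : Wp w ρ p s t' Q :=
  let ⟨s', h1, h2⟩ := h; ⟨s', h1.mono ht, h2⟩

theorem imp (h : Wp w ρ p s t Q) (hQ : ∀ s', Q s' → Q' s') : Wp w ρ p s t Q' :=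
  let ⟨s', h1, h2⟩ := h; ⟨s', h1, hQ s' h2⟩

theorem skip (h : Q s) : Wp w ρ .skip s t Q := ⟨s, (Run.skip s).mono (Nat.zero_le _), h⟩

theorem set {r : ℕ} {e : Ex} (he : e.ok w s) (h : Q (s.set r (e.ev s))) : Wp w ρ (.set r e) s 1 Q :=
  ⟨_, .set he, h⟩

theorem st {a e : Ex} (ha : a.ok w s) (he : e.ok w s) (h : Q (s.wr (a.ev s) (e.ev s))) :
    Wp w ρ (.st a e) s 1 Q := ⟨_, .st ha he, h⟩

theorem rnd {r : ℕ} (h : Q (s.set r (ρ s.d % 2 ^ w)).tick) : Wp w ρ (.rnd r) s 1 Q := ⟨_, .rnd, h⟩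

theorem seq (h : Wp w ρ p s t fun s' => Wp w ρ q s' t' Q) : Wp w ρ (.seq p q) s (t + t') Q :=
  let ⟨_, h1, s'', h2, h3⟩ := h; ⟨s'', h1.seq h2, h3⟩

theorem bind (h : Wp w ρ p s t Q') (k : ∀ s', Q' s' → Wp w ρ q s' t' Q) : Wp w ρ (.seq p q) s (t + t') Q :=
  seq (h.imp k)

/-- `set` followed by a program -/
theorem set_seq {r : ℕ} {e : Ex} (he : e.ok w s) (h : Wp w ρ q (s.set r (e.ev s)) t Q) :
    Wp w ρ (.seq (.set r e) q) s (1 + t) Q := seq (set he h)

/-- `st` followed by a program -/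
theorem st_seq {a e : Ex} (ha : a.ok w s) (he : e.ok w s) (h : Wp w ρ q (s.wr (a.ev s) (e.ev s)) t Q) :
    Wp w ρ (.seq (.st a e) q) s (1 + t) Q := seq (st ha he h)

theorem iteT (hc : c.ok w s) (h1 : c.ev s) (h : Wp w ρ p s t Q) : Wp w ρ (.ite c p q) s (t + 1) Q :=
  let ⟨s', h2, h3⟩ := h; ⟨s', .iteT hc h1 h2, h3⟩

theorem iteF (hc : c.ok w s) (h1 : ¬ c.ev s) (h : Wp w ρ q s t Q) : Wp w ρ (.ite c p q) s (t + 1) Q :=
  let ⟨s', h2, h3⟩ := h; ⟨s', .iteF hc h1 h2, h3⟩

theorem ite (hc : c.ok w s) (h1 : c.ev s → Wp w ρ p s t Q) (h2 : ¬ c.ev s → Wp w ρ q s t Q) :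
    Wp w ρ (.ite c p q) s (t + 1) Q := by
  by_cases h : c.ev s
  · exact iteT hc h (h1 h)
  · exact iteF hc h (h2 h)

theorem whF (hc : c.ok w s) (h1 : ¬ c.ev s) (h : Q s) : Wp w ρ (.wh c p) s 1 Q := ⟨s, .whF hc h1, h⟩

theorem whT (hc : c.ok w s) (h1 : c.ev s) (h : Wp w ρ p s t fun s' => Wp w ρ (.wh c p) s' t' Q) :
    Wp w ρ (.wh c p) s (t + t' + 1) Q :=
  let ⟨_, h2, s'', h3, h4⟩ := h; ⟨s'', .whT hc h1 h2 h3, h4⟩

/-- a loop with exactly `n` rounds, round `i` costs `b i` -/
theorem loop_sum (I : ℕ → St → Prop) (n : ℕ) (b : ℕ → ℕ)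
    (hb : ∀ i < n, ∀ s, I i s → c.ok w s ∧ c.ev s ∧ Wp w ρ p s (b i) (I (i + 1)))
    (he : ∀ s, I n s → c.ok w s ∧ ¬ c.ev s) (h0 : I 0 s) :
    Wp w ρ (.wh c p) s (∑ i ∈ Finset.range n, (b i + 1) + 1) (I n) := by
  suffices H : ∀ k i s, i + k = n → I i s →
      Wp w ρ (.wh c p) s (∑ j ∈ Finset.range k, (b (i + j) + 1) + 1) (I n) by
    simpa using H n 0 s (by omega) h0
  intro k
  induction k with
  | zero =>
    intro i s hi h
    obtain rfl : i = n := by omega
    simpa using whF (p := p) (he s h).1 (he s h).2 h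
  | succ k ih =>
    intro i s hi h
    obtain ⟨h1, h2, h3⟩ := hb i (by omega) s h
    refine (whT h1 h2 (h3.imp fun s' hs' => ih (i + 1) s' (by omega) hs')).mono (le_of_eq ?_)
    rw [Finset.sum_range_succ']
    simp only [Nat.add_zero, Nat.add_assoc i 1, Nat.add_comm 1]
    omega

/-- a loop with exactly `n` rounds of cost `t` -/
theorem loop (I : ℕ → St → Prop) (n : ℕ)
    (hb : ∀ i < n, ∀ s, I i s → c.ok w s ∧ c.ev s ∧ Wp w ρ p s t (I (i + 1)))
    (he : ∀ s, I n s → c.ok w s ∧ ¬ c.ev s) (h0 : I 0 s) :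
    Wp w ρ (.wh c p) s (n * (t + 1) + 1) (I n) := by
  simpa using loop_sum I n (fun _ => t) hb he h0

/-- a loop with an invariant and a decreasing measure -/
theorem loop_dec (I : St → Prop) (μ : St → ℕ)
    (hb : ∀ s, I s → c.ok w s ∧ (c.ev s → Wp w ρ p s t fun s' => I s' ∧ μ s' < μ s)) (h0 : I s) :
    Wp w ρ (.wh c p) s (μ s * (t + 1) + 1) fun s' => I s' ∧ ¬ c.ev s' := by
  suffices H : ∀ k s, μ s ≤ k → I s → Wp w ρ (.wh c p) s (k * (t + 1) + 1) fun s' => I s' ∧ ¬ c.ev s' from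
    H _ s le_rfl h0
  intro k
  induction k with
  | zero =>
    intro s hk h
    by_cases hc : c.ev s
    · obtain ⟨s', -, -, h2⟩ := (hb s h).2 hc
      omega
    · simpa using whF (p := p) (Q := fun s' => I s' ∧ ¬ c.ev s') (hb s h).1 hc ⟨h, hc⟩
  | succ k ih =>
    intro s hk h
    by_cases hc : c.ev s
    · refine (whT (hb s h).1 hc (((hb s h).2 hc).imp fun s' hs' => ih s' (by omega) hs'.1)).mono (le_of_eq ?_)
      ring
    · exact (whF (hb s h).1 hc ⟨h, hc⟩).mono (by omega)

end Wp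

/-- the initial state -/
def st0 (w : ℕ) (input : List ℕ) : St :=
  ⟨fun j => if j = 0 then input.length % 2 ^ w else 0, fun i => input[i]?.getD 0 % 2 ^ w, 0⟩

/-- the memory holds the list `l` (and zeros beyond it), variable `0` its length -/
def Inp (s : St) (l : List ℕ) : Prop := s.v 0 = l.length ∧ ∀ i, s.m i = l.getD i 0

/-- the state presents the output `[D]` -/
def Out (D : ℕ) (s : St) : Prop := s.v 0 = 1 ∧ s.m (s.v 1) = D

/-- the low bits of the first `U` random words -/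
def rbits (w : ℕ) (ρ : ℕ → ℕ) (U : ℕ) : List Bool := (List.range U).map fun i => decide (ρ i % 2 ^ w % 2 = 1)

/-! ## The abstract stack machine -/

/-- instructions of the stack machine; all jumps are explicit -/
inductive AI : Type
  | goto (l : ℕ) : AI
  | push (k v l : ℕ) : AI
  | pop (k l : ℕ) : AI
  | test (k l0 l1 l2 : ℕ) : AI
  | ret (k : ℕ) : AI

/-- stacks of numbers -/
abbrev Stk : Type := ℕ → List ℕ

/-- effect of one instruction: new program counter and new stacks -/
inductive AI.Step : AI → Stk → ℕ → Stk → Prop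
  | goto (l : ℕ) (S : Stk) : AI.Step (.goto l) S l S
  | push (k v l : ℕ) (S : Stk) : AI.Step (.push k v l) S l (update S k (v :: S k))
  | pop {k l v : ℕ} {r : List ℕ} {S : Stk} : S k = v :: r → AI.Step (.pop k l) S l (update S k r)
  | test0 {k l0 l1 l2 : ℕ} {S : Stk} : (S k).headD 0 = 0 → AI.Step (.test k l0 l1 l2) S l0 S
  | test1 {k l0 l1 l2 : ℕ} {r : List ℕ} {S : Stk} : S k = 1 :: r → AI.Step (.test k l0 l1 l2) S l1 (update S k r)
  | test2 {k l0 l1 l2 : ℕ} {r : List ℕ} {S : Stk} : S k = 2 :: r → AI.Step (.test k l0 l1 l2) S l2 (update S k r)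
  | ret {k v : ℕ} {r : List ℕ} {S : Stk} : S k = v :: r → AI.Step (.ret k) S v (update S k r)

/-- the stack used by an instruction -/
def AI.idx : AI → ℕ
  | .goto _ => 0
  | .push k _ _ => k
  | .pop k _ => k
  | .test k _ _ _ => k
  | .ret k => k

/-- `n` steps of the program `A` -/
inductive ASteps (A : List AI) : ℕ → Stk → ℕ → Stk → ℕ → Prop
  | refl (l : ℕ) (S : Stk) : ASteps A l S l S 0
  | step {i : AI} {l l' l'' n : ℕ} {S S' S'' : Stk} :
      A[l]? = some i → i.Step S l' S' → ASteps A l' S' l'' S'' n → ASteps A l S l'' S'' (n + 1)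

theorem ASteps.trans {A : List AI} {l l' l'' n n' : ℕ} {S S' S'' : Stk} (h : ASteps A l S l' S' n)
    (h' : ASteps A l' S' l'' S'' n') : ASteps A l S l'' S'' (n + n') := by
  induction h with
  | refl => simpa using h'
  | step h1 h2 _ ih => rw [Nat.add_right_comm]; exact .step h1 h2 (ih h')

theorem ASteps.one {A : List AI} {i : AI} {l l' : ℕ} {S S' : Stk} (h1 : A[l]? = some i) (h2 : i.Step S l' S') :
    ASteps A l S l' S' 1 := .step h1 h2 (.refl _ _)

/-- code of a bit on a stack (`0` is the frame marker) -/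
def cd (b : Bool) : ℕ := 1 + b.toNat

/-- only stack `1` is non-empty -/
def stk1 (l : List Bool) : Stk := update (fun _ => []) 1 (l.map cd)

/-! ## Stacks in memory: stack `k < K` lives at `B + k + K * i` (`i = 0`: sentinel `0`), variable `10 + k` points to its top -/

/-- the cells of one stack -/
def Cells (K a : ℕ) (m : ℕ → ℕ) : List ℕ → Prop
  | [] => m a = 0
  | v :: l => m (a + K * (l.length + 1)) = v ∧ Cells K a m l

/-- the state represents the stacks `S k`, `k < K` -/
structure Rep (K B : ℕ) (s : St) (S : Stk) : Prop where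
  ptr : ∀ k < K, s.v (10 + k) = B + k + K * (S k).length
  cells : ∀ k < K, Cells K (B + k) s.m (S k)

/-- the small variables, the memory below `B` and the random counter are kept -/
structure Fr (B : ℕ) (s s' : St) : Prop where
  v : ∀ j < 10, s'.v j = s.v j
  m : ∀ a < B, s'.m a = s.m a
  d : s'.d = s.d

theorem Fr.refl (B : ℕ) (s : St) : Fr B s s := ⟨fun _ _ => rfl, fun _ _ => rfl, rfl⟩

theorem Fr.trans {B : ℕ} {s s' s'' : St} (h : Fr B s s') (h' : Fr B s' s'') : Fr B s s'' :=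
  ⟨fun j hj => (h'.v j hj).trans (h.v j hj), fun a ha => (h'.m a ha).trans (h.m a ha), h'.d.trans h.d⟩

/-- push the value of `e` on stack `k` -/
def pushW (K k : ℕ) (e : Ex) : W :=
  .seq (.st (.add (.var (10 + k)) (.num K)) e) (.set (10 + k) (.add (.var (10 + k)) (.num K)))

/-- drop the top of stack `k` -/
def popW (K k : ℕ) : W := .set (10 + k) (.sub (.var (10 + k)) (.num K))

/-- the top of stack `k` (`0` if it is empty) -/
def topE (k : ℕ) : Ex := .ld (.var (10 + k))

/-- push the bits of `l`, first to last, on stack `k` -/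
def pushL (K k : ℕ) : List Bool → W
  | [] => .skip
  | b :: l => .seq (pushW K k (.num (cd b))) (pushL K k l)

section rep

variable {K B k w : ℕ} {ρ : ℕ → ℕ} {s : St} {S : Stk}

theorem Cells.congr {a : ℕ} {m m' : ℕ → ℕ} : ∀ {l : List ℕ}, Cells K a m l →
    (∀ i ≤ l.length, m' (a + K * i) = m (a + K * i)) → Cells K a m' l
  | [], h, h' => by
    have := h' 0 le_rfl
    simp only [Nat.mul_zero, Nat.add_zero] at this
    exact this.trans h
  | _ :: _, h, h' => ⟨(h' _ le_rfl).trans h.1, h.2.congr fun i hi => h' i (Nat.le_succ_of_le hi)⟩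

theorem addr_inj {k' x y : ℕ} (hk : k < K) (hk' : k' < K) (h : k + K * x = k' + K * y) : k = k' ∧ x = y := by
  have h1 : k = k' := by
    have := congrArg (· % K) h
    simpa [Nat.add_mul_mod_self_left, Nat.mod_eq_of_lt hk, Nat.mod_eq_of_lt hk'] using this
  subst h1
  exact ⟨rfl, Nat.eq_of_mul_eq_mul_left (by omega) (Nat.add_left_cancel h)⟩

theorem Rep.set (h : Rep K B s S) {r : ℕ} (hr : r < 10) (x : ℕ) : Rep K B (s.set r x) S :=
  ⟨fun k hk => by rw [St.set_v, if_neg (by omega)]; exact h.ptr k hk, h.cells⟩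

theorem Rep.tick (h : Rep K B s S) : Rep K B s.tick S := ⟨h.ptr, h.cells⟩

theorem Rep.wr (h : Rep K B s S) {a : ℕ} (ha : a < B) (x : ℕ) : Rep K B (s.wr a x) S :=
  ⟨h.ptr, fun k hk => (h.cells k hk).congr fun i _ => by rw [St.wr_m, if_neg (by omega)]⟩

theorem Rep.top (h : Rep K B s S) (hk : k < K) : (topE k).ev s = (S k).headD 0 := by
  have h1 := h.ptr k hk
  have h2 := h.cells k hk
  simp only [topE, Ex.ev, h1]
  rcases hS : S k with _ | ⟨v, l⟩
  · rw [hS] at h2; simpa [Cells] using h2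
  · rw [hS] at h2; exact h2.1

theorem topE_ok (w : ℕ) (s : St) (k : ℕ) : (topE k).ok w s := trivial

theorem Rep.push (h : Rep K B s S) (hk : k < K) {e : Ex} (he : e.ok w s)
    (hb : B + K * ((S k).length + 2) ≤ 2 ^ w) :
    Wp w ρ (pushW K k e) s 2 fun s' => Rep K B s' (update S k (e.ev s :: S k)) ∧ Fr B s s' := by
  have h1 := h.ptr k hk
  have h2 : B + k + K * (S k).length + K = B + k + K * ((S k).length + 1) := by ring
  have h3 : B + k + K * ((S k).length + 1) < 2 ^ w := by nlinarith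
  have hK : K < 2 ^ w := by nlinarith
  refine Wp.st_seq (t := 1) (by simp only [Ex.ok, Ex.ev, h1, h2, h3, hK, and_self]) he
    (Wp.set (by simp only [Ex.ok, Ex.ev, St.wr_v, h1, h2, h3, hK, and_self]) ⟨⟨fun j hj => ?_, fun j hj => ?_⟩,
      fun j hj => ?_, fun a ha => ?_, rfl⟩)
  · simp only [St.set_v, Ex.ev, St.wr_v, h1, h2]
    by_cases e : j = k
    · subst e; simp
    · rw [if_neg (by omega), update_of_ne e, h.ptr j hj]
  · simp only [St.set_m, Ex.ev, h1, h2]
    by_cases e : j = k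
    · subst e
      rw [update_self]
      refine ⟨by simp, (h.cells j hj).congr fun i hi => ?_⟩
      rw [St.wr_m, if_neg]
      intro e
      have := (addr_inj (x := i) (y := (S j).length + 1) hj hj (by omega)).2
      omega
    · rw [update_of_ne e]
      refine (h.cells j hj).congr fun i _ => ?_
      rw [St.wr_m, if_neg]
      intro e'
      exact e (addr_inj (x := i) (y := (S k).length + 1) hj hk (by omega)).1
  · simp only [St.set_v, St.wr_v]
    rw [if_neg (by omega)]
  · simp only [St.set_m, St.wr_m, Ex.ev, h1, h2]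
    rw [if_neg (by omega)]

theorem Rep.pop (h : Rep K B s S) (hk : k < K) {v : ℕ} {r : List ℕ} (hS : S k = v :: r) (hK : K < 2 ^ w) :
    Wp w ρ (popW K k) s 1 fun s' => Rep K B s' (update S k r) ∧ Fr B s s' ∧ s'.m = s.m := by
  have h1 := h.ptr k hk
  refine Wp.set (by simp only [Ex.ok, hK, and_self]) ⟨⟨fun j hj => ?_, fun j hj => ?_⟩,
    ⟨fun j hj => ?_, fun _ _ => rfl, rfl⟩, rfl⟩
  · simp only [St.set_v, Ex.ev, h1]
    by_cases e : j = k
    · subst e
      rw [if_pos rfl, update_self, hS, List.length_cons, Nat.mul_add]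
      omega
    · rw [if_neg (by omega), update_of_ne e, h.ptr j hj]
  · by_cases e : j = k
    · subst e
      have := h.cells j hj
      rw [hS] at this
      rw [update_self]
      exact this.2
    · rw [update_of_ne e]
      exact h.cells j hj
  · rw [St.set_v, if_neg (by omega)]

theorem Rep.pushL (hk : k < K) : ∀ (l : List Bool) {s : St} {S : Stk}, Rep K B s S →
    B + K * ((S k).length + l.length + 3) ≤ 2 ^ w →
    Wp w ρ (pushL K k l) s (2 * l.length) fun s' =>
      Rep K B s' (update S k (l.reverse.map cd ++ S k)) ∧ Fr B s s'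
  | [], s, S, h, _ => Wp.skip ⟨by simpa using h, Fr.refl B s⟩
  | b :: l, s, S, h, hb => by
    simp only [List.length_cons] at hb
    have hcd : cd b < 2 ^ w := by
      have : cd b ≤ 2 := by cases b <;> simp [cd]
      nlinarith
    refine ((h.push (ρ := ρ) hk (e := .num (cd b)) hcd (by nlinarith)).bind fun s1 h1 =>
      (Rep.pushL hk l h1.1 (by simp only [update_self, List.length_cons]; nlinarith)).imp
        fun s2 h2 => ⟨?_, h1.2.trans h2.2⟩).mono (by simp only [List.length_cons]; omega)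
    simpa using h2.1

end rep

/-- the common budget of the fast branch: time `τ` of the stack program, `N` symbols of at most `b` bits -/
def bud (N b τ : ℕ) : ℕ := τ + (N + 1) * (b + 1) + UN N

end Crest.Agent.R288.Ram
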