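/-
R288/RamAM: the compiler from `RProg` to the abstract stack machine `AI` (see RamDefs); pure list reasoning, model: `rcompile_correct`,
`frame_steps` in Crest/Agent/R326/RProg.lean.
Recipe.  `N ≥ max 2 Q.bound`, stacks `k < N` hold `(S k).map cd ++ base k` (`base 0 = []`, every `base k` is empty or starts with the marker `0`),
stack `N` holds the return addresses, `K = N + 1`.  `acomp p off cont env : List AI` (entry `off`, exit label `cont`, entry `env` of the environment):
`skip ↦ [goto cont]`, `push k b ↦ [push k (cd b) cont]`, `seq`, `case k p q r ↦ test k .. :: p ++ q ++ r`, `loop k q r ↦ test k cont .. :: q ++ r` (both with exit `off`),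
`call ↦` push the marker on the stacks `1 .. N-1`, `push N back env`, at `back`: pop the stacks `1 .. N-1`, `goto cont`;
`fix b ↦` the same with target the code `acomp b o (o + len b) o ++ [ret N]` placed behind it.  Induction on `RExec` (at most `2 N + 2` steps per unit of time).
The compiled program is `Q = seq (loop 1 (push 0 false) (push 0 true)) (seq (fix P) post)`, where `post` empties stack `0` (which holds
`(enc D).bits`: for every bit `b` of `D.bits` the six symbols `true, true, false, true, false, false` if `b = false`,
`true, true, true, false, false, false` if `b = true`; then one `false`) and pushes the bits on stack `1`; exit label `A.length`; any environment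
works for `Q` (take `env = skip`, or add a dummy `[goto, ret]` block in front of / behind the code).
-/
import Crest.Agent.R288.RamDefs

set_option autoImplicit false

namespace Crest.Agent.R288.Ram

open Function Crest.WordRAM Crest.GraphRAM Crest.Agent.Lib.PolyTime Crest.Agent.R326

/-- the code `L` is placed at `off` -/
def At (A : List AI) (off : ℕ) (L : List AI) : Prop := ∀ i a, L[i]? = some a → A[off + i]? = some a

theorem At.left {A L L' : List AI} {off : ℕ} (h : At A off (L ++ L')) : At A off L := fun i a hi =>
  h i a (by rw [List.getElem?_append_left (List.getElem?_eq_some_iff.1 hi).1]; exact hi)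

theorem At.right {A L L' : List AI} {off : ℕ} (h : At A off (L ++ L')) {m : ℕ} (hm : off + L.length = m) :
    At A m L' := fun i a hi => by
  rw [← hm, Nat.add_assoc]
  exact h _ a (by rw [List.getElem?_append_right (Nat.le_add_right _ _), Nat.add_sub_cancel_left]; exact hi)

theorem At.head {A L : List AI} {a : AI} {off : ℕ} (h : At A off (a :: L)) : A[off]? = some a := h 0 a rfl

theorem At.tail {A L : List AI} {a : AI} {off : ℕ} (h : At A off (a :: L)) : At A (off + 1) L :=
  At.right (L := [a]) h rfl

theorem At.refl (A : List AI) : At A 0 A := fun i a hi => by rwa [Nat.zero_add]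

/-- push the marker on the stacks `k, …, k + m - 1` -/
def amMarks : ℕ → ℕ → ℕ → List AI
  | _, _, 0 => []
  | k, off, m + 1 => .push k 0 (off + 1) :: amMarks (k + 1) (off + 1) m

/-- pop the stacks `k, …, k + m - 1` -/
def amPops : ℕ → ℕ → ℕ → List AI
  | _, _, 0 => []
  | k, off, m + 1 => .pop k (off + 1) :: amPops (k + 1) (off + 1) m

theorem length_amMarks (m : ℕ) : ∀ k off, (amMarks k off m).length = m := by
  induction m with
  | zero => intro _ _; rfl
  | succ m ih => intro k off; simp [amMarks, ih]

theorem length_amPops (m : ℕ) : ∀ k off, (amPops k off m).length = m := by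
  induction m with
  | zero => intro _ _; rfl
  | succ m ih => intro k off; simp [amPops, ih]

theorem idx_amMarks (m : ℕ) : ∀ k off, ∀ i ∈ amMarks k off m, i.idx < k + m := by
  induction m with
  | zero => intro _ _ i hi; cases hi
  | succ m ih =>
    intro k off i hi
    rcases List.mem_cons.1 hi with rfl | hi
    · show k < _
      omega
    · have := ih _ _ i hi
      omega

theorem idx_amPops (m : ℕ) : ∀ k off, ∀ i ∈ amPops k off m, i.idx < k + m := by
  induction m with
  | zero => intro _ _ i hi; cases hi
  | succ m ih =>
    intro k off i hi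
    rcases List.mem_cons.1 hi with rfl | hi
    · show k < _
      omega
    · have := ih _ _ i hi
      omega

theorem steps_amMarks {A : List AI} (m : ℕ) : ∀ (k off : ℕ) (S : Stk), At A off (amMarks k off m) →
    ASteps A off S (off + m) (fun j => if k ≤ j ∧ j < k + m then 0 :: S j else S j) m := by
  induction m with
  | zero =>
    intro k off S _
    have : (fun j => if k ≤ j ∧ j < k + 0 then 0 :: S j else S j) = S := funext fun j => if_neg (by omega)
    rw [this]
    exact .refl _ _
  | succ m ih =>
    intro k off S h
    have h1 := ih (k + 1) (off + 1) (update S k (0 :: S k)) h.tail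
    have e : (fun j => if k + 1 ≤ j ∧ j < k + 1 + m then 0 :: update S k (0 :: S k) j else update S k (0 :: S k) j) =
        fun j => if k ≤ j ∧ j < k + (m + 1) then 0 :: S j else S j := by
      funext j
      by_cases hj : j = k
      · subst hj
        rw [if_neg (by omega), if_pos (by omega), update_self]
      · rw [update_of_ne hj]
        exact if_congr (by omega) rfl rfl
    rw [e, Nat.add_right_comm, Nat.add_assoc] at h1
    exact .step h.head (.push _ _ _ _) h1

theorem steps_amPops {A : List AI} (m : ℕ) : ∀ (k off : ℕ) (S : Stk), At A off (amPops k off m) →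
    (∀ j, k ≤ j → j < k + m → S j ≠ []) →
    ASteps A off S (off + m) (fun j => if k ≤ j ∧ j < k + m then (S j).tail else S j) m := by
  induction m with
  | zero =>
    intro k off S _ _
    have : (fun j => if k ≤ j ∧ j < k + 0 then (S j).tail else S j) = S := funext fun j => if_neg (by omega)
    rw [this]
    exact .refl _ _
  | succ m ih =>
    intro k off S h hS
    obtain ⟨v, r, hv⟩ := List.exists_cons_of_ne_nil (hS k le_rfl (by omega))
    have h1 := ih (k + 1) (off + 1) (update S k r) h.tail fun j a b => by
      rw [update_of_ne (by omega)]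
      exact hS j (by omega) (by omega)
    have e : (fun j => if k + 1 ≤ j ∧ j < k + 1 + m then (update S k r j).tail else update S k r j) =
        fun j => if k ≤ j ∧ j < k + (m + 1) then (S j).tail else S j := by
      funext j
      by_cases hj : j = k
      · subst hj
        rw [if_neg (by omega), if_pos (by omega), update_self, hv, List.tail_cons]
      · rw [update_of_ne hj]
        exact if_congr (by omega) rfl rfl
    rw [e, Nat.add_right_comm, Nat.add_assoc] at h1
    exact .step h.head (.pop hv) h1

/-- open a frame, jump to `tg`, close the frame -/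
def amFrame (M off cont tg : ℕ) : List AI :=
  amMarks 1 off M ++ .push (M + 1) (off + M + 1) tg :: (amPops 1 (off + M + 1) M ++ [.goto cont])

theorem length_amFrame (M off cont tg : ℕ) : (amFrame M off cont tg).length = 2 * M + 2 := by
  simp only [amFrame, List.length_append, List.length_cons, length_amMarks, length_amPops, List.length_nil]
  omega

theorem idx_amFrame (M off cont tg : ℕ) : ∀ i ∈ amFrame M off cont tg, i.idx < M + 2 := by
  intro i hi
  simp only [amFrame, List.mem_append, List.mem_cons, List.not_mem_nil, or_false] at hi
  rcases hi with hi | rfl | hi | rfl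
  · have := idx_amMarks _ _ _ i hi
    omega
  · exact Nat.lt_succ_self _
  · have := idx_amPops _ _ _ i hi
    omega
  · exact Nat.succ_pos _

/-- length of the code -/
def alen (M : ℕ) : RProg → ℕ
  | .skip => 1
  | .push _ _ => 1
  | .seq p q => alen M p + alen M q
  | .case _ p q r => 1 + alen M p + alen M q + alen M r
  | .loop _ q r => 1 + alen M q + alen M r
  | .call => 2 * M + 2
  | .fix b => 2 * M + 2 + alen M b + 1

/-- the compiler: entry `off`, exit `cont`, entry `e` of the environment -/
def acomp (M : ℕ) : RProg → ℕ → ℕ → ℕ → List AI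
  | .skip, _, cont, _ => [.goto cont]
  | .push k b, _, cont, _ => [.push k (cd b) cont]
  | .seq p q, off, cont, e => acomp M p off (off + alen M p) e ++ acomp M q (off + alen M p) cont e
  | .case k p q r, off, cont, e =>
    .test k (off + 1) (off + 1 + alen M p) (off + 1 + alen M p + alen M q) ::
      (acomp M p (off + 1) cont e ++ (acomp M q (off + 1 + alen M p) cont e ++
        acomp M r (off + 1 + alen M p + alen M q) cont e))
  | .loop k q r, off, cont, e =>
    .test k cont (off + 1) (off + 1 + alen M q) ::
      (acomp M q (off + 1) off e ++ acomp M r (off + 1 + alen M q) off e)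
  | .call, off, cont, e => amFrame M off cont e
  | .fix b, off, cont, _ => amFrame M off cont (off + (2 * M + 2)) ++
      (acomp M b (off + (2 * M + 2)) (off + (2 * M + 2) + alen M b) (off + (2 * M + 2)) ++ [.ret (M + 1)])

theorem length_acomp (M : ℕ) (p : RProg) : ∀ off cont e, (acomp M p off cont e).length = alen M p := by
  induction p with
  | skip => intro _ _ _; rfl
  | push => intro _ _ _; rfl
  | seq p q ih1 ih2 => intro off cont e; simp only [acomp, alen, List.length_append, ih1, ih2]
  | case k p q r ih1 ih2 ih3 =>
    intro off cont e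
    simp only [acomp, alen, List.length_append, List.length_cons, ih1, ih2, ih3]
    omega
  | loop k q r ih1 ih2 =>
    intro off cont e
    simp only [acomp, alen, List.length_append, List.length_cons, ih1, ih2]
    omega
  | call => intro off cont e; exact length_amFrame _ _ _ _
  | fix b ih =>
    intro off cont e
    simp only [acomp, alen, List.length_append, List.length_cons, List.length_nil, ih, length_amFrame]
    omega

theorem idx_acomp (M : ℕ) (p : RProg) : p.bound ≤ M + 1 → ∀ off cont e, ∀ i ∈ acomp M p off cont e, i.idx < M + 2 := by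
  induction p with
  | skip =>
    intro _ _ _ _ i hi
    rw [List.mem_singleton.1 hi]
    exact Nat.succ_pos _
  | push k b =>
    intro hb _ _ _ i hi
    rw [List.mem_singleton.1 hi]
    exact Nat.lt_succ_of_lt hb
  | seq p q ih1 ih2 =>
    intro hb off cont e i hi
    simp only [RProg.bound, max_le_iff] at hb
    rcases List.mem_append.1 hi with hi | hi
    · exact ih1 hb.1 _ _ _ i hi
    · exact ih2 hb.2 _ _ _ i hi
  | case k p q r ih1 ih2 ih3 =>
    intro hb off cont e i hi
    simp only [RProg.bound, max_le_iff] at hb
    simp only [acomp, List.mem_cons, List.mem_append] at hi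
    rcases hi with rfl | hi | hi | hi
    · exact Nat.lt_succ_of_lt hb.1
    · exact ih1 hb.2.1 _ _ _ i hi
    · exact ih2 hb.2.2.1 _ _ _ i hi
    · exact ih3 hb.2.2.2 _ _ _ i hi
  | loop k q r ih1 ih2 =>
    intro hb off cont e i hi
    simp only [RProg.bound, max_le_iff] at hb
    simp only [acomp, List.mem_cons, List.mem_append] at hi
    rcases hi with rfl | hi | hi
    · exact Nat.lt_succ_of_lt hb.1
    · exact ih1 hb.2.1 _ _ _ i hi
    · exact ih2 hb.2.2 _ _ _ i hi
  | call => intro _ off cont e; exact idx_amFrame _ _ _ _
  | fix b ih =>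
    intro hb off cont e i hi
    simp only [acomp, List.mem_cons, List.mem_append, List.not_mem_nil, or_false] at hi
    rcases hi with hi | hi | rfl
    · exact idx_amFrame _ _ _ _ i hi
    · exact ih hb _ _ _ i hi
    · exact Nat.lt_succ_self _

/-- the visible store on top of the saved frames -/
def rg (M : ℕ) (S : Store) (base : Stk) : Stk := fun k => if k ≤ M then (S k).map cd ++ base k else base k

/-- the saved frames start with the marker -/
def BOK (M : ℕ) (base : Stk) : Prop := base 0 = [] ∧ ∀ k ≤ M, (base k).headD 0 = 0

theorem update_rg {M k : ℕ} (hk : k < M + 1) (S : Store) (base : Stk) (l : List Bool) :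
    update (rg M S base) k (l.map cd ++ base k) = rg M (update S k l) base := by
  funext j
  by_cases hj : j = k
  · subst hj
    rw [update_self, rg, if_pos (by omega), update_self]
  · rw [update_of_ne hj, rg, rg, update_of_ne hj]

theorem rg_of_lt {M k : ℕ} (hk : k < M + 1) (S : Store) (base : Stk) : rg M S base k = (S k).map cd ++ base k :=
  if_pos (by omega)

theorem step_nil {M k l0 l1 l2 : ℕ} (hk : k < M + 1) {S : Store} {base : Stk} (hb : BOK M base) (h : S k = []) :
    AI.Step (.test k l0 l1 l2) (rg M S base) l0 (rg M S base) :=
  .test0 (by rw [rg_of_lt hk, h]; exact hb.2 k (by omega))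

theorem step_false {M k l0 l1 l2 : ℕ} (hk : k < M + 1) {S : Store} (base : Stk) {l : List Bool}
    (h : S k = false :: l) : AI.Step (.test k l0 l1 l2) (rg M S base) l1 (rg M (update S k l) base) := by
  rw [← update_rg hk]
  exact .test1 (by rw [rg_of_lt hk, h]; rfl)

theorem step_true {M k l0 l1 l2 : ℕ} (hk : k < M + 1) {S : Store} (base : Stk) {l : List Bool}
    (h : S k = true :: l) : AI.Step (.test k l0 l1 l2) (rg M S base) l2 (rg M (update S k l) base) := by
  rw [← update_rg hk]
  exact .test2 (by rw [rg_of_lt hk, h]; rfl)

theorem amFrame_steps {A : List AI} {M off cont tg ex t : ℕ} {S : Store} {y : List Bool}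
    (h : At A off (amFrame M off cont tg)) (hr : A[ex]? = some (.ret (M + 1)))
    (ih : ∀ base, BOK M base → ∃ n ≤ (M + 2) * t, ASteps A tg (rg M (single (S 0)) base) ex (rg M (single y) base) n)
    (base : Stk) (hb : BOK M base) :
    ∃ n ≤ (M + 2) * (t + 2), ASteps A off (rg M S base) cont (rg M (update S 0 y) base) n := by
  obtain ⟨base', hb'⟩ : ∃ base' : Stk, ∀ j, base' j = if j = 0 then [] else if j ≤ M then 0 :: rg M S base j
      else if j = M + 1 then (off + M + 1) :: base j else base j := ⟨_, fun _ => rfl⟩
  have hB : BOK M base' := ⟨by rw [hb', if_pos rfl], fun k hk => by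
    rw [hb']
    split_ifs <;> rfl⟩
  have sg : ∀ (z : List Bool) (j : ℕ), j ≠ 0 → rg M (single z) base' j = base' j := by
    intro z j hj
    unfold rg single
    rw [update_of_ne hj]
    split_ifs <;> rfl
  have sg0 : ∀ z : List Bool, rg M (single z) base' 0 = z.map cd := by
    intro z
    rw [rg_of_lt (by omega), hB.1, List.append_nil, single, update_self]
  have h1 := h.right (m := off + M) (by rw [length_amMarks])
  have h2 := h1.tail
  have s0 := steps_amMarks M 1 off (rg M S base) h.left
  have s1 := ASteps.one h1.head (.push _ _ _ (fun j => if 1 ≤ j ∧ j < 1 + M then 0 :: rg M S base j else rg M S base j))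
  have e1 : update (fun j => if 1 ≤ j ∧ j < 1 + M then 0 :: rg M S base j else rg M S base j) (M + 1)
      ((off + M + 1) :: if 1 ≤ M + 1 ∧ M + 1 < 1 + M then 0 :: rg M S base (M + 1) else rg M S base (M + 1)) =
      rg M (single (S 0)) base' := by
    funext j
    by_cases hj : j = 0
    · subst hj
      rw [update_of_ne (by omega), if_neg (by omega), sg0, rg_of_lt (by omega), hb.1, List.append_nil]
    rw [sg _ _ hj, hb', if_neg hj]
    by_cases hj' : j = M + 1
    · subst hj'
      rw [update_self, if_neg (by omega), if_neg (by omega), if_pos rfl, rg, if_neg (by omega)]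
    · rw [update_of_ne hj', if_neg hj']
      by_cases hj'' : j ≤ M
      · rw [if_pos (by omega), if_pos hj'']
      · rw [if_neg (by omega), if_neg hj'', rg, if_neg hj'']
  rw [e1] at s1
  obtain ⟨n, hn, s2⟩ := ih base' hB
  have s3 := ASteps.one hr (.ret (S := rg M (single y) base') (v := off + M + 1) (r := base (M + 1)) (by
    rw [sg _ _ (by omega), hb', if_neg (by omega), if_neg (by omega), if_pos rfl]))
  have s4 := steps_amPops M 1 (off + M + 1) (update (rg M (single y) base') (M + 1) (base (M + 1))) h2.left
    fun j a b => by
      rw [update_of_ne (by omega), sg _ _ (by omega), hb', if_neg (by omega), if_pos (by omega)]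
      exact List.cons_ne_nil _ _
  have e2 : (fun j => if 1 ≤ j ∧ j < 1 + M then (update (rg M (single y) base') (M + 1) (base (M + 1)) j).tail
      else update (rg M (single y) base') (M + 1) (base (M + 1)) j) = rg M (update S 0 y) base := by
    funext j
    by_cases hj : j = 0
    · subst hj
      rw [update_of_ne (by omega), if_neg (by omega), sg0, rg_of_lt (by omega), hb.1, List.append_nil, update_self]
    by_cases hj' : j = M + 1
    · subst hj'
      rw [update_self, if_neg (by omega), rg, if_neg (by omega)]
    rw [update_of_ne hj', sg _ _ hj, hb', if_neg hj, if_neg hj']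
    by_cases hj'' : j ≤ M
    · rw [if_pos (by omega), if_pos hj'', List.tail_cons, rg, rg, update_of_ne hj]
    · rw [if_neg (by omega), if_neg hj'', rg, if_neg hj'']
  rw [e2] at s4
  have s5 := ASteps.one (h2.right (m := off + M + 1 + M) (by rw [length_amPops])).head
    (.goto cont (rg M (update S 0 y) base))
  refine ⟨_, ?_, ((((s0.trans s1).trans s2).trans s3).trans s4).trans s5⟩
  rw [Nat.mul_add]
  omega

theorem acomp_correct {A : List AI} {M : ℕ} {env p : RProg} {S S' : Store} {t : ℕ} (h : RExec env p S S' t) :
    p.bound ≤ M + 1 → env.bound ≤ M + 1 → ∀ off cont e, At A off (acomp M p off cont e) →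
      At A e (acomp M env e (e + alen M env) e ++ [.ret (M + 1)]) → ∀ base, BOK M base →
      ∃ n ≤ (M + 2) * t, ASteps A off (rg M S base) cont (rg M S' base) n := by
  induction h with
  | skip env S =>
    intro _ _ off cont e hA _ base _
    exact ⟨1, by omega, .one hA.head (.goto _ _)⟩
  | push env k b S =>
    intro hb _ off cont e hA _ base _
    have hk : k < M + 1 := hb
    refine ⟨1, by omega, .one hA.head ?_⟩
    rw [← update_rg hk]
    have := AI.Step.push k (cd b) cont (rg M S base)
    rw [rg_of_lt hk] at this
    exact this
  | @seq env p q S S' S'' t t' _ _ ih1 ih2 =>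
    intro hb he off cont e hA hE base hB
    simp only [RProg.bound, max_le_iff] at hb
    obtain ⟨n1, hn1, h1⟩ := ih1 hb.1 he _ _ _ hA.left hE base hB
    obtain ⟨n2, hn2, h2⟩ := ih2 hb.2 he _ _ _ (hA.right (by rw [length_acomp])) hE base hB
    exact ⟨n1 + n2, by rw [Nat.mul_add]; omega, h1.trans h2⟩
  | @caseNil env k p q r S S' t hl _ ih =>
    intro hb he off cont e hA hE base hB
    simp only [RProg.bound, max_le_iff] at hb
    obtain ⟨n1, hn1, h1⟩ := ih hb.2.1 he _ _ _ hA.tail.left hE base hB
    exact ⟨n1 + 1, by rw [Nat.mul_add]; omega, .step hA.head (step_nil hb.1 hB hl) h1⟩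
  | @caseFalse env k p q r S S' t l hl _ ih =>
    intro hb he off cont e hA hE base hB
    simp only [RProg.bound, max_le_iff] at hb
    obtain ⟨n1, hn1, h1⟩ := ih hb.2.2.1 he _ _ _ (hA.tail.right (by rw [length_acomp])).left hE base hB
    exact ⟨n1 + 1, by rw [Nat.mul_add]; omega, .step hA.head (step_false hb.1 base hl) h1⟩
  | @caseTrue env k p q r S S' t l hl _ ih =>
    intro hb he off cont e hA hE base hB
    simp only [RProg.bound, max_le_iff] at hb
    obtain ⟨n1, hn1, h1⟩ := ih hb.2.2.2 he _ _ _
      ((hA.tail.right (m := off + 1 + alen M p) (by rw [length_acomp])).right (by rw [length_acomp])) hE base hB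
    exact ⟨n1 + 1, by rw [Nat.mul_add]; omega, .step hA.head (step_true hb.1 base hl) h1⟩
  | @loopNil env k q r S hl =>
    intro hb he off cont e hA hE base hB
    simp only [RProg.bound, max_le_iff] at hb
    exact ⟨1, by omega, .one hA.head (step_nil hb.1 hB hl)⟩
  | @loopFalse env k q r S S' S'' t t' l hl _ _ ih1 ih2 =>
    intro hb he off cont e hA hE base hB
    have hb' := hb
    simp only [RProg.bound, max_le_iff] at hb
    obtain ⟨n1, hn1, h1⟩ := ih1 hb.2.1 he _ _ _ hA.tail.left hE base hB
    obtain ⟨n2, hn2, h2⟩ := ih2 hb' he _ _ _ hA hE base hB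
    exact ⟨n1 + n2 + 1, by rw [Nat.mul_add, Nat.mul_add]; omega,
      .step hA.head (step_false hb.1 base hl) (h1.trans h2)⟩
  | @loopTrue env k q r S S' S'' t t' l hl _ _ ih1 ih2 =>
    intro hb he off cont e hA hE base hB
    have hb' := hb
    simp only [RProg.bound, max_le_iff] at hb
    obtain ⟨n1, hn1, h1⟩ := ih1 hb.2.2 he _ _ _ (hA.tail.right (by rw [length_acomp])) hE base hB
    obtain ⟨n2, hn2, h2⟩ := ih2 hb' he _ _ _ hA hE base hB
    exact ⟨n1 + n2 + 1, by rw [Nat.mul_add, Nat.mul_add]; omega,
      .step hA.head (step_true hb.1 base hl) (h1.trans h2)⟩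
  | @call env S y t _ ih =>
    intro _ he off cont e hA hE base hB
    exact amFrame_steps hA (hE.right (by rw [length_acomp])).head (ih he he _ _ _ hE.left hE) base hB
  | @fix env b S y t _ ih =>
    intro hb _ off cont e hA _ base hB
    have hE := hA.right (m := off + (2 * M + 2)) (by rw [length_amFrame])
    exact amFrame_steps hA.left (hE.right (by rw [length_acomp])).head (ih hb hb _ _ _ hE.left hE) base hB
  | mono _ hle ih =>
    intro hb he off cont e hA hE base hB
    obtain ⟨n1, hn1, h1⟩ := ih hb he off cont e hA hE base hB
    exact ⟨n1, hn1.trans (Nat.mul_le_mul_left _ hle), h1⟩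

/-- a store with two registers -/
def st2 (y l : List Bool) : Store := update (single y) 1 l

theorem st2_zero (y l : List Bool) : st2 y l 0 = y := rfl
theorem st2_one (y l : List Bool) : st2 y l 1 = l := rfl

theorem update_st2_zero (y l y' : List Bool) : update (st2 y l) 0 y' = st2 y' l := by
  unfold st2 single
  rw [update_comm (by decide), update_idem]

theorem update_st2_one (y l l' : List Bool) : update (st2 y l) 1 l' = st2 y l' := update_idem ..

theorem rg_st2 {M : ℕ} (hM : 1 ≤ M) (l : List Bool) : rg M (st2 [] l) (fun _ => []) = stk1 l := by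
  funext j
  unfold rg st2 single stk1
  by_cases h1 : j = 1
  · subst h1
    simp [hM]
  · by_cases h0 : j = 0
    · subst h0
      simp
    · simp [update_of_ne h1]

theorem am_pre (env : RProg) (l : List Bool) : ∀ y, RExec env (.loop 1 (.push 0 false) (.push 0 true)) (st2 y l)
    (st2 (l.reverse ++ y) []) (2 * l.length + 1) := by
  induction l with
  | nil => intro y; exact .loopNil rfl
  | cons b l ih =>
    intro y
    have h1 : RExec env (.push 0 b) (update (st2 y (b :: l)) 1 l) (st2 (b :: y) l) 1 := by
      rw [update_st2_one, ← update_st2_zero y l (b :: y)]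
      exact .push _ _ _ _
    have h2 := ih (b :: y)
    rw [List.reverse_cons, List.append_assoc]
    cases b
    · exact (RExec.loopFalse rfl h1 h2).mono (by simp only [List.length_cons]; omega)
    · exact (RExec.loopTrue rfl h1 h2).mono (by simp only [List.length_cons]; omega)

/-- drop one symbol -/
def amDrop : RProg := .case 0 .skip .skip .skip

/-- write the bit `b` and drop three symbols -/
def amOut (b : Bool) : RProg := .seq (.push 1 b) (.seq amDrop (.seq amDrop amDrop))

/-- decode the output -/
def amPost : RProg := .loop 0 .skip (.seq amDrop (.case 0 .skip (amOut false) (amOut true)))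

theorem am_drop (env : RProg) (b : Bool) (y l : List Bool) : RExec env amDrop (st2 (b :: y) l) (st2 y l) 2 := by
  rw [← update_st2_zero (b :: y) l y]
  cases b
  · exact .caseFalse rfl (.skip _ _)
  · exact .caseTrue rfl (.skip _ _)

theorem am_out (env : RProg) (b c1 c2 c3 : Bool) (y l : List Bool) :
    RExec env (amOut b) (st2 (c1 :: c2 :: c3 :: y) l) (st2 y (b :: l)) 7 := by
  have h1 : RExec env (.push 1 b) (st2 (c1 :: c2 :: c3 :: y) l) (st2 (c1 :: c2 :: c3 :: y) (b :: l)) 1 := by
    rw [← update_st2_one _ l (b :: l)]
    exact .push _ _ _ _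
  exact h1.seq ((am_drop env _ _ _).seq ((am_drop env _ _ _).seq (am_drop env _ _ _)))

theorem am_post (env : RProg) (z : List Bool) : ∀ l, RExec env amPost
    (st2 (enc (z.map fun b => (b, !b))).bits l) (st2 [] (z.reverse ++ l)) (11 * z.length + 3) := by
  induction z with
  | nil =>
    intro l
    refine (RExec.loopFalse (l := []) (t' := 1) rfl (.skip _ _) ?_).mono le_rfl
    rw [update_st2_zero]
    exact .loopNil rfl
  | cons b z ih =>
    intro l
    have h2 := ih (b :: l)
    rw [List.reverse_cons, List.append_assoc]
    generalize hw : (enc (z.map fun b => (b, !b))).bits = w at h2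
    cases b
    · have e : (enc ((false :: z).map fun b => (b, !b))).bits = true :: true :: false :: true :: false :: false :: w := by
        rw [← hw]; rfl
      rw [e]
      have h3 : RExec env (.case 0 .skip (amOut false) (amOut true)) (st2 (false :: true :: false :: false :: w) l)
          (st2 w (false :: l)) 8 := .caseFalse rfl (by rw [update_st2_zero]; exact am_out env _ _ _ _ _ _)
      refine (RExec.loopTrue rfl ?_ h2).mono (t := 2 + 8 + (11 * z.length + 3) + 1)
        (by simp only [List.length_cons]; omega)
      rw [update_st2_zero]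
      exact (am_drop env _ _ _).seq h3
    · have e : (enc ((true :: z).map fun b => (b, !b))).bits = true :: true :: true :: false :: false :: false :: w := by
        rw [← hw]; rfl
      rw [e]
      have h3 : RExec env (.case 0 .skip (amOut false) (amOut true)) (st2 (true :: false :: false :: false :: w) l)
          (st2 w (true :: l)) 8 := .caseTrue rfl (by rw [update_st2_zero]; exact am_out env _ _ _ _ _ _)
      refine (RExec.loopTrue rfl ?_ h2).mono (t := 2 + 8 + (11 * z.length + 3) + 1)
        (by simp only [List.length_cons]; omega)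
      rw [update_st2_zero]
      exact (am_drop env _ _ _).seq h3

theorem am_ok (P : RProg) : ∃ (A : List AI) (K C : ℕ), 2 ≤ K ∧ (∀ i ∈ A, i.idx < K) ∧
    ∀ (x : List Bool) (D τ : ℕ), RExec P P (single x) (single (enc D).bits) τ →
      ∃ n ≤ C * (τ + x.length + D.size + 1), ASteps A 0 (stk1 x.reverse) A.length (stk1 D.bits.reverse) n := by
  obtain ⟨Q, hQ⟩ : ∃ Q, Q = RProg.seq (.loop 1 (.push 0 false) (.push 0 true)) (.seq (.fix P) amPost) := ⟨_, rfl⟩
  obtain ⟨M, hM1, hM⟩ : ∃ M, 1 ≤ M ∧ Q.bound ≤ M + 1 := ⟨Q.bound + 1, by omega, by omega⟩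
  refine ⟨acomp M Q 0 (alen M Q + 2) (alen M Q) ++ (acomp M .skip (alen M Q) (alen M Q + alen M .skip) (alen M Q) ++
    [.ret (M + 1)]), M + 2, (M + 2) * 11, by omega, fun i hi => ?_, fun x D τ h => ?_⟩
  · simp only [List.mem_append, List.mem_singleton] at hi
    rcases hi with hi | hi | rfl
    · exact idx_acomp M Q hM _ _ _ i hi
    · exact idx_acomp M .skip (Nat.zero_le _) _ _ _ i hi
    · exact Nat.lt_succ_self _
  · have h1 := am_pre .skip x.reverse []
    rw [List.reverse_reverse, List.append_nil, List.length_reverse] at h1
    have h2 : RExec .skip (.fix P) (st2 x []) (st2 (enc D).bits []) (τ + 2) := by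
      have := RExec.fix (env := .skip) (S := st2 x []) h
      rwa [update_st2_zero] at this
    have h3 := am_post .skip D.bits []
    rw [List.append_nil, Nat.size_eq_bits_len] at h3
    have h4 := h1.seq (h2.seq h3)
    rw [← hQ] at h4
    obtain ⟨n, hn, hs⟩ := acomp_correct h4 hM (Nat.zero_le _) 0 (alen M Q + 2) (alen M Q) (At.refl _).left
      ((At.refl _).right (by rw [length_acomp, Nat.zero_add])) (fun _ => []) ⟨rfl, fun _ _ => rfl⟩
    rw [rg_st2 hM1, rg_st2 hM1] at hs
    refine ⟨n, hn.trans ?_, ?_⟩
    · rw [Nat.mul_assoc]
      exact Nat.mul_le_mul_left _ (by omega)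
    · rw [List.length_append, length_acomp]
      exact hs

end Crest.Agent.R288.Ram
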