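/-
R288/RamFront: iterated logarithms, the number of random bits and the branch test.
* one lemma for `Nat.log 2`: `v dst := 0; while 1 < v a: v a := v a / 2; v dst := v dst + 1` (`Nat.log_of_one_lt_of_le`, `Nat.log_of_lt`), cost `O(log + 1)`.
* `pow_ok`: `v 6 := L + 2 + L / g`, `v 5 := 1`, double `v 5` exactly `v 6` times (`≤ 2 L + 2` rounds).
* `test_ok`: no large literal: `lt (num 0) ((fun e => sub e (num 1))^[g₀] (sub (add (var 4) (num 3)) (sub (var 0) (var 2))))`, where `v 0 - v 2 = e + 2`.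
-/
import Crest.Agent.R288.RamDefs

set_option autoImplicit false

namespace Crest.Agent.R288.Ram

open Function Crest.WordRAM Crest.GraphRAM Crest.Agent.Lib.PolyTime Crest.Agent.R326

/-- `v dst := log₂ (v src)`, scratch variable `7` -/
def lgW (src dst : ℕ) : W :=
  .seq (.set 7 (.var src)) (.seq (.set dst (.num 0))
    (.wh (.lt (.num 1) (.var 7))
      (.seq (.set 7 (.div (.var 7) (.num 2))) (.set dst (.add (.var dst) (.num 1))))))

theorem lgW_ok {w : ℕ} {ρ : ℕ → ℕ} {s : St} {src dst N : ℕ} (hd : dst ≠ 7) (hx : s.v src ≤ N)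
    (hw : N + 8 ≤ 2 ^ w) :
    Wp w ρ (lgW src dst) s (3 * (N + 1)) fun s' => s'.m = s.m ∧ s'.d = s.d ∧
      s'.v dst = Nat.log 2 (s.v src) ∧ ∀ j, j ≠ 7 → j ≠ dst → s'.v j = s.v j := by
  have hlog : Nat.log 2 (s.v src) ≤ N := (Nat.log_le_self 2 _).trans hx
  have hd' : (7 : ℕ) ≠ dst := fun h => hd h.symm
  let I : St → Prop := fun s' => s'.m = s.m ∧ s'.d = s.d ∧
    s'.v dst + Nat.log 2 (s'.v 7) = Nat.log 2 (s.v src) ∧ ∀ j, j ≠ 7 → j ≠ dst → s'.v j = s.v j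
  have hloop := Wp.loop_dec (w := w) (ρ := ρ) (c := .lt (.num 1) (.var 7))
    (p := .seq (.set 7 (.div (.var 7) (.num 2))) (.set dst (.add (.var dst) (.num 1)))) (t := 1 + 1)
    (s := (s.set 7 (s.v src)).set dst 0) I (fun s' => Nat.log 2 (s'.v 7)) ?_ ?_
  · refine (Wp.set_seq (by simp) (Wp.set_seq (by simp only [Ex.ok]; omega) (hloop.imp ?_))).mono ?_
    · rintro s' ⟨⟨h1, h2, h3, h4⟩, h5⟩
      refine ⟨h1, h2, ?_, h4⟩
      simp only [Cd.ev, Ex.ev] at h5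
      rw [Nat.log_of_lt (by omega)] at h3
      omega
    · simp only [St.set_v, if_neg hd', if_true]
      omega
  · rintro s' ⟨h1, h2, h3, h4⟩
    refine ⟨by simp only [Cd.ok, Ex.ok]; exact ⟨by omega, trivial⟩, fun hc => ?_⟩
    simp only [Cd.ev, Ex.ev] at hc
    have hl : Nat.log 2 (s'.v 7) = Nat.log 2 (s'.v 7 / 2) + 1 :=
      Nat.log_of_one_lt_of_le (by norm_num) (by omega)
    refine Wp.set_seq (by simp only [Ex.ok]; exact ⟨trivial, by omega⟩) (Wp.set ?_ ⟨⟨h1, h2, ?_, ?_⟩, ?_⟩)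
    · simp only [Ex.ok, Ex.ev, St.set_v, if_neg hd]
      exact ⟨trivial, by omega, by omega⟩
    · simp only [Ex.ev, St.set_v, if_neg hd, if_neg hd', if_true]
      omega
    · intro j hj hj'
      simp only [St.set_v, if_neg hj, if_neg hj']
      exact h4 j hj hj'
    · simp only [Ex.ev, St.set_v, if_neg hd', if_true]
      omega
  · refine ⟨rfl, rfl, ?_, fun j hj hj' => ?_⟩
    · simp only [St.set_v, if_neg hd', if_true]
      omega
    · simp only [St.set_v, if_neg hj, if_neg hj']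

theorem front_ok : ∃ (p : W) (C : ℕ), ∀ (w : ℕ) (ρ : ℕ → ℕ) (s : St) (N : ℕ), s.m 0 + s.m 1 = N → N + 8 ≤ 2 ^ w →
    Wp w ρ p s (C * (N + 1)) fun s' => s'.m = s.m ∧ s'.d = s.d ∧ s'.v 0 = s.v 0 ∧ s'.v 2 = N ∧
      s'.v 3 = Nat.log 2 N ∧ s'.v 4 = gN N := by
  refine ⟨.seq (.set 2 (.add (.ld (.num 0)) (.ld (.num 1))))
    (.seq (lgW 2 3) (.seq (lgW 3 4) (.seq (lgW 4 4) (lgW 4 4)))), 13, fun w ρ s N hN hw => ?_⟩
  have l1 : Nat.log 2 N ≤ N := Nat.log_le_self 2 _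
  have l2 : Nat.log 2 (Nat.log 2 N) ≤ N := (Nat.log_le_self 2 _).trans l1
  have l3 : Nat.log 2 (Nat.log 2 (Nat.log 2 N)) ≤ N := (Nat.log_le_self 2 _).trans l2
  refine (Wp.set_seq (t := 3 * (N + 1) + (3 * (N + 1) + (3 * (N + 1) + 3 * (N + 1))))
    (by simp only [Ex.ok, Ex.ev]; omega) ?_).mono (by omega)
  simp only [Ex.ev, hN]
  refine (lgW_ok (N := N) (by norm_num) (by simp) hw).bind ?_
  rintro s1 ⟨m1, d1, v1, f1⟩
  simp only [St.set_v, if_true, St.set_m, St.set_d] at m1 d1 v1 f1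
  refine (lgW_ok (N := N) (by norm_num) (by omega) hw).bind ?_
  rintro s2 ⟨m2, d2, v2, f2⟩
  rw [v1] at v2
  refine (lgW_ok (N := N) (by norm_num) (by omega) hw).bind ?_
  rintro s3 ⟨m3, d3, v3, f3⟩
  rw [v2] at v3
  refine (lgW_ok (N := N) (by norm_num) (by omega) hw).imp ?_
  rintro s4 ⟨m4, d4, v4, f4⟩
  rw [v3] at v4
  refine ⟨by rw [m4, m3, m2, m1], by rw [d4, d3, d2, d1], ?_, ?_, ?_, v4⟩
  · rw [f4 0 (by norm_num) (by norm_num), f3 0 (by norm_num) (by norm_num), f2 0 (by norm_num) (by norm_num),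
      f1 0 (by norm_num) (by norm_num)]
    simp
  · rw [f4 2 (by norm_num) (by norm_num), f3 2 (by norm_num) (by norm_num), f2 2 (by norm_num) (by norm_num),
      f1 2 (by norm_num) (by norm_num)]
    simp
  · rw [f4 3 (by norm_num) (by norm_num), f3 3 (by norm_num) (by norm_num), f2 3 (by norm_num) (by norm_num), v1]

theorem pow_ok : ∃ (p : W) (C : ℕ), ∀ (w : ℕ) (ρ : ℕ → ℕ) (s : St) (N : ℕ), s.v 3 = Nat.log 2 N → s.v 4 = gN N →
    UN N < 2 ^ w → Wp w ρ p s (C * (N + 1)) fun s' => s'.m = s.m ∧ s'.d = s.d ∧ s'.v 0 = s.v 0 ∧ s'.v 5 = UN N := by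
  refine ⟨.seq (.set 6 (.add (.add (.var 3) (.num 2)) (.div (.var 3) (.var 4)))) (.seq (.set 5 (.num 1))
    (.wh (.lt (.num 0) (.var 6))
      (.seq (.set 5 (.add (.var 5) (.var 5))) (.set 6 (.sub (.var 6) (.num 1)))))), 9,
    fun w ρ s N h3 h4 hw => ?_⟩
  obtain ⟨k, hk⟩ : ∃ k, k = Nat.log 2 N + 2 + Nat.log 2 N / gN N := ⟨_, rfl⟩
  have hU : UN N = 2 ^ k := by rw [hk]; rfl
  rw [hU] at hw ⊢
  have hk1 : k < 2 ^ k := Nat.lt_two_pow_self
  have hkw : k < 2 ^ w := hk1.trans hw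
  have hk2 : Nat.log 2 N + 2 ≤ k := by rw [hk]; exact Nat.le_add_right _ _
  have l1 : Nat.log 2 N ≤ N := Nat.log_le_self 2 _
  have l2 : Nat.log 2 N / gN N ≤ Nat.log 2 N := Nat.div_le_self _ _
  let I : ℕ → St → Prop := fun i s' => s'.m = s.m ∧ s'.d = s.d ∧ s'.v 0 = s.v 0 ∧ s'.v 5 = 2 ^ i ∧
    s'.v 6 + i = k
  have hloop := Wp.loop (w := w) (ρ := ρ) (c := .lt (.num 0) (.var 6))
    (p := .seq (.set 5 (.add (.var 5) (.var 5))) (.set 6 (.sub (.var 6) (.num 1)))) (t := 1 + 1)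
    (s := (s.set 6 k).set 5 1) I k ?_ ?_ ?_
  · refine (Wp.set_seq (t := 1 + (k * (1 + 1 + 1) + 1)) ?_ ?_).mono (by omega)
    · simp only [Ex.ok, Ex.ev, h3, h4]
      exact ⟨⟨trivial, lt_of_le_of_lt (le_trans (Nat.le_add_left _ _) hk2) hkw, lt_of_le_of_lt hk2 hkw⟩,
        ⟨trivial, trivial⟩, hk ▸ hkw⟩
    · simp only [Ex.ev, h3, h4, ← hk]
      refine Wp.set_seq (by simp only [Ex.ok]; omega) (hloop.imp ?_)
      rintro s' ⟨h1, h2, h3, h4, _⟩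
      exact ⟨h1, h2, h3, h4⟩
  · rintro i hi s' ⟨h1, h2, h3, h4, h5⟩
    have hp : 2 ^ (i + 1) ≤ 2 ^ k := Nat.pow_le_pow_right (by norm_num) hi
    refine ⟨by simp only [Cd.ok, Ex.ok]; exact ⟨by omega, trivial⟩, by simp only [Cd.ev, Ex.ev]; omega, ?_⟩
    refine Wp.set_seq (by simp only [Ex.ok, Ex.ev, h4]; exact ⟨trivial, trivial, by omega⟩)
      (Wp.set (by simp only [Ex.ok]; exact ⟨trivial, by omega⟩) ⟨h1, h2, ?_, ?_, ?_⟩)
    · simpa using h3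
    · simp only [Ex.ev, St.set_v, h4]
      norm_num
      omega
    · simp only [Ex.ev, St.set_v]
      norm_num
      omega
  · rintro s' ⟨h1, h2, h3, h4, h5⟩
    exact ⟨by simp only [Cd.ok, Ex.ok]; exact ⟨by omega, trivial⟩, by simp only [Cd.ev, Ex.ev]; omega⟩
  · exact ⟨rfl, rfl, by simp, by simp, by simp⟩

theorem iter_sub_ok {w : ℕ} {s : St} (hw : 1 < 2 ^ w) : ∀ (g : ℕ) (a : Ex), a.ok w s →
    ((fun e => Ex.sub e (.num 1))^[g] a).ok w s ∧ ((fun e => Ex.sub e (.num 1))^[g] a).ev s = a.ev s - g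
  | 0, a, h => ⟨h, rfl⟩
  | g + 1, a, h => by
    obtain ⟨h1, h2⟩ := iter_sub_ok hw g (.sub a (.num 1)) ⟨h, hw⟩
    rw [Function.iterate_succ_apply]
    refine ⟨h1, ?_⟩
    rw [h2]
    simp only [Ex.ev]
    omega

theorem test_ok (g₀ : ℕ) : ∃ c : Cd, ∀ (w : ℕ) (s : St) (N e : ℕ), s.v 0 = N + e + 2 → s.v 2 = N → s.v 4 = gN N →
    N + 8 ≤ 2 ^ w → c.ok w s ∧ (c.ev s ↔ e + g₀ ≤ gN N) := by
  refine ⟨.lt (.num 0) ((fun e => Ex.sub e (.num 1))^[g₀]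
    (.sub (.add (.var 4) (.num 3)) (.sub (.var 0) (.var 2)))), fun w s N e h0 h2 h4 hw => ?_⟩
  have hg : gN N ≤ N :=
    (Nat.log_le_self 2 _).trans ((Nat.log_le_self 2 _).trans ((Nat.log_le_self 2 _).trans (Nat.log_le_self 2 _)))
  obtain ⟨h1, h3⟩ := iter_sub_ok (w := w) (s := s) (by omega) g₀
    (.sub (.add (.var 4) (.num 3)) (.sub (.var 0) (.var 2)))
    (by simp only [Ex.ok, Ex.ev, h4]; exact ⟨⟨trivial, by omega, by omega⟩, trivial, trivial⟩)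
  refine ⟨⟨by simp only [Ex.ok]; omega, h1⟩, ?_⟩
  simp only [Cd.ev, h3, Ex.ev, h0, h2, h4]
  omega

end Crest.Agent.R288.Ram
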