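/-
R288/RamIn: writing the code of `(x, y, r)` on stack `1`.
`(enc (x, y, r)).bits = true :: (code x ++ true :: (code y ++ code r))`, where the code of a list is `flatMap (fun a => true :: (enc a).bits) ++ [false]`,
`(enc (a : ℕ)).bits = a.bits.flatMap (fun b => if b then [true, true, true, false, false, false] else [true, true, false, true, false, false]) ++ [false]`,
`(enc true).bits = [true, false, false]`, `(enc false).bits = [false]`.  The symbols are pushed first to last (`pushL`, `Rep.pushL`), so the stack holds the reverse.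
Recipe: set the pointers `v (10 + k) := v 0 + k`, `k < K` (the memory above the input is zero: `Rep K B s fun _ => []`); only variables `< 10` other than `5`
are scratch.  Inner loop: `while 0 < a: push the six symbols of a % 2; a := a / 2` (`Wp.loop` with `a.size` rounds or induction on `a.bits`, see `bits_cons` in
Crest/Agent/R309/RamD.lean); one lemma for a string stored at the addresses `lo ≤ i < hi` (`Wp.loop_sum`, invariant: the code of the first `i` symbols was pushed,
`Fr`), used for `x` (`lo = 2`) and `y` (`lo = 2 + m 0`); a loop of `U = v 5` rounds `rnd` + push (round `i` reads `ρ i`).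
-/
import Crest.Agent.R288.RamDefs

set_option autoImplicit false

namespace Crest.Agent.R288.Ram

open Function Crest.WordRAM Crest.GraphRAM Crest.Agent.Lib.PolyTime Crest.Agent.R326

namespace In

/-- the code of one binary digit -/
def c6 (b : Bool) : List Bool :=
  if b then [true, true, true, false, false, false] else [true, true, false, true, false, false]

/-- the code of a list without its end marker -/
def cL {α : Type} [Enc α] (l : List α) : List Bool := l.flatMap fun a => true :: (enc a).bits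

theorem bits_list {α : Type} [Enc α] (l : List α) : (enc l).bits = cL l ++ [false] := by
  induction l with
  | nil => rfl
  | cons a l ih =>
    change true :: ((enc a).bits ++ (enc l).bits) = _
    simp [ih, cL]

theorem bits_nat (a : ℕ) : (enc a).bits = a.bits.flatMap c6 ++ [false] := by
  change (enc (a.bits.map fun b => (b, !b))).bits = _
  rw [bits_list, cL, List.flatMap_map]
  congr 2
  funext b
  cases b <;> rfl

theorem bits_all (x y : List ℕ) (r : List Bool) : (enc (x, y, r)).bits =
    [true] ++ cL x ++ [false, true] ++ cL y ++ [false] ++ cL r ++ [false] := by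
  change true :: ((enc x).bits ++ true :: ((enc y).bits ++ (enc r).bits)) = _
  simp [bits_list]

theorem length_c6 (bs : List Bool) : (bs.flatMap c6).length = 6 * bs.length := by
  induction bs with
  | nil => rfl
  | cons b bs ih => cases b <;> simp [c6, ih] <;> omega

theorem length_cL_nat {x : List ℕ} {b : ℕ} (hb : ∀ a ∈ x, a.size ≤ b) :
    (cL x).length ≤ x.length * (6 * b + 2) := by
  induction x with
  | nil => simp [cL]
  | cons a x ih =>
    have h1 := ih fun a ha => hb a (List.mem_cons_of_mem _ ha)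
    have h2 := hb a List.mem_cons_self
    rw [← Nat.size_eq_bits_len] at h2
    simp only [cL, List.flatMap_cons, List.length_append, List.length_cons, bits_nat, length_c6,
      List.length_nil] at h1 ⊢
    nlinarith

theorem length_cL_bool (r : List Bool) : (cL r).length ≤ 4 * r.length := by
  induction r with
  | nil => simp [cL]
  | cons a r ih =>
    have : (enc a).bits.length ≤ 3 := by cases a <;> decide
    simp only [cL, List.flatMap_cons, List.length_append, List.length_cons] at ih ⊢
    omega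

theorem bits_cons {n : ℕ} (h : n ≠ 0) : n.bits = decide (n % 2 = 1) :: (n / 2).bits := by
  conv_lhs => rw [← Nat.bit_decide_mod_two_eq_one_shiftRight_one n]
  rw [Nat.bits_append_bit]
  · simp [Nat.shiftRight_one]
  · intro h0
    rw [Nat.shiftRight_one] at h0
    simp; omega

/-- set the stack pointers -/
def initW : ℕ → W
  | 0 => .skip
  | k + 1 => .seq (initW k) (.set (10 + k) (.add (.var 0) (.num k)))

/-- `v 1` is odd -/
def odd1 : Cd := .eq (.mod (.var 1) (.num 2)) (.num 1)

/-- push the digits of `v 1` -/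
def natW (K : ℕ) : W := .wh (.lt (.num 0) (.var 1))
  (.seq (.ite odd1 (pushL K 1 (c6 true)) (pushL K 1 (c6 false))) (.set 1 (.div (.var 1) (.num 2))))

/-- increment `v 2` -/
def inc2 : W := .set 2 (.add (.var 2) (.num 1))

/-- push the symbols at the addresses `v 2 ≤ i < v 3` -/
def strW (K : ℕ) : W := .wh (.lt (.var 2) (.var 3))
  (.seq (pushL K 1 [true]) (.seq (.set 1 (.ld (.var 2))) (.seq (natW K) (.seq (pushL K 1 [false]) inc2))))

/-- push `v 5` random bits -/
def rndW (K : ℕ) : W := .wh (.lt (.var 2) (.var 5))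
  (.seq (.rnd 1) (.seq (.ite odd1 (pushL K 1 [true, true, false, false]) (pushL K 1 [true, false])) inc2))

/-- the whole program -/
def inW (K : ℕ) : W :=
  .seq (initW K) <| .seq (pushL K 1 [true]) <| .seq (.set 2 (.num 2)) <|
  .seq (.set 3 (.add (.num 2) (.ld (.num 0)))) <| .seq (strW K) <| .seq (pushL K 1 [false, true]) <|
  .seq (.set 3 (.add (.var 3) (.ld (.num 1)))) <| .seq (strW K) <| .seq (pushL K 1 [false]) <|
  .seq (.set 2 (.num 0)) <| .seq (rndW K) (pushL K 1 [false])

variable {K B w : ℕ} {ρ : ℕ → ℕ}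

theorem init_ok {s : St} (h0 : s.v 0 = B) (k : ℕ) (hk : B + k ≤ 2 ^ w) :
    Wp w ρ (initW k) s k fun s' => (∀ j < k, s'.v (10 + j) = B + j) ∧ (∀ j < 10, s'.v j = s.v j) ∧
      s'.m = s.m ∧ s'.d = s.d := by
  induction k with
  | zero => exact Wp.skip ⟨by simp, by simp, rfl, rfl⟩
  | succ k ih =>
    refine (ih (by omega)).bind fun s1 ⟨h1, h2, h3, h4⟩ => Wp.set ?_ ⟨fun j hj => ?_, fun j hj => ?_, h3, h4⟩
    · simp only [Ex.ok, Ex.ev, h2 0 (by omega), h0, true_and]
      omega
    · simp only [St.set_v, Ex.ev, h2 0 (by omega), h0]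
      split_ifs with e
      · omega
      · exact h1 j (by omega)
    · rw [St.set_v, if_neg (by omega), h2 j hj]

/-- the list `l` was pushed -/
def Pu (K B : ℕ) (s : St) (l : List Bool) : Prop := Rep K B s (stk1 l.reverse)

theorem Pu.push {s : St} {l : List Bool} (hK : 2 ≤ K) (h : Pu K B s l) (l' : List Bool)
    (hb : B + K * (l.length + l'.length + 3) ≤ 2 ^ w) :
    Wp w ρ (pushL K 1 l') s (2 * l'.length) fun s' => Pu K B s' (l ++ l') ∧ Fr B s s' :=
  (Rep.pushL (ρ := ρ) (k := 1) (by omega) l' h (by simpa [stk1] using hb)).imp fun s' h' =>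
    ⟨by simpa [Pu, stk1] using h'.1, h'.2⟩

theorem Pu.set {s : St} {l : List Bool} (h : Pu K B s l) {r : ℕ} (hr : r < 10) (x : ℕ) :
    Pu K B (s.set r x) l := Rep.set h hr x

theorem le_bd {a c : ℕ} (hb : B + K * (c + 3) ≤ 2 ^ w) (h : a ≤ c) : B + K * (a + 3) ≤ 2 ^ w :=
  le_trans (by gcongr) hb

theorem odd1_ok (s : St) (hw : 2 < 2 ^ w) : odd1.ok w s :=
  ⟨⟨trivial, hw⟩, lt_trans (by decide) hw⟩

theorem nat_ok (hK : 2 ≤ K) (bs : List Bool) : ∀ (s : St) (l : List Bool), (s.v 1).bits = bs →
    Pu K B s l → B + K * (l.length + 6 * bs.length + 3) ≤ 2 ^ w →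
    Wp w ρ (natW K) s (15 * bs.length + 1) fun s' => Pu K B s' (l ++ bs.flatMap c6) ∧
      (∀ j < 10, j ≠ 1 → s'.v j = s.v j) ∧ (∀ a < B, s'.m a = s.m a) ∧ s'.d = s.d := by
  induction bs with
  | nil =>
    intro s l h1 h2 _
    have h0 : s.v 1 = 0 := by
      by_contra h
      rw [bits_cons h] at h1
      simp at h1
    exact Wp.whF (by simp) (by simp [h0]) ⟨by simpa using h2, by simp, by simp, rfl⟩
  | cons b bs ih =>
    intro s l h1 h2 hb
    have h0 : s.v 1 ≠ 0 := by
      intro h
      simp [h] at h1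
    rw [bits_cons h0, List.cons.injEq] at h1
    have hw : 2 < 2 ^ w := by nlinarith
    rw [List.length_cons] at hb
    have hc := odd1_ok s hw
    have key : Wp w ρ (.ite odd1 (pushL K 1 (c6 true)) (pushL K 1 (c6 false))) s (12 + 1)
        fun s' => Pu K B s' (l ++ c6 b) ∧ Fr B s s' := by
      refine Wp.ite hc (fun h => ?_) fun h => ?_
      · obtain rfl : b = true := by rw [← h1.1]; simpa [odd1] using h
        exact h2.push hK _ (le_bd hb (by simp [c6]))
      · obtain rfl : b = false := by rw [← h1.1]; simpa [odd1] using h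
        exact h2.push hK _ (le_bd hb (by simp [c6]))
    refine (Wp.whT (t := 12 + 1 + 1) (t' := 15 * bs.length + 1) (by simp) (by simp; omega)
      (key.bind fun s1 ⟨k1, k2⟩ => Wp.set (by simp; omega) ?_)).mono (by simp; omega)
    refine (ih _ (l ++ c6 b) (by simpa [k2.v 1 (by omega)] using h1.2) (k1.set (by omega) _)
      (le_bd hb (by cases b <;> simp [c6] <;> omega))).imp fun s2 ⟨j1, j2, j3, j4⟩ =>
      ⟨by simpa using j1, fun j hj hj' => ?_, fun a ha => (j3 a ha).trans (k2.m a ha),
        j4.trans k2.d⟩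
    rw [j2 j hj hj', St.set_v, if_neg hj', k2.v j hj]

theorem str_ok (hK : 2 ≤ K) {b : ℕ} (x : List ℕ) : ∀ (s : St) (l : List Bool) (lo : ℕ),
    (∀ a ∈ x, a.size ≤ b) → s.v 2 = lo → s.v 3 = lo + x.length → lo + x.length ≤ B →
    (∀ i < x.length, s.m (lo + i) = x.getD i 0) → Pu K B s l →
    B + K * (l.length + x.length * (6 * b + 2) + 3) ≤ 2 ^ w →
    Wp w ρ (strW K) s (x.length * (15 * b + 8) + 1) fun s' => Pu K B s' (l ++ cL x) ∧
      s'.v 2 = lo + x.length ∧ (∀ j < 10, j ≠ 1 → j ≠ 2 → s'.v j = s.v j) ∧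
      (∀ a < B, s'.m a = s.m a) ∧ s'.d = s.d := by
  induction x with
  | nil =>
    intro s l lo _ h2 h3 _ _ hP _
    exact (Wp.whF (by simp) (by simp [h2, h3]) ⟨by simpa [cL] using hP, by simpa using h2, by simp,
      by simp, rfl⟩).mono (by simp)
  | cons a x ih =>
    intro s l lo hs h2 h3 h4 h5 hP hb
    have ha := hs a List.mem_cons_self
    rw [← Nat.size_eq_bits_len] at ha
    simp only [List.length_cons] at h3 h4 h5 hb ⊢
    rw [Nat.add_mul x.length, Nat.one_mul] at hb ⊢
    have hl := length_c6 a.bits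
    have hw : B + 2 < 2 ^ w := by
      have := le_bd (a := 0) hb (Nat.zero_le _)
      omega
    have h6 : s.m lo = a := by simpa using h5 0 (by omega)
    refine (Wp.whT (t := 2 * 1 + (1 + (15 * a.bits.length + 1 + (2 * 1 + 1))))
      (t' := x.length * (15 * b + 8) + 1) (by simp) (by simp; omega)
      ((hP.push hK [true] (le_bd hb (by simp; omega))).bind fun s1 ⟨k1, k2⟩ =>
        Wp.set_seq (by simp) ?_)).mono (by omega)
    have e1 : (Ex.ld (.var 2)).ev s1 = a := by
      simp only [Ex.ev, k2.v 2 (by omega), h2, k2.m lo (by omega), h6]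
    rw [e1]
    refine (nat_ok hK a.bits _ _ (by simp) (k1.set (by omega) a)
      (le_bd hb (by simp; omega))).bind fun s2 ⟨j1, j2, j3, j4⟩ => ?_
    refine (j1.push hK [false] (le_bd hb (by simp only [List.length_append, List.length_cons, List.length_nil]; omega))).bind fun s3 ⟨i1, i2⟩ => ?_
    have v : ∀ j < 10, j ≠ 1 → s3.v j = s.v j := fun j hj hj' => by
      rw [i2.v j hj, j2 j hj hj', St.set_v, if_neg hj', k2.v j hj]
    have m : ∀ c < B, s3.m c = s.m c := fun c hc => by rw [i2.m c hc, j3 c hc, St.set_m, k2.m c hc]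
    refine Wp.set ⟨trivial, by simp only [Ex.ok]; omega, by simp [v 2, h2]; omega⟩ ?_
    refine (ih _ _ (lo + 1) (fun c hc => hs c (List.mem_cons_of_mem _ hc)) (by simp [v 2, h2])
      (by simp [v 3, h3]; omega) (by omega) (fun i hi => ?_) (i1.set (by omega) _)
      (le_bd hb (by simp only [List.length_append, List.length_cons, List.length_nil]; omega))).imp fun s4 ⟨q1, q2, q3, q4, q5⟩ =>
      ⟨by simpa [cL, bits_nat] using q1, by omega, fun j hj hj' hj'' => ?_,
        fun c hc => (q4 c hc).trans (m c hc), q5.trans (i2.d.trans (j4.trans k2.d))⟩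
    · rw [St.set_m, m _ (by omega), Nat.add_assoc, Nat.add_comm 1, h5 _ (by omega)]
      rfl
    · rw [q3 j hj hj' hj'', St.set_v, if_neg hj'', v j hj hj']

theorem rbits_succ (i : ℕ) : rbits w ρ (i + 1) = rbits w ρ i ++ [decide (ρ i % 2 ^ w % 2 = 1)] := by
  simp [rbits, List.range_succ]

theorem length_rbits (i : ℕ) : (rbits w ρ i).length = i := by simp [rbits]

theorem rnd_ok (hK : 2 ≤ K) {s : St} {l : List Bool} {U : ℕ} (h2 : s.v 2 = 0) (h5 : s.v 5 = U)
    (hd : s.d = 0) (hP : Pu K B s l) (hb : B + K * (l.length + 4 * U + 3) ≤ 2 ^ w) :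
    Wp w ρ (rndW K) s (U * 12 + 1) fun s' => Pu K B s' (l ++ cL (rbits w ρ U)) := by
  have hw : U + 2 < 2 ^ w := by nlinarith
  refine (Wp.loop (t := 1 + (8 + 1 + 1)) (fun i s' => Pu K B s' (l ++ cL (rbits w ρ i)) ∧
    s'.v 2 = i ∧ s'.v 5 = U ∧ s'.d = i) U (fun i hi s1 ⟨k1, k2, k3, k4⟩ =>
      ⟨by simp, by simp; omega, Wp.seq (Wp.rnd ?_)⟩) (fun s1 ⟨_, k2, k3, _⟩ => by simp; omega)
    ⟨by simpa [rbits, cL] using hP, h2, h5, hd⟩).imp fun _ h => h.1
  have h1 : Pu K B (s1.set 1 (ρ s1.d % 2 ^ w)).tick (l ++ cL (rbits w ρ i)) :=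
    Rep.tick (k1.set (by omega) _)
  have n1 := length_cL_bool (rbits w ρ i)
  rw [length_rbits] at n1
  have key : Wp w ρ (.ite odd1 (pushL K 1 [true, true, false, false]) (pushL K 1 [true, false]))
      (s1.set 1 (ρ s1.d % 2 ^ w)).tick (8 + 1) fun s' => Pu K B s' (l ++ cL (rbits w ρ (i + 1))) ∧
        Fr B (s1.set 1 (ρ s1.d % 2 ^ w)).tick s' := by
    refine Wp.ite (odd1_ok _ (by omega)) (fun h => ?_) fun h => ?_
    · have e : decide (ρ i % 2 ^ w % 2 = 1) = true := by simpa [odd1, k4] using h
      refine (h1.push hK _ (le_bd hb (by simp; omega))).imp fun s2 h' => ⟨?_, h'.2⟩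
      rw [rbits_succ, e]
      simpa [cL, show (enc true).bits = [true, false, false] from rfl] using h'.1
    · have e : decide (ρ i % 2 ^ w % 2 = 1) = false := by simpa [odd1, k4] using h
      refine ((h1.push hK _ (le_bd hb (by simp; omega))).imp fun s2 h' => ⟨?_, h'.2⟩).mono
        (by simp)
      rw [rbits_succ, e]
      simpa [cL, show (enc false).bits = [false] from rfl] using h'.1
  refine key.bind fun s2 ⟨j1, j2⟩ => ?_
  have v2 : s2.v 2 = i := by simp [j2.v 2, k2]
  have v5 : s2.v 5 = U := by simp [j2.v 5, k3]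
  exact Wp.set ⟨trivial, by simp only [Ex.ok]; omega, by simp [v2]; omega⟩ ⟨j1.set (by omega) _, by simp [v2], by simp [v5],
    by simp [j2.d, k4]⟩

end In

open In

theorem length_code_le {x y : List ℕ} {r : List Bool} {b : ℕ} (hb : ∀ a ∈ x ++ y, a.size ≤ b) :
    (enc (x, y, r)).bits.length ≤ 8 * ((x.length + y.length + 1) * (b + 1) + r.length) := by
  have h1 := length_cL_nat fun a ha => hb a (List.mem_append_left y ha)
  have h2 := length_cL_nat fun a ha => hb a (List.mem_append_right x ha)
  have h3 := length_cL_bool r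
  simp only [bits_all, List.length_append, List.length_cons, List.length_nil]
  nlinarith

theorem in_ok (K : ℕ) (hK : 2 ≤ K) : ∃ (p : W) (C : ℕ),
    ∀ (w : ℕ) (ρ : ℕ → ℕ) (s : St) (x y rest : List ℕ) (U b : ℕ), Inp s (stringsInput x y ++ rest) → s.v 5 = U → s.d = 0 →
      (∀ a ∈ x ++ y, a.size ≤ b) →
      (stringsInput x y ++ rest).length + C * ((x.length + y.length + 1) * (b + 1) + U) ≤ 2 ^ w →
      Wp w ρ p s (C * ((x.length + y.length + 1) * (b + 1) + U)) fun s' =>
        Rep K (stringsInput x y ++ rest).length s' (stk1 (enc (x, y, rbits w ρ U)).bits.reverse) := by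
  refine ⟨inW K, 11 * K + 40, fun w ρ s x y rest U b hI h5 hd hs hb => ?_⟩
  obtain ⟨h0, hm⟩ := hI
  have hx := fun a ha => hs a (List.mem_append_left y ha)
  have hy := fun a ha => hs a (List.mem_append_right x ha)
  have n1 := length_cL_nat hx
  have n2 := length_cL_nat hy
  have n3 := length_cL_bool (rbits w ρ U)
  rw [length_rbits] at n3
  have m0 : s.m 0 = x.length := by simp [hm, stringsInput]
  have m1 : s.m 1 = y.length := by simp [hm, stringsInput]
  have mx : ∀ i < x.length, s.m (2 + i) = x.getD i 0 := fun i hi => by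
    simp [hm, stringsInput, Nat.add_comm 2, List.getElem?_append_left, hi]
  have my : ∀ i < y.length, s.m (2 + x.length + i) = y.getD i 0 := fun i hi => by
    rw [hm, show 2 + x.length + i = (x.length + i) + 1 + 1 by omega]
    simp [stringsInput, List.getElem?_append_left, List.getElem?_append_right, hi]
  have mz : ∀ i, (stringsInput x y ++ rest).length ≤ i → s.m i = 0 := fun i hi => by
    rw [hm, List.getD_eq_default _ _ hi]
  have hB : 2 + x.length + y.length ≤ (stringsInput x y ++ rest).length := by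
    simp [stringsInput]; omega
  generalize (stringsInput x y ++ rest).length = B at *
  have hT : x.length * (6 * b + 2) + y.length * (6 * b + 2) + 4 * U + 5 ≤
      8 * ((x.length + y.length + 1) * (b + 1) + U) := by nlinarith
  have hT' : x.length * (15 * b + 8) + y.length * (15 * b + 8) + U * 12 + 15 ≤
      15 * ((x.length + y.length + 1) * (b + 1) + U) := by nlinarith
  generalize (x.length + y.length + 1) * (b + 1) + U = T at *
  have hT1 : 1 ≤ T := by omega
  have hb' : B + K * (8 * T + 3) ≤ 2 ^ w := le_trans (by nlinarith) hb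
  have hw : B + K + 2 < 2 ^ w := by nlinarith
  refine Wp.mono (t := K + (2 * 1 + (1 + (1 + (x.length * (15 * b + 8) + 1 + (2 * 2 + (1 +
    (y.length * (15 * b + 8) + 1 + (2 * 1 + (1 + (U * 12 + 1 + 2 * 1))))))))))) ?_ (by nlinarith)
  refine (init_ok h0 K (by omega)).bind fun s1 ⟨a1, a2, a3, a4⟩ => ?_
  have p1 : Pu K B s1 [] := ⟨fun k hk => by
      rw [a1 k hk]; by_cases e : k = 1 <;> simp [stk1, e], fun k hk => by
      have : stk1 ([] : List Bool).reverse k = [] := by by_cases e : k = 1 <;> simp [stk1, e]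
      rw [this, a3]; exact mz _ (by omega)⟩
  refine (p1.push hK [true] (le_bd hb' (by simp; omega))).bind fun s2 ⟨p2, f2⟩ => ?_
  have M2 : ∀ a < B, s2.m a = s.m a := fun a ha => by rw [f2.m a ha, a3]
  refine Wp.set_seq (by simp; omega) (Wp.set_seq (by simp [M2 0 (by omega), m0]; omega) ?_)
  refine (str_ok hK x _ _ 2 hx ?_ ?_ (by omega) (fun i hi => by exact (M2 _ (by omega)).trans (mx i hi))
    ((p2.set (r := 2) (by omega) _).set (r := 3) (by omega) _)
    (le_bd hb' (by simp; omega))).bind fun s3 ⟨p3, b1, b2, b3, b4⟩ => ?_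
  · simp
  · simp [M2 0 (by omega), m0]
  refine (p3.push hK [false, true] (le_bd hb' (by simp; omega))).bind fun s4 ⟨p4, f4⟩ => ?_
  have M4 : ∀ a < B, s4.m a = s.m a := fun a ha => by rw [f4.m a ha, b3 a ha]; exact M2 a ha
  have v3 : s4.v 3 = 2 + x.length := by simp [f4.v 3, b2 3, M2 0 (by omega), m0]
  refine Wp.set_seq ⟨trivial, by simp only [Ex.ok]; omega,
    by simp [v3, M4 1 (by omega), m1]; omega⟩ ?_
  refine (str_ok hK y _ _ (2 + x.length) hy (by simp [f4.v 2, b1])
    (by simp [v3, M4 1 (by omega), m1]) (by omega)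
    (fun i hi => by exact (M4 _ (by omega)).trans (my i hi)) (p4.set (r := 3) (by omega) _)
    (le_bd hb' (by simp; omega))).bind fun s5 ⟨p5, _, c2, _, c4⟩ => ?_
  refine (p5.push hK [false] (le_bd hb' (by simp; omega))).bind fun s6 ⟨p6, f6⟩ => ?_
  refine Wp.set_seq (by simp) ?_
  refine (rnd_ok (U := U) hK (by simp) (by simp [f6.v 5, c2 5, f4.v 5, b2 5, f2.v 5, a2 5, h5])
    (by simp [f6.d, c4, f4.d, b4, f2.d, a4, hd]) (p6.set (r := 2) (by omega) _)
    (le_bd hb' (by simp; omega))).bind fun s7 p7 => ?_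
  refine (p7.push hK [false] (le_bd hb' (by simp; omega))).imp fun s8 h8 => ?_
  rw [bits_all]
  simpa [Pu] using h8.1

end Crest.Agent.R288.Ram
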