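/-
R288/RamInt: an interpreter for the stack machine in `W`, and the decoding of the answer.
* `interp_ok`: variable `2` is the program counter: `seq (set 2 (num 0)) (wh (lt (var 2) (num A.length)) (disp 0 A))`,
  `disp j (i :: A') = ite (eq (var 2) (num j)) (exec i) (disp (j+1) A')`; `exec` uses `pushW`, `popW`, `topE` (`Rep.push`, `Rep.pop`, `Rep.top`, `Rep.set`);
  `ret k` is `set 2 (topE k)` and then `popW`.  Induction on `ASteps` (generalize the start label; one step raises every height by at most one;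
  a label with `A[l]? = some i` is `< A.length`).  `C` exceeds `K`, `A.length` and all literals of `A`.
* `out_ok`: `v 2 := 0`; while `0 < topE 1`: `v 2 := 2 * v 2 + (topE 1 - 1)`, pop; then `m 0 := v 2`, `v 0 := 1`, `v 1 := 0`.
  Induction on the remaining list (`Wp.whT`, `Wp.whF`), model: `val`, `val_bits`, `le_val` in Crest/Agent/R309/RamD.lean.
-/
import Crest.Agent.R288.RamDefs

set_option autoImplicit false

namespace Crest.Agent.R288.Ram

open Function Crest.WordRAM Crest.GraphRAM Crest.Agent.Lib.PolyTime Crest.Agent.R326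

/-- sum of the literals of an instruction -/
def intLit : AI → ℕ
  | .goto l => l
  | .push _ v l => v + l
  | .pop _ l => l
  | .test _ l0 l1 l2 => l0 + l1 + l2
  | .ret _ => 0

/-- one instruction -/
def intExec (K : ℕ) : AI → W
  | .goto l => .set 2 (.num l)
  | .push k v l => .seq (pushW K k (.num v)) (.set 2 (.num l))
  | .pop k l => .seq (popW K k) (.set 2 (.num l))
  | .test k l0 l1 l2 => .ite (.eq (topE k) (.num 0)) (.set 2 (.num l0))
      (.ite (.eq (topE k) (.num 1)) (.seq (popW K k) (.set 2 (.num l1)))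
        (.seq (popW K k) (.set 2 (.num l2))))
  | .ret k => .seq (.set 2 (topE k)) (popW K k)

/-- dispatch on the program counter -/
def intDisp (K : ℕ) : ℕ → List AI → W
  | _, [] => .skip
  | j, i :: A => .ite (.eq (.var 2) (.num j)) (intExec K i) (intDisp K (j + 1) A)

section

variable {K B w : ℕ} {ρ : ℕ → ℕ} {s : St} {S S' : Stk}

theorem int_set2 {l : ℕ} (h : Rep K B s S) (hl : l < 2 ^ w) :
    Wp w ρ (.set 2 (.num l)) s 1 fun s' => Rep K B s' S ∧ s'.v 2 = l :=
  Wp.set hl ⟨h.set (by omega) _, by simp⟩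

theorem int_popset {k l v : ℕ} {r : List ℕ} (h : Rep K B s S) (hk : k < K) (hS : S k = v :: r)
    (hK : K < 2 ^ w) (hl : l < 2 ^ w) :
    Wp w ρ (.seq (popW K k) (.set 2 (.num l))) s 2 fun s' => Rep K B s' (update S k r) ∧ s'.v 2 = l :=
  (h.pop (ρ := ρ) hk hS hK).bind fun _ h1 => int_set2 h1.1 hl

theorem intExec_ok {i : AI} {l H : ℕ} (hi : i.Step S l S') (h : Rep K B s S) (hk : i.idx < K)
    (hH : ∀ k, (S k).length ≤ H) (hB : B + K * (H + 2) ≤ 2 ^ w) (hl : intLit i + 1 < 2 ^ w) :
    Wp w ρ (intExec K i) s 4 fun s' => Rep K B s' S' ∧ s'.v 2 = l := by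
  have hK : K < 2 ^ w := by nlinarith
  cases hi with
  | goto l S => exact (int_set2 h (by simp only [intLit] at hl; omega)).mono (by omega)
  | push k v l S =>
    simp only [intLit, AI.idx] at hl hk
    have h1 : K * ((S k).length + 2) ≤ K * (H + 2) := Nat.mul_le_mul_left _ (by have := hH k; omega)
    exact ((h.push (ρ := ρ) hk (e := .num v) (by simp only [Ex.ok]; omega) (by omega)).bind
      fun _ h1 => int_set2 h1.1 (by omega)).mono (by omega)
  | pop hS =>
    simp only [intLit, AI.idx] at hl hk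
    exact (int_popset h hk hS hK (by omega)).mono (by omega)
  | test0 hS =>
    simp only [intLit, AI.idx] at hl hk
    refine Wp.mono (t := 1 + 1) (Wp.iteT ⟨topE_ok _ _ _, by simp only [Ex.ok]; omega⟩ ?_
      (int_set2 h (by omega))) (by omega)
    simp only [Cd.ev, h.top hk, hS, Ex.ev]
  | test1 hS =>
    simp only [intLit, AI.idx] at hl hk
    refine Wp.iteF ⟨topE_ok _ _ _, by simp only [Ex.ok]; omega⟩ ?_
      (Wp.iteT ⟨topE_ok _ _ _, by simp only [Ex.ok]; omega⟩ ?_ (int_popset h hk hS hK (by omega)))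
    · simp [Cd.ev, h.top hk, hS]
    · simp [Cd.ev, h.top hk, hS]
  | test2 hS =>
    simp only [intLit, AI.idx] at hl hk
    refine Wp.iteF ⟨topE_ok _ _ _, by simp only [Ex.ok]; omega⟩ ?_
      (Wp.iteF ⟨topE_ok _ _ _, by simp only [Ex.ok]; omega⟩ ?_ (int_popset h hk hS hK (by omega)))
    · simp [Cd.ev, h.top hk, hS]
    · simp [Cd.ev, h.top hk, hS]
  | ret hS =>
    simp only [AI.idx] at hk
    refine (Wp.set_seq (topE_ok _ _ _) (((h.set (r := 2) (by omega) _).pop (ρ := ρ) hk hS hK).imp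
      fun s' h1 => ⟨h1.1, ?_⟩)).mono (by omega)
    rw [h1.2.1.v 2 (by omega), St.set_v, if_pos rfl, h.top hk, hS]
    rfl

theorem intDisp_ok {Q : St → Prop} {i : AI} {t : ℕ} : ∀ (A : List AI) (j l : ℕ), A[l]? = some i →
    s.v 2 = j + l → j + A.length < 2 ^ w → Wp w ρ (intExec K i) s t Q →
    Wp w ρ (intDisp K j A) s (t + A.length) Q
  | [], _, _, h, _, _, _ => by simp at h
  | i' :: A, j, 0, h, hv, hw, hQ => by
    obtain rfl : i' = i := by simpa using h
    simp only [List.length_cons] at hw ⊢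
    exact Wp.mono (t := t + 1) (Wp.iteT ⟨trivial, by simp only [Ex.ok]; omega⟩ (by simpa using hv) hQ)
      (by omega)
  | i' :: A, j, l + 1, h, hv, hw, hQ => by
    simp only [List.length_cons] at hw ⊢
    exact Wp.iteF ⟨trivial, by simp only [Ex.ok]; omega⟩ (by simp only [Cd.ev, Ex.ev]; omega)
      (intDisp_ok A (j + 1) l (by simpa using h) (by omega) (by omega) hQ)

theorem int_step_len {i : AI} {l H : ℕ} (hi : i.Step S l S') (hH : ∀ k, (S k).length ≤ H) :
    ∀ k, (S' k).length ≤ H + 1 := by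
  have key : ∀ (k : ℕ) (r : List ℕ), r.length ≤ (S k).length + 1 → ∀ j, (update S k r j).length ≤ H + 1 := by
    intro k r hr j
    by_cases e : j = k
    · subst e
      rw [update_self]
      have := hH j
      omega
    · rw [update_of_ne e]
      have := hH j
      omega
  cases hi with
  | goto l S => exact fun k => (hH k).trans (Nat.le_succ _)
  | push k v l S => exact key _ _ (by simp)
  | pop hS => exact key _ _ (by rw [hS, List.length_cons]; omega)
  | test0 hS => exact fun k => (hH k).trans (Nat.le_succ _)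
  | test1 hS => exact key _ _ (by rw [hS, List.length_cons]; omega)
  | test2 hS => exact key _ _ (by rw [hS, List.length_cons]; omega)
  | ret hS => exact key _ _ (by rw [hS, List.length_cons]; omega)

theorem intLoop_ok {A : List AI} (hA : ∀ i ∈ A, i.idx < K) (hL : ∀ i ∈ A, intLit i + 1 < 2 ^ w)
    (hw : A.length < 2 ^ w) {l e n : ℕ} (h : ASteps A l S e S' n) (he : e = A.length) :
    ∀ (s : St) (H : ℕ), Rep K B s S → s.v 2 = l → (∀ k, (S k).length ≤ H) →
      B + K * (H + n + 1) ≤ 2 ^ w →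
      Wp w ρ (.wh (.lt (.var 2) (.num A.length)) (intDisp K 0 A)) s (n * (A.length + 5) + 1)
        fun s' => Rep K B s' S' := by
  induction h with
  | refl l S =>
    intro s H hs hv _ _
    simpa using Wp.whF (w := w) (ρ := ρ) (p := intDisp K 0 A) (c := .lt (.var 2) (.num A.length))
      (Q := fun s' => Rep K B s' S) ⟨trivial, hw⟩ (by simp only [Cd.ev, Ex.ev]; omega) hs
  | @step i l l' l'' n S S1 S2 h1 h2 _ ih =>
    intro s H hs hv hH hB
    have hi : i ∈ A := List.mem_of_getElem? h1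
    have hl : l < A.length := (List.getElem?_eq_some_iff.1 h1).1
    have hB1 : K * (H + 2) ≤ K * (H + (n + 1) + 1) := Nat.mul_le_mul_left _ (by omega)
    have hB2 : H + 1 + n + 1 = H + (n + 1) + 1 := by omega
    refine Wp.mono (t := 4 + A.length + (n * (A.length + 5) + 1) + 1)
      (Wp.whT ⟨trivial, hw⟩ (by simp only [Cd.ev, Ex.ev]; omega)
      ((intDisp_ok A 0 l h1 (by omega) (by omega)
        (intExec_ok h2 hs (hA i hi) hH (by omega) (hL i hi))).imp fun s' hs' =>
          ih he s' (H + 1) hs'.1 hs'.2 (int_step_len h2 hH) (by rw [hB2]; exact hB)))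
      (le_of_eq (by ring))

end

theorem interp_ok (A : List AI) (K : ℕ) (hA : ∀ i ∈ A, i.idx < K) : ∃ (p : W) (C : ℕ),
    ∀ (w : ℕ) (ρ : ℕ → ℕ) (s : St) (B H n : ℕ) (S S' : Stk), ASteps A 0 S A.length S' n → Rep K B s S →
      (∀ k, (S k).length ≤ H) → B + C * (H + n + 1) ≤ 2 ^ w →
      Wp w ρ p s (C * (n + 1)) fun s' => Rep K B s' S' := by
  refine ⟨.seq (.set 2 (.num 0)) (.wh (.lt (.var 2) (.num A.length)) (intDisp K 0 A)),
    K + A.length + (A.map intLit).sum + 5, fun w ρ s B H n S S' h hs hH hB => ?_⟩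
  have h1 : K + A.length + (A.map intLit).sum + 5 ≤
      (K + A.length + (A.map intLit).sum + 5) * (H + n + 1) := Nat.le_mul_of_pos_right _ (by omega)
  have h2 : K * (H + n + 1) ≤ (K + A.length + (A.map intLit).sum + 5) * (H + n + 1) :=
    Nat.mul_le_mul_right _ (by omega)
  have h3 : n * (A.length + 5) ≤ (K + A.length + (A.map intLit).sum + 5) * n := by
    rw [Nat.mul_comm]
    exact Nat.mul_le_mul_right _ (by omega)
  refine ((int_set2 (ρ := ρ) (l := 0) hs (by omega)).bind fun s1 hs1 =>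
    intLoop_ok hA (fun i hi => ?_) (by omega) h rfl s1 H hs1.1 hs1.2 hH (by omega)).mono ?_
  · have := List.single_le_sum (l := A.map intLit) (fun _ _ => Nat.zero_le _) _ (List.mem_map_of_mem hi)
    omega
  · rw [Nat.mul_add _ n 1, Nat.mul_one]
    omega

/-- value of a list of bits, most significant first -/
def intVal (bs : List Bool) (n : ℕ) : ℕ := bs.foldl (fun a b => 2 * a + b.toNat) n

theorem le_intVal (bs : List Bool) : ∀ n, n ≤ intVal bs n := by
  induction bs with
  | nil => exact fun n => le_rfl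
  | cons b bs ih => exact fun n => le_trans (by omega) (ih (2 * n + b.toNat))

theorem intVal_bits (n : ℕ) : intVal n.bits.reverse 0 = n := by
  rw [intVal, List.foldl_reverse]
  induction n using Nat.binaryRec' with
  | zero => simp
  | bit b n h ih =>
    rw [Nat.bits_append_bit n b h, List.foldr_cons, ih, Nat.bit_val]

theorem int_stk1_update (l l' : List Bool) : update (stk1 l) 1 (l'.map cd) = stk1 l' := by
  simp [stk1]

theorem outLoop_ok {K B w : ℕ} {ρ : ℕ → ℕ} (hK : 2 ≤ K) (hw : K < 2 ^ w) : ∀ (l : List Bool) (s : St),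
    Rep K B s (stk1 l) → intVal l (s.v 2) < 2 ^ w →
    Wp w ρ (.wh (.lt (.num 0) (topE 1))
      (.seq (.set 2 (.add (.mul (.num 2) (.var 2)) (.sub (topE 1) (.num 1)))) (popW K 1))) s
      (3 * l.length + 1) fun s' => s'.v 2 = intVal l (s.v 2)
  | [], s, h, _ => by
    have ht := h.top (k := 1) (by omega)
    refine Wp.whF ⟨by simp only [Ex.ok]; omega, topE_ok _ _ _⟩ ?_ rfl
    simp [Cd.ev, ht, stk1]
  | b :: l, s, h, hv => by
    have ht : (topE 1).ev s = 1 + b.toNat := by
      rw [h.top (k := 1) (by omega)]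
      simp [stk1, cd]
    have h1 : intVal (b :: l) (s.v 2) = intVal l (2 * s.v 2 + b.toNat) := rfl
    have h2 := le_intVal l (2 * s.v 2 + b.toNat)
    have h3 : (Ex.add (.mul (.num 2) (.var 2)) (.sub (topE 1) (.num 1))).ev s = 2 * s.v 2 + b.toNat := by
      rw [Ex.ev, Ex.ev, Ex.ev, Ex.ev, Ex.ev, ht, Ex.ev]
      omega
    have h4 : (Ex.add (.mul (.num 2) (.var 2)) (.sub (topE 1) (.num 1))).ok w s := by
      refine ⟨⟨by simp only [Ex.ok]; omega, trivial, by simp only [Ex.ev]; omega⟩,
        ⟨topE_ok _ _ _, by simp only [Ex.ok]; omega⟩, ?_⟩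
      have := h3
      rw [Ex.ev] at this
      omega
    refine Wp.mono (t := 1 + 1 + (3 * l.length + 1) + 1)
      (Wp.whT ⟨by simp only [Ex.ok]; omega, topE_ok _ _ _⟩ (by rw [Cd.ev, ht, Ex.ev]; omega)
      (Wp.set_seq h4 (((h.set (r := 2) (by omega) _).pop (ρ := ρ) (k := 1) (v := cd b) (r := l.map cd)
        (by omega) (by simp [stk1]) hw).imp fun s' hs' => ?_)))
      (by simp only [List.length_cons]; omega)
    have h5 : s'.v 2 = 2 * s.v 2 + b.toNat := by
      rw [hs'.2.1.v 2 (by omega), St.set_v, if_pos rfl, h3]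
    have h6 := outLoop_ok (ρ := ρ) hK hw l s' (by simpa only [int_stk1_update] using hs'.1)
      (by rw [h5]; omega)
    rw [h5] at h6
    exact h6

theorem out_ok (K : ℕ) (hK : 2 ≤ K) : ∃ (p : W) (C : ℕ),
    ∀ (w : ℕ) (ρ : ℕ → ℕ) (s : St) (B D : ℕ), Rep K B s (stk1 D.bits.reverse) → C * (D + 1) ≤ 2 ^ w →
      Wp w ρ p s (C * (D.size + 1)) (Out D) := by
  refine ⟨.seq (.set 2 (.num 0)) (.seq (.wh (.lt (.num 0) (topE 1))
      (.seq (.set 2 (.add (.mul (.num 2) (.var 2)) (.sub (topE 1) (.num 1)))) (popW K 1)))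
      (.seq (.st (.num 0) (.var 2)) (.seq (.set 0 (.num 1)) (.set 1 (.num 0))))), K + 5,
    fun w ρ s B D hs hC => ?_⟩
  have h1 : K + 5 ≤ (K + 5) * (D + 1) := Nat.le_mul_of_pos_right _ (by omega)
  have h2 : D + 1 ≤ (K + 5) * (D + 1) := Nat.le_mul_of_pos_left _ (by omega)
  have h3 : 3 * D.size ≤ (K + 5) * D.size := Nat.mul_le_mul_right _ (by omega)
  have h4 : D.bits.reverse.length = D.size := by rw [List.length_reverse, Nat.size_eq_bits_len]
  refine Wp.mono (t := 1 + (3 * D.bits.reverse.length + 1 + (1 + (1 + 1))))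
    ((int_set2 (ρ := ρ) (l := 0) hs (by omega)).bind fun s1 hs1 =>
    (outLoop_ok (ρ := ρ) hK (by omega) _ s1 hs1.1 (by rw [hs1.2, intVal_bits]; omega)).bind
      fun s2 hs2 => Wp.st_seq (by simp only [Ex.ok]; omega) trivial
        (Wp.set_seq (by simp only [Ex.ok]; omega) (Wp.set (by simp only [Ex.ok]; omega) ?_))) ?_
  · rw [hs1.2, intVal_bits] at hs2
    simp [Out, hs2]
  · rw [h4, Nat.mul_add, Nat.mul_one]
    omega

end Crest.Agent.R288.Ram
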