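/-
R288/RamPar: the arithmetic of the parameters.  `bud N b τ = τ + (N+1)(b+1) + UN N`, `L = Nat.log 2 N`, `2 ^ L ≤ N`.
* `UN N = 4 * 2 ^ L * 2 ^ (L / g) ≤ 4 N * N ^ (1 / g)`, in particular `≤ 4 N ^ 2` (`N ≥ 1`).
* a symbol `< (N+2)^a` has size `≤ a * (L + 2)`, because `N + 2 ≤ 2 ^ (L + 2)`.
* `par_fit` (the threshold does not depend on `a`): `Tm N ≤ N ^ 2`; `b + 1 ≤ (a + 1) (L + 2)`, `(a+1)^k ≤ (2^k)^a ≤ (N+2)^a` once `2 ^ k ≤ N + 2`,
  and `C' (L+2)^k ≤ N + 2` for large `N`; so `bud ≤ 8 (N+2)^2 (b+1)^(c+1)`.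
* `par_time`: use `AlmostLin` with `δ / 2`, `gN N ≥ 2 / δ`, and `C' (L + 2) ^ k ≤ N ^ (δ / 2)` for large `N` (`isLittleO_log_rpow_atTop` or similar).
-/
import Crest.Agent.R288.RamDefs

set_option autoImplicit false

namespace Crest.Agent.R288.Ram

open Function Crest.WordRAM Crest.GraphRAM Crest.Agent.Lib.PolyTime Crest.Agent.R326

theorem gN_le (N : ℕ) : gN N ≤ N := by
  unfold gN
  exact (Nat.log_le_self _ _).trans <| (Nat.log_le_self _ _).trans <|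
    (Nat.log_le_self _ _).trans (Nat.log_le_self _ _)

theorem gN_large (g : ℕ) : ∃ N₀, ∀ N, N₀ ≤ N → g ≤ gN N := by
  refine ⟨2 ^ 2 ^ 2 ^ 2 ^ g, fun N h => ?_⟩
  unfold gN
  exact Nat.le_log_of_pow_le (by norm_num) <| Nat.le_log_of_pow_le (by norm_num) <|
    Nat.le_log_of_pow_le (by norm_num) <| Nat.le_log_of_pow_le (by norm_num) h

theorem le_UN (N : ℕ) : N < UN N := by
  refine (Nat.lt_pow_succ_log_self (b := 2) (by norm_num) N).trans_le ?_
  unfold UN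
  exact Nat.pow_le_pow_right (by norm_num) ((Nat.le_succ _).trans (Nat.le_add_right _ _))

theorem ratWords_length {ε : ℚ} (h0 : 0 < ε) (h1 : ε < 1) : 4 ≤ (ratWords ε).length := by
  have hn : 0 < ε.num := Rat.num_pos.2 h0
  have hd : ε.num < ε.den := Rat.num_lt_denom_iff.2 h1
  have a1 : 0 < ε.num.natAbs.size := Nat.size_pos.2 (by omega)
  have a2 : 1 < ε.den.size := Nat.lt_size.2 (by omega)
  simp only [ratWords, List.length_append, List.length_map, List.length_cons, Nat.size_eq_bits_len]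
  omega

theorem ratWords_le (ε : ℚ) : ∀ a ∈ ratWords ε, a ≤ 2 := by
  intro a ha
  simp only [ratWords, List.mem_append, List.mem_map, List.mem_cons] at ha
  rcases ha with ⟨b, -, rfl⟩ | rfl | ⟨b, -, rfl⟩
  · split_ifs <;> omega
  · exact le_rfl
  · split_ifs <;> omega

theorem eps_ge {ε : ℚ} (h0 : 0 < ε) {g : ℕ} (hg : (ratWords ε).length ≤ g) : (1 / 2 : ℝ) ^ g ≤ ε := by
  have hn : 0 < ε.num := Rat.num_pos.2 h0
  have h1 : ε.den.size ≤ g := by
    simp only [ratWords, List.length_append, List.length_map, List.length_cons,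
      Nat.size_eq_bits_len] at hg
    omega
  have h2 : (ε.den : ℝ) ≤ 2 ^ g := by exact_mod_cast (Nat.size_le.1 h1).le
  have h3 : (1 : ℝ) ≤ ε.num := by exact_mod_cast hn
  have h4 : (0 : ℝ) < ε.den := by exact_mod_cast ε.den_pos
  rw [Rat.cast_def, one_div, inv_pow, ← one_div]
  exact div_le_div₀ (by linarith) h3 h4 h2

theorem word_ge (a L : ℕ) : (L + 2) ^ (a + 3) ≤ 2 ^ ((a + 3) * Nat.clog 2 (L + 2)) := by
  rw [Nat.mul_comm, pow_mul]
  exact Nat.pow_le_pow_left (Nat.le_pow_clog (by norm_num) _) _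

theorem size_le_of_lt {N a s : ℕ} (h : s < (N + 2) ^ a) : s.size ≤ a * (Nat.log 2 N + 2) := by
  rw [Nat.size_le, Nat.mul_comm, pow_mul]
  refine h.trans_le (Nat.pow_le_pow_left ?_ _)
  have h1 := Nat.lt_pow_succ_log_self (b := 2) (by norm_num) N
  have h2 : 0 < 2 ^ Nat.log 2 N := by positivity
  rw [Nat.succ_eq_add_one, pow_succ] at h1
  rw [pow_add]
  omega

theorem le_symBits {x y : List ℕ} : ∀ s ∈ x ++ y, s.size ≤ symBits x y := by
  intro s hs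
  unfold symBits
  generalize x ++ y = l at hs
  induction l with
  | nil => simp at hs
  | cons a l ih =>
    simp only [List.map_cons, List.foldr_cons]
    rcases List.mem_cons.1 hs with rfl | h
    · exact le_max_left _ _
    · exact (ih h).trans (le_max_right _ _)

theorem symBits_le {x y : List ℕ} {b : ℕ} (h : ∀ s ∈ x ++ y, s.size ≤ b) : symBits x y ≤ b := by
  unfold symBits
  generalize x ++ y = l at h
  induction l with
  | nil => simp
  | cons a l ih =>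
    simp only [List.map_cons, List.foldr_cons]
    exact max_le (h a (by simp)) (ih fun s hs => h s (by simp [hs]))

theorem par_log (C k : ℕ) {δ : ℝ} (hδ : 0 < δ) : ∃ N₀ : ℕ, ∀ N : ℕ, N₀ ≤ N →
    ((C * (Nat.log 2 N + 2) ^ k : ℕ) : ℝ) ≤ (N : ℝ) ^ δ := by
  set r : ℝ := (2 : ℝ) ^ δ with hr
  have hr1 : 1 < r := Real.one_lt_rpow (by norm_num) hδ
  have hr0 : 0 < r := by linarith
  have ht := (tendsto_pow_const_div_const_pow_of_one_lt k hr1).const_mul ((C : ℝ) * r ^ 2)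
  rw [mul_zero] at ht
  obtain ⟨M, hM⟩ := Filter.eventually_atTop.1 (ht.eventually (gt_mem_nhds one_pos))
  refine ⟨2 ^ M, fun N hN => ?_⟩
  have hN0 : N ≠ 0 := by
    have : 0 < 2 ^ M := by positivity
    omega
  have h1 : M ≤ Nat.log 2 N := Nat.le_log_of_pow_le (by norm_num) hN
  have h2 := (hM (Nat.log 2 N + 2) (by omega)).le
  have h3 : (2 : ℝ) ^ Nat.log 2 N ≤ N := by exact_mod_cast Nat.pow_log_le_self 2 hN0
  have h4 : r ^ Nat.log 2 N ≤ (N : ℝ) ^ δ := by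
    rw [hr, ← Real.rpow_natCast, ← Real.rpow_mul (by norm_num), mul_comm,
      Real.rpow_mul (by norm_num), Real.rpow_natCast]
    exact Real.rpow_le_rpow (by positivity) h3 hδ.le
  refine le_trans ?_ h4
  rw [← mul_div_assoc, div_le_one (by positivity), pow_add] at h2
  push_cast at h2 ⊢
  have h5 : 0 < r ^ 2 := by positivity
  refine le_of_mul_le_mul_right ?_ h5
  linarith

theorem par_b {a b L : ℕ} (hb : b ≤ a * (L + 2)) (k : ℕ) :
    (b + 1) ^ k ≤ (a + 1) ^ k * (L + 2) ^ k := by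
  rw [← mul_pow]
  exact Nat.pow_le_pow_left (by nlinarith) _

theorem par_fit {Tm : ℕ → ℝ} (hT : AlmostLin Tm) (c C : ℕ) : ∃ N₀, ∀ N, N₀ ≤ N → ∀ a b τ : ℕ,
    b ≤ a * (Nat.log 2 N + 2) → (τ : ℝ) ≤ Tm N * ((b : ℝ) + 1) ^ c → C * bud N b τ ≤ (N + 2) ^ (a + 3) := by
  obtain ⟨N₁, h1⟩ := hT 1 one_pos
  obtain ⟨N₂, h2⟩ := par_log (6 * C) (c + 1) one_pos
  refine ⟨max (max N₁ N₂) (2 ^ (c + 1)), fun N hN a b τ hb hτ => ?_⟩
  have hN1 : N₁ ≤ N := (le_max_left _ _).trans ((le_max_left _ _).trans hN)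
  have hN2 : N₂ ≤ N := (le_max_right _ _).trans ((le_max_left _ _).trans hN)
  have hN3 : 2 ^ (c + 1) ≤ N := (le_max_right _ _).trans hN
  have hN0 : N ≠ 0 := by
    have : 0 < 2 ^ (c + 1) := by positivity
    omega
  have t1 : τ ≤ N ^ 2 * (b + 1) ^ c := by
    have e : (N : ℝ) ^ ((1 : ℝ) + 1) = (N : ℝ) ^ 2 := by
      rw [one_add_one_eq_two, Real.rpow_two]
    have := h1 N hN1
    rw [e] at this
    have h3 : (τ : ℝ) ≤ (N : ℝ) ^ 2 * ((b : ℝ) + 1) ^ c :=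
      hτ.trans (mul_le_mul_of_nonneg_right this (by positivity))
    exact_mod_cast h3
  have t2 : 6 * C * (Nat.log 2 N + 2) ^ (c + 1) ≤ N := by
    have := h2 N hN2
    rw [Real.rpow_one] at this
    exact_mod_cast this
  have t3 : UN N ≤ 4 * N ^ 2 := by
    have a1 : 2 ^ Nat.log 2 N ≤ N := Nat.pow_log_le_self 2 hN0
    have a2 : 2 ^ (Nat.log 2 N / gN N) ≤ N :=
      (Nat.pow_le_pow_right (by norm_num) (Nat.div_le_self _ _)).trans a1
    unfold UN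
    rw [pow_add, pow_add]
    calc 2 ^ Nat.log 2 N * 2 ^ 2 * 2 ^ (Nat.log 2 N / gN N) ≤ N * 2 ^ 2 * N := by gcongr
      _ = 4 * N ^ 2 := by ring
  have p1 : (b + 1) ^ c ≤ (b + 1) ^ (c + 1) := Nat.pow_le_pow_right (by omega) (by omega)
  have p2 : b + 1 ≤ (b + 1) ^ (c + 1) := Nat.le_self_pow (by omega) _
  have p3 : 1 ≤ (b + 1) ^ (c + 1) := Nat.one_le_pow _ _ (by omega)
  have t4 : bud N b τ ≤ 6 * ((N + 2) ^ 2 * (b + 1) ^ (c + 1)) := by
    have a0 : N ^ 2 ≤ (N + 2) ^ 2 := Nat.pow_le_pow_left (by omega) _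
    have a1 : τ ≤ (N + 2) ^ 2 * (b + 1) ^ (c + 1) := t1.trans (Nat.mul_le_mul a0 p1)
    have a2 : (N + 1) * (b + 1) ≤ (N + 2) ^ 2 * (b + 1) ^ (c + 1) :=
      Nat.mul_le_mul (by nlinarith) p2
    have a3 : N ^ 2 ≤ (N + 2) ^ 2 * (b + 1) ^ (c + 1) := by
      simpa using Nat.mul_le_mul a0 p3
    unfold bud
    omega
  have t5 : (b + 1) ^ (c + 1) ≤ (N + 2) ^ a * (Nat.log 2 N + 2) ^ (c + 1) := by
    refine (par_b hb (c + 1)).trans (Nat.mul_le_mul_right _ ?_)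
    calc (a + 1) ^ (c + 1) ≤ (2 ^ a) ^ (c + 1) := Nat.pow_le_pow_left Nat.lt_two_pow_self _
      _ = (2 ^ (c + 1)) ^ a := by rw [← pow_mul, ← pow_mul, Nat.mul_comm]
      _ ≤ (N + 2) ^ a := Nat.pow_le_pow_left (by omega) _
  calc C * bud N b τ
      ≤ C * (6 * ((N + 2) ^ 2 * ((N + 2) ^ a * (Nat.log 2 N + 2) ^ (c + 1)))) := by
        refine Nat.mul_le_mul_left _ (t4.trans ?_)
        gcongr
    _ = (N + 2) ^ (a + 2) * (6 * C * (Nat.log 2 N + 2) ^ (c + 1)) := by ring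
    _ ≤ (N + 2) ^ (a + 2) * (N + 2) := Nat.mul_le_mul_left _ (by omega)
    _ = (N + 2) ^ (a + 3) := by ring

theorem par_time {Tm : ℕ → ℝ} (hT : AlmostLin Tm) (c C a : ℕ) {δ : ℝ} (hδ : 0 < δ) : ∃ N₀, ∀ N, N₀ ≤ N → ∀ b τ : ℕ,
    b ≤ a * (Nat.log 2 N + 2) → (τ : ℝ) ≤ Tm N * ((b : ℝ) + 1) ^ c → ((C * bud N b τ : ℕ) : ℝ) ≤ (N : ℝ) ^ (1 + δ) := by
  have hδ2 : 0 < δ / 2 := by linarith
  obtain ⟨N₁, h1⟩ := hT (δ / 2) hδ2
  obtain ⟨N₂, h2⟩ := par_log (7 * C * (a + 1) ^ (c + 1)) (c + 1) hδ2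
  obtain ⟨g, hg⟩ := exists_nat_ge (2 / δ)
  obtain ⟨N₃, h3⟩ := gN_large g
  refine ⟨max (max N₁ N₂) (max N₃ 1), fun N hN b τ hb hτ => ?_⟩
  have hN1 : N₁ ≤ N := (le_max_left _ _).trans ((le_max_left _ _).trans hN)
  have hN2 : N₂ ≤ N := (le_max_right _ _).trans ((le_max_left _ _).trans hN)
  have hN3 : N₃ ≤ N := (le_max_left _ _).trans ((le_max_right _ _).trans hN)
  have hN0 : 1 ≤ N := (le_max_right _ _).trans ((le_max_right _ _).trans hN)
  have hN' : (1 : ℝ) ≤ N := by exact_mod_cast hN0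
  set X : ℝ := (N : ℝ) ^ (δ / 2) with hX
  have hX1 : 1 ≤ X := Real.one_le_rpow hN' hδ2.le
  have e1 : (N : ℝ) ^ (1 + δ / 2) = N * X := by
    rw [Real.rpow_add (by linarith), Real.rpow_one]
  have e2 : (N : ℝ) ^ (1 + δ) = N * X * X := by
    rw [← e1, ← Real.rpow_add (by linarith)]
    congr 1
    ring
  set B : ℝ := ((b : ℝ) + 1) ^ (c + 1) with hB
  have hb1 : (1 : ℝ) ≤ (b : ℝ) + 1 := by
    have : (0 : ℝ) ≤ b := Nat.cast_nonneg b
    linarith
  have p1 : ((b : ℝ) + 1) ^ c ≤ B := pow_le_pow_right₀ hb1 (by omega)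
  have p2 : (b : ℝ) + 1 ≤ B := le_self_pow₀ hb1 (by omega)
  have p3 : 1 ≤ B := hb1.trans p2
  have t1 : (τ : ℝ) ≤ N * X * B := by
    have := h1 N hN1
    rw [e1] at this
    exact hτ.trans (mul_le_mul this p1 (by positivity) (by positivity))
  have t2 : ((N : ℝ) + 1) * ((b : ℝ) + 1) ≤ 2 * (N * X * B) := by
    have : (N : ℝ) + 1 ≤ 2 * (N * X) := by nlinarith
    calc _ ≤ 2 * (N * X) * B := mul_le_mul this p2 (by positivity) (by positivity)
      _ = _ := by ring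
  have t3 : (UN N : ℝ) ≤ 4 * (N * X * B) := by
    have a1 : (2 : ℝ) ^ Nat.log 2 N ≤ N := by
      exact_mod_cast Nat.pow_log_le_self 2 (by omega : N ≠ 0)
    have a2 : (2 : ℝ) ^ (Nat.log 2 N / gN N) ≤ X := by
      have b1 : (g : ℝ) ≤ gN N := by exact_mod_cast h3 N hN3
      have b2 : 2 / δ ≤ (gN N : ℝ) := hg.trans b1
      have b3 : (0 : ℝ) < gN N := lt_of_lt_of_le (by positivity) b2
      have b4 : ((Nat.log 2 N / gN N : ℕ) : ℝ) ≤ (Nat.log 2 N : ℝ) * (δ / 2) := by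
        refine Nat.cast_div_le.trans ?_
        rw [div_eq_mul_inv]
        refine mul_le_mul_of_nonneg_left ?_ (Nat.cast_nonneg _)
        have := inv_anti₀ (by positivity) b2
        rwa [inv_div] at this
      calc (2 : ℝ) ^ (Nat.log 2 N / gN N) = (2 : ℝ) ^ ((Nat.log 2 N / gN N : ℕ) : ℝ) :=
            (Real.rpow_natCast _ _).symm
        _ ≤ (2 : ℝ) ^ ((Nat.log 2 N : ℝ) * (δ / 2)) :=
            Real.rpow_le_rpow_of_exponent_le (by norm_num) b4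
        _ = ((2 : ℝ) ^ Nat.log 2 N) ^ (δ / 2) := by
            rw [Real.rpow_mul (by norm_num), Real.rpow_natCast]
        _ ≤ X := Real.rpow_le_rpow (by positivity) a1 hδ2.le
    unfold UN
    push_cast
    rw [pow_add, pow_add]
    calc (2 : ℝ) ^ Nat.log 2 N * 2 ^ 2 * 2 ^ (Nat.log 2 N / gN N) ≤ N * 2 ^ 2 * X := by gcongr
      _ = 4 * (N * X * 1) := by ring
      _ ≤ 4 * (N * X * B) := by gcongr
  have t4 : (bud N b τ : ℝ) ≤ 7 * (N * X * B) := by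
    unfold bud
    push_cast
    linarith
  have t5 : B ≤ ((a : ℝ) + 1) ^ (c + 1) * ((Nat.log 2 N : ℝ) + 2) ^ (c + 1) := by
    rw [hB]
    exact_mod_cast par_b hb (c + 1)
  have t6 := h2 N hN2
  push_cast at t6 ⊢
  rw [e2]
  calc (C : ℝ) * bud N b τ
      ≤ C * (7 * (N * X * (((a : ℝ) + 1) ^ (c + 1) * ((Nat.log 2 N : ℝ) + 2) ^ (c + 1)))) := by
        refine mul_le_mul_of_nonneg_left (t4.trans ?_) (Nat.cast_nonneg _)
        gcongr
    _ = N * X * (7 * C * ((a : ℝ) + 1) ^ (c + 1) * ((Nat.log 2 N : ℝ) + 2) ^ (c + 1)) := by ring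
    _ ≤ N * X * X := by gcongr

end Crest.Agent.R288.Ram
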