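/-
R288/RamProb: probabilities and expected time of a run that halts within `T` steps on every stream.
* a halted configuration is fixed by `step`, so `HaltsWithin P w ρ input T out → T ≤ T' → HaltsWithin P w ρ input T' out`.
* `prob_ok`: `probHaltsWith ≥ probAfter` at `T' = max T U` (`le_ciSup`, bounded by `1`).  For `tab : Fin T' → Fin (2 ^ w)` the event contains
  `Good [f (rbits w (streamOf tab) U)]`; the map `tab ↦ (fun i : Fin U => low bit of tab i)` has fibres of equal size, or use the averages
  `avgN`, `avgL`, `rp_sum_tab`, `avgN_mod` of Crest/Agent/R309/Prob.lean and RamP.lean (may be imported) and induct on `U`.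
* `time_ok`: the terms with index `≥ T` vanish, the others are `≤ 1` (`tsum_eq_sum`).
-/
import Crest.Agent.R288.RamDefs

set_option autoImplicit false

namespace Crest.Agent.R288.Ram

open Function Crest.WordRAM Crest.GraphRAM Crest.Agent.Lib.PolyTime Crest.Agent.R326

theorem up_nonneg {Ω : Type} [Fintype Ω] (E : Set Ω) : 0 ≤ Crest.FinProb.uniformProb E := by
  unfold Crest.FinProb.uniformProb
  positivity

theorem up_mono {Ω : Type} [Fintype Ω] {E E' : Set Ω} (h : E ⊆ E') :
    Crest.FinProb.uniformProb E ≤ Crest.FinProb.uniformProb E' := by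
  classical
  unfold Crest.FinProb.uniformProb
  refine div_le_div_of_nonneg_right ?_ (Nat.cast_nonneg _)
  refine Nat.cast_le.2 (Finset.card_le_card fun x hx => ?_)
  simp only [Finset.mem_filter, Finset.mem_univ, true_and] at hx ⊢
  exact h hx

theorem up_le_one {Ω : Type} [Fintype Ω] (E : Set Ω) : Crest.FinProb.uniformProb E ≤ 1 := by
  unfold Crest.FinProb.uniformProb
  refine div_le_one_of_le₀ ?_ (Nat.cast_nonneg _)
  exact Nat.cast_le.2 (Finset.card_le_univ _)

theorem up_univ {Ω : Type} [Fintype Ω] [Nonempty Ω] : Crest.FinProb.uniformProb (Set.univ : Set Ω) = 1 := by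
  unfold Crest.FinProb.uniformProb
  have h : (Fintype.card Ω : ℝ) ≠ 0 := Nat.cast_ne_zero.2 Fintype.card_ne_zero
  simp only [Set.mem_univ, Finset.filter_true, Finset.card_univ]
  exact div_self h

theorem up_empty {Ω : Type} [Fintype Ω] : Crest.FinProb.uniformProb (∅ : Set Ω) = 0 := by
  unfold Crest.FinProb.uniformProb
  simp

/-- a map whose fibres inject into each other carries the uniform law to the uniform law -/
theorem up_fib {Ω A : Type} [Fintype Ω] [Fintype A] [Nonempty Ω] (g : Ω → A)
    (hg : ∀ a a', ∃ σ : Ω → Ω, Injective σ ∧ ∀ ω, g ω = a → g (σ ω) = a') (E : Set A) :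
    Crest.FinProb.uniformProb (g ⁻¹' E) = Crest.FinProb.uniformProb E := by
  classical
  obtain ⟨ω₀⟩ := ‹Nonempty Ω›
  set c := (Finset.univ.filter fun ω => g ω = g ω₀).card with hc
  have hle : ∀ a a', (Finset.univ.filter fun ω => g ω = a).card ≤ (Finset.univ.filter fun ω => g ω = a').card := by
    intro a a'
    obtain ⟨σ, h1, h2⟩ := hg a a'
    refine Finset.card_le_card_of_injOn σ (fun ω hω => ?_) h1.injOn
    simp only [Finset.coe_filter, Finset.mem_univ, true_and, Set.mem_ofPred_eq] at hω ⊢
    exact h2 ω hω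
  have hfib : ∀ a, (Finset.univ.filter fun ω => g ω = a).card = c := fun a => le_antisymm (hle _ _) (hle _ _)
  have hpos : 0 < c := Finset.card_pos.2 ⟨ω₀, by simp⟩
  have key : ∀ t : Finset A, (Finset.univ.filter fun ω => g ω ∈ t).card = t.card * c := by
    intro t
    rw [Finset.card_eq_sum_card_fiberwise (f := g) (t := t) (fun ω hω => by simpa using hω),
      Finset.sum_congr rfl (g := fun _ => c), Finset.sum_const, smul_eq_mul]
    intro a ha
    rw [← hfib a]
    congr 1
    ext ω
    simp only [Finset.mem_filter, Finset.mem_univ, true_and]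
    exact ⟨fun h => h.2, fun h => ⟨h ▸ ha, h⟩⟩
  have h1 := key Finset.univ
  have h2 := key (Finset.univ.filter (· ∈ E))
  simp only [Finset.mem_univ, Finset.filter_true, Finset.card_univ] at h1
  simp only [Finset.mem_filter, Finset.mem_univ, true_and] at h2
  unfold Crest.FinProb.uniformProb
  have h3 : (c : ℝ) ≠ 0 := Nat.cast_ne_zero.2 hpos.ne'
  rw [h1, ← mul_div_mul_right _ (Fintype.card A : ℝ) h3, ← Nat.cast_mul, ← Nat.cast_mul]
  congr 2

theorem run_of_halted {P : Program} {w T T' : ℕ} {ρ : ℕ → ℕ} {input : List ℕ}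
    (h : (run P w ρ input T).halted = true) (hT : T ≤ T') : run P w ρ input T' = run P w ρ input T := by
  obtain ⟨k, rfl⟩ := Nat.exists_eq_add_of_le' hT
  unfold run at h ⊢
  rw [Function.iterate_add_apply]
  refine Function.iterate_fixed ?_ k
  generalize (step P w ρ)^[T] (init P w input) = c at h ⊢
  unfold step
  rw [if_pos h]

theorem probAfter_le {P : Program} {w : ℕ} {input : List ℕ} (Good : List ℕ → Prop) (T : ℕ) :
    (probAfter P w input T fun c => c.halted = true ∧ Good c.output) ≤ probHaltsWith P w input Good := by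
  unfold probHaltsWith
  refine le_ciSup (f := fun T => probAfter P w input T fun c => c.halted = true ∧ Good c.output) ⟨1, ?_⟩ T
  rintro _ ⟨T, rfl⟩
  exact up_le_one _

/-- the low bits of the first `U` entries of a table -/
def lowBits {T m : ℕ} (U : ℕ) (tab : Fin T → Fin m) : Fin U → Bool :=
  fun i => decide (streamOf tab i % 2 = 1)

theorem rbits_streamOf {T w : ℕ} (U : ℕ) (tab : Fin T → Fin (2 ^ w)) :
    rbits w (streamOf tab) U = List.ofFn (lowBits U tab) := by
  refine List.ext_getElem (by simp [rbits]) fun i h1 h2 => ?_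
  have h3 : streamOf tab i < 2 ^ w := by
    unfold streamOf
    split_ifs
    · exact Fin.is_lt _
    · positivity
  simp only [rbits, lowBits, List.getElem_map, List.getElem_range, List.getElem_ofFn, Nat.mod_eq_of_lt h3]

theorem lowBits_fib {T w U : ℕ} (hw : 1 ≤ w) (hU : U ≤ T) (a a' : Fin U → Bool) :
    ∃ σ : (Fin T → Fin (2 ^ w)) → (Fin T → Fin (2 ^ w)), Injective σ ∧
      ∀ tab, lowBits U tab = a → lowBits U (σ tab) = a' := by
  classical
  refine ⟨fun tab j => if ∃ i : Fin U, i.val = j.val ∧ a i ≠ a' i then (tab j).rev else tab j,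
    fun t t' h => funext fun j => ?_, fun tab h => funext fun i => ?_⟩
  · have := congrFun h j
    by_cases hj : ∃ i : Fin U, i.val = j.val ∧ a i ≠ a' i
    · simp only [if_pos hj] at this
      exact Fin.rev_injective this
    · simpa only [if_neg hj] using this
  · have hi : i.val < T := lt_of_lt_of_le i.is_lt hU
    have h1 := congrFun h i
    simp only [lowBits, streamOf, dif_pos hi] at h1 ⊢
    by_cases e : a i = a' i
    · rw [if_neg, h1, e]
      rintro ⟨i', h2, h3⟩
      obtain rfl : i' = i := Fin.ext h2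
      exact h3 e
    · rw [if_pos ⟨i, rfl, e⟩, Fin.val_rev]
      have h2 := (tab ⟨i, hi⟩).is_lt
      have h3 : 2 ^ w % 2 = 0 := by
        obtain ⟨k, rfl⟩ := Nat.exists_eq_add_of_le' hw
        rw [pow_succ, Nat.mul_mod_left]
      rw [← h1] at e
      cases h4 : a' i
      · rw [h4] at e
        simp only [decide_eq_false_iff_not, not_not] at e ⊢
        omega
      · rw [h4] at e
        simp only [decide_eq_true_eq] at e ⊢
        omega

theorem prob_ok {P : Program} {w T U : ℕ} {input : List ℕ} (hw : 1 ≤ w) (f : List Bool → ℕ) (Good : List ℕ → Prop)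
    (h : ∀ ρ, HaltsWithin P w ρ input T [f (rbits w ρ U)]) :
    prBits U (fun r => Good [f r]) ≤ probHaltsWith P w input Good := by
  refine le_trans ?_ (probAfter_le Good (max T U))
  unfold prBits probAfter
  rw [← up_fib (lowBits (T := max T U) (m := 2 ^ w) U) (lowBits_fib hw (le_max_right _ _))]
  refine up_mono fun tab htab => ?_
  obtain ⟨h1, h2⟩ := h (streamOf tab)
  simp only [Set.mem_preimage, Set.mem_ofPred_eq] at htab ⊢
  rw [run_of_halted h1 (le_max_left _ _), h2, rbits_streamOf]
  exact ⟨h1, htab⟩

theorem prob_det {P : Program} {w T : ℕ} {input out : List ℕ} {Good : List ℕ → Prop}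
    (h : ∀ ρ, HaltsWithin P w ρ input T out) (hG : Good out) : 1 ≤ probHaltsWith P w input Good := by
  refine le_trans ?_ (probAfter_le Good T)
  unfold probAfter
  rw [← up_univ (Ω := Fin T → Fin (2 ^ w))]
  refine up_mono fun tab _ => ?_
  obtain ⟨h1, h2⟩ := h (streamOf tab)
  exact ⟨h1, h2 ▸ hG⟩

theorem prBits_mono {U : ℕ} {E E' : List Bool → Prop} (h : ∀ r, E r → E' r) : prBits U E ≤ prBits U E' := by
  exact up_mono fun v hv => h _ hv

theorem time_ok {P : Program} {w T : ℕ} {input : List ℕ} (h : ∀ ρ, (run P w ρ input T).halted = true) :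
    expectedTime P w input ≤ ENNReal.ofReal T := by
  unfold expectedTime
  rw [tsum_eq_sum (s := Finset.range T)]
  · calc _ ≤ ∑ _i ∈ Finset.range T, (1 : ENNReal) :=
          Finset.sum_le_sum fun i _ => ENNReal.ofReal_le_one.2 (up_le_one _)
      _ = ENNReal.ofReal T := by simp
  · intro T' hT'
    have hT : T ≤ T' := by simpa using hT'
    unfold probAfter
    rw [ENNReal.ofReal_eq_zero, ← up_empty (Ω := Fin T' → Fin (2 ^ w))]
    refine up_mono fun tab htab => ?_
    simp only [Set.mem_ofPred_eq] at htab
    rw [run_of_halted (h _) hT, h] at htab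
    exact absurd htab (by simp)

end Crest.Agent.R288.Ram
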