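/-
R288/RamSlow: the exact dynamic program for the edit distance in `W`.
Recipe.  `n = m 0 = |x|`, `k = m 1 = |y|`, `x[i] = m (2 + i)`, `y[j] = m (2 + n + j)`, `B = v 0`.  One row in place at the addresses `B + j`, `j ≤ k`:
after processing the suffix `x.drop i` the cell `B + j` holds `editDist (x.drop i) (y.drop j)`.  Start `i = n`: cell `j` holds `k - j`.  To pass from `i + 1` to `i`
run `j` from `k` down to `0`, keeping the old value of the cell `j + 1` in a variable (`diag`):
`new k = n - i`, `new j = min (diag + [x[i] ≠ y[j]]) (min (new (j+1) + 1) (old j + 1))` (this is `editDist.row`; use `List.drop_eq_getElem_cons`).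
All values are `≤ n + k` (`editDist x y ≤ |x| + |y|`), all addresses `≤ 2 B`.  Finish with `v 1 := B`, `v 0 := 1`.  Use `Wp.loop`, `Wp.ite`.
-/
import Crest.Agent.R288.RamDefs

set_option autoImplicit false

namespace Crest.Agent.R288.Ram

open Function Crest.WordRAM Crest.GraphRAM Crest.Agent.Lib.PolyTime Crest.Agent.R326

/-! The distance of `x.drop i` and `y.drop j` is kept at the address `B + (n - i) + j`; then the cell to be written
holds the diagonal neighbour and the two other neighbours are in the adjacent cells. -/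

namespace Slow

/-- the table -/
def D (x y : List ℕ) (i j : ℕ) : ℕ := editDist (x.drop i) (y.drop j)

theorem ed_nil (x : List ℕ) : editDist x [] = x.length := by
  cases x <;> rfl

theorem ed_cons (a b : ℕ) (x y : List ℕ) : editDist (a :: x) (b :: y) =
    min (editDist x y + if a = b then 0 else 1) (min (editDist (a :: x) y + 1) (editDist x (b :: y) + 1)) := rfl

theorem ed_le : ∀ x y : List ℕ, editDist x y ≤ x.length + y.length
  | [], y => by simp [editDist]
  | x, [] => by simp [ed_nil]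
  | a :: x, b :: y => by
    have := ed_le x (b :: y)
    rw [ed_cons]
    simp only [List.length_cons] at this ⊢
    omega

variable {x y : List ℕ} {i j : ℕ}

theorem D_le : D x y i j ≤ x.length + y.length :=
  (ed_le _ _).trans (by simp only [List.length_drop]; omega)

theorem D_left : D x y x.length j = y.length - j := by simp [D, editDist]

theorem D_right : D x y i y.length = x.length - i := by simp [D, ed_nil]

theorem D_step (hi : i < x.length) (hj : j < y.length) : D x y i j =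
    min (D x y (i + 1) (j + 1) + if x[i] = y[j] then 0 else 1) (min (D x y i (j + 1) + 1) (D x y (i + 1) j + 1)) := by
  simp only [D]
  conv_lhs => rw [List.drop_eq_getElem_cons hi, List.drop_eq_getElem_cons hj, ed_cons,
    ← List.drop_eq_getElem_cons hi, ← List.drop_eq_getElem_cons hj]

/-- minimum -/
def mn (a b : Ex) : Ex := .sub a (.sub a b)

/-- indicator of being different -/
def ne (a b : Ex) : Ex := .add (mn (.num 1) (.sub a b)) (mn (.num 1) (.sub b a))

@[simp] theorem mn_ev (s : St) (a b : Ex) : (mn a b).ev s = min (a.ev s) (b.ev s) := by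
  simp only [mn, Ex.ev]
  omega

@[simp] theorem mn_ok (w : ℕ) (s : St) (a b : Ex) : (mn a b).ok w s ↔ a.ok w s ∧ b.ok w s := by
  simp [mn]

@[simp] theorem ne_ev (s : St) (a b : Ex) : (ne a b).ev s = if a.ev s = b.ev s then 0 else 1 := by
  simp only [ne, Ex.ev, mn_ev]
  split_ifs <;> omega

theorem ne_ok {w : ℕ} {s : St} {a b : Ex} (hw : 2 < 2 ^ w) (ha : a.ok w s) (hb : b.ok w s) : (ne a b).ok w s := by
  simp only [ne, Ex.ok, Ex.ev, mn_ev, mn_ok, ha, hb, and_true]
  omega

/-- the address of the current cell -/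
def ad : Ex := .add (.var 4) (.var 3)

/-- the last row -/
def pInit : W := .wh (.lt (.var 3) (.add (.ld (.num 1)) (.num 1)))
  (.seq (.st ad (.sub (.ld (.num 1)) (.var 3))) (.set 3 (.add (.var 3) (.num 1))))

/-- one cell -/
def pCell : W := .seq (.set 3 (.sub (.var 3) (.num 1)))
  (.st ad (mn (.add (.ld ad) (ne (.ld (.add (.num 2) (.var 2))) (.ld (.add (.add (.num 2) (.ld (.num 0))) (.var 3)))))
    (mn (.add (.ld (.add ad (.num 1))) (.num 1)) (.add (.ld (.sub ad (.num 1))) (.num 1)))))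

/-- one row -/
def pRow : W := .seq (.set 2 (.sub (.var 2) (.num 1))) (.seq (.set 4 (.add (.var 4) (.num 1)))
  (.seq (.set 3 (.ld (.num 1))) (.seq (.st ad (.sub (.ld (.num 0)) (.var 2))) (.wh (.lt (.num 0) (.var 3)) pCell))))

/-- the program -/
def prog : W := .seq (.set 4 (.var 0)) (.seq (.set 3 (.num 0)) (.seq pInit (.seq (.set 2 (.ld (.num 0)))
  (.seq (.wh (.lt (.num 0) (.var 2)) pRow) (.seq (.set 1 (.var 4)) (.set 0 (.num 1)))))))

/-- the strings are in the memory -/
structure Mem (x y : List ℕ) (m : ℕ → ℕ) : Prop where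
  n : m 0 = x.length
  k : m 1 = y.length
  hx : ∀ i (h : i < x.length), m (2 + i) = x[i]
  hy : ∀ j (h : j < y.length), m (2 + x.length + j) = y[j]

theorem Mem.wr {s : St} (h : Mem x y s.m) {a : ℕ} (ha : 2 + x.length + y.length ≤ a) (v : ℕ) :
    Mem x y (s.wr a v).m :=
  ⟨by rw [St.wr_m, if_neg (by omega), h.n], by rw [St.wr_m, if_neg (by omega), h.k],
    fun i hi => by rw [St.wr_m, if_neg (by omega), h.hx i hi],
    fun j hj => by rw [St.wr_m, if_neg (by omega), h.hy j hj]⟩

variable {w B : ℕ} {ρ : ℕ → ℕ} {s : St}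

theorem w_ne (hB : 2 + x.length + y.length ≤ B) (hw : 64 * B ≤ 2 ^ w) : ¬ w = 0 := by
  rintro rfl
  omega

theorem init_ok (hB : 2 + x.length + y.length ≤ B) (hw : 64 * B ≤ 2 ^ w) (h : Mem x y s.m) (h4 : s.v 4 = B)
    (h3 : s.v 3 = 0) : Wp w ρ pInit s ((y.length + 1) * (2 + 1) + 1) fun s' =>
      Mem x y s'.m ∧ s'.v 4 = B ∧ ∀ j ≤ y.length, s'.m (B + j) = D x y x.length j := by
  have hw0 := w_ne hB hw
  refine (Wp.loop (fun t s' => Mem x y s'.m ∧ s'.v 4 = B ∧ s'.v 3 = t ∧ ∀ j < t, s'.m (B + j) = y.length - j)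
    (y.length + 1) ?_ ?_ ⟨h, h4, h3, fun _ h => absurd h (Nat.not_lt_zero _)⟩).imp
    fun s' ⟨h1, h2, _, h4⟩ => ⟨h1, h2, fun j hj => by rw [h4 j (by omega), D_left]⟩
  · rintro t ht s ⟨h1, h2, h3, h4⟩
    refine ⟨by simp [h1.k]; omega, by simpa [h1.k, h3] using ht, Wp.st_seq (t := 1) (by simp [ad, h2, h3]; omega)
      (by simp; omega) (Wp.set (by simp [h3]; omega) ⟨h1.wr (by simp [ad, h2]; omega) _, by simpa using h2,
        by simp [h3], fun j hj => ?_⟩)⟩
    simp only [St.set_m, St.wr_m, ad, Ex.ev, h2, h3, h1.k]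
    split_ifs with e
    · omega
    · exact h4 j (by omega)
  · rintro s ⟨h1, -, h3, -⟩
    exact ⟨by simp [h1.k]; omega, by simp [h1.k, h3]⟩

theorem cells_ok (hB : 2 + x.length + y.length ≤ B) (hw : 64 * B ≤ 2 ^ w) {a : ℕ} (hi : i < x.length)
    (ha : B ≤ a) (ha' : a ≤ B + x.length) (h : Mem x y s.m) (h2 : s.v 2 = i) (h4 : s.v 4 = a + 1)
    (h3 : s.v 3 = y.length) (hk : s.m (a + 1 + y.length) = D x y i y.length)
    (hr : ∀ j ≤ y.length, s.m (a + j) = D x y (i + 1) j) :
    Wp w ρ (.wh (.lt (.num 0) (.var 3)) pCell) s (y.length * (2 + 1) + 1) fun s' =>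
      Mem x y s'.m ∧ s'.v 2 = i ∧ s'.v 4 = a + 1 ∧ ∀ j ≤ y.length, s'.m (a + 1 + j) = D x y i j := by
  have hw0 := w_ne hB hw
  refine (Wp.loop (fun t s' => Mem x y s'.m ∧ s'.v 2 = i ∧ s'.v 4 = a + 1 ∧ s'.v 3 + t = y.length ∧
      (∀ j ≤ y.length, y.length ≤ j + t → s'.m (a + 1 + j) = D x y i j) ∧
      ∀ j, j + t ≤ y.length → s'.m (a + j) = D x y (i + 1) j)
    y.length ?_ ?_ ⟨h, h2, h4, h3, fun j h1 h2 => by rwa [show j = y.length by omega], hr⟩).imp
    fun s' ⟨h1, h2, h3, _, h4, _⟩ => ⟨h1, h2, h3, fun j hj => h4 j hj (by omega)⟩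
  · rintro t ht s ⟨h1, h2, h4, h3, h5, h6⟩
    obtain ⟨j, hj⟩ : ∃ j, s.v 3 = j + 1 := ⟨s.v 3 - 1, by omega⟩
    have hj' : j < y.length := by omega
    have e1 : s.m (a + 1 + j) = D x y (i + 1) (j + 1) := by rw [← h6 (j + 1) (by omega)]; congr 1; omega
    have e2 : s.m (a + 1 + j + 1) = D x y i (j + 1) := h5 (j + 1) (by omega) (by omega)
    have e3 : s.m (a + j) = D x y (i + 1) j := h6 j (by omega)
    have b1 := D_le (x := x) (y := y) (i := i + 1) (j := j + 1)
    have b2 := D_le (x := x) (y := y) (i := i) (j := j + 1)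
    have b3 := D_le (x := x) (y := y) (i := i + 1) (j := j)
    refine ⟨by simp, by simp [hj], Wp.set_seq (t := 1) (by simp; omega) (Wp.st (by simp [ad, h4, hj]; omega) ?_
      ⟨Mem.wr (s := s.set 3 _) h1 (by simp [ad, h4]; omega) _, by simpa using h2, by simpa using h4,
        by simp [hj]; omega, fun j' h7 h8 => ?_, fun j' h7 => ?_⟩)⟩
    · simp only [mn_ok, Ex.ok]
      refine ⟨⟨?_, ne_ok (by omega) ?_ ?_, ?_⟩, ?_⟩ <;> simp [ad, h1.n, h2, h4, hj, e1, e2, e3]
      all_goals first | omega | (split_ifs <;> omega)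
    · by_cases e : j' = j
      · subst e
        simp [ad, h1.n, h2, h4, hj, e1, e2, e3, h1.hx i hi, h1.hy j' hj', D_step hi hj']
      · simp only [St.wr_m, St.set_m, ad, Ex.ev, St.set_v, h4, hj]
        rw [if_neg (by simp; omega)]
        exact h5 j' h7 (by omega)
    · simp only [St.wr_m, St.set_m, ad, Ex.ev, St.set_v, h4, hj]
      rw [if_neg (by simp; omega)]
      exact h6 j' (by omega)
  · rintro s ⟨-, -, -, h3, -⟩
    exact ⟨by simp, by simp; omega⟩

theorem rows_ok (hB : 2 + x.length + y.length ≤ B) (hw : 64 * B ≤ 2 ^ w) (h : Mem x y s.m) (h2 : s.v 2 = x.length)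
    (h4 : s.v 4 = B) (hr : ∀ j ≤ y.length, s.m (B + j) = D x y x.length j) :
    Wp w ρ (.wh (.lt (.num 0) (.var 2)) pRow) s
      (x.length * (1 + (1 + (1 + (1 + (y.length * (2 + 1) + 1)))) + 1) + 1) fun s' => s'.m (s'.v 4) = editDist x y := by
  have hw0 := w_ne hB hw
  refine (Wp.loop (fun t s' => Mem x y s'.m ∧ s'.v 2 + t = x.length ∧ s'.v 4 = B + t ∧
      ∀ j ≤ y.length, s'.m (B + t + j) = D x y (s'.v 2) j) x.length ?_ ?_ ⟨h, h2, h4, h2 ▸ hr⟩).imp
    fun s' ⟨_, h2, h3, h4⟩ => ?_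
  · rintro t ht s ⟨h1, h2, h4, h5⟩
    obtain ⟨i, hi⟩ : ∃ i, s.v 2 = i + 1 := ⟨s.v 2 - 1, by omega⟩
    refine ⟨by simp, by simp [hi], Wp.set_seq (by simp; omega) (Wp.set_seq (by simp [h4]; omega)
      (Wp.set_seq (by simp; omega) (Wp.st_seq (by simp [ad, h4, h1.k]; omega) (by simp)
        ((cells_ok hB hw (i := i) (a := B + t) (by omega) (by omega) (by omega)
          (Mem.wr (s := ((s.set 2 _).set 4 _).set 3 _) h1 (by simp [ad, h4]; omega) _) (by simp [hi]) (by simp [h4])
          (by simp [h1.k]) (by simp [ad, h4, hi, h1.k, h1.n, D_right]) fun j hj => ?_).imp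
          fun s' ⟨g1, g2, g3, g4⟩ => ⟨g1, by omega, g3, g2 ▸ g4⟩))))⟩
    simp only [St.wr_m, St.set_m, ad, Ex.ev, St.set_v, h4, h1.k]
    rw [if_neg (by simp; omega), h5 j hj, hi]
  · rintro s ⟨-, h2, -⟩
    exact ⟨by simp, by simp; omega⟩
  · have := h4 0 (Nat.zero_le _)
    rw [show s'.v 2 = 0 by omega] at this
    rw [h3]
    exact this

end Slow

open Slow in
theorem slow_ok : ∃ (p : W) (C : ℕ), ∀ (w : ℕ) (ρ : ℕ → ℕ) (s : St) (x y rest : List ℕ),
    Inp s (stringsInput x y ++ rest) → 64 * (stringsInput x y ++ rest).length ≤ 2 ^ w →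
      Wp w ρ p s (C * ((x.length + 1) * (y.length + 1))) (Out (editDist x y)) := by
  refine ⟨prog, 20, fun w ρ s x y rest h hw => ?_⟩
  have hB : 2 + x.length + y.length ≤ (stringsInput x y ++ rest).length := by
    simp [stringsInput]; omega
  have hm : Mem x y s.m := ⟨by simp [h.2, stringsInput], by simp [h.2, stringsInput],
    fun i hi => by simp [h.2, stringsInput, Nat.add_comm 2 i, List.getElem?_append_left, hi],
    fun j hj => by
      rw [h.2, show 2 + x.length + j = x.length + j + 1 + 1 by omega]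
      simp [stringsInput, List.getElem?_append_left, List.getElem?_append_right, hj]⟩
  have h0 := h.1
  generalize (stringsInput x y ++ rest).length = B at hB hw h0
  have hw0 := w_ne hB hw
  unfold prog
  refine Wp.mono (t := 1 + (1 + ((y.length + 1) * (2 + 1) + 1 + (1 + (x.length *
    (1 + (1 + (1 + (1 + (y.length * (2 + 1) + 1)))) + 1) + 1 + (1 + 1))))))
    (Wp.set_seq (by simp) (Wp.set_seq (by simp) ?_)) (by nlinarith [Nat.zero_le (x.length * y.length)])
  refine Wp.bind (init_ok hB hw hm (by simp [h0]) (by simp)) fun s1 ⟨g1, g2, g3⟩ => Wp.set_seq (by simp) ?_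
  refine Wp.bind (rows_ok hB hw g1 (by simp [g1.n]) (by simpa using g2) g3) fun s2 g4 => Wp.set_seq (by simp) ?_
  exact Wp.set (by simp; omega) ⟨by simp, by simpa using g4⟩

end Crest.Agent.R288.Ram
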