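/-
R288/RamW: the compiler from `W` (see RamDefs) to the word RAM.
Recipe (model: Crest/Agent/R309/RamC.lean, which may be imported for `At`-lemmas).  Let `B ≥ 2` exceed every variable index of `p`, `H` the
largest depth of an expression of `p`; use `B + H + 2` registers, `rg j := Fin.ofNat _ j`.  Variable `j` is register `j`; registers `≥ B` are scratch.
* `compE e t` (straight-line, leaves `e.ev s` in register `t ≥ B`, writes only registers `≥ t`): `var r ↦ [copy t r]`, `num n ↦ [const t n]`,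
  binary `↦ compE a t ++ compE b (t+1) ++ [op t t (t+1)]`, `ld a ↦ compE a t ++ [load t t]`.
* `set r e ↦ compE e B ++ [copy r B]`; `st a e ↦ compE a B ++ compE e (B+1) ++ [store (B+1) B]`; `rnd r ↦ [rand r]`;
  a test is `compE a B ++ compE b (B+1) ++ [jumpIfLt/jumpIfEq B (B+1) yes, jump no]`; `ite c p q ↦ test ++ p ++ [jump end] ++ q`,
  `wh c p ↦ test ++ p ++ [jump start]`; the whole program is `comp p 0 ++ [halt]`.
* Simulation by induction on `Run`: if `c.regs (rg j) = s.v j` for `j < B`, `c.mem = s.m`, `c.drawn = s.d`, `c.pc = off`, not halted and the code of `p`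
  sits at `off`, then after `T ≤ K * t` steps (`K ≥` code length `+ 1`) the same holds for `s'` with `pc = off + clen p`.
  A halted configuration is fixed by `step`, so `HaltsWithin` is monotone in the time.
-/
import Crest.Agent.R288.RamDefs

set_option autoImplicit false

namespace Crest.Agent.R288.Ram

open Function Crest.WordRAM Crest.GraphRAM Crest.Agent.Lib.PolyTime Crest.Agent.R326

namespace Cmp

/-- register number `j` -/
def rg (n j : ℕ) : Fin (n + 1) := Fin.ofNat (n + 1) j

theorem rg_eq_iff {n i j : ℕ} (hi : i ≤ n) (hj : j ≤ n) : rg n i = rg n j ↔ i = j := by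
  simp [rg, Fin.ext_iff, Fin.ofNat, Nat.mod_eq_of_lt (Nat.lt_succ_of_le hi), Nat.mod_eq_of_lt (Nat.lt_succ_of_le hj)]

theorem wr_ne {n i j : ℕ} (hi : i ≤ n) (hj : j ≤ n) (h : i ≠ j) (R : Fin (n + 1) → ℕ)
    (v : ℕ) : writeReg R (rg n j) v (rg n i) = R (rg n i) := by
  simp [writeReg, rg_eq_iff hi hj, h]

theorem wr_eq {r : ℕ} (d : Fin r) (R : Fin r → ℕ) (v : ℕ) : writeReg R d v d = v := by
  simp [writeReg]

/-- the list `L` sits in `code` at position `off` -/
def At {α : Type} (code : List α) (off : ℕ) (L : List α) : Prop :=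
  ∀ i < L.length, code[off + i]? = L[i]?

theorem At.append {α : Type} {code L L' : List α} {off : ℕ} (h : At code off (L ++ L')) :
    At code off L ∧ At code (off + L.length) L' := by
  constructor
  · intro i hi
    rw [h i (by simp; omega), List.getElem?_append_left hi]
  · intro i hi
    rw [add_assoc, h _ (by simp; omega), List.getElem?_append_right (by omega)]
    simp

theorem At.cons {α : Type} {code L : List α} {a : α} {off : ℕ} (h : At code off (a :: L)) :
    code[off]? = some a ∧ At code (off + 1) L :=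
  ⟨by simpa using h 0 (by simp), (At.append (L := [a]) h).2⟩

/-- bound for the variable indices and the depth of an expression -/
def esz : Ex → ℕ
  | .var r => r + 1
  | .num _ => 1
  | .add a b => esz a + esz b + 1
  | .sub a b => esz a + esz b + 1
  | .mul a b => esz a + esz b + 1
  | .div a b => esz a + esz b + 1
  | .mod a b => esz a + esz b + 1
  | .ld a => esz a + 1

/-- length of the code of an expression -/
def elen : Ex → ℕ
  | .var _ => 1
  | .num _ => 1
  | .add a b => elen a + elen b + 1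
  | .sub a b => elen a + elen b + 1
  | .mul a b => elen a + elen b + 1
  | .div a b => elen a + elen b + 1
  | .mod a b => elen a + elen b + 1
  | .ld a => elen a + 1

/-- the code of an expression; the value is left in register `t` -/
def compE (n : ℕ) : Ex → ℕ → List (Instr (n + 1))
  | .var r, t => [.copy (rg n t) (rg n r)]
  | .num k, t => [.const (rg n t) k]
  | .add a b, t => compE n a t ++ compE n b (t + 1) ++ [.add (rg n t) (rg n t) (rg n (t + 1))]
  | .sub a b, t => compE n a t ++ compE n b (t + 1) ++ [.sub (rg n t) (rg n t) (rg n (t + 1))]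
  | .mul a b, t => compE n a t ++ compE n b (t + 1) ++ [.mul (rg n t) (rg n t) (rg n (t + 1))]
  | .div a b, t => compE n a t ++ compE n b (t + 1) ++ [.quot (rg n t) (rg n t) (rg n (t + 1))]
  | .mod a b, t => compE n a t ++ compE n b (t + 1) ++ [.rem (rg n t) (rg n t) (rg n (t + 1))]
  | .ld a, t => compE n a t ++ [.load (rg n t) (rg n t)]

theorem length_compE (n : ℕ) (e : Ex) (t : ℕ) : (compE n e t).length = elen e := by
  induction e generalizing t with
  | var r => rfl
  | num k => rfl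
  | add a b iha ihb => simp [compE, elen, iha, ihb, Nat.add_assoc]
  | sub a b iha ihb => simp [compE, elen, iha, ihb, Nat.add_assoc]
  | mul a b iha ihb => simp [compE, elen, iha, ihb, Nat.add_assoc]
  | div a b iha ihb => simp [compE, elen, iha, ihb, Nat.add_assoc]
  | mod a b iha ihb => simp [compE, elen, iha, ihb, Nat.add_assoc]
  | ld a iha => simp [compE, elen, iha]

/-- the configuration represents the state -/
structure Sim (B n : ℕ) (c : Cfg (n + 1)) (s : St) : Prop where
  h : c.halted = false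
  v : ∀ j < B, c.regs (rg n j) = s.v j
  m : c.mem = s.m
  d : c.drawn = s.d

theorem Sim.pc {B n : ℕ} {c : Cfg (n + 1)} {s : St} (h : Sim B n c s) (l : ℕ) :
    Sim B n { c with pc := l } s := ⟨h.h, h.v, h.m, h.d⟩

/-- `T` steps of straight-line code that keep everything but the registers `≥ t` -/
structure Ev {n : ℕ} (code : List (Instr (n + 1))) (w : ℕ) (ρ : ℕ → ℕ) (t T : ℕ) (c c' : Cfg (n + 1)) :
    Prop where
  run : (step ⟨n + 1, code⟩ w ρ)^[T] c = c'
  pc : c'.pc = c.pc + T
  h : c'.halted = false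
  m : c'.mem = c.mem
  d : c'.drawn = c.drawn
  v : ∀ j < t, c'.regs (rg n j) = c.regs (rg n j)

section
variable {B n w : ℕ} {ρ : ℕ → ℕ} {code : List (Instr (n + 1))} {c c' c'' : Cfg (n + 1)} {s : St}
  {t t' T T' : ℕ}

theorem Ev.trans (h : Ev code w ρ t T c c') (h' : Ev code w ρ t' T' c' c'') (ht : t ≤ t') :
    Ev code w ρ t (T + T') c c'' :=
  ⟨by rw [add_comm T T', Function.iterate_add_apply, h.run, h'.run], by rw [h'.pc, h.pc, add_assoc], h'.h,
    h'.m.trans h.m, h'.d.trans h.d, fun j hj => (h'.v j (by omega)).trans (h.v j hj)⟩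

theorem Ev.sim (h : Ev code w ρ t T c c') (hS : Sim B n c s) (ht : B ≤ t) : Sim B n c' s :=
  ⟨h.h, fun j hj => (h.v j (by omega)).trans (hS.v j hj), h.m.trans hS.m, h.d.trans hS.d⟩

theorem ev_reg {v : ℕ} (hh : c.halted = false) (ht : t ≤ n)
    (hs : step ⟨n + 1, code⟩ w ρ c = { c with pc := c.pc + 1, regs := writeReg c.regs (rg n t) v }) :
    Ev code w ρ t 1 c { c with pc := c.pc + 1, regs := writeReg c.regs (rg n t) v } :=
  ⟨hs, rfl, hh, rfl, rfl, fun j hj => wr_ne (by omega) ht (by omega) _ _⟩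

/-- the statement proved for every expression -/
def EOk (B : ℕ) {n : ℕ} (code : List (Instr (n + 1))) (w : ℕ) (ρ : ℕ → ℕ) (s : St) (e : Ex) : Prop :=
  ∀ (t : ℕ) (c : Cfg (n + 1)), B ≤ t → t + esz e ≤ n → esz e ≤ B → e.ok w s → Sim B n c s →
    At code c.pc (compE n e t) → ∃ c', Ev code w ρ t (elen e) c c' ∧ c'.regs (rg n t) = e.ev s

theorem two_run {a b : Ex} (ha : EOk B code w ρ s a) (hb : EOk B code w ρ s b) {L : List (Instr (n + 1))}
    (h1 : B ≤ t) (h2 : t + (esz a + esz b + 1) ≤ n) (h3 : esz a + esz b ≤ B) (oa : a.ok w s) (ob : b.ok w s)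
    (hS : Sim B n c s) (hA : At code c.pc (compE n a t ++ compE n b (t + 1) ++ L)) :
    ∃ c', Ev code w ρ t (elen a + elen b) c c' ∧ c'.regs (rg n t) = a.ev s ∧
      c'.regs (rg n (t + 1)) = b.ev s ∧ At code c'.pc L := by
  obtain ⟨A1, A3⟩ := hA.append
  obtain ⟨A1, A2⟩ := A1.append
  simp only [List.length_append, length_compE] at A2 A3
  obtain ⟨c1, e1, v1⟩ := ha t c h1 (by omega) (by omega) oa hS A1
  obtain ⟨c2, e2, v2⟩ := hb (t + 1) c1 (by omega) (by omega) (by omega) ob (e1.sim hS h1)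
    (by rw [e1.pc]; exact A2)
  refine ⟨c2, e1.trans e2 (by omega), (e2.v t (by omega)).trans v1, v2, ?_⟩
  rw [(e1.trans e2 (by omega)).pc]
  exact A3

theorem compE_run (e : Ex) : EOk B code w ρ s e := by
  induction e with
  | var r =>
    intro t c h1 h2 h3 _ hS hA
    simp only [esz] at h2 h3
    have a := hA.cons.1
    refine ⟨_, ev_reg (v := s.v r) hS.h (by omega) ?_, wr_eq _ _ _⟩
    simp [step, hS.h, a, hS.v r (by omega)]
  | num k =>
    intro t c h1 h2 h3 ok hS hA
    simp only [esz] at h2 h3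
    have a := hA.cons.1
    refine ⟨_, ev_reg (v := k) hS.h (by omega) ?_, wr_eq _ _ _⟩
    simp [step, hS.h, a, Nat.mod_eq_of_lt ok]
  | add a b iha ihb =>
    intro t c h1 h2 h3 ok hS hA
    simp only [esz] at h2 h3
    obtain ⟨c1, e1, v1, v2, A⟩ := two_run iha ihb h1 h2 (by omega) ok.1 ok.2.1 hS hA
    have a1 := A.cons.1
    refine ⟨_, e1.trans (ev_reg (t := t) (v := a.ev s + b.ev s) e1.h (by omega) ?_) le_rfl, wr_eq _ _ _⟩
    simp [step, e1.h, a1, v1, v2, Nat.mod_eq_of_lt ok.2.2]
  | sub a b iha ihb =>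
    intro t c h1 h2 h3 ok hS hA
    simp only [esz] at h2 h3
    obtain ⟨c1, e1, v1, v2, A⟩ := two_run iha ihb h1 h2 (by omega) ok.1 ok.2 hS hA
    have a1 := A.cons.1
    refine ⟨_, e1.trans (ev_reg (t := t) (v := a.ev s - b.ev s) e1.h (by omega) ?_) le_rfl, wr_eq _ _ _⟩
    simp [step, e1.h, a1, v1, v2]
  | mul a b iha ihb =>
    intro t c h1 h2 h3 ok hS hA
    simp only [esz] at h2 h3
    obtain ⟨c1, e1, v1, v2, A⟩ := two_run iha ihb h1 h2 (by omega) ok.1 ok.2.1 hS hA
    have a1 := A.cons.1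
    refine ⟨_, e1.trans (ev_reg (t := t) (v := a.ev s * b.ev s) e1.h (by omega) ?_) le_rfl, wr_eq _ _ _⟩
    simp [step, e1.h, a1, v1, v2, Nat.mod_eq_of_lt ok.2.2]
  | div a b iha ihb =>
    intro t c h1 h2 h3 ok hS hA
    simp only [esz] at h2 h3
    obtain ⟨c1, e1, v1, v2, A⟩ := two_run iha ihb h1 h2 (by omega) ok.1 ok.2 hS hA
    have a1 := A.cons.1
    refine ⟨_, e1.trans (ev_reg (t := t) (v := a.ev s / b.ev s) e1.h (by omega) ?_) le_rfl, wr_eq _ _ _⟩
    simp [step, e1.h, a1, v1, v2]
  | mod a b iha ihb =>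
    intro t c h1 h2 h3 ok hS hA
    simp only [esz] at h2 h3
    obtain ⟨c1, e1, v1, v2, A⟩ := two_run iha ihb h1 h2 (by omega) ok.1 ok.2 hS hA
    have a1 := A.cons.1
    refine ⟨_, e1.trans (ev_reg (t := t) (v := a.ev s % b.ev s) e1.h (by omega) ?_) le_rfl, wr_eq _ _ _⟩
    simp [step, e1.h, a1, v1, v2]
  | ld a iha =>
    intro t c h1 h2 h3 ok hS hA
    simp only [esz] at h2 h3
    obtain ⟨A1, A2⟩ := At.append hA
    rw [length_compE] at A2
    obtain ⟨c1, e1, v1⟩ := iha t c h1 (by omega) (by omega) ok hS A1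
    have a1 := A2.cons.1
    rw [← e1.pc] at a1
    refine ⟨_, e1.trans (ev_reg (t := t) (v := s.m (a.ev s)) e1.h (by omega) ?_) le_rfl, wr_eq _ _ _⟩
    simp [step, e1.h, a1, v1, e1.m, hS.m]

end

/-- size of a condition -/
def csz : Cd → ℕ
  | .lt a b => esz a + esz b + 1
  | .eq a b => esz a + esz b + 1

/-- length of the code of a test -/
def tlen : Cd → ℕ
  | .lt a b => elen a + elen b + 2
  | .eq a b => elen a + elen b + 2

/-- the code of a test -/
def compC (B n : ℕ) : Cd → ℕ → ℕ → List (Instr (n + 1))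
  | .lt a b, y, z => compE n a B ++ compE n b (B + 1) ++ [.jumpIfLt (rg n B) (rg n (B + 1)) y, .jump z]
  | .eq a b, y, z => compE n a B ++ compE n b (B + 1) ++ [.jumpIfEq (rg n B) (rg n (B + 1)) y, .jump z]

theorem length_compC (B n : ℕ) (q : Cd) (y z : ℕ) : (compC B n q y z).length = tlen q := by
  cases q <;> simp [compC, tlen, length_compE, Nat.add_assoc]

/-- size of a program -/
def wsz : W → ℕ
  | .skip => 0
  | .set r e => r + 1 + esz e
  | .st a e => esz a + esz e + 1
  | .rnd r => r + 1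
  | .seq p q => wsz p + wsz q
  | .ite c p q => csz c + wsz p + wsz q
  | .wh c p => csz c + wsz p

/-- length of the code of a program -/
def clen : W → ℕ
  | .skip => 0
  | .set _ e => elen e + 1
  | .st a e => elen a + elen e + 1
  | .rnd _ => 1
  | .seq p q => clen p + clen q
  | .ite c p q => tlen c + clen p + 1 + clen q
  | .wh c p => tlen c + clen p + 1

/-- the code of a program placed at `off` -/
def comp (B n : ℕ) : W → ℕ → List (Instr (n + 1))
  | .skip, _ => []
  | .set r e, _ => compE n e B ++ [.copy (rg n r) (rg n B)]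
  | .st a e, _ => compE n a B ++ compE n e (B + 1) ++ [.store (rg n (B + 1)) (rg n B)]
  | .rnd r, _ => [.rand (rg n r)]
  | .seq p q, off => comp B n p off ++ comp B n q (off + clen p)
  | .ite c p q, off => compC B n c (off + tlen c) (off + tlen c + clen p + 1) ++ comp B n p (off + tlen c) ++
      [.jump (off + (tlen c + clen p + 1 + clen q))] ++ comp B n q (off + tlen c + clen p + 1)
  | .wh c p, off => compC B n c (off + tlen c) (off + (tlen c + clen p + 1)) ++ comp B n p (off + tlen c) ++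
      [.jump off]

theorem length_comp (B n : ℕ) (p : W) (off : ℕ) : (comp B n p off).length = clen p := by
  induction p generalizing off with
  | skip => rfl
  | set r e => simp [comp, clen, length_compE]
  | st a e => simp [comp, clen, length_compE, Nat.add_assoc]
  | rnd r => rfl
  | seq p q ihp ihq => simp [comp, clen, ihp, ihq]
  | ite c p q ihp ihq => simp [comp, clen, ihp, ihq, length_compC]; omega
  | wh c p ihp => simp [comp, clen, ihp, length_compC, Nat.add_assoc]

section
variable {B n w : ℕ} {ρ : ℕ → ℕ} {code : List (Instr (n + 1))} {c c' c'' : Cfg (n + 1)} {s : St}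
  {T T' : ℕ}

theorem it_trans {α : Type} {f : α → α} {a b d : α} (h : f^[T] a = b) (h' : f^[T'] b = d) :
    f^[T + T'] a = d := by
  rw [add_comm T T', Function.iterate_add_apply, h, h']

theorem jump_run {l : ℕ} (hh : c.halted = false) (hc : code[c.pc]? = some (.jump l)) :
    (step ⟨n + 1, code⟩ w ρ)^[1] c = { c with pc := l } := by
  simp [step, hh, hc]

open Classical in
theorem test_run (q : Cd) {y z : ℕ} (h2 : B + csz q ≤ n) (h3 : csz q ≤ B) (ok : q.ok w s) (hS : Sim B n c s)
    (hA : At code c.pc (compC B n q y z)) :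
    ∃ T ≤ tlen q, ∃ c', (step ⟨n + 1, code⟩ w ρ)^[T] c = c' ∧ Sim B n c' s ∧
      c'.pc = if q.ev s then y else z := by
  cases q with
  | lt a b =>
    simp only [csz] at h2 h3
    obtain ⟨c1, e1, v1, v2, A⟩ := two_run (ρ := ρ) (compE_run a) (compE_run b) le_rfl h2 (by omega) ok.1 ok.2 hS hA
    have S1 := e1.sim hS le_rfl
    obtain ⟨a1, A⟩ := A.cons
    have a2 := A.cons.1
    by_cases hq : a.ev s < b.ev s
    · refine ⟨elen a + elen b + 1, by simp only [tlen]; omega, _,
        it_trans e1.run (T' := 1) (d := { c1 with pc := y }) ?_, S1.pc _, by simp [hq]⟩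
      simp [step, e1.h, a1, v1, v2, hq]
    · refine ⟨elen a + elen b + 1 + 1, by simp only [tlen]; omega, _,
        it_trans (it_trans e1.run (T' := 1) (d := { c1 with pc := c1.pc + 1 }) ?_)
          (jump_run (l := z) e1.h a2), S1.pc _, by simp [hq]⟩
      simp [step, e1.h, a1, v1, v2, hq]
  | eq a b =>
    simp only [csz] at h2 h3
    obtain ⟨c1, e1, v1, v2, A⟩ := two_run (ρ := ρ) (compE_run a) (compE_run b) le_rfl h2 (by omega) ok.1 ok.2 hS hA
    have S1 := e1.sim hS le_rfl
    obtain ⟨a1, A⟩ := A.cons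
    have a2 := A.cons.1
    by_cases hq : a.ev s = b.ev s
    · refine ⟨elen a + elen b + 1, by simp only [tlen]; omega, _,
        it_trans e1.run (T' := 1) (d := { c1 with pc := y }) ?_, S1.pc _, by simp [hq]⟩
      simp [step, e1.h, a1, v1, v2, hq]
    · refine ⟨elen a + elen b + 1 + 1, by simp only [tlen]; omega, _,
        it_trans (it_trans e1.run (T' := 1) (d := { c1 with pc := c1.pc + 1 }) ?_)
          (jump_run (l := z) e1.h a2), S1.pc _, by simp [hq]⟩
      simp [step, e1.h, a1, v1, v2, hq]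

theorem comp_run {K : ℕ} {p : W} {s s' : St} {t : ℕ} (h : Run w ρ p s s' t) :
    ∀ c : Cfg (n + 1), wsz p ≤ B → B + wsz p ≤ n → clen p ≤ K → Sim B n c s → At code c.pc (comp B n p c.pc) →
      ∃ T ≤ K * t, ∃ c', (step ⟨n + 1, code⟩ w ρ)^[T] c = c' ∧ Sim B n c' s' ∧ c'.pc = c.pc + clen p := by
  induction h with
  | skip s => exact fun c _ _ _ hS _ => ⟨0, by omega, c, rfl, hS, rfl⟩
  | @set r e s ok =>
    intro c h1 h2 h3 hS hA
    simp only [wsz, clen] at h1 h2 h3 ⊢
    obtain ⟨A1, A2⟩ := At.append hA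
    rw [length_compE] at A2
    obtain ⟨c1, e1, v1⟩ := compE_run (ρ := ρ) e B c le_rfl (by omega) (by omega) ok hS A1
    have S1 := e1.sim hS le_rfl
    have a1 := A2.cons.1
    rw [← e1.pc] at a1
    refine ⟨elen e + 1, by omega, _, it_trans e1.run (T' := 1)
      (d := { c1 with pc := c1.pc + 1, regs := writeReg c1.regs (rg n r) (e.ev s) }) ?_,
      ⟨e1.h, fun j hj => ?_, S1.m, S1.d⟩, by simp only [e1.pc]; omega⟩
    · simp [step, e1.h, a1, v1]
    · by_cases hjr : j = r
      · subst hjr; simp [wr_eq]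
      · rw [St.set_v, if_neg hjr]
        exact (wr_ne (by omega) (by omega) hjr _ _).trans (S1.v j hj)
  | @st a e s oa oe =>
    intro c h1 h2 h3 hS hA
    simp only [wsz, clen] at h1 h2 h3 ⊢
    obtain ⟨c1, e1, v1, v2, A⟩ := two_run (ρ := ρ) (compE_run a) (compE_run e) le_rfl h2 (by omega) oa oe hS hA
    have S1 := e1.sim hS le_rfl
    have a1 := A.cons.1
    refine ⟨elen a + elen e + 1, by omega, _, it_trans e1.run (T' := 1)
      (d := { c1 with pc := c1.pc + 1, mem := writeMem c1.mem (a.ev s) (e.ev s) }) ?_,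
      ⟨e1.h, S1.v, ?_, S1.d⟩, by simp only [e1.pc]; omega⟩
    · simp [step, e1.h, a1, v1, v2]
    · simp only [S1.m]; rfl
  | @rnd r s =>
    intro c h1 h2 h3 hS hA
    simp only [wsz, clen] at h1 h2 h3 ⊢
    have a1 := hA.cons.1
    refine ⟨1, by omega, { c with pc := c.pc + 1, regs := writeReg c.regs (rg n r) (ρ s.d % 2 ^ w),
                                  drawn := s.d + 1 }, ?_, ⟨hS.h, fun j hj => ?_, hS.m, rfl⟩, rfl⟩
    · simp [step, hS.h, a1, hS.d]
    · by_cases hjr : j = r
      · subst hjr; simp [wr_eq]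
      · rw [St.tick_v, St.set_v, if_neg hjr]
        exact (wr_ne (by omega) (by omega) hjr _ _).trans (hS.v j hj)
  | @seq p q s s' s'' t t' _ _ ih1 ih2 =>
    intro c h1 h2 h3 hS hA
    simp only [wsz, clen] at h1 h2 h3 ⊢
    obtain ⟨A1, A2⟩ := At.append hA
    rw [length_comp] at A2
    obtain ⟨T1, t1, c1, r1, S1, p1⟩ := ih1 c (by omega) (by omega) (by omega) hS A1
    obtain ⟨T2, t2, c2, r2, S2, p2⟩ := ih2 c1 (by omega) (by omega) (by omega) S1 (by rw [p1]; exact A2)
    exact ⟨T1 + T2, by rw [Nat.mul_add]; omega, c2, it_trans r1 r2, S2, by omega⟩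
  | @iteT q p p' s s' t ok hq _ ih =>
    intro c h1 h2 h3 hS hA
    simp only [wsz, clen] at h1 h2 h3 ⊢
    obtain ⟨A1, -⟩ := At.append hA
    obtain ⟨A1, A3⟩ := At.append A1
    obtain ⟨A1, A2⟩ := At.append A1
    simp only [List.length_append, length_comp, length_compC] at A2 A3
    obtain ⟨T1, t1, c1, r1, S1, p1⟩ := test_run (ρ := ρ) q (by omega) (by omega) ok hS A1
    rw [if_pos hq] at p1
    obtain ⟨T2, t2, c2, r2, S2, p2⟩ := ih c1 (by omega) (by omega) (by omega) S1 (by rw [p1]; exact A2)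
    have r3 := jump_run (w := w) (ρ := ρ) S2.h (by rw [p2, p1, add_assoc]; exact A3.cons.1)
    exact ⟨T1 + T2 + 1, by rw [Nat.mul_add]; omega, _, it_trans (it_trans r1 r2) r3, S2.pc _, rfl⟩
  | @iteF q p p' s s' t ok hq _ ih =>
    intro c h1 h2 h3 hS hA
    simp only [wsz, clen] at h1 h2 h3 ⊢
    obtain ⟨A1, A4⟩ := At.append hA
    obtain ⟨A1, -⟩ := At.append A1
    obtain ⟨A1, -⟩ := At.append A1
    simp only [List.length_append, length_comp, length_compC, List.length_cons, List.length_nil] at A4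
    obtain ⟨T1, t1, c1, r1, S1, p1⟩ := test_run (ρ := ρ) q (by omega) (by omega) ok hS A1
    rw [if_neg hq] at p1
    obtain ⟨T2, t2, c2, r2, S2, p2⟩ := ih c1 (by omega) (by omega) (by omega) S1
      (by rw [p1]; convert A4 using 1; omega)
    exact ⟨T1 + T2, by rw [Nat.mul_add]; omega, _, it_trans r1 r2, S2, by omega⟩
  | @whF q p s ok hq =>
    intro c h1 h2 h3 hS hA
    simp only [wsz, clen] at h1 h2 h3 ⊢
    obtain ⟨A1, -⟩ := At.append hA
    obtain ⟨A1, -⟩ := At.append A1
    obtain ⟨T1, t1, c1, r1, S1, p1⟩ := test_run (ρ := ρ) q (by omega) (by omega) ok hS A1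
    rw [if_neg hq] at p1
    exact ⟨T1, by omega, c1, r1, S1, p1⟩
  | @whT q p s s' s'' t t' ok hq _ _ ih1 ih2 =>
    intro c h1 h2 h3 hS hA
    have h1' := h1
    have h2' := h2
    have h3' := h3
    simp only [wsz, clen] at h1 h2 h3
    obtain ⟨A1, A3⟩ := At.append hA
    obtain ⟨A1, A2⟩ := At.append A1
    simp only [List.length_append, length_comp, length_compC] at A2 A3
    obtain ⟨T1, t1, c1, r1, S1, p1⟩ := test_run (ρ := ρ) q (by omega) (by omega) ok hS A1
    rw [if_pos hq] at p1
    obtain ⟨T2, t2, c2, r2, S2, p2⟩ := ih1 c1 (by omega) (by omega) (by omega) S1 (by rw [p1]; exact A2)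
    have r3 := jump_run (w := w) (ρ := ρ) S2.h (by rw [p2, p1, add_assoc]; exact A3.cons.1)
    obtain ⟨T4, t4, c4, r4, S4, p4⟩ := ih2 { c2 with pc := c.pc } h1' h2' h3' (S2.pc _) hA
    exact ⟨T1 + T2 + 1 + T4, by rw [Nat.mul_add, Nat.mul_add]; omega, c4,
      it_trans (it_trans (it_trans r1 r2) r3) r4, S4, p4⟩
  | mono _ hle ih =>
    intro c h1 h2 h3 hS hA
    obtain ⟨T, hT, h⟩ := ih c h1 h2 h3 hS hA
    exact ⟨T, hT.trans (Nat.mul_le_mul_left _ hle), h⟩

end

theorem step_halted {P : Program} {w : ℕ} {ρ : ℕ → ℕ} {c : Cfg P.numRegs} (h : c.halted = true) :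
    step P w ρ c = c := by
  simp [step, h]

end Cmp

open Cmp in
theorem prog_ok (p : W) : ∃ (P : Program) (K : ℕ), ∀ (w : ℕ) (ρ : ℕ → ℕ) (input : List ℕ) (t D : ℕ),
    Wp w ρ p (st0 w input) t (Out D) → HaltsWithin P w ρ input (K * (t + 1)) [D] := by
  set B := wsz p + 2 with hB
  set n := 2 * B with hn
  refine ⟨⟨n + 1, comp B n p 0 ++ [.halt]⟩, clen p + 1, fun w ρ input t D h => ?_⟩
  obtain ⟨s', hr, o1, o2⟩ := h
  have hA : At (comp B n p 0 ++ [Instr.halt]) 0 (comp B n p 0 ++ [Instr.halt]) := fun i _ => by simp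
  obtain ⟨A1, A2⟩ := hA.append
  rw [length_comp] at A2
  have S0 : Sim B n (init ⟨n + 1, comp B n p 0 ++ [.halt]⟩ w input) (st0 w input) := by
    refine ⟨rfl, fun j hj => ?_, rfl, rfl⟩
    simp only [init, st0, rg, Fin.ofNat, Nat.mod_eq_of_lt (show j < n + 1 by omega)]
  obtain ⟨T, hT, c, r, S, hp⟩ := comp_run (code := comp B n p 0 ++ [.halt]) (K := clen p + 1) hr _
    (by omega) (by omega) (by omega) S0 A1
  have a1 : (comp B n p 0 ++ [Instr.halt])[c.pc]? = some .halt := by
    rw [hp]; exact A2.cons.1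
  have r1 : (step ⟨n + 1, comp B n p 0 ++ [.halt]⟩ w ρ)^[1] c = { c with halted := true } := by
    simp [step, S.h, a1]
  have r2 : run ⟨n + 1, comp B n p 0 ++ [.halt]⟩ w ρ input ((clen p + 1) * (t + 1)) =
      { c with halted := true } := by
    obtain ⟨u, hu⟩ : ∃ u, (clen p + 1) * (t + 1) = T + 1 + u :=
      ⟨(clen p + 1) * (t + 1) - (T + 1), by rw [Nat.mul_add]; omega⟩
    rw [hu]
    exact it_trans (it_trans r r1) (Function.iterate_fixed (step_halted rfl) u)
  have g0 : c.regs ⟨0, Nat.succ_pos n⟩ = 1 := (S.v 0 (by omega)).trans o1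
  have g1 : c.regs ⟨1, show 1 < n + 1 by omega⟩ = s'.v 1 := by
    have := S.v 1 (by omega)
    simpa only [rg, Fin.ofNat, Nat.mod_eq_of_lt (show 1 < n + 1 by omega)] using this
  refine ⟨by rw [r2], ?_⟩
  rw [r2]
  simp only [Cfg.output, Cfg.reg, show 0 < n + 1 by omega, show 1 < n + 1 by omega, dite_true, g0, g1, S.m]
  simp [o2]

end Crest.Agent.R288.Ram
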