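/-
R288/RamFast: the fast branch and the whole program, in the language `W`.
-/
import Crest.Agent.R288.RamW
import Crest.Agent.R288.RamAM
import Crest.Agent.R288.RamInt
import Crest.Agent.R288.RamIn
import Crest.Agent.R288.RamSlow
import Crest.Agent.R288.RamFront
import Crest.Agent.R288.RamProb
import Crest.Agent.R288.RamPar

set_option autoImplicit false

namespace Crest.Agent.R288.Ram

open Function Crest.WordRAM Crest.GraphRAM Crest.Agent.Lib.PolyTime Crest.Agent.R326

theorem f_length_rbits (w : ℕ) (ρ : ℕ → ℕ) (U : ℕ) : (rbits w ρ U).length = U := by simp [rbits]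

theorem f_length_stk1 (l : List Bool) (k : ℕ) : (stk1 l k).length ≤ l.length := by
  by_cases h : k = 1
  · subst h; simp [stk1]
  · simp [stk1, update_of_ne h]

theorem succ_le_bud (N b τ : ℕ) : N + 1 ≤ bud N b τ := by
  unfold bud
  nlinarith [Nat.zero_le (N * b), Nat.zero_le (UN N)]

theorem f_length_input (x y rest : List ℕ) :
    (stringsInput x y ++ rest).length = x.length + y.length + rest.length + 2 := by
  simp [stringsInput]; omega

theorem fast_ok (P : RProg) : ∃ (p : W) (C : ℕ), ∀ (w : ℕ) (ρ : ℕ → ℕ) (s : St) (x y rest : List ℕ) (b τ D N : ℕ),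
    N = x.length + y.length → Inp s (stringsInput x y ++ rest) → s.v 3 = Nat.log 2 N → s.v 4 = gN N → s.d = 0 →
    rest.length ≤ N → (∀ a ∈ x ++ y, a.size ≤ b) → D ≤ N →
    RExec P P (single (enc (x, y, rbits w ρ (UN N))).bits) (single (enc D).bits) τ → C * bud N b τ ≤ 2 ^ w →
    Wp w ρ p s (C * bud N b τ) (Out D) := by
  obtain ⟨A, K, C1, hK, hA, h1⟩ := am_ok P
  obtain ⟨p2, C2, h2⟩ := pow_ok
  obtain ⟨p3, C3, h3⟩ := in_ok K hK
  obtain ⟨p4, C4, h4⟩ := interp_ok A K hA
  obtain ⟨p5, C5, h5⟩ := out_ok K hK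
  refine ⟨.seq p2 (.seq p3 (.seq p4 p5)), 2 + C2 + C3 + C4 * (10 * C1 + 9) + C5, ?_⟩
  intro w ρ s x y rest b τ D N hN hI h3v h4v hd hr hb hD hx hw
  have hM1 := succ_le_bud N b τ
  have hM2 : (N + 1) * (b + 1) + UN N ≤ bud N b τ := by unfold bud; omega
  have hM3 : τ ≤ bud N b τ := by unfold bud; omega
  have hM4 : UN N < bud N b τ := by
    have : 0 < (N + 1) * (b + 1) := by positivity
    omega
  have hL := f_length_input x y rest
  have hc := length_code_le (r := rbits w ρ (UN N)) hb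
  rw [f_length_rbits, ← hN] at hc
  obtain ⟨n, hn, hA'⟩ := h1 _ D τ hx
  have hsz : D.size ≤ D := Nat.size_le.2 Nat.lt_two_pow_self
  generalize bud N b τ = M at *
  have hn' : n ≤ C1 * (10 * M) := hn.trans (Nat.mul_le_mul_left _ (by omega))
  have e : (2 + C2 + C3 + C4 * (10 * C1 + 9) + C5) * M =
      2 * M + C2 * M + C3 * M + C4 * (8 * M + C1 * (10 * M) + M) + C5 * M := by ring
  rw [e] at hw ⊢
  have b2 : C2 * (N + 1) ≤ C2 * M := Nat.mul_le_mul_left _ hM1
  have b3 : C3 * ((N + 1) * (b + 1) + UN N) ≤ C3 * M := Nat.mul_le_mul_left _ hM2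
  have b4 : C4 * (8 * M + n + 1) ≤ C4 * (8 * M + C1 * (10 * M) + M) := Nat.mul_le_mul_left _ (by omega)
  have b4' : C4 * (n + 1) ≤ C4 * (8 * M + n + 1) := Nat.mul_le_mul_left _ (by omega)
  have b5 : C5 * (D + 1) ≤ C5 * M := Nat.mul_le_mul_left _ (by omega)
  have b5' : C5 * (D.size + 1) ≤ C5 * M := Nat.mul_le_mul_left _ (by omega)
  refine Wp.mono ((h2 w ρ s N h3v h4v (by omega)).bind fun s2 ⟨m2, d2, v2, u2⟩ =>
    (h3 w ρ s2 x y rest (UN N) b ⟨v2.trans hI.1, fun i => by rw [m2]; exact hI.2 i⟩ u2 (d2.trans hd) hb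
      (by rw [← hN]; omega)).bind fun s3 r3 =>
    (h4 w ρ s3 _ (8 * M) n _ _ hA' r3 (fun k => (f_length_stk1 _ k).trans (by rw [List.length_reverse]; omega))
      (by omega)).bind fun s4 r4 => h5 w ρ s4 _ D r4 (by omega)) ?_
  rw [← hN]
  omega

theorem f_editDist_self (x : List ℕ) : editDist x x = 0 := by
  induction x with
  | nil => rfl
  | cons a x ih => simp [editDist, editDist.row, ih]

theorem inp_st0 {w : ℕ} {l : List ℕ} (h1 : l.length < 2 ^ w) (h2 : ∀ a ∈ l, a < 2 ^ w) : Inp (st0 w l) l := by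
  refine ⟨by simp [st0, Nat.mod_eq_of_lt h1], fun i => ?_⟩
  simp only [st0, List.getD_eq_getElem?_getD]
  refine Nat.mod_eq_of_lt ?_
  rcases h : l[i]? with _ | a
  · simp
  · exact h2 a (List.mem_of_getElem? h)

theorem f_halts_mono {P : Program} {w T T' : ℕ} {ρ : ℕ → ℕ} {input out : List ℕ}
    (h : HaltsWithin P w ρ input T out) (hT : T ≤ T') : HaltsWithin P w ρ input T' out := by
  have e : run P w ρ input T' = run P w ρ input T := by
    unfold run
    rw [show T' = (T' - T) + T by omega, Function.iterate_add_apply]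
    refine Function.iterate_fixed ?_ _
    have h1 : ((step P w ρ)^[T] (init P w input)).halted = true := h.1
    unfold step
    exact if_pos h1
  unfold HaltsWithin
  rw [e]
  exact h

/-- the time budget of the stack program -/
noncomputable def tauOf (Tm : ℕ → ℝ) (c : ℕ) (x y : List ℕ) : ℕ :=
  ⌊Tm (x.length + y.length) * ((symBits x y : ℝ) + 1) ^ c⌋₊

/-- the program: fast branch if `e + g₀ ≤ gN N`, exact branch otherwise -/
theorem main_ok (F : List ℕ → List ℕ → List Bool → ℕ) (hF : FastOK F) (N₁ : ℕ) :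
    ∃ (P : Program) (Tm : ℕ → ℝ) (c C g₀ : ℕ), AlmostLin Tm ∧ N₁ ≤ g₀ ∧
    (∀ x y, (tauOf Tm c x y : ℝ) ≤ Tm (x.length + y.length) * ((symBits x y : ℝ) + 1) ^ c) ∧
    ∀ (a : ℕ) (x y rest : List ℕ), 4 ≤ rest.length → (∀ s ∈ rest, s ≤ 2) →
      (∀ s ∈ x ++ y, s < (x.length + y.length + 2) ^ a) →
      (rest.length + g₀ ≤ gN (x.length + y.length) → ∀ ρ,
        HaltsWithin P ((a + 3) * Nat.clog 2 ((stringsInput x y ++ rest).length + 2)) ρ (stringsInput x y ++ rest)
          (C * bud (x.length + y.length) (symBits x y) (tauOf Tm c x y))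
          [F x y (rbits ((a + 3) * Nat.clog 2 ((stringsInput x y ++ rest).length + 2)) ρ (UN (x.length + y.length)))]) ∧
      (¬ rest.length + g₀ ≤ gN (x.length + y.length) → ∃ T, ∀ ρ,
        HaltsWithin P ((a + 3) * Nat.clog 2 ((stringsInput x y ++ rest).length + 2)) ρ (stringsInput x y ++ rest)
          T [editDist x y]) := by
  obtain ⟨Tm, c, hT, Q, hQ⟩ := hF.time
  obtain ⟨pf, Cf, hf⟩ := fast_ok Q
  obtain ⟨ps, Cs, hs⟩ := slow_ok
  obtain ⟨p0, C0, h0⟩ := front_ok
  obtain ⟨N₂, hN₂⟩ := par_fit hT c Cf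
  obtain ⟨cd, hcd⟩ := test_ok (max N₁ N₂)
  obtain ⟨P, K, hP⟩ := prog_ok (.seq p0 (.ite cd pf ps))
  have hτ : ∀ x y, (tauOf Tm c x y : ℝ) ≤ Tm (x.length + y.length) * ((symBits x y : ℝ) + 1) ^ c := by
    intro x y
    obtain ⟨τ, h1, -⟩ := hQ ⟨(x, y, List.replicate (UN (x.length + y.length)) false), by simp⟩
    exact Nat.floor_le ((Nat.cast_nonneg τ).trans h1)
  refine ⟨P, Tm, c, K * (C0 + Cf + 2), max N₁ N₂, hT, le_max_left _ _, hτ, fun a x y rest hr4 hr2 hxy => ?_⟩
  have hL := f_length_input x y rest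
  have hw := word_ge a (stringsInput x y ++ rest).length
  generalize (a + 3) * Nat.clog 2 ((stringsInput x y ++ rest).length + 2) = w at hw ⊢
  have hw1 : (x.length + y.length + 2) ^ (a + 3) ≤ 2 ^ w :=
    (Nat.pow_le_pow_left (by omega) _).trans hw
  have hw2 : 64 * ((stringsInput x y ++ rest).length + 2) ≤ 2 ^ w := by
    refine le_trans ?_ ((Nat.pow_le_pow_right (by omega) (by omega : 3 ≤ a + 3)).trans hw)
    have : 8 ≤ (stringsInput x y ++ rest).length + 2 := by omega
    generalize (stringsInput x y ++ rest).length + 2 = L at this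
    calc 64 * L = 8 * 8 * L := by ring
      _ ≤ L * L * L := by gcongr
      _ = L ^ 3 := by ring
  have hI : Inp (st0 w (stringsInput x y ++ rest)) (stringsInput x y ++ rest) := by
    refine inp_st0 (by omega) fun s hs => ?_
    rw [List.mem_append] at hs
    rcases hs with hs | hs
    · simp only [stringsInput, List.mem_cons] at hs
      rcases hs with rfl | rfl | hs
      · omega
      · omega
      · exact (hxy s hs).trans_le ((Nat.pow_le_pow_right (by omega) (by omega)).trans hw1)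
    · have := hr2 s hs
      omega
  have hm : (st0 w (stringsInput x y ++ rest)).m 0 + (st0 w (stringsInput x y ++ rest)).m 1 =
      x.length + y.length := by
    rw [hI.2, hI.2]
    simp [stringsInput]
  have hfront := fun ρ => h0 w ρ _ _ hm (by omega)
  constructor
  · intro hg ρ
    have hN : max N₁ N₂ + rest.length ≤ x.length + y.length := by
      have := gN_le (x.length + y.length)
      omega
    have hb : symBits x y ≤ a * (Nat.log 2 (x.length + y.length) + 2) :=
      symBits_le fun s hs => size_le_of_lt (hxy s hs)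
    have hfit := (hN₂ _ (by omega) a _ _ hb (hτ x y)).trans hw1
    obtain ⟨τ, h1, h2⟩ := hQ ⟨(x, y, rbits w ρ (UN (x.length + y.length))), f_length_rbits _ _ _⟩
    have h3 : τ ≤ tauOf Tm c x y := Nat.le_floor h1
    have h4 := hP w ρ _ _ _ ((hfront ρ).bind fun s1 ⟨m1, d1, v0, v2, v3, v4⟩ =>
      have ht := hcd w s1 _ rest.length (by rw [v0, hI.1, hL]) v2 v4 (by omega)
      Wp.iteT ht.1 (ht.2.2 hg) (hf w ρ s1 x y rest _ _ _ _ rfl ⟨v0.trans hI.1, fun i => by rw [m1]; exact hI.2 i⟩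
        v3 v4 d1 (by omega) le_symBits (hF.le _ _ _) (h2.mono h3) hfit))
    refine f_halts_mono h4 ?_
    have h5 := succ_le_bud (x.length + y.length) (symBits x y) (tauOf Tm c x y)
    generalize bud (x.length + y.length) (symBits x y) (tauOf Tm c x y) = M at h5 ⊢
    rw [mul_assoc]
    refine Nat.mul_le_mul_left _ ?_
    have := Nat.mul_le_mul_left C0 h5
    rw [add_mul, add_mul]
    omega
  · intro hg
    refine ⟨_, fun ρ => hP w ρ _ _ _ ((hfront ρ).bind fun s1 ⟨m1, _, v0, v2, _, v4⟩ =>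
      have ht := hcd w s1 _ rest.length (by rw [v0, hI.1, hL]) v2 v4 (by omega)
      Wp.iteF ht.1 (fun h => hg (ht.2.1 h)) (hs w ρ s1 x y rest
        ⟨v0.trans hI.1, fun i => by rw [m1]; exact hI.2 i⟩ (by omega)))⟩

end Crest.Agent.R288.Ram
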