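/-
R288/Ram: from the recursive stack machine to the word RAM (layer I of row 288).
-/
import Crest.Agent.R288.RamFast

set_option autoImplicit false
open Crest.GraphRAM

namespace Crest.Agent.R288

/-- **Layer I.**  One word-RAM program, written in the structured language `Ram.W` (RamDefs, compiled in RamW): front end (RamFront),
exact dynamic program on the slow branch (RamSlow); on the fast branch the code of `(x, y, r)` is written on a stack (RamIn), the `RProg` is compiled
to a stack machine (RamAM) that is interpreted (RamInt).  Probabilities: RamProb; arithmetic: RamPar; assembly: RamFast. -/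
theorem ram_main (F : List ℕ → List ℕ → List Bool → ℕ) (hF : FastOK F) :
    ∃ P : Crest.WordRAM.Program, ∀ (a : ℕ) (ε : ℚ), 0 < ε → ε < 1 →
      (∀ x y : List ℕ, (∀ s ∈ x ++ y, s < (x.length + y.length + 2) ^ a) →
        2 / 3 ≤ Crest.WordRAM.probHaltsWith P ((a + 3) * Nat.clog 2 ((stringsInput x y ++ ratWords ε).length + 2))
            (stringsInput x y ++ ratWords ε)
            (fun out => ∃ D : ℕ, out = [D] ∧ editDist x y ≤ D ∧
              (D : ℝ) ≤ (1 + (ε : ℝ)) * editDist x y)) ∧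
      (∀ x y : List ℕ, (∀ s ∈ x ++ y, s < (x.length + y.length + 2) ^ a) → x = y →
        ∀ ρ : ℕ → ℕ, ∃ T : ℕ, Crest.WordRAM.HaltsWithin P
            ((a + 3) * Nat.clog 2 ((stringsInput x y ++ ratWords ε).length + 2)) ρ
            (stringsInput x y ++ ratWords ε) T [0]) ∧
      ∀ δ : ℝ, 0 < δ → ∃ N₀ : ℕ, ∀ x y : List ℕ, N₀ ≤ x.length + y.length →
        (∀ s ∈ x ++ y, s < (x.length + y.length + 2) ^ a) →
        Crest.WordRAM.expectedTime P ((a + 3) * Nat.clog 2 ((stringsInput x y ++ ratWords ε).length + 2))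
            (stringsInput x y ++ ratWords ε)
          ≤ ENNReal.ofReal (((x.length + y.length : ℕ) : ℝ) ^ (1 + δ)) := by
  obtain ⟨N₁, hN₁⟩ := hF.prob
  obtain ⟨P, Tm, c, C, g₀, hT, hg₀, hτ, hP⟩ := Ram.main_ok F hF N₁
  refine ⟨P, fun a ε h0 h1 => ?_⟩
  have hP' := fun x y => hP a x y (ratWords ε) (Ram.ratWords_length h0 h1) (Ram.ratWords_le ε)
  have hε : (0 : ℝ) < ε := by exact_mod_cast h0
  refine ⟨fun x y hxy => ?_, fun x y hxy hx ρ => ?_, fun δ hδ => ?_⟩
  · obtain ⟨h2, h3⟩ := hP' x y hxy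
    by_cases hg : (ratWords ε).length + g₀ ≤ gN (x.length + y.length)
    · have hw : 1 ≤ (a + 3) * Nat.clog 2 ((stringsInput x y ++ ratWords ε).length + 2) :=
        Nat.mul_pos (by omega) (Nat.clog_pos (by omega) (by simp [stringsInput]))
      refine le_trans ?_ (Ram.prob_ok hw (F x y) _ (h2 hg))
      have hN := Ram.gN_le (x.length + y.length)
      refine (hN₁ x y (by omega)).trans (Ram.prBits_mono fun r hr => ⟨_, rfl, hr.1, hr.2.trans ?_⟩)
      have := Ram.eps_ge h0 (g := gN (x.length + y.length)) (by omega)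
      gcongr
    · obtain ⟨T, hT'⟩ := h3 hg
      refine le_trans (by norm_num) (Ram.prob_det hT' ⟨_, rfl, le_rfl, ?_⟩)
      have : (0 : ℝ) ≤ editDist x y := Nat.cast_nonneg _
      nlinarith
  · obtain ⟨h2, h3⟩ := hP' x y hxy
    subst hx
    by_cases hg : (ratWords ε).length + g₀ ≤ gN (x.length + x.length)
    · have := h2 hg ρ
      rw [hF.zero] at this
      exact ⟨_, this⟩
    · obtain ⟨T, hT'⟩ := h3 hg
      have := hT' ρ
      rw [Ram.f_editDist_self] at this
      exact ⟨_, this⟩
  · obtain ⟨N₂, hN₂⟩ := Ram.gN_large ((ratWords ε).length + g₀)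
    obtain ⟨N₃, hN₃⟩ := Ram.par_time hT c C a hδ
    refine ⟨max N₂ N₃, fun x y hN hxy => ?_⟩
    have h2 := (hP' x y hxy).1 (hN₂ _ (le_of_max_le_left hN))
    refine (Ram.time_ok fun ρ => (h2 ρ).1).trans (ENNReal.ofReal_le_ofReal ?_)
    exact hN₃ _ (le_of_max_le_right hN) _ _
      (Ram.symBits_le fun s hs => Ram.size_le_of_lt (hxy s hs)) (hτ x y)

end Crest.Agent.R288
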