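/-
R288/Sizes: the size conditions of the engine.
-/
import Crest.Agent.R288.PT4
import Crest.Agent.R288.Wf

set_option autoImplicit false

namespace Crest.Agent.R288

open Crest.Agent.Lib.PolyTime

/-- Linear facts about the parameters. -/
structure SizesNum (P : Pa) : Prop where
  big : 4096 * 2 ^ P.Lx ≤ P.pad
  l1 : P.l1 < 2 ^ P.Lx
  L : P.L < 2 ^ P.Lx
  Lx : P.Lx < 2 ^ P.Lx
  cmax : P.cmax ≤ 2 * 2 ^ P.Lx
  s : P.s ≤ 2 * 2 ^ P.Lx
  M : P.M ≤ P.l1
  D : P.D + 2 ≤ P.M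
  T : P.T ≤ P.kap
  d : P.d ≤ P.D
  tw : P.tw ≤ P.Lx
  omx : P.omx ≤ 2 * P.Lx
  four : 4 ≤ 2 ^ P.Lx

theorem Pa.OK.sizesNum {P : Pa} (h : P.OK) : SizesNum P := by
  have h2 : 2 ≤ P.Lx := Nat.le_add_left _ _
  refine ⟨?_, by have := h.l1_lt; omega, h.L_lt, Nat.lt_two_pow_self, ?_, ?_, ?_, h.D_le_M, h.T_le,
    Nat.le_of_dvd h.D_pos h.d_dvd_D, ?_, h.omx_le, ?_⟩
  · have := h.two_pow_le_pad (x := 12 + P.Lx) (by unfold Pa.kap; omega)
    rw [pow_add] at this
    exact this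
  · have := h.cmax_le
    rw [pow_succ] at this
    omega
  · have := h.s_le
    rw [pow_succ] at this
    omega
  · exact le_trans (Nat.le_mul_of_pos_right _ (by positivity)) h.M_le
  · have h3 := h.wx_le
    have h4 := h.p_ge
    unfold Pa.tw
    omega
  · exact Nat.pow_le_pow_right (n := 2) (by norm_num) h2

theorem Sizes_base {P : Pa} (h : P.OK) {t : ℕ} (ht : t ≤ P.T) : P.base t + P.D ≤ P.l1 := by
  refine le_trans ?_ h.base_le
  unfold Pa.base
  gcongr

theorem Sizes_good {P : Pa} {D : De} (h : Good P D) :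
    P.OK ∧ D.2.2.2.2.1 ≤ P.L ∧ D.2.2.2.2.2 < P.cmax ∧ D.2.2.2.2.1 + D.2.2.2.2.2 < P.umax ∧
      D.1 ≤ 4 ∧ D.2.1 ≤ P.T ∧ D.2.2.1 ≤ P.D + P.M ∧ D.2.2.2.1 ≤ P.M := by
  obtain ⟨k, t, m, β, h', c⟩ := D
  obtain ⟨h1, h2, h3, h4⟩ := h
  unfold Pa.triv at h3
  refine ⟨h1, h2, ?_⟩
  simp only
  omega

theorem Sizes_botKeys {P : Pa} {h c : ℕ} {mk : ℕ → De} {κ : Key De} (hκ : κ ∈ P.botKeys h c mk) :
    ∃ c', c - 1 ≤ c' ∧ κ.1 = mk c' := by
  simp only [Pa.botKeys, List.mem_flatMap, List.mem_map, Pa.mem_clsList] at hκ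
  obtain ⟨c', h1, j, -, rfl⟩ := hκ
  exact ⟨c', h1.1, rfl⟩

theorem Sizes_plan {P : Pa} (hd : P.d ≤ P.D) {D : De} {κ : Key De} (hκ : κ ∈ P.plan D) :
    D.2.2.2.2.1 + D.2.2.2.2.2 ≤ κ.1.2.2.2.2.1 + κ.1.2.2.2.2.2 + P.D + 2 := by
  obtain ⟨k, t, m, β, h, c⟩ := D
  simp only [Pa.plan] at hκ
  simp only
  split_ifs at hκ
  · unfold Pa.planA at hκ
    split_ifs at hκ
    · simp at hκ
    · simp only [List.mem_flatMap, List.mem_map] at hκ
      obtain ⟨i, -, r, -, rfl⟩ := hκ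
      simp only
      omega
  · unfold Pa.planN at hκ
    split_ifs at hκ <;>
      simp only [List.mem_cons, List.mem_append, List.mem_map, List.mem_flatMap, List.not_mem_nil,
        or_false, Pa.mem_clsList] at hκ
    · subst hκ
      simp only
      omega
    · rcases hκ with rfl | ⟨b, -, rfl⟩ <;> simp only <;> omega
    · subst hκ
      simp only
      omega
    · obtain ⟨c', h1, rfl⟩ := hκ
      simp only
      omega
    · rcases hκ with ⟨c', h1, rfl⟩ | ⟨c', h1, rfl | rfl⟩ <;> simp only <;> omega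
  · simp only [List.mem_map] at hκ
    obtain ⟨i, -, rfl⟩ := hκ
    simp only
    omega
  · unfold Pa.planR at hκ
    by_cases h0 : h = 0
    · simp [h0] at hκ
    rw [if_neg h0] at hκ
    simp only [List.mem_append, List.mem_map, List.mem_flatMap, List.mem_range] at hκ
    rcases hκ with (((⟨i, hi, j, -, rfl⟩ | hκ) | ⟨k, -, hκ⟩) | hκ) | ⟨i, -, n, -, rfl⟩
    · simp only
      omega
    · obtain ⟨c', h1, h2⟩ := Sizes_botKeys hκ
      rw [h2]
      simp only
      omega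
    · obtain ⟨c', h1, h2⟩ := Sizes_botKeys hκ
      rw [h2]
      simp only
      omega
    · split_ifs at hκ
      · simp at hκ
      · simp only [List.mem_flatMap] at hκ
        obtain ⟨k, -, hκ⟩ := hκ
        obtain ⟨c', h1, h2⟩ := Sizes_botKeys hκ
        rw [h2]
        simp only
        omega
    · simp only
      omega
  · simp only [List.mem_map] at hκ
    obtain ⟨i, -, rfl⟩ := hκ
    simp only
    omega

theorem Sizes_pow {P : Pa} (h : P.OK) {x : ℕ} (hx : x ≤ 3 * P.kap) : 2 ^ x ≤ QP P := by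
  have := h.two_pow_le_pad hx
  unfold QP
  omega

theorem Sizes_idx : PIdx fun a : {a : Pa × De // Good a.1 a.2} => a.1.1 :=
  ⟨by fun_prop, fun a => (Sizes_good a.2).1⟩

theorem Sizes_u :
    Sml fun a : {a : Pa × De // Good a.1 a.2} => a.1.2.2.2.2.2.1 + a.1.2.2.2.2.2.2 := by
  refine ⟨by fun_prop, Sizes_idx.pb fun a => ?_⟩
  obtain ⟨h1, h2, h3, -⟩ := Sizes_good a.2
  have n := h1.sizesNum
  have := n.big
  have := n.L
  have := n.cmax
  omega

/-- Recipe: `pad = 2 ^ (3 kap) ≥ 2 ^ (36 Lx)`; all numbers in a good descriptor are below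
`2 ^ (Lx + 2)`; `len_le` from `h + c < umax`, `c < cmax`, `2 ^ (cmax - c) ≤ pot`; `regrid` from
`h + c ≤ h' + c' + D + 1` for every request (`Wf`-like case analysis on `plan`); `out` from
`esize_rup_le`. -/
theorem eng_sm : eng.Sm Good QP where
  esP P D h := by
    have h1 := (Sizes_good h).1
    obtain ⟨n1, n2, n3, n4, n5, n6, n7, n8, n9, n10, n11, n12, n13⟩ := h1.sizesNum
    have e0 := h1.e_le
    have e1 : esize P = esize (show List Unit × ℕ × ℕ from P).1 + (esize P.l1 + esize P.e + 1) + 1 :=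
      rfl
    have e2 : esize (show List Unit × ℕ × ℕ from P).1 ≤ P.pad * (1 + 1) + 1 :=
      esize_list_le (B := 1) fun _ _ => le_rfl
    have e3 := esize_nat_le_self P.l1
    have e4 := esize_nat_le_self P.e
    unfold QP
    omega
  esD P D h := by
    obtain ⟨h1, h2, h3, h4, h5, h6, h7, h8⟩ := Sizes_good h
    obtain ⟨n1, n2, n3, n4, n5, n6, n7, n8, n9, n10, n11, n12, n13⟩ := h1.sizesNum
    obtain ⟨k, t, m, β, h', c⟩ := D
    simp only [esize_pair] at h2 h3 h4 h5 h6 h7 h8 ⊢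
    have e1 := esize_nat_le_self k
    have e2 := esize_nat_le_self t
    have e3 := esize_nat_le_self m
    have e4 := esize_nat_le_self β
    have e5 := esize_nat_le_self h'
    have e6 := esize_nat_le_self c
    have e7 : P.kap ≤ P.cmax := Nat.le_add_left _ _
    unfold QP
    omega
  tp_le P D h := by
    obtain ⟨h1, h2, h3, h4, h5, h6, h7, h8⟩ := Sizes_good h
    obtain ⟨n1, n2, n3, n4, n5, n6, n7, n8, n9, n10, n11, n12, n13⟩ := h1.sizesNum
    have e1 := Sizes_base h1 h6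
    obtain ⟨k, t, m, β, h', c⟩ := D
    have e2 : h' / P.D ≤ h' := Nat.div_le_self _ _
    simp only [eng, Pa.rk, QP] at h2 h3 h4 h5 h6 h7 h8 e1 ⊢
    split_ifs <;> omega
  hgt_le P D h := by
    obtain ⟨h1, h2, -⟩ := Sizes_good h
    obtain ⟨n1, n2, n3, n4, n5, n6, n7, n8, n9, n10, n11, n12, n13⟩ := h1.sizesNum
    simp only [eng, QP]
    omega
  om_le P D h := by
    obtain ⟨h1, h2, h3, -⟩ := Sizes_good h
    obtain ⟨n1, n2, n3, n4, n5, n6, n7, n8, n9, n10, n11, n12, n13⟩ := h1.sizesNum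
    simp only [eng, QP, Pa.om]
    omega
  len_le P D h := by
    obtain ⟨h1, h2, h3, h4, -⟩ := Sizes_good h
    have e1 : 2 ^ (3 * P.Lx) ≤ QP P := Sizes_pow h1 (by unfold Pa.kap; omega)
    have e2 : 2 ^ (P.cmax - D.2.2.2.2.2) ≤ P.pot D :=
      Nat.pow_le_pow_right (by norm_num) (Nat.le_add_left _ _)
    have e3 : 2 ^ (P.e + 2) ≤ P.X + 1 := Nat.le_succ _
    refine le_trans ?_ (Nat.mul_le_mul (Nat.mul_le_mul e3 e2) e1)
    rw [← pow_add, ← pow_add]
    refine Nat.pow_le_pow_right (by norm_num) ?_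
    simp only [eng, Pa.umax, Pa.cmax] at h3 h4 ⊢
    omega
  gam_le P D h := by
    simp only [eng, Pa.om, Pa.gm, Pa.cmax]
    omega
  cols P D h := by
    have h1 := (Sizes_good h).1
    have n := h1.omx_le
    refine Sizes_pow h1 ?_
    simp only [eng, Pa.om, Pa.gm, Pa.cmax, Pa.kap]
    omega
  wids P D h := by
    have h1 := (Sizes_good h).1
    have n := h1.sizesNum.tw
    have e1 : 2 ^ (P.tw + P.kap) ≤ QP P := Sizes_pow h1 (by unfold Pa.kap; omega)
    simp only [eng]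
    split_ifs
    · simp
    · refine le_trans ?_ e1
      unfold Pa.wid Pa.rad
      rw [Nat.div_div_eq_div_mul, ← pow_add]
      refine Nat.div_le_of_le_mul ?_
      rw [← pow_add]
      refine Nat.pow_le_pow_right (by norm_num) ?_
      simp only [Pa.gm, Pa.cmax]
      omega
  leaf P D h h0 := by
    obtain ⟨h1, h2, h3, -⟩ := Sizes_good h
    have n := h1.omx_le
    refine Sizes_pow h1 ?_
    simp only [eng, Pa.om, Pa.cmax, Pa.kap] at h0 h3 ⊢
    omega
  regrid P D κ h hκ := by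
    have h1 := (Sizes_good h).1
    have e1 := Sizes_plan h1.sizesNum.d hκ
    have h2 : 2 ≤ P.Lx := Nat.le_add_left _ _
    refine Sizes_pow h1 ?_
    simp only [eng, Pa.om, Pa.kap]
    omega
  out P D I G m z h := by
    have h1 := (Sizes_good h).1
    obtain ⟨n1, n2, n3, n4, n5, n6, n7, n8, n9, n10, n11, n12, n13⟩ := h1.sizesNum
    obtain ⟨k, t, m', β, h', c⟩ := D
    refine (esize_rup_le _ _).trans ?_
    unfold QP
    omega
  ptX := Sizes_idx.X
  ptHgt := by
    simp only [eng]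
    fun_prop
  ptGam := (Sizes_idx.gm Sizes_u).pt
  ptOm := (Sizes_idx.om Sizes_u).pt
  ptWid := by
    have := Sizes_idx.wid Sizes_u
    simp only [eng]
    fun_prop
  ptTp := pt_rk
  ptPot := pt_pot
  ptPlan := pt_plan
  ptRule := pt_rule

end Crest.Agent.R288
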