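/-
R288/TopPar: the number of random bits and the running time are almost linear.
-/
import Crest.Agent.R288.AccPr
import Crest.Agent.R288.RamPar

set_option autoImplicit false

namespace Crest.Agent.R288

namespace Pa

/-- The overhead exponent. -/
def EX (P : Pa) : ℕ :=
  P.D + 14 + 2 * P.Lx + 14 * P.Lx * P.rk P.root + 44 * P.p * (P.L / P.d) + P.g + P.kap +
    (P.qx + 3) ^ 2

variable {P : Pa}

theorem tp_lin {g : ℕ} (hg : 20 ≤ g) : 704 * g ≤ 2 ^ g := by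
  induction g, hg using Nat.le_induction with
  | base => norm_num
  | succ n hn ih => rw [pow_succ]; omega

theorem tp_rk (P : Pa) : P.rk P.root = P.L / P.D + 1 + P.T * (P.D + 5 * P.M + 2) + P.D := rfl

theorem tp_pot (P : Pa) : P.pot P.root =
    2 ^ (P.Lx + 14 * P.Lx * P.rk P.root + 44 * P.p * (P.L / P.d) + P.cmax) := rfl

theorem tp_L (P : Pa) : P.L ≤ P.l1 + P.D := by
  have := Nat.div_mul_le_self P.l1 P.D
  unfold L
  rw [add_mul]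
  omega

theorem OK.tp_ad (hP : P.OK) : 4 * (P.g * (P.D + 14 + 2 * P.Lx + P.g + P.kap + (P.qx + 3) ^ 2 +
    14 * P.Lx * (1 + P.T * (P.D + 2) + P.D))) ≤ P.l1 := by
  have h1 := hP.kap_le
  have h2 := hP.wx_le
  have h3 := hP.gp
  have h4 := hP.T_le
  have h5 : P.kap = P.D + 12 * P.Lx := rfl
  have h6 : P.qx = 3 * P.kap := rfl
  have h7 : 2 ^ (2 * P.p * 4 + 6) ≤ 4 * P.l1 :=
    (Nat.pow_le_pow_right two_pos (by omega)).trans hP.le_l1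
  rw [pow_add, pow_mul] at h7
  generalize 2 ^ (2 * P.p) = y at h1 h7
  have a1 : (P.qx + 3) ^ 2 ≤ y ^ 2 := Nat.pow_le_pow_left (by omega) 2
  have a2 : 1 + P.T * (P.D + 2) + P.D ≤ y * y :=
    le_trans (by rw [add_mul, one_mul]; omega)
      (Nat.mul_le_mul (show P.T + 1 ≤ y by omega) (show P.D + 2 ≤ y by omega))
  have a3 : 14 * P.Lx * (1 + P.T * (P.D + 2) + P.D) ≤ y * (y * y) := Nat.mul_le_mul (by omega) a2
  have a4 : y ≤ y ^ 3 := Nat.le_self_pow (by norm_num) _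
  have a5 : y ^ 2 ≤ y ^ 3 := Nat.pow_le_pow_right (by omega) (by norm_num)
  have a6 : y * (y * y) = y ^ 3 := by ring
  have a7 : P.g * (P.D + 14 + 2 * P.Lx + P.g + P.kap + (P.qx + 3) ^ 2 +
      14 * P.Lx * (1 + P.T * (P.D + 2) + P.D)) ≤ y * (3 * y ^ 3) :=
    Nat.mul_le_mul (by omega) (by omega)
  have a8 : y * (3 * y ^ 3) = 3 * y ^ 4 := by ring
  omega

theorem OK.tp_b (hP : P.OK) : 4 * (14 * P.Lx * P.g * (P.L / P.D)) ≤ P.l1 := by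
  have h1 := hP.pd
  have h2 := hP.gp
  have h3 := hP.L_le
  have h4 := Nat.div_mul_le_self P.L P.D
  have h5 := hP.Par_l3_ge
  have h6 := hP.Par_l32
  have h7 : 224 * P.g * (P.Lx * (P.L / P.D)) ≤ P.d * (2 * P.l2 * (P.L / P.D)) :=
    Nat.mul_le_mul (by omega) (Nat.mul_le_mul_right _ (by unfold Lx; omega))
  have h8 : P.d * (2 * P.l2 * (P.L / P.D)) = 2 * (P.L / P.D * P.D) := by
    rw [show P.L / P.D * P.D = P.L / P.D * (P.d * P.l2) from rfl]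
    ring
  have h9 : 224 * P.g * (P.Lx * (P.L / P.D)) = 16 * (14 * P.Lx * P.g * (P.L / P.D)) := by ring
  omega

theorem OK.tp_c (hP : P.OK) : 4 * (70 * P.Lx * P.g * P.T * P.M) ≤ P.l1 := by
  have h1 := hP.pd
  have h2 := hP.gp
  have h3 := hP.wx_le
  have h4 := hP.Lx_le
  have h5 : P.T ≤ 2 * P.p ^ 2 * P.Lx := by
    have a1 : P.d * P.l2 ≤ P.p ^ 2 * P.Lx := Nat.mul_le_mul hP.d_le (Nat.le_add_right _ _)
    have a2 : 2 * P.Lx ≤ P.p ^ 2 * P.Lx :=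
      Nat.mul_le_mul_right _ (le_trans (by omega) hP.d_le)
    rw [mul_assoc]
    unfold T D
    omega
  have h6 : 4480 * P.p ^ 3 ≤ P.Lx := by
    refine le_trans ?_ hP.poly_p_le
    have a1 : 5 * P.p ^ 3 ≤ P.p * P.p ^ 3 := Nat.mul_le_mul_right _ (by omega)
    rw [show P.p * P.p ^ 3 = P.p ^ 4 by ring] at a1
    omega
  have h7 : P.Lx ^ 3 ≤ (2 * 2 ^ P.p) ^ 3 :=
    Nat.pow_le_pow_left (by have := Nat.two_pow_pos P.p; omega) 3
  have h8 : 8 * (280 * P.Lx * P.g * P.T) ≤ 8 * 2 ^ (3 * P.p) :=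
    calc 8 * (280 * P.Lx * P.g * P.T) ≤ 8 * (280 * P.Lx * P.p * (2 * P.p ^ 2 * P.Lx)) := by
          gcongr
          omega
      _ = 4480 * P.p ^ 3 * P.Lx ^ 2 := by ring
      _ ≤ P.Lx * P.Lx ^ 2 := Nat.mul_le_mul_right _ h6
      _ = P.Lx ^ 3 := by ring
      _ ≤ _ := h7
      _ = _ := by rw [mul_pow, ← pow_mul, mul_comm P.p]; norm_num
  calc 4 * (70 * P.Lx * P.g * P.T * P.M) = P.M * (280 * P.Lx * P.g * P.T) := by ring
    _ ≤ P.M * 2 ^ (3 * P.p) := Nat.mul_le_mul_left _ (Nat.le_of_mul_le_mul_left h8 (by norm_num))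
    _ ≤ _ := hP.M_le

theorem OK.tp_e (hP : P.OK) : 4 * (44 * P.p * P.g * (P.L / P.d)) ≤ P.l1 := by
  have h1 := (tp_lin hP.g_ge).trans hP.Par_l3
  have h2 := hP.Par_l3_ge
  have h3 := hP.L_le
  have h4 := Nat.div_mul_le_self P.L P.d
  have h5 : 704 * P.g * P.p ≤ P.l3 * (2 * P.l3) := Nat.mul_le_mul h1 (by unfold p; omega)
  have h6 := Nat.mul_le_mul_left (P.L / P.d) h5
  have h7 : P.L / P.d * (P.l3 * (2 * P.l3)) = 2 * (P.L / P.d * P.d) := by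
    rw [show P.L / P.d * P.d = P.L / P.d * P.l3 ^ 2 from rfl]
    ring
  have h8 : P.L / P.d * (704 * P.g * P.p) = 16 * (44 * P.p * P.g * (P.L / P.d)) := by ring
  omega

/-- `rk root = L / D + 1 + T (D + 5 M + 2) + D`.  Five terms, each at most `l1 / 8` after
multiplication by `g`:
(a) `D + 14 + 2 Lx + g + kap + (3 kap + 3)² ≤ 2^(4p+1)` (`OK.kap_le`), `g ≤ 2^p`, `l1 ≥ 2^Lx / 4`,
`Lx ≥ 1000 p⁴`;
(b) `14 Lx (L / D) g ≤ 56 g l1 / d` (`D = d l2`, `Lx ≤ 2 l2`, `L ≤ 2 l1`, `d ≥ 100 p ≥ 10⁴ g`);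
(c) `70 Lx g T M ≤ 70 Lx g T l1 / 2^(3p)` with `T ≤ 2 d Lx`, `d ≤ p²`, `g ≤ p`,
`1120 p³ Lx² ≤ Lx³ / 8 ≤ 2^(3p)`;
(d) `14 Lx g (1 + T (D + 2) + D) ≤ 2^(6p+6)`;
(e) `44 p g (L / d) ≤ 88 p g l1 / d` with `d = (p - 1)²`, `2816 g ≤ 2^g ≤ p`. -/
theorem OK.ex_le (hP : P.OK) : P.g * P.EX ≤ P.l1 := by
  have e : P.g * P.EX = P.g * (P.D + 14 + 2 * P.Lx + P.g + P.kap + (P.qx + 3) ^ 2 +
      14 * P.Lx * (1 + P.T * (P.D + 2) + P.D)) + 14 * P.Lx * P.g * (P.L / P.D) +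
      70 * P.Lx * P.g * P.T * P.M + 44 * P.p * P.g * (P.L / P.d) := by
    rw [EX, tp_rk]
    ring
  have h1 := hP.tp_ad
  have h2 := hP.tp_b
  have h3 := hP.tp_c
  have h4 := hP.tp_e
  omega

theorem OK.tp_ex (hP : P.OK) : P.EX ≤ P.l1 / P.g :=
  (Nat.le_div_iff_mul_le (by have := hP.g_ge; omega)).2 ((mul_comm _ _).trans_le hP.ex_le)

/-- `rk root + 1 ≤ l1 + 1 ≤ 2^Lx` (`OK.base_le`), `cmax ≤ L + g + 10 + kap`, `L ≤ l1 + D`. -/
theorem OK.tape_le (hP : P.OK) :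
    (P.rk P.root + 1) * P.pot P.root ≤ 2 ^ (P.l1 + 2 + P.l1 / P.g) := by
  have h1 : P.rk P.root + 1 ≤ 2 ^ P.Lx := by
    have a1 : P.rk P.root ≤ P.l1 := hP.base_le
    have a2 := hP.l1_lt
    omega
  have h2 := hP.tp_ex
  have h3 := tp_L P
  refine (Nat.mul_le_mul_right _ h1).trans ?_
  rw [tp_pot, ← pow_add]
  refine Nat.pow_le_pow_right two_pos ?_
  unfold EX at h2
  unfold cmax c0
  omega

/-- `qp (QP P) = 2 ^ (qx + 3)²`, `X + 1 ≤ 2^(e+3)`, `cmax = L - e + g + 10 + kap`. -/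
theorem OK.time_le (hP : P.OK) :
    qp (QP P) * ((P.X + 1) * P.pot P.root + 2 ^ (P.l1 + 1)) ≤ 2 ^ (P.l1 + 2 + P.l1 / P.g) := by
  have h1 : qp (QP P) = 2 ^ ((P.qx + 3) ^ 2) := by
    rw [qp, QP, hP.pad_eq, show 4 * 2 ^ P.qx = 2 ^ (P.qx + 2) by ring, Nat.size_pow]
  have h2 := hP.tp_ex
  have h3 := tp_L P
  have h4 := hP.e_le
  have h5 : P.X + 1 ≤ 2 ^ (P.e + 3) := by
    have := Nat.two_pow_pos (P.e + 2)
    rw [X, pow_succ 2 (P.e + 2)]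
    omega
  have h6 : 2 ^ ((P.qx + 3) ^ 2) * ((P.X + 1) * P.pot P.root) ≤ 2 ^ (P.l1 + 1 + P.l1 / P.g) := by
    refine (Nat.mul_le_mul_left _ (Nat.mul_le_mul_right _ h5)).trans ?_
    rw [tp_pot, ← pow_add, ← pow_add]
    refine Nat.pow_le_pow_right two_pos ?_
    unfold EX at h2
    unfold cmax c0
    omega
  have h7 : 2 ^ ((P.qx + 3) ^ 2) * 2 ^ (P.l1 + 1) ≤ 2 ^ (P.l1 + 1 + P.l1 / P.g) := by
    rw [← pow_add]
    refine Nat.pow_le_pow_right two_pos ?_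
    unfold EX at h2
    omega
  rw [h1, mul_add, show P.l1 + 2 + P.l1 / P.g = P.l1 + 1 + P.l1 / P.g + 1 by omega,
    pow_succ 2 (P.l1 + 1 + P.l1 / P.g)]
  omega

end Pa

/-- As in `Ram.par_time` (`Ram.gN_large`). -/
theorem almostLin_UN (C : ℝ) :
    AlmostLin fun N => C * (((Nat.log 2 N : ℝ) + 1) * (UN N : ℝ)) := by
  intro δ hδ
  have hδ2 : 0 < δ / 2 := half_pos hδ
  obtain ⟨N₁, h1⟩ := Ram.par_time (Tm := fun _ => 0)
    (fun _ _ => ⟨0, fun N _ => Real.rpow_nonneg (Nat.cast_nonneg _) _⟩) 0 1 0 hδ2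
  obtain ⟨N₂, h2⟩ := Ram.par_log ⌈C⌉₊ 1 hδ2
  refine ⟨max (max N₁ N₂) 1, fun N hN => ?_⟩
  have a1 : (UN N : ℝ) ≤ (N : ℝ) ^ (1 + δ / 2) := by
    refine le_trans (Nat.cast_le.2 ?_) (h1 N (by omega) 0 0 (Nat.zero_le _) (by simp))
    rw [one_mul]
    exact Nat.le_add_left _ _
  have a2 : C * ((Nat.log 2 N : ℝ) + 1) ≤ (N : ℝ) ^ (δ / 2) := by
    refine le_trans ?_ (h2 N (by omega))
    push_cast
    rw [pow_one]
    exact mul_le_mul (Nat.le_ceil C) (by linarith) (by positivity) (Nat.cast_nonneg _)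
  have a3 : (0 : ℝ) < N := Nat.cast_pos.2 (by omega)
  change C * (((Nat.log 2 N : ℝ) + 1) * (UN N : ℝ)) ≤ _
  rw [← mul_assoc, show 1 + δ = δ / 2 + (1 + δ / 2) by ring, Real.rpow_add a3]
  exact mul_le_mul a2 a1 (Nat.cast_nonneg _) (Real.rpow_nonneg a3.le _)

end Crest.Agent.R288
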