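/-
R288/Top: the fast algorithm and its correctness.
-/
import Crest.Agent.R288.Phase
import Crest.Agent.R288.TopPar

set_option autoImplicit false

namespace Crest.Agent.R288

open Finset Crest.GraphRAM

/-- Parameters from their components. -/
def Pa.of (n l e : ℕ) : Pa := (List.replicate n (), l, e)

/-- The parameters for inputs of total length `N` and the guess `e`. -/
def mkPa (N e : ℕ) : Pa := Pa.of (2 ^ (Pa.of 0 (Nat.log 2 N) 0).qx) (Nat.log 2 N) e

/-- The largest guess. -/
def LN (N : ℕ) : ℕ := (Pa.of 0 (Nat.log 2 N) 0).L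

/-- The fast algorithm. -/
def fastF (x y : List ℕ) (r : List Bool) : ℕ :=
  if x = y then 0 else
  if gN (x.length + y.length) < 20 then x.length + y.length else
    ((List.range (LN (x.length + y.length) + 1)).map fun e =>
      (mkPa (x.length + y.length) e).ans x y fun i => r.getD i false).foldr min
      (x.length + y.length)

theorem Pa.of_l1 (n l e : ℕ) : (Pa.of n l e).l1 = l := rfl
theorem Pa.of_e (n l e : ℕ) : (Pa.of n l e).e = e := rfl
theorem Pa.of_pad (n l e : ℕ) : (Pa.of n l e).pad = n := List.length_replicate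
theorem mkPa_l1 (N e : ℕ) : (mkPa N e).l1 = Nat.log 2 N := Pa.of_l1 _ _ _
theorem mkPa_e (N e : ℕ) : (mkPa N e).e = e := Pa.of_e _ _ _
theorem mkPa_g (N e : ℕ) : (mkPa N e).g = gN N := by
  simp only [Pa.g, Pa.l3, Pa.l2, mkPa_l1, gN]
/-- (Do not try `rfl` on such goals: unfold with `simp only`.) -/
theorem mkPa_L (N e : ℕ) : (mkPa N e).L = LN N := by
  simp only [LN, Pa.L, Pa.D, Pa.d, Pa.l3, Pa.l2, mkPa_l1, Pa.of_l1]

theorem mkPa_ok {N e : ℕ} (hN : 20 ≤ gN N) (he : e ≤ LN N) : (mkPa N e).OK := by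
  refine ⟨?_, ?_, ?_⟩
  · have h : (mkPa N e).pad = 2 ^ (Pa.of 0 (Nat.log 2 N) 0).qx := Pa.of_pad _ _ _
    rw [h]
    simp only [Pa.qx, Pa.kap, Pa.D, Pa.d, Pa.Lx, Pa.l3, Pa.l2, mkPa_l1, Pa.of_l1]
  · rw [mkPa_g]; exact hN
  · rw [mkPa_e, mkPa_L]; exact he

theorem top_foldr_le_init (l : List ℕ) (a : ℕ) : l.foldr min a ≤ a := by
  induction l with
  | nil => exact le_rfl
  | cons b l ih => exact (min_le_right _ _).trans ih

theorem top_foldr_le_mem {l : List ℕ} {b : ℕ} (hb : b ∈ l) (a : ℕ) : l.foldr min a ≤ b := by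
  induction l with
  | nil => simp at hb
  | cons c l ih =>
    rcases List.mem_cons.1 hb with rfl | h
    · exact min_le_left _ _
    · exact (min_le_right _ _).trans (ih h)

theorem top_le_foldr {l : List ℕ} {a c : ℕ} (ha : c ≤ a) (h : ∀ b ∈ l, c ≤ b) :
    c ≤ l.foldr min a := by
  induction l with
  | nil => exact ha
  | cons b l ih =>
    exact le_min (h b List.mem_cons_self) (ih fun b' hb' => h b' (List.mem_cons_of_mem _ hb'))

theorem top_editDist_self (x : List ℕ) : editDist x x = 0 := by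
  induction x with
  | nil => rfl
  | cons a x ih => simp [editDist, editDist.row, ih]

theorem top_lt_pow {N : ℕ} (hN : 20 ≤ gN N) : N < 2 ^ LN N := by
  have h := (mkPa_ok hN (Nat.zero_le _)).l1_lt_L
  rw [mkPa_l1, mkPa_L] at h
  exact (Nat.lt_pow_succ_log_self (by norm_num) N).trans_le (Nat.pow_le_pow_right two_pos h)

theorem top_Pr_mono {n : ℕ} {E E' : (ℕ → Bool) → Prop}
    (h : ∀ v : Fin n → Bool, E (ext v) → E' (ext v)) : Pr n E ≤ Pr n E' := by
  unfold Pr Ex
  refine div_le_div_of_nonneg_right (sum_le_sum fun v _ => ?_) (by positivity)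
  by_cases h1 : E (ext v)
  · simp [h1, h v h1]
  · simp only [h1, if_false]
    split_ifs <;> norm_num

theorem top_getD {n : ℕ} (v : Fin n → Bool) :
    (fun i => ((List.range n).map (ext v)).getD i false) = ext v := by
  funext i
  by_cases hi : i < n
  · simp [List.getD, hi]
  · simp [List.getD, hi, ext]

theorem top_exp {t : ℝ} (ht : 4 ≤ t) : t * Real.exp (-t) ≤ 1 / 3 := by
  have h := Real.quadratic_le_exp_of_nonneg (show 0 ≤ t by linarith)
  rw [Real.exp_neg, ← div_eq_mul_inv, div_le_iff₀ (Real.exp_pos t)]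
  nlinarith

theorem fastF_le (x y : List ℕ) (r : List Bool) : fastF x y r ≤ x.length + y.length := by
  unfold fastF
  split_ifs
  · exact Nat.zero_le _
  · exact le_rfl
  · exact top_foldr_le_init _ _

theorem fastF_zero (x : List ℕ) (r : List Bool) : fastF x x r = 0 := by
  unfold fastF
  rw [if_pos rfl]

/-- If all guesses are accurate: `Pa.le_ans` for every guess, `Pa.ans_le` for `e = clog 2 ED`
(`ED ≥ 1` by `editDist_eq_zero`, `e ≤ l1 + 1 ≤ L` by `editDist_le_add`, `OK.l1_lt_L`). -/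
theorem fastF_good {x y : List ℕ} {r : List Bool} (hN : 20 ≤ gN (x.length + y.length))
    (hA : ∀ e ≤ LN (x.length + y.length), (mkPa (x.length + y.length) e).Acc
      (mis x y (mkPa (x.length + y.length) e).X)
      (tapesOf ((mkPa (x.length + y.length) e).pot (mkPa (x.length + y.length) e).root)
        fun i => r.getD i false)) :
    editDist x y ≤ fastF x y r ∧
      (fastF x y r : ℝ) ≤ (1 + (1 / 2 : ℝ) ^ gN (x.length + y.length)) * editDist x y := by
  by_cases hxy : x = y
  · subst hxy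
    rw [fastF_zero, top_editDist_self]
    simp
  have hlt := top_lt_pow hN
  have hx : ∀ e, x.length ≤ 2 ^ (mkPa (x.length + y.length) e).L := fun e => by
    rw [mkPa_L]; omega
  have hle := editDist_le_add x y
  unfold fastF
  rw [if_neg hxy, if_neg (not_lt.2 hN)]
  constructor
  · refine top_le_foldr hle fun b hb => ?_
    obtain ⟨e, he, rfl⟩ := List.mem_map.1 hb
    have he' : e ≤ LN (x.length + y.length) := Nat.lt_succ_iff.1 (List.mem_range.1 he)
    exact Pa.le_ans (mkPa_ok hN he') (hx e) (hA e he')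
  · have h0 : editDist x y ≠ 0 := fun h => hxy (editDist_eq_zero h)
    have he' : Nat.clog 2 (editDist x y) ≤ LN (x.length + y.length) :=
      (Nat.clog_le_iff_le_pow (by norm_num)).2 (by omega)
    have h1 : editDist x y ≤ 2 ^ Nat.clog 2 (editDist x y) := Nat.le_pow_clog (by norm_num) _
    have h2 : 2 ^ Nat.clog 2 (editDist x y) ≤ 2 * editDist x y := by
      rcases Nat.lt_or_ge 1 (editDist x y) with h | h
      · have h3 := Nat.pow_pred_clog_lt_self (b := 2) (by norm_num) h
        have h4 : 0 < Nat.clog 2 (editDist x y) := Nat.clog_pos (by norm_num) h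
        obtain ⟨k, hk⟩ := Nat.exists_eq_succ_of_ne_zero h4.ne'
        rw [hk] at h3 ⊢
        rw [Nat.pred_succ] at h3
        rw [pow_succ]
        omega
      · rw [Nat.clog_of_right_le_one h]
        omega
    have h5 := Pa.ans_le (mkPa_ok hN he') (hx _) (hA _ he') (by rw [mkPa_e]; exact h1)
      (by rw [mkPa_e]; exact h2)
    rw [mkPa_g] at h5
    refine le_trans ?_ h5
    exact Nat.cast_le.2 (top_foldr_le_mem
      (List.mem_map.2 ⟨_, List.mem_range.2 (Nat.lt_succ_of_le he'), rfl⟩) _)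

/-- `Ram.gN_large 20`, `prBits_eq`; `Pr U` only looks at streams `ext v`, for which
`fun i => ((range U).map ρ).getD i false` is `ρ`; union bound over the `L + 1 ≤ 2^Lx` guesses with
`Pa.pr_not_acc`, `OK.tape_le`; `n exp (-n) ≤ 1/3` for `n = 2^Lx ≥ 4`. -/
theorem fastF_prob : ∃ N₀ : ℕ, ∀ x y : List ℕ, N₀ ≤ x.length + y.length →
    2 / 3 ≤ prBits (UN (x.length + y.length)) fun r =>
      editDist x y ≤ fastF x y r ∧
        (fastF x y r : ℝ) ≤ (1 + (1 / 2 : ℝ) ^ gN (x.length + y.length)) * editDist x y := by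
  obtain ⟨N₀, hN₀⟩ := Ram.gN_large 20
  refine ⟨N₀, fun x y hN => ?_⟩
  have hg := hN₀ _ hN
  rw [prBits_eq]
  set N := x.length + y.length with hNdef
  let Bad : ℕ → (ℕ → Bool) → Prop := fun e ρ =>
    ¬ (mkPa N e).Acc (mis x y (mkPa N e).X) (tapesOf ((mkPa N e).pot (mkPa N e).root) ρ)
  have hLx : ∀ e, (mkPa N e).Lx = (mkPa N 0).Lx := fun e => by
    simp only [Pa.Lx, Pa.l2, mkPa_l1]
  have h1 : Pr (UN N) (fun ρ => ∃ e ∈ range (LN N + 1), Bad e ρ) ≤
      (range (LN N + 1)).card * Real.exp (-2 ^ (mkPa N 0).Lx) := by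
    refine Pr_exists_le_card _ _ fun e he => ?_
    have hP := mkPa_ok hg (Nat.lt_succ_iff.1 (mem_range.1 he))
    rw [← hLx e]
    refine Pa.pr_not_acc _ hP ?_
    have := hP.tape_le
    rwa [mkPa_l1, mkPa_g] at this
  have hP := mkPa_ok hg (Nat.zero_le (LN N))
  have h2 : ((range (LN N + 1)).card : ℝ) ≤ 2 ^ (mkPa N 0).Lx := by
    have := hP.L_lt
    rw [mkPa_L] at this
    rw [card_range]
    exact_mod_cast this
  have h3 : (4 : ℝ) ≤ 2 ^ (mkPa N 0).Lx := by
    have : 2 ≤ (mkPa N 0).Lx := Nat.le_add_left _ _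
    calc (4 : ℝ) = 2 ^ 2 := by norm_num
      _ ≤ _ := pow_le_pow_right₀ one_le_two this
  have h4 := top_exp h3
  have h5 : Pr (UN N) (fun ρ => ∃ e ∈ range (LN N + 1), Bad e ρ) ≤ 1 / 3 :=
    h1.trans ((mul_le_mul_of_nonneg_right h2 (Real.exp_pos _).le).trans h4)
  have h6 := Pr_not (n := UN N) (E := fun ρ => ∃ e ∈ range (LN N + 1), Bad e ρ)
  refine le_trans (by linarith) (h6.symm.trans_le (top_Pr_mono fun v hv => ?_))
  refine fastF_good hg fun e he => ?_
  rw [top_getD]
  by_contra hb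
  exact hv ⟨e, mem_range.2 (Nat.lt_succ_of_le he), hb⟩

end Crest.Agent.R288
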