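/-
R288/TopAlg: the running time of the fast algorithm.
-/
import Crest.Agent.R288.Top
import Crest.Agent.R288.EngAlg
import Crest.Agent.R288.Sizes

set_option autoImplicit false

namespace Crest.Agent.R288

open Crest.Agent.Lib.PolyTime Crest.Agent.R326

theorem TopAlg_eq_iff (l m : List ℕ) : l = m ↔ l.length = m.length ∧
    ((l.zip m).map fun q : ℕ × ℕ => if q.1 = q.2 then ([] : List Unit) else [()]).flatten = [] := by
  induction l generalizing m with
  | nil => cases m <;> simp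
  | cons a l ih =>
    cases m with
    | nil => simp
    | cons b m =>
      by_cases h : a = b
      · simp only [List.cons.injEq, h, true_and, List.length_cons, add_left_inj, List.zip_cons_cons,
          List.map_cons, if_true, List.flatten_cons, List.nil_append]
        exact ih m
      · simp [h]

/-- The equality test of two strings. -/
def TopAlg_EqOK (k : ℕ) : Prop :=
  ∀ (α X : Type) [Enc X] (𝔅 : Bud α) (x : α → X) (l m : α → List ℕ), L 𝔅 x l → L 𝔅 x m →
    ((fun a => ((l a).length + 1) * (symBits (l a) (m a) + 1) ^ k) ≼ 𝔅.V) →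
    L 𝔅 x fun a => decide (l a = m a)

theorem TopAlg_eq : ∃ k : ℕ, ∀ k', k ≤ k' → TopAlg_EqOK k' := by
  have hφ : PT fun q : Unit × ℕ × ℕ => if q.2.1 = q.2.2 then ([] : List Unit) else [()] := by
    fun_prop
  obtain ⟨t, ⟨k, ht⟩, hf⟩ := hφ
  refine ⟨k + 1, fun k' hk' α X _ 𝔅 x l m hl hm hV => L.with_sz fun hx => ?_⟩
  have hq : ∀ q : {q : α × ℕ × ℕ // q.2 ∈ (l q.1).zip (m q.1)},
      esize (((), q.1.2) : Unit × ℕ × ℕ) + 1 ≤ 12 * (symBits (l q.1.1) (m q.1.1) + 1) := fun q => by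
    obtain ⟨⟨a, u, v⟩, hq⟩ := q
    have a1 := Eng.size_le_symBits_x (y := m a) (List.of_mem_zip hq).1
    have a2 := Eng.size_le_symBits_y (x := l a) (List.of_mem_zip hq).2
    have a3 : esize () = 1 := rfl
    dsimp only at a1 a2 ⊢
    rw [esize_pair, esize_pair, esize_nat, esize_nat, a3]
    omega
  have hS : (fun a => (((l a).zip (m a)).map
      fun _ => (symBits (l a) (m a) + 1) ^ k').sum) ≼ 𝔅.V :=
    hV.mono_left fun a => by
      simp only [List.map_const', List.sum_replicate, smul_eq_mul, List.length_zip]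
      exact Nat.mul_le_mul_right _ ((min_le_left _ _).trans (Nat.le_succ _))
  have h1 : L 𝔅 x fun a => ((l a).zip (m a)).map
      fun q : ℕ × ℕ => if q.1 = q.2 then ([] : List Unit) else [()] := by
    refine ((L.const ()).pair (hl.zip hm)).cp ((Cp.map (fun _ => ()) (fun a => (l a).zip (m a))
      (fun _ (q : ℕ × ℕ) => if q.1 = q.2 then ([] : List Unit) else [()])
      (fun a _ => (symBits (l a) (m a) + 1) ^ k')
      (fun a _ => (((symBits (l a) (m a) + 1) ^ k' : ℕ) : ℝ)) (fun _ _ => 0) (fun _ _ => le_rfl)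
      ⟨12, fun q => ?_⟩ (L.ofTC (hf.reindex _) fun _ => ⟨12 ^ k, fun q => ?_⟩)
      ((Bud.toF hS).mono_left fun a => by simp) hS).mono fun a => by simp)
    · exact ((Nat.le_succ _).trans (hq q)).trans
        (Nat.mul_le_mul_left _ (Nat.le_self_pow (by omega) _))
    · refine ((ht _).trans (Nat.pow_le_pow_left (hq q) k)).trans ?_
      rw [mul_pow]
      exact Nat.mul_le_mul_left _ (Nat.pow_le_pow_right (by omega) (by omega))
  refine (L.cond ((S.length hl hx).eq (S.length hm hx)).l h1.flatten.isEmpty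
    (L.const false)).congr fun a => ?_
  rw [Bool.eq_iff_iff, decide_eq_true_iff, TopAlg_eq_iff]
  by_cases h : (l a).length = (m a).length <;> simp [h]

theorem TopAlg_lt_UN (N : ℕ) : 2 * N + 2 ≤ UN N := by
  have h1 : N < 2 ^ (Nat.log 2 N + 1) := Nat.lt_pow_succ_log_self (by norm_num) N
  have h2 : 2 ^ (Nat.log 2 N + 2) ≤ UN N :=
    Nat.pow_le_pow_right (by norm_num) (Nat.le_add_right _ _)
  rw [pow_succ 2 (Nat.log 2 N + 1)] at h2
  omega

/-- The size budget of one guess. -/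
def TopAlg_W (k : ℕ) (p : FIn) : ℕ :=
  UN (p.1.1.length + p.1.2.1.length) * (symBits p.1.1 p.1.2.1 + 1) ^ k

theorem TopAlg_UN_le (k : ℕ) (p : FIn) : UN (p.1.1.length + p.1.2.1.length) ≤ TopAlg_W k p :=
  Nat.le_mul_of_pos_right _ (by positivity)

theorem TopAlg_sz {k : ℕ} (hk : 1 ≤ k) : sz (fun p : FIn => p.1) ≼ TopAlg_W k := by
  refine ⟨20, fun p => ?_⟩
  obtain ⟨⟨x, y, r⟩, hr⟩ := p
  have h1 := esize_natList_le fun n hn => Eng.size_le_symBits_x (x := x) (y := y) (n := n) hn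
  have h2 := esize_natList_le fun n hn => Eng.size_le_symBits_y (x := x) (y := y) (n := n) hn
  have h3 := esize_boolList_le r
  have h4 := TopAlg_lt_UN (x.length + y.length)
  have h5 : symBits x y + 1 ≤ (symBits x y + 1) ^ k := Nat.le_self_pow (by omega) _
  simp only [sz, esize_pair, TopAlg_W] at hr ⊢
  rw [hr] at h3
  have h6 : (symBits x y + 1) * (x.length + y.length) ≤
      UN (x.length + y.length) * (symBits x y + 1) ^ k := by
    rw [mul_comm]
    exact Nat.mul_le_mul (by omega) h5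
  have h7 : UN (x.length + y.length) ≤ UN (x.length + y.length) * (symBits x y + 1) ^ k :=
    Nat.le_mul_of_pos_right _ (by positivity)
  rw [mul_add] at h6
  omega

theorem TopAlg_take (r : List Bool) {n : ℕ} (h : n ≤ r.length) :
    r.take n = (List.range n).map fun i => r.getD i false := by
  refine List.ext_getElem (by simp [h]) fun i h1 h2 => ?_
  simp only [List.length_map, List.length_range] at h2
  simp [List.getD_eq_getElem?_getD, List.getElem?_eq_getElem (h2.trans_le h)]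

/-- Small data of one guess. -/
abbrev TopAlg_B : Type := {P : Pa // P.OK} × ℕ × ℕ

/-- `z0` from the lengths. -/
def TopAlg_z (b : TopAlg_B) : St :=
  (b.1.1.X / 2, min b.1.1.X (b.1.1.X / 2 + b.2.2 - b.2.1))

theorem TopAlg_idx : PIdx fun b : TopAlg_B => b.1.1 := ⟨by fun_prop, fun b => b.1.2⟩

theorem TopAlg_pt_z : PT TopAlg_z := by
  have hX := TopAlg_idx.X
  unfold TopAlg_z
  fun_prop

theorem TopAlg_pt_rd : PT fun b : TopAlg_B => b.1.1.rd b.1.1.L (TopAlg_z b) :=
  TopAlg_idx.rd TopAlg_idx.L TopAlg_pt_z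

theorem TopAlg_pt_root : PT fun b : TopAlg_B => b.1.1.root :=
  p1_De (PT.const 1) TopAlg_idx.T.pt TopAlg_idx.D.pt (PT.const 0) TopAlg_idx.L.pt (PT.const 0)

theorem TopAlg_pt_len :
    PT fun b : TopAlg_B => (b.1.1.rk b.1.1.root + 1) * b.1.1.pot b.1.1.root := by
  have h : PT fun b : TopAlg_B =>
      (⟨(b.1.1, b.1.1.root), Pa.good_root b.1.2⟩ : {a : Pa × De // Good a.1 a.2}) :=
    PT.subtypeMk (TopAlg_idx.pt.prodMk TopAlg_pt_root) _
  have h1 := pt_rk.comp h
  have h2 := pt_pot.comp h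
  dsimp only at h1 h2
  exact (h1.nat_add (PT.const 1)).nat_mul h2

/-- The answer from the small data and the table value. -/
def TopAlg_fin (b : TopAlg_B) (v : ℚ) : ℕ :=
  if (TopAlg_z b).2 + b.2.1 = b.1.1.X / 2 + b.2.2 ∧
      v + dst (TopAlg_z b) (b.1.1.rd b.1.1.L (TopAlg_z b)) < b.1.1.X then
    ⌊v + dst (TopAlg_z b) (b.1.1.rd b.1.1.L (TopAlg_z b))⌋₊
  else b.2.1 + b.2.2

theorem TopAlg_pt_fin : PT fun q : TopAlg_B × ℚ => TopAlg_fin q.1 q.2 := by
  have hX : PT fun q : TopAlg_B × ℚ => q.1.1.1.X := TopAlg_idx.X.comp PT.fst'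
  have hz : PT fun q : TopAlg_B × ℚ => TopAlg_z q.1 := TopAlg_pt_z.comp PT.fst'
  have hr : PT fun q : TopAlg_B × ℚ => q.1.1.1.rd q.1.1.1.L (TopAlg_z q.1) :=
    TopAlg_pt_rd.comp PT.fst'
  have hv : PT fun q : TopAlg_B × ℚ =>
      q.2 + dst (TopAlg_z q.1) (q.1.1.1.rd q.1.1.1.L (TopAlg_z q.1)) :=
    PT.snd'.rat_add (pt_dst hz hr).rat_natCast
  have h1 : PT fun q : TopAlg_B × ℚ => q.1.2.1 := by fun_prop
  have h2 : PT fun q : TopAlg_B × ℚ => q.1.2.2 := by fun_prop
  unfold TopAlg_fin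
  exact PT.ite (((hz.snd.nat_add h1).eq ((hX.nat_div (PT.const 2)).nat_add h2)).and
    (hv.rat_lt hX.rat_natCast)) hv.rat_natFloor (h1.nat_add h2)

theorem TopAlg_esize_tab {P : Pa} {D : De} (h : Good P D) (ms tapes : ℕ → ℕ → Bool) (j : ℕ)
    (z : St) : esize (eng.tab P ms tapes D j z) ≤ QP P + esize (P.X : ℚ) := by
  unfold Eng.tab
  rw [Eng.ev]
  split_ifs
  · exact (eng_sm.out _ _ _ _ _ _ h).trans (Nat.le_add_right _ _)
  · exact Nat.le_add_left _ _

/-- The running time of the engine. -/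
def TopAlg_Eng (c : ℝ) (k : ℕ) : Prop :=
  Alg (fun a : EIn eng Good => (a.P, a.D, a.x, a.y,
        (List.range ((eng.tp a.P a.D + 1) * eng.pot a.P a.D)).map a.ρ, a.z))
    (fun a => eng.tab a.P (mis a.x a.y (eng.X a.P)) (tapesOf (eng.pot a.P a.D) a.ρ) a.D 0 a.z)
    (fun a => c * qp (QP a.P) * ((symBits a.x a.y : ℝ) + 1) ^ k *
      (((eng.X a.P : ℝ) + 1) * eng.pot a.P a.D + a.x.length + a.y.length))

section
variable {α X : Type} [Enc X] {𝔅 : Bud α} {x : α → X} {p : α → FIn}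

theorem TopAlg_q1_le {P : Pa} (hP : P.OK) {N : ℕ} (hl : P.l1 = Nat.log 2 N) (hg : P.g = gN N) :
    q1 (QP P) ≤ UN N := by
  have h1 := hP.time_le
  rw [hl, hg, ← UN] at h1
  exact (q1_le_qp _).trans (le_trans (Nat.le_mul_of_pos_right _
    (Nat.add_pos_right _ (Nat.two_pow_pos _))) h1)

/-- One guess. -/
theorem TopAlg_ans {c : ℝ} {k k' : ℕ} (hc : 0 ≤ c) (hk : k ≤ k') (halg : TopAlg_Eng c k)
    {P : α → Pa} (hP : ∀ a, (P a).OK)
    (hl : ∀ a, (P a).l1 = Nat.log 2 ((p a).1.1.length + (p a).1.2.1.length))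
    (hg : ∀ a, (P a).g = gN ((p a).1.1.length + (p a).1.2.1.length))
    (hV : (fun a => TopAlg_W k' (p a)) ≼ 𝔅.V) (hp : L 𝔅 x fun a => (p a).1) (hLP : L 𝔅 x P) :
    L 𝔅 x fun a => (P a).ans (p a).1.1 (p a).1.2.1 fun i => (p a).1.2.2.getD i false := by
  refine L.with_sz fun hx => ?_
  have hU : (fun a => UN ((p a).1.1.length + (p a).1.2.1.length)) ≼ 𝔅.V :=
    hV.mono_left fun a => TopAlg_UN_le _ _
  have hq : (fun a => q1 (QP (P a))) ≼ 𝔅.V :=
    hU.mono_left fun a => TopAlg_q1_le (hP a) (hl a) (hg a)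
  have hpol : Pol (fun a => QP (P a)) (sz fun a => (⟨P a, hP a⟩ : {P : Pa // P.OK})) :=
    Pol.of_le fun a => eng_sm.esP _ _ (Pa.good_root (hP a))
  have hSP : S 𝔅 x fun a => (⟨P a, hP a⟩ : {P : Pa // P.OK}) :=
    ⟨hLP.of_enc_eq fun _ => rfl, (hpol.smIn fun _ => le_rfl).mono hq⟩
  have hB : S 𝔅 x fun a =>
      ((⟨P a, hP a⟩, (p a).1.1.length, (p a).1.2.1.length) : TopAlg_B) :=
    hSP.pair ((S.length hp.fst hx).pair (S.length hp.snd.fst hx))
  have htape : ∀ a, ((P a).rk (P a).root + 1) * (P a).pot (P a).root ≤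
      UN ((p a).1.1.length + (p a).1.2.1.length) := fun a => by
    have h1 := (hP a).tape_le
    rwa [hl, hg, ← UN] at h1
  have hbits : L 𝔅 x fun a => (List.range (((P a).rk (P a).root + 1) * (P a).pot (P a).root)).map
      fun i => (p a).1.2.2.getD i false :=
    (L.take ((hB.pt TopAlg_pt_len).un (hU.mono_left htape)) hp.snd.snd).congr fun a =>
      TopAlg_take _ ((htape a).trans_eq (p a).2.symm)
  let φ : α → EIn eng Good := fun a =>
    ⟨P a, (P a).root, Pa.good_root (hP a), (p a).1.1, (p a).1.2.1,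
      fun i => (p a).1.2.2.getD i false, (P a).rd (P a).L ((P a).z0 (p a).1.1 (p a).1.2.1),
      (rdn_fst_le _ _).trans (Nat.div_le_self _ _), (rdn_snd_le _ _).trans (min_le_left _ _)⟩
  have hXq : Pol (fun a => QP (P a)) (sz fun a => ((P a).X : ℚ)) :=
    hpol.pt (φ := fun P : {P : Pa // P.OK} => (P.1.X : ℚ))
      (PIdx.X (P := fun P : {P : Pa // P.OK} => P.1) ⟨by fun_prop, fun P => P.2⟩).rat_natCast
  have hout : Pol (fun a => QP (P a)) (sz fun a => eng.tab (φ a).P
      (mis (φ a).x (φ a).y (eng.X (φ a).P)) (tapesOf (eng.pot (φ a).P (φ a).D) (φ a).ρ)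
        (φ a).D 0 (φ a).z) :=
    ((Pol.self _).add hXq).mono fun a => TopAlg_esize_tab (φ a).good _ _ _ _
  have hin := hLP.pair ((hB.pt TopAlg_pt_root).l.pair (hp.fst.pair (hp.snd.fst.pair
    (hbits.pair (hB.pt TopAlg_pt_rd).l))))
  have hval := hin.comp (Alg.l halg 𝔅 φ (hout.ole.trans hq) (RLe.trans ⟨c, hc, fun a => ?_⟩
    (Bud.toF hV)))
  · exact ((hB.pt2 ⟨hval, (hout.smIn fun _ => le_rfl).mono hq⟩ TopAlg_pt_fin).l).congr
      fun a => rfl
  · have h1 := (hP a).time_le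
    rw [hl, hg, ← UN] at h1
    have h2 : (p a).1.1.length + (p a).1.2.1.length <
        2 ^ (Nat.log 2 ((p a).1.1.length + (p a).1.2.1.length) + 1) :=
      Nat.lt_pow_succ_log_self (by norm_num) _
    have h3 : qp (QP (P a)) * (symBits (p a).1.1 (p a).1.2.1 + 1) ^ k *
        (((P a).X + 1) * (P a).pot (P a).root + (p a).1.1.length + (p a).1.2.1.length) ≤
        TopAlg_W k' (p a) := by
      rw [mul_right_comm]
      refine Nat.mul_le_mul (le_trans (Nat.mul_le_mul_left _ (by omega)) h1)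
        (Nat.pow_le_pow_right (by omega) hk)
    have h4 := mul_le_mul_of_nonneg_left (Nat.cast_le (α := ℝ).2 h3) hc
    refine le_trans (le_of_eq ?_) h4
    push_cast
    simp only [mul_assoc]
    rfl

theorem TopAlg_sml : Sml (fun N : ℕ => (Pa.of 0 (Nat.log 2 N) 0).qx) ∧ Sml LN ∧ Sml gN := by
  have h1 : Sml fun N : ℕ => Nat.log 2 N := Sml.p1log PT.id'
  have h2 := Sml.p1log h1.pt
  have h3 := Sml.p1log h2.pt
  have h4 := h3.p1sq.p1mul h2
  refine ⟨?_, ?_, Sml.p1log h3.pt⟩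
  · simp only [Pa.qx, Pa.kap, Pa.D, Pa.d, Pa.Lx, Pa.l3, Pa.l2, Pa.of_l1]
    exact (h4.p1add ((h2.p1addc 2).p1cmul 12)).p1cmul 3
  · unfold LN
    simp only [Pa.L, Pa.D, Pa.d, Pa.l3, Pa.l2, Pa.of_l1]
    exact ((h1.p1div h4.pt).p1addc 1).p1mul h4

theorem TopAlg_L_of {n l e : α → ℕ} (hn : L 𝔅 x fun a => un (n a)) (hl : L 𝔅 x l)
    (he : L 𝔅 x e) : L 𝔅 x fun a => Pa.of (n a) (l a) (e a) :=
  (hn.pair (hl.pair he)).of_enc_eq fun _ => rfl

theorem TopAlg_mkPa {N e : α → ℕ} (hg : ∀ a, 20 ≤ gN (N a)) (he : ∀ a, e a ≤ LN (N a))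
    (hU : (fun a => UN (N a)) ≼ 𝔅.V) (hN : S 𝔅 x N) (hLe : L 𝔅 x e) :
    L 𝔅 x fun a => mkPa (N a) (e a) := by
  have h1 : Pol (fun a => QP (mkPa (N a) (e a)))
      fun a => 2 ^ (Pa.of 0 (Nat.log 2 (N a)) 0).qx := Pol.of_le fun a => by
    unfold QP mkPa
    rw [Pa.of_pad]
    omega
  have hq : (fun a => q1 (QP (mkPa (N a) (e a)))) ≼ 𝔅.V :=
    hU.mono_left fun a => TopAlg_q1_le (mkPa_ok (hg a) (he a)) (mkPa_l1 _ _) (mkPa_g _ _)
  unfold mkPa
  exact TopAlg_L_of ((hN.pt TopAlg_sml.1.p1pow).un (h1.ole.trans hq))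
    (hN.pt (Sml.p1log PT.id').pt).l hLe

theorem TopAlg_LN_le {N : ℕ} (hg : 20 ≤ gN N) : LN N ≤ 2 * Nat.log 2 N := by
  have := (mkPa_ok hg (Nat.zero_le _)).L_le
  rwa [mkPa_L, mkPa_l1] at this

theorem TopAlg_esize_ans {P : Pa} {x y : List ℕ} (ρ : ℕ → Bool)
    (he : P.e ≤ 2 * Nat.log 2 (x.length + y.length)) :
    esize (P.ans x y ρ) ≤ 12 * (x.length + y.length).size + 19 := by
  have h1 : Nat.log 2 (x.length + y.length) ≤ (x.length + y.length).size := by
    rcases Nat.eq_zero_or_pos (x.length + y.length) with h | h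
    · simp [h]
    · exact (Nat.lt_size.2 (Nat.pow_log_le_self 2 h.ne')).le
  unfold Pa.ans
  split_ifs with h
  · have h2 : ⌊P.val x y ρ⌋₊ ≤ 2 ^ (P.e + 2) := Nat.floor_le_of_le (by exact_mod_cast h.2.le)
    have := esize_nat_le_of_le_two_pow h2
    omega
  · rw [esize_nat]
    omega

/-- The main branch. -/
theorem TopAlg_main {c : ℝ} {k k' : ℕ} (hc : 0 ≤ c) (hk : k ≤ k') (hk1 : 1 ≤ k')
    (halg : TopAlg_Eng c k) (hg : ∀ a, 20 ≤ gN ((p a).1.1.length + (p a).1.2.1.length))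
    (hV : (fun a => (Nat.log 2 ((p a).1.1.length + (p a).1.2.1.length) + 1) *
      TopAlg_W k' (p a)) ≼ 𝔅.V) :
    L 𝔅 (fun a => (p a).1) fun a =>
      ((List.range (LN ((p a).1.1.length + (p a).1.2.1.length) + 1)).map fun e =>
        (mkPa ((p a).1.1.length + (p a).1.2.1.length) e).ans (p a).1.1 (p a).1.2.1
          fun i => (p a).1.2.2.getD i false).foldr min
        ((p a).1.1.length + (p a).1.2.1.length) := by
  refine L.with_sz fun hx => ?_
  have h0 := L.refl 𝔅 fun a => (p a).1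
  have hN := (S.length h0.fst hx).add (S.length h0.snd.fst hx)
  have hnle : ∀ a, LN ((p a).1.1.length + (p a).1.2.1.length) + 1 ≤
      2 * (Nat.log 2 ((p a).1.1.length + (p a).1.2.1.length) + 1) := fun a => by
    have := TopAlg_LN_le (hg a)
    omega
  have hW1 : ∀ a, 1 ≤ TopAlg_W k' (p a) := fun a => sz_one_le (TopAlg_sz hk1) _
  have hsum : (fun a => ∑ _i ∈ Finset.range (LN ((p a).1.1.length + (p a).1.2.1.length) + 1),
      TopAlg_W k' (p a)) ≼ 𝔅.V :=
    (hV.const_mul 2).mono_left fun a => by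
      rw [Finset.sum_const, Finset.card_range, smul_eq_mul, ← mul_assoc]
      exact Nat.mul_le_mul_right _ (hnle a)
  have hun : L 𝔅 (fun a => (p a).1) fun a =>
      (List.range (LN ((p a).1.1.length + (p a).1.2.1.length) + 1)).map fun _ => () :=
    (((hN.pt TopAlg_sml.2.1.pt).add (hN.const 1)).un ((hV.const_mul 2).mono_left fun a => by
      rw [← mul_assoc]
      exact (hnle a).trans (Nat.le_mul_of_pos_right _ (hW1 a)))).congr fun a => by simp
  have hin : sz (fun q : (a : α) × Fin (LN ((p a).1.1.length + (p a).1.2.1.length) + 1) =>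
      ((p q.1).1, ())) ≼ fun q => TopAlg_W k' (p q.1) :=
    sz_pair ((TopAlg_sz hk1).comp _) (OLe.const (fun q => hW1 _) _)
  have hsm : SmIn (fun q : (a : α) × Fin (LN ((p a).1.1.length + (p a).1.2.1.length) + 1) =>
      TopAlg_W k' (p q.1)) fun q => LN ((p q.1).1.1.length + (p q.1).1.2.1.length) + 1 :=
    SmIn.of_ole (fun q => hW1 _) (OLe.of_le fun q => by
      have h1 := hnle q.1
      have h2 := TopAlg_lt_UN ((p q.1).1.1.length + (p q.1).1.2.1.length)
      have h3 := TopAlg_UN_le k' (p q.1)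
      have h4 := Nat.log_le_self 2 ((p q.1).1.1.length + (p q.1).1.2.1.length)
      omega)
  have hlist := (h0.pair hun).cp ((Cp.mapIdxRange (𝔅 := 𝔅)
    (fun a => LN ((p a).1.1.length + (p a).1.2.1.length) + 1) (fun a => (p a).1) (fun _ _ => ())
    (fun a e => (mkPa ((p a).1.1.length + (p a).1.2.1.length) e).ans (p a).1.1 (p a).1.2.1
      fun i => (p a).1.2.2.getD i false)
    (fun a _ => TopAlg_W k' (p a)) (fun a _ => TopAlg_W k' (p a)) (fun _ _ => 0)
    (fun _ _ => le_rfl) hin hsm (L.with_sz fun hx' => ?_)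
    ((Bud.toF hsum).mono_left fun a => by simp) hsum).mono (ex' := fun _ => 0) fun a => by simp)
  · refine (S.pt2 ⟨hlist, hN.sm.of_poly 6 fun a => ?_⟩ hN (f := fun l n => l.foldr min n)
      (by fun_prop)).l
    have h1 : Nat.log 2 ((p a).1.1.length + (p a).1.2.1.length) ≤
        ((p a).1.1.length + (p a).1.2.1.length).size := by
      rcases Nat.eq_zero_or_pos ((p a).1.1.length + (p a).1.2.1.length) with h | h
      · simp [h]
      · exact (Nat.lt_size.2 (Nat.pow_log_le_self 2 h.ne')).le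
    refine (esize_list_le (B := 12 * ((p a).1.1.length + (p a).1.2.1.length).size + 19)
      fun n hn => ?_).trans ?_
    · obtain ⟨e, he, rfl⟩ := List.mem_map.1 hn
      refine TopAlg_esize_ans _ ?_
      have h2 := List.mem_range.1 he
      have h3 := TopAlg_LN_le (hg a)
      rw [mkPa_e]
      omega
    · rw [List.length_map, List.length_range, esize_nat]
      have h2 := hnle a
      generalize ((p a).1.1.length + (p a).1.2.1.length).size = s at *
      have h3 : 2 ^ 4 ≤ (6 * s + 1 + 1) ^ 4 := Nat.pow_le_pow_left (by omega) 4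
      calc _ ≤ 2 * (s + 1) * (12 * s + 19 + 1) + 1 := by gcongr; omega
        _ ≤ (6 * s + 1 + 1) ^ 2 * 2 ^ 4 := by nlinarith
        _ ≤ (6 * s + 1 + 1) ^ 2 * (6 * s + 1 + 1) ^ 4 := Nat.mul_le_mul_left _ h3
        _ = _ := by ring
  · have h1 := L.refl (𝔅.sub
      (fun q : (a : α) × Fin (LN ((p a).1.1.length + (p a).1.2.1.length) + 1) => q.1)
      (fun q => TopAlg_W k' (p q.1)) (fun q => TopAlg_W k' (p q.1)) fun _ => le_rfl)
      fun q => (((p q.1).1, q.2.1), ())
    have he : ∀ q : (a : α) × Fin (LN ((p a).1.1.length + (p a).1.2.1.length) + 1),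
        q.2.1 ≤ LN ((p q.1).1.1.length + (p q.1).1.2.1.length) := fun q => Nat.le_of_lt_succ q.2.2
    have h2 := TopAlg_mkPa (fun q => hg q.1) he (OLe.of_le fun q => TopAlg_UN_le k' (p q.1))
      ((S.length h1.fst.fst.fst hx').add (S.length h1.fst.fst.snd.fst hx')) h1.fst.snd
    have h3 := TopAlg_ans
      (p := fun q : (a : α) × Fin (LN ((p a).1.1.length + (p a).1.2.1.length) + 1) => p q.1)
      (P := fun q => mkPa ((p q.1).1.1.length + (p q.1).1.2.1.length) q.2.1)
      hc hk halg (fun q => mkPa_ok (hg q.1) (he q))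
      (fun q => mkPa_l1 _ _) (fun q => mkPa_g _ _) (OLe.refl _) h1.fst.fst h2
    exact h3

end

/-- Recipe.  `Alg.ofL` with `V = UN N (b + 1)^k`, `F = (log₂ N + 1) V` (`b = symBits x y`).
Lengths in binary (`S.length`); the test `x = y` (equal lengths, map the PT equality test over
`zip`, every item has size `O(b + 1)`); the test `gN N < 20` (PT on small data).  In the main branch
(restrict the index type to `20 ≤ gN N`) map over the guesses `e ≤ LN N ≤ 2 log₂ N`
(`Cp.mapIdxRange` / `Cp.mapRange`, parameter `(x, y, r)`): build `mkPa N e` (`L.un`, the pad has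
length `2 ^ qx`, and every polynomial in it is `O(qp (QP P)) ≤ UN N` by `OK.time_le`, so `P` is
small), compute `root`, `(rk root + 1) * pot root`, `rd L z0` by PT (lemmas of `PT1`, `eng_sm`),
`take` the bits (`OK.tape_le`: `(range n).map (r.getD · false) = r.take n` for `n ≤ |r|`), call
`Eng.alg eng Good QP eng_wf eng_sm` (time `≤ c (b+1)^k UN N` by `OK.time_le`, `N < 2^(l1+1)`; the
output is small: `eng_sm.out` or `X`), finish by PT; fold `min` over the `O(log N)` small answers. -/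
theorem fastF_alg : ∃ (C : ℝ) (k : ℕ),
    Alg (fun p : FIn => p.1) (fun p : FIn => fastF p.1.1 p.1.2.1 p.1.2.2)
      (fun p : FIn => C * (((Nat.log 2 (p.1.1.length + p.1.2.1.length) : ℝ) + 1) *
        (UN (p.1.1.length + p.1.2.1.length) : ℝ)) * ((symBits p.1.1 p.1.2.1 : ℝ) + 1) ^ k) := by
  obtain ⟨c, k₁, hc, halg⟩ := Eng.alg eng Good QP eng_wf eng_sm
  obtain ⟨k₂, heq⟩ := TopAlg_eq
  set k := k₁ + k₂ + 1 with hk
  have hWV : ∀ p : FIn, TopAlg_W k p ≤
      (Nat.log 2 (p.1.1.length + p.1.2.1.length) + 1) * TopAlg_W k p := fun p =>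
    Nat.le_mul_of_pos_left _ (Nat.succ_pos _)
  obtain ⟨C, -, h⟩ := Alg.ofL (fun p : FIn => p.1) (fun p : FIn => fastF p.1.1 p.1.2.1 p.1.2.2)
    (fun p => (Nat.log 2 (p.1.1.length + p.1.2.1.length) + 1) * TopAlg_W k p)
    (fun p => ((Nat.log 2 (p.1.1.length + p.1.2.1.length) + 1) * TopAlg_W k p : ℕ))
    (fun _ => le_rfl) ((TopAlg_sz (by omega)).mono_right hWV) (by
      refine Cp.cases (fun p : RProg × FIn => p.2.1.1 = p.2.1.2.1)
        (heq k (by omega) _ _ _ _ _ _ (L.refl _ _).fst (L.refl _ _).snd.fst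
          (OLe.of_le fun p => le_trans ?_ (hWV p.2)))
        (L.congr (L.const 0) fun p => ?_) ?_
      · have := TopAlg_lt_UN (p.2.1.1.length + p.2.1.2.1.length)
        exact Nat.mul_le_mul_right _ (by omega)
      · unfold fastF
        rw [if_pos p.2]
      refine Cp.with_sz fun hx => ?_
      have hN := (S.length (L.refl _ _).fst hx).add (S.length (L.refl _ _).snd.fst hx)
      refine Cp.cases (fun a => gN (a.1.2.1.1.length + a.1.2.1.2.1.length) < 20)
        ((hN.pt TopAlg_sml.2.2.pt).lt (hN.const 20)).l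
        (L.congr (hN.l.reindex hx _) fun a => ?_)
        ?_
      · unfold fastF
        rw [if_neg a.1.2, if_pos a.2]
      · refine L.congr (TopAlg_main (k' := k) hc (by omega) (by omega) halg
          (fun a => not_lt.1 a.2) (OLe.refl _)) fun a => ?_
        unfold fastF
        rw [if_neg a.1.2, if_neg a.2])
  refine ⟨C, k, h.mono fun p => le_of_eq ?_⟩
  simp only [TopAlg_W]
  push_cast
  ring

/-- **The fast algorithm.** -/
theorem fastOK : FastOK fastF where
  time := by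
    obtain ⟨C, k, h⟩ := fastF_alg
    exact ⟨fun N => C * (((Nat.log 2 N : ℝ) + 1) * (UN N : ℝ)), k, almostLin_UN C, h⟩
  le := fastF_le
  zero := fastF_zero
  prob := fastF_prob

end Crest.Agent.R288
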